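import Mathlib

/-!
# P096: weak limits of bounded families of vectors and of linear maps along an ultrafilter
-/

noncomputable section

namespace Vale.Agent.P096.KK

open scoped InnerProductSpace Topology
open Filter

variable {α : Type*} {H : Type*} [NormedAddCommGroup H] [InnerProductSpace ℂ H] [CompleteSpace H]

/-- `v` is the weak limit of `x` along `l`. -/
def WLim (l : Ultrafilter α) (x : α → H) (v : H) : Prop :=
  ∀ y : H, Tendsto (fun j => ⟪x j, y⟫_ℂ) (l : Filter α) (𝓝 ⟪v, y⟫_ℂ)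

variable {l : Ultrafilter α}

lemma exists_wLim (l : Ultrafilter α) (x : α → H) {C : ℝ} (h : ∀ j, ‖x j‖ ≤ C) :
    ∃ v, WLim l x v := by
  rcases (l : Filter α).eq_or_neBot with h0 | h0
  · exact absurd h0 (NeBot.ne inferInstance)
  have hex : ∀ y : H, ∃ c : ℂ, ‖c‖ ≤ C * ‖y‖ ∧
      Tendsto (fun j => ⟪x j, y⟫_ℂ) (l : Filter α) (𝓝 c) := by
    intro y
    have hmem : ∀ j, ⟪x j, y⟫_ℂ ∈ Metric.closedBall (0 : ℂ) (C * ‖y‖) := fun j => by
      rw [mem_closedBall_zero_iff]
      exact (norm_inner_le_norm _ _).trans (mul_le_mul_of_nonneg_right (h j) (norm_nonneg y))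
    obtain ⟨c, hc, hle⟩ := (isCompact_closedBall (0 : ℂ) (C * ‖y‖)).ultrafilter_le_nhds'
      (l.map fun j => ⟪x j, y⟫_ℂ) (Ultrafilter.mem_map.2 (Filter.Eventually.of_forall hmem))
    exact ⟨c, mem_closedBall_zero_iff.1 hc, hle⟩
  choose c hc hlim using hex
  let f : H →ₗ[ℂ] ℂ :=
    { toFun := c
      map_add' := fun y z => tendsto_nhds_unique (hlim (y + z))
        (by simpa [inner_add_right] using (hlim y).add (hlim z))
      map_smul' := fun t y => tendsto_nhds_unique (hlim (t • y))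
        (by simpa [inner_smul_right] using (hlim y).const_mul t) }
  refine ⟨(InnerProductSpace.toDual ℂ H).symm (f.mkContinuous C hc), fun y => ?_⟩
  rw [InnerProductSpace.toDual_symm_apply]
  exact hlim y

omit [CompleteSpace H] in
lemma WLim.unique {x : α → H} {v w : H} (hv : WLim l x v) (hw : WLim l x w) : v = w :=
  ext_inner_right ℂ fun y => tendsto_nhds_unique (hv y) (hw y)

omit [CompleteSpace H] in
lemma WLim.const (v : H) : WLim l (fun _ => v) v := fun _ => tendsto_const_nhds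

omit [CompleteSpace H] in
lemma WLim.congr {x y : α → H} {v : H} (hv : WLim l x v) (h : ∀ᶠ j in (l : Filter α), x j = y j) :
    WLim l y v := fun z => (hv z).congr' (h.mono fun j hj => by simp only [hj])

omit [CompleteSpace H] in
lemma WLim.add {x y : α → H} {v w : H} (hv : WLim l x v) (hw : WLim l y w) :
    WLim l (fun j => x j + y j) (v + w) := fun z => by
  simpa [inner_add_left] using (hv z).add (hw z)

omit [CompleteSpace H] in
lemma WLim.sub {x y : α → H} {v w : H} (hv : WLim l x v) (hw : WLim l y w) :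
    WLim l (fun j => x j - y j) (v - w) := fun z => by
  simpa [inner_sub_left] using (hv z).sub (hw z)

lemma WLim.map {K : Type*} [NormedAddCommGroup K] [InnerProductSpace ℂ K] [CompleteSpace K]
    (T : H →L[ℂ] K) {x : α → H} {v : H} (hv : WLim l x v) : WLim l (fun j => T (x j)) (T v) := by
  intro z
  have := hv (ContinuousLinearMap.adjoint T z)
  simpa [ContinuousLinearMap.adjoint_inner_right] using this

lemma WLim.smul (c : ℂ) {x : α → H} {v : H} (hv : WLim l x v) :
    WLim l (fun j => c • x j) (c • v) := by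
  simpa using hv.map (c • ContinuousLinearMap.id ℂ H)

omit [CompleteSpace H] in
lemma WLim.sum {ι : Type*} (s : Finset ι) {x : ι → α → H} {v : ι → H}
    (hv : ∀ i ∈ s, WLim l (x i) (v i)) :
    WLim l (fun j => ∑ i ∈ s, x i j) (∑ i ∈ s, v i) := fun z => by
  simp only [sum_inner]
  exact tendsto_finsetSum _ fun i hi => hv i hi z

omit [CompleteSpace H] in
lemma WLim.norm_le {x : α → H} {v : H} {C : ℝ} (hv : WLim l x v)
    (h : ∀ᶠ j in (l : Filter α), ‖x j‖ ≤ C) : ‖v‖ ≤ C := by
  have hC : 0 ≤ C := by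
    obtain ⟨j, hj⟩ := h.exists
    exact (norm_nonneg _).trans hj
  rcases (norm_nonneg v).eq_or_lt with h0 | h0
  · rw [← h0]; exact hC
  have h1 : ‖⟪v, v⟫_ℂ‖ ≤ C * ‖v‖ :=
    le_of_tendsto (hv v).norm (h.mono fun j hj =>
      (norm_inner_le_norm _ _).trans (mul_le_mul_of_nonneg_right hj (norm_nonneg v)))
  rw [inner_self_eq_norm_sq_to_K, norm_pow, RCLike.norm_ofReal, abs_norm] at h1
  nlinarith

lemma exists_linear_wLim {E : Type*} [AddCommGroup E] [Module ℂ E] (l : Ultrafilter α)
    (a : α → E →ₗ[ℂ] H) (S : Submodule ℂ E) (hb : ∀ x ∈ S, ∃ C, ∀ j, ‖a j x‖ ≤ C) :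
    ∃ a₀ : E →ₗ[ℂ] H, ∀ x ∈ S, WLim l (fun j => a j x) (a₀ x) := by
  have hex : ∀ x : S, ∃ v, WLim l (fun j => a j x) v := fun x => by
    obtain ⟨C, hC⟩ := hb x x.2
    exact exists_wLim l _ hC
  choose v hv using hex
  let f : S →ₗ[ℂ] H :=
    { toFun := v
      map_add' := fun x y => (hv (x + y)).unique (by simpa using (hv x).add (hv y))
      map_smul' := fun t x => (hv (t • x)).unique (by simpa using (hv x).smul t) }
  obtain ⟨a₀, ha₀⟩ := f.exists_extend
  refine ⟨a₀, fun x hx => ?_⟩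
  have : a₀ x = v ⟨x, hx⟩ := LinearMap.congr_fun ha₀ ⟨x, hx⟩
  rw [this]
  exact hv ⟨x, hx⟩

end Vale.Agent.P096.KK
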