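import Vale.Agent.P096.KK.Defs
import Vale.Agent.P096.Defs
import Vale.Agent.P104.Sim.Defs

/-!
# P096: setting of the iteration for finite algebras

`M` is in standard form with trace vector `Ω`; `R b` is the element of the commutant sending `Ω`
to `b Ω`. `N` is an algebra equal to its double centraliser and near `M`; `ε` measures
`[n, R b]` on the trace vector and on its central pieces. See `Vale/Agent/P096/KK_PROOF.md`.

The `...Out` propositions are proved in their own modules; none is assumed by the final theorem.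
-/

noncomputable section

namespace Vale.Agent.P096.KK

open scoped InnerProductSpace

universe u

variable {H : Type u} [NormedAddCommGroup H] [InnerProductSpace ℂ H] [CompleteSpace H]

/-- The elements commuting with all of `N`. -/
def cent (N : Subalgebra ℂ (H →L[ℂ] H)) : Subalgebra ℂ (H →L[ℂ] H) := Subalgebra.centralizer ℂ (N : Set (H →L[ℂ] H))

/-- A von Neumann algebra in standard form with trace vector `Ω` and right multiplication `R`. -/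
structure Std (M : VonNeumannAlgebra H) (Ω : H) (R : (H →L[ℂ] H) → (H →L[ℂ] H)) : Prop where
  norm_one : ‖Ω‖ = 1
  trace : ∀ x ∈ M, ∀ y ∈ M, ⟪Ω, x (y Ω)⟫_ℂ = ⟪Ω, y (x Ω)⟫_ℂ
  cyclic : Dense ((fun x : (H →L[ℂ] H) => x Ω) '' (M : Set (H →L[ℂ] H)))
  right_mem : ∀ b ∈ M, R b ∈ M.commutant
  right_apply : ∀ b ∈ M, R b Ω = b Ω

/-- The pieces: central projections of `M` that are also central in `N`, containing `1`. -/
structure Pieces (M : VonNeumannAlgebra H) (R : (H →L[ℂ] H) → (H →L[ℂ] H)) (N : Subalgebra ℂ (H →L[ℂ] H)) (P : Set (H →L[ℂ] H)) : Prop where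
  one : (1 : (H →L[ℂ] H)) ∈ P
  proj : ∀ z ∈ P, z ∈ M ∧ IsStarProjection z ∧ ∀ x ∈ M, z * x = x * z
  mem : ∀ z ∈ P, z ∈ N ∧ z ∈ cent N ∧ R z = z

/-- `N` is `d`-near `M`, also for the centralisers, and `[n, R b]` is at most `ε` on the pieces of
the trace vector. -/
structure Close (M : VonNeumannAlgebra H) (Ω : H) (R : (H →L[ℂ] H) → (H →L[ℂ] H)) (N : Subalgebra ℂ (H →L[ℂ] H)) (P : Set (H →L[ℂ] H))
    (d ε : ℝ) : Prop where
  std : Std M Ω R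
  pieces : Pieces M R N P
  bicent : cent (cent N) = N
  d_nonneg : 0 ≤ d
  ε_nonneg : 0 ≤ ε
  near : ∀ x ∈ M, ∃ n ∈ N, ‖n - x‖ ≤ d * ‖x‖
  near' : ∀ n ∈ N, ∃ x ∈ M, ‖n - x‖ ≤ d * ‖n‖
  cnear : ∀ y ∈ M.commutant, ∃ y' ∈ cent N, ‖y' - y‖ ≤ d * ‖y‖
  cnear' : ∀ y' ∈ cent N, ∃ y ∈ M.commutant, ‖y' - y‖ ≤ d * ‖y'‖
  small : ∀ n ∈ N, ∀ b ∈ M, ∀ z ∈ P,
    ‖n (R b (z Ω)) - R b (n (z Ω))‖ ≤ ε * ‖n‖ * ‖b‖ * ‖z Ω‖

section Square

variable (H) in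
/-- The Hilbert space of the `m` by `m` matrices over `M`. -/
abbrev Sq (m : ℕ) : Type u := PiLp 2 (fun _ : Fin m × Fin m => H)

variable {m : ℕ}

/-- The projection to an entry. -/
def spr (p : Fin m × Fin m) : Sq H m →L[ℂ] H := PiLp.proj 2 (fun _ : Fin m × Fin m => H) p

/-- The injection of an entry. -/
def sinj (p : Fin m × Fin m) : H →L[ℂ] Sq H m := ContinuousLinearMap.adjoint (spr p)

/-- Left multiplication by a matrix. -/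
def mL (X : Fin m → Fin m → (H →L[ℂ] H)) : Sq H m →L[ℂ] Sq H m :=
  ∑ i, ∑ j, ∑ k, sinj (i, k) ∘L X i j ∘L spr (j, k)

/-- Right multiplication by a matrix, `Y j k` acting on the entries. -/
def mR (Y : Fin m → Fin m → (H →L[ℂ] H)) : Sq H m →L[ℂ] Sq H m :=
  ∑ i, ∑ j, ∑ k, sinj (i, k) ∘L Y j k ∘L spr (i, j)

/-- The left entries of an operator. -/
def lEnt [NeZero m] (T : Sq H m →L[ℂ] Sq H m) (i j : Fin m) : (H →L[ℂ] H) :=
  spr (i, 0) ∘L T ∘L sinj (j, 0)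

/-- The trace vector of the matrices. -/
def sqVec (m : ℕ) (Ω : H) : Sq H m :=
  ((Real.sqrt m)⁻¹ : ℂ) • ∑ i : Fin m, sinj (i, i) Ω

/-- Right multiplication for the matrices. -/
def sqR (R : (H →L[ℂ] H) → (H →L[ℂ] H)) (m : ℕ) [NeZero m] (T : Sq H m →L[ℂ] Sq H m) : Sq H m →L[ℂ] Sq H m :=
  mR fun i j => R (lEnt T i j)

/-- The scalar diagonal operators. -/
def sdiag (m : ℕ) (x : (H →L[ℂ] H)) : Sq H m →L[ℂ] Sq H m := ∑ p : Fin m × Fin m, sinj p ∘L x ∘L spr p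

/-- The right scalar matrix units. -/
def rUnit (i j : Fin m) : Sq H m →L[ℂ] Sq H m := ∑ a : Fin m, sinj (a, j) ∘L spr (a, i)

/-- The generators of the commutant of the matrices over an algebra with commutant `S`. -/
def sqGen (m : ℕ) (S : Set (H →L[ℂ] H)) : Set (Sq H m →L[ℂ] Sq H m) :=
  sdiag m '' S ∪ Set.range fun p : Fin m × Fin m => rUnit p.1 p.2

/-- The matrices over `M`. -/
def sqM (M : VonNeumannAlgebra H) (m : ℕ) : VonNeumannAlgebra (Sq H m) where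
  toStarSubalgebra := StarSubalgebra.centralizer ℂ (sqGen m (M.commutant : Set (H →L[ℂ] H)))
  centralizer_centralizer' := by simp

/-- The matrices over `N`. -/
def sqN (N : Subalgebra ℂ (H →L[ℂ] H)) (m : ℕ) : Subalgebra ℂ (Sq H m →L[ℂ] Sq H m) :=
  Subalgebra.centralizer ℂ (sqGen m (cent N : Set (H →L[ℂ] H)))

end Square

/-- Closeness at every matrix size. -/
def AllSizes (M : VonNeumannAlgebra H) (Ω : H) (R : (H →L[ℂ] H) → (H →L[ℂ] H)) (N : Subalgebra ℂ (H →L[ℂ] H)) (P : Set (H →L[ℂ] H))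
    (d ε : ℝ) : Prop :=
  Close M Ω R N P d ε ∧ ∀ (m : ℕ) [NeZero m],
    Close (sqM M m) (sqVec m Ω) (sqR R m) (sqN N m) (sdiag m '' P) d ε

/-- An increasing sequence of finite groups of unitaries of `M` and partitions into central
projections. -/
structure Tower (M : VonNeumannAlgebra H) (G : ℕ → Finset (H →L[ℂ] H)) (Z : ℕ → Finset (H →L[ℂ] H)) : Prop where
  one_mem : ∀ k, (1 : (H →L[ℂ] H)) ∈ G k
  mul_mem : ∀ k, ∀ g ∈ G k, ∀ h ∈ G k, g * h ∈ G k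
  star_mem : ∀ k, ∀ g ∈ G k, star g ∈ G k
  isometry : ∀ k, ∀ g ∈ G k, g ∈ M ∧ star g * g = 1 ∧ g * star g = 1
  mono : ∀ k, ∀ g ∈ G k, g ∈ G (k + 1)
  zero : ∀ z, z ∈ Z 0 ↔ z = 1
  proj : ∀ k, ∀ z ∈ Z k, z ≠ 0 ∧ IsStarProjection z ∧ ∀ x ∈ M, z * x = x * z
  orth : ∀ k, ∀ z ∈ Z k, ∀ w ∈ Z k, z ≠ w → z * w = 0
  total : ∀ k, ∑ z ∈ Z k, z = 1
  refine' : ∀ k, ∀ z ∈ Z k, ∀ w ∈ Z (k + 1), z * w = w ∨ z * w = 0
  sign : ∀ k, ∀ z ∈ Z k, 2 • z - 1 ∈ G k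

/-- The groups lie in `N` and their right multiplications in the centraliser of `N`. -/
def InN (R : (H →L[ℂ] H) → (H →L[ℂ] H)) (N : Subalgebra ℂ (H →L[ℂ] H)) (G : ℕ → Finset (H →L[ℂ] H)) : Prop :=
  ∀ k, ∀ g ∈ G k, g ∈ N ∧ R g ∈ cent N

/-- The pieces of a tower. -/
def towerPieces (Z : ℕ → Finset (H →L[ℂ] H)) : Set (H →L[ℂ] H) := {z | ∃ k, z ∈ Z k}

/-- The elements of `D` are flattened by the groups, up to combinations of the partitions. -/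
def Flat (G : ℕ → Finset (H →L[ℂ] H)) (Z : ℕ → Finset (H →L[ℂ] H)) (D : Set (H →L[ℂ] H)) : Prop :=
  ∀ x ∈ D, IsSelfAdjoint x → ∀ η : ℝ, 0 < η → ∀ k₀ : ℕ, ∃ (k : ℕ) (c : (H →L[ℂ] H) → ℂ), k₀ ≤ k ∧
    ‖((G k).card : ℂ)⁻¹ • (∑ g ∈ G k, g * x * star g) - ∑ z ∈ Z k, c z • z‖ ≤ η

/-- A countable star algebra whose matrices are dense on the trace vector, with norms kept up to a
factor two. -/
structure DenseAlg (M : VonNeumannAlgebra H) (Ω : H) (G : ℕ → Finset (H →L[ℂ] H)) (D : Set (H →L[ℂ] H)) : Prop where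
  countable : D.Countable
  sub : D ⊆ M
  mul_mem : ∀ x ∈ D, ∀ y ∈ D, x * y ∈ D
  star_mem : ∀ x ∈ D, star x ∈ D
  add_mem : ∀ x ∈ D, ∀ y ∈ D, x + y ∈ D
  smul_I_mem : ∀ x ∈ D, Complex.I • x ∈ D
  group_mem : ∀ j, ∀ g ∈ G j, g ∈ D
  dense : ∀ (m : ℕ) [NeZero m], ∀ T ∈ sqM M m, ∀ η : ℝ, 0 < η →
    ∃ X : Fin m → Fin m → (H →L[ℂ] H), (∀ i j, X i j ∈ D) ∧ ‖mL X‖ ≤ 2 * ‖T‖ + η ∧
      ‖mL X (sqVec m Ω) - T (sqVec m Ω)‖ ≤ η

/-- The value of `[n, R b]` on a piece of the trace vector. -/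
def delVec (R : (H →L[ℂ] H) → (H →L[ℂ] H)) (Ω : H) (z n b : (H →L[ℂ] H)) : H := n (R b (z Ω)) - R b (n (z Ω))

/-- The gauge on the matrices. -/
def sqGauge {m : ℕ} [NeZero m] (a : (H →L[ℂ] H) →ₗ[ℂ] H) (T : Sq H m →L[ℂ] Sq H m) : Sq H m :=
  ((Real.sqrt m)⁻¹ : ℂ) • ∑ p : Fin m × Fin m, sinj p (a (lEnt T p.1 p.2))

/-- (S1) the matrices are again in standard form, and right multiplication is an antihomomorphism. -/
def AmpOut : Prop :=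
  ∀ (H : Type u) [NormedAddCommGroup H] [InnerProductSpace ℂ H] [CompleteSpace H]
    (M : VonNeumannAlgebra H) (Ω : H) (R : (H →L[ℂ] H) → (H →L[ℂ] H)), Std M Ω R →
    (∀ a ∈ M, ∀ b ∈ M, R (a * b) = R b * R a ∧ R (a + b) = R a + R b ∧ ‖R a‖ ≤ ‖a‖ ∧
      R (star a) = star (R a)) ∧
    ∀ (m : ℕ) [NeZero m], Std (sqM M m) (sqVec m Ω) (sqR R m)

/-- (S2) good selections exist automatically. -/
def SelectOut : Prop :=
  ∃ k : ℝ, 0 < k ∧ ∀ (H : Type u) [NormedAddCommGroup H] [InnerProductSpace ℂ H] [CompleteSpace H]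
    (M : VonNeumannAlgebra H) (Ω : H) (R : (H →L[ℂ] H) → (H →L[ℂ] H))
    (N : Subalgebra ℂ (H →L[ℂ] H)) (P : Set (H →L[ℂ] H)) (d ε : ℝ),
    Close M Ω R N P d ε → k * d ≤ 1 →
    (∀ x ∈ M, ∃ n ∈ N, ‖n - x‖ ≤ k * d * ‖x‖ ∧
      ∀ z ∈ P, ‖(n - x) (z Ω)‖ ≤ k * ε * ‖x‖ * ‖z Ω‖) ∧
    (∀ y ∈ M.commutant, ∃ y' ∈ cent N, ‖y' - y‖ ≤ k * d * ‖y‖ ∧
      ∀ z ∈ P, ‖(y' - y) (z Ω)‖ ≤ k * ε * ‖y‖ * ‖z Ω‖)

/-- The unitaries of `M` as a group. -/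
def uGroup (M : VonNeumannAlgebra H) : Subgroup (unitary (H →L[ℂ] H)) where
  carrier := {u | (u : (H →L[ℂ] H)) ∈ M}
  mul_mem' := fun {a b} ha hb => by
    show ((a * b : unitary (H →L[ℂ] H)) : (H →L[ℂ] H)) ∈ M
    exact mul_mem ha hb
  one_mem' := by
    show ((1 : unitary (H →L[ℂ] H)) : (H →L[ℂ] H)) ∈ M
    exact one_mem M
  inv_mem' := fun {a} ha => by
    show ((a⁻¹ : unitary (H →L[ℂ] H)) : (H →L[ℂ] H)) ∈ M
    rw [← Unitary.star_eq_inv]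
    exact star_mem (s := M) ha

/-- The cocycle of a selection `θ` on the unitaries of `M`, on the piece `z`. -/
def cocV (R : (H →L[ℂ] H) → (H →L[ℂ] H)) (Ω : H) (θ : (H →L[ℂ] H) → (H →L[ℂ] H)) {M : VonNeumannAlgebra H} (z : (H →L[ℂ] H))
    (u v : uGroup M) : H :=
  R (star ((u : unitary (H →L[ℂ] H)) * (v : unitary (H →L[ℂ] H)) : (H →L[ℂ] H))) (delVec R Ω z (θ ((u : unitary (H →L[ℂ] H)) : (H →L[ℂ] H)))
    ((v : unitary (H →L[ℂ] H)) : (H →L[ℂ] H)))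

/-- (K4) the multiplier bound for the concrete cocycle. -/
def MultOut : Prop :=
  ∃ k₀ : ℝ, ∀ D N₀ : ℕ, ∃ k : ℝ, ∀ (H : Type u) [NormedAddCommGroup H] [InnerProductSpace ℂ H]
    [CompleteSpace H] (M : VonNeumannAlgebra H) (Ω : H) (R : (H →L[ℂ] H) → (H →L[ℂ] H))
    (N : Subalgebra ℂ (H →L[ℂ] H)) (P : Set (H →L[ℂ] H)) (d ε c : ℝ)
    (θ : (H →L[ℂ] H) → (H →L[ℂ] H)),
    AllSizes M Ω R N P d ε → 0 ≤ c → k * d ≤ 1 →
    (∀ x ∈ M, θ x ∈ N ∧ ‖θ x - x‖ ≤ c * d * ‖x‖) →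
    ∀ z ∈ P, MultHyp (cocV (M := M) R Ω θ z) D N₀ ((k₀ + k * (1 + c) * d) * ε * ‖z Ω‖)

/-- (S3) the linear gauge for one group and one partition. -/
def GaugeOut : Prop :=
  ∀ η : ℝ, 0 < η → ∃ k : ℝ, 0 < k ∧ ∀ (H : Type u) [NormedAddCommGroup H] [InnerProductSpace ℂ H]
    [CompleteSpace H] (M : VonNeumannAlgebra H) (Ω : H) (R : (H →L[ℂ] H) → (H →L[ℂ] H))
    (N : Subalgebra ℂ (H →L[ℂ] H)) (G Z : ℕ → Finset (H →L[ℂ] H)) (d ε : ℝ),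
    Tower M G Z → InN R N G → AllSizes M Ω R N (towerPieces Z) d ε → k * d ≤ 1 →
    ∀ j : ℕ, ∃ a : (H →L[ℂ] H) →ₗ[ℂ] H, a 1 = 0 ∧
      (∀ g ∈ G j, ∀ x ∈ M, a (g * x) = g (a x) ∧ a (x * g) = R g (a x)) ∧
      (∀ z ∈ Z j, ∀ x ∈ M, ‖z (a x)‖ ≤ k * ε * ‖x‖ * ‖z Ω‖) ∧
      ∀ (m : ℕ) [NeZero m], ∀ z ∈ Z j, ∀ x ∈ sqM M m, ∀ b ∈ sqM M m, ∀ n ∈ sqN N m, ∀ c : ℝ,
        ‖n - x‖ ≤ c * d → ‖x‖ ≤ 1 → ‖b‖ ≤ 1 →
        ‖delVec (sqR R m) (sqVec m Ω) (sdiag m z) n b -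
            sdiag m z (x (sqGauge a b) - sqGauge a (x * b) + sqR R m b (sqGauge a x))‖ ≤
          (η + k * (1 + |c|) * d) * ε * ‖z Ω‖

/-- (S4) a gauge which is good for all groups is given by an operator, by little Grothendieck. -/
def L2Out : Prop :=
  ∃ k₀ : ℝ, ∀ (H : Type u) [NormedAddCommGroup H] [InnerProductSpace ℂ H] [CompleteSpace H]
    (M : VonNeumannAlgebra H) (Ω : H) (R : (H →L[ℂ] H) → (H →L[ℂ] H))
    (G Z : ℕ → Finset (H →L[ℂ] H)) (D : Set (H →L[ℂ] H))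
    (a : (H →L[ℂ] H) →ₗ[ℂ] H) (C : ℝ),
    Std M Ω R → Tower M G Z → DenseAlg M Ω G D → Flat G Z D → 0 ≤ C → a 1 = 0 →
    (∀ j, ∀ g ∈ G j, ∀ x ∈ M, a (g * x) = g (a x) ∧ a (x * g) = R g (a x)) →
    (∀ j, ∀ z ∈ Z j, ∀ x ∈ M, ‖z (a x)‖ ≤ C * ‖x‖ * ‖z Ω‖) →
    ∃ A : H →L[ℂ] H, ‖A‖ ≤ k₀ * C ∧ (∀ j, ∀ g ∈ G j, A * g = g * A ∧ A * R g = R g * A) ∧
      A Ω = 0 ∧ ∀ x ∈ D, A (x Ω) = a x

/-- Conjugation of `N` by the exponential of `A`. -/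
def expConj (A : (H →L[ℂ] H)) (N : Subalgebra ℂ (H →L[ℂ] H)) : Set (H →L[ℂ] H) :=
  (fun n => NormedSpace.exp A * n * NormedSpace.exp (-A)) '' (N : Set (H →L[ℂ] H))

/-- (S5) one step of the iteration. -/
def StepOut : Prop :=
  ∀ η : ℝ, 0 < η → ∃ k : ℝ, 0 < k ∧ ∀ (H : Type u) [NormedAddCommGroup H] [InnerProductSpace ℂ H]
    [CompleteSpace H] (M : VonNeumannAlgebra H) (Ω : H) (R : (H →L[ℂ] H) → (H →L[ℂ] H))
    (N : Subalgebra ℂ (H →L[ℂ] H)) (G Z : ℕ → Finset (H →L[ℂ] H)) (D : Set (H →L[ℂ] H)) (d ε : ℝ),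
    Tower M G Z → InN R N G → DenseAlg M Ω G D → Flat G Z D →
    AllSizes M Ω R N (towerPieces Z) d ε → ε ≤ 2 * d → k * d ≤ 1 →
    ∃ (A : H →L[ℂ] H) (N₁ : Subalgebra ℂ (H →L[ℂ] H)), ‖A‖ ≤ k * ε ∧
      (N₁ : Set (H →L[ℂ] H)) = expConj A N ∧ InN R N₁ G ∧
      AllSizes M Ω R N₁ (towerPieces Z) (d + k * ε) ((η + k * d) * ε)

/-- (S6) the iteration ends in a similarity near one. -/
def IterateOut : Prop :=
  ∀ θ : ℝ, 0 < θ → ∃ δ : ℝ, 0 < δ ∧ ∀ (H : Type u) [NormedAddCommGroup H] [InnerProductSpace ℂ H]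
    [CompleteSpace H] (M N₀ : VonNeumannAlgebra H) (Ω : H) (R : (H →L[ℂ] H) → (H →L[ℂ] H))
    (G Z : ℕ → Finset (H →L[ℂ] H)) (D : Set (H →L[ℂ] H)) (d : ℝ),
    Tower M G Z → InN R N₀.toStarSubalgebra.toSubalgebra G → DenseAlg M Ω G D → Flat G Z D →
    AllSizes M Ω R N₀.toStarSubalgebra.toSubalgebra (towerPieces Z) d (2 * d) → d ≤ δ →
    ∃ v ∈ unitary (H →L[ℂ] H), ‖v - 1‖ ≤ θ ∧
      (fun x => v * x * star v) '' (M : Set (H →L[ℂ] H)) = (N₀ : Set (H →L[ℂ] H))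

/-- (S0) the start: closeness at every size from the Kadison-Kastler distance. -/
def InitOut : Prop :=
  ∃ k : ℝ, 0 < k ∧ ∀ (H : Type u) [NormedAddCommGroup H] [InnerProductSpace ℂ H] [CompleteSpace H]
    (M N₀ : VonNeumannAlgebra H) (Ω : H) (R : (H →L[ℂ] H) → (H →L[ℂ] H))
    (G Z : ℕ → Finset (H →L[ℂ] H)) (r : ℝ),
    Std M Ω R → Tower M G Z → InN R N₀.toStarSubalgebra.toSubalgebra G → kkDist M N₀ < r →
    AllSizes M Ω R N₀.toStarSubalgebra.toSubalgebra (towerPieces Z) (k * r) (2 * (k * r))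

/-- (R1) an increasing sequence of finite groups and its right multiplications rotate into `N`. -/
def RotateOut : Prop :=
  ∃ k : ℝ, 0 < k ∧ ∀ (H : Type u) [NormedAddCommGroup H] [InnerProductSpace ℂ H] [CompleteSpace H]
    (M N₀ : VonNeumannAlgebra H) (Ω : H) (R : (H →L[ℂ] H) → (H →L[ℂ] H))
    (G Z : ℕ → Finset (H →L[ℂ] H)) (r : ℝ),
    Std M Ω R → Tower M G Z → kkDist M N₀ < r → k * r ≤ 1 →
    ∃ (v : H →L[ℂ] H) (N : VonNeumannAlgebra H), v ∈ unitary (H →L[ℂ] H) ∧ ‖v - 1‖ ≤ k * r ∧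
      (fun x => v * x * star v) '' (N₀ : Set (H →L[ℂ] H)) = (N : Set (H →L[ℂ] H)) ∧
      InN R N.toStarSubalgebra.toSubalgebra G

/-- (R2) towers with a dense flattened algebra exist. -/
def FlattenOut : Prop :=
  ∀ (H : Type u) [NormedAddCommGroup H] [InnerProductSpace ℂ H] [CompleteSpace H]
    [TopologicalSpace.SeparableSpace H] (M : VonNeumannAlgebra H) (Ω : H)
    (R : (H →L[ℂ] H) → (H →L[ℂ] H)), Std M Ω R → P104.Sim.NoAbelian M →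
    ∃ (G Z : ℕ → Finset (H →L[ℂ] H)) (D : Set (H →L[ℂ] H)),
      Tower M G Z ∧ DenseAlg M Ω G D ∧ Flat G Z D

/-- Strong Kadison-Kastler stability for finite algebras in separable standard form. -/
def FiniteStdKK : Prop :=
  ∀ θ : ℝ, 0 < θ → ∃ δ : ℝ, 0 < δ ∧ ∀ (H : Type u) [NormedAddCommGroup H] [InnerProductSpace ℂ H]
    [CompleteSpace H] [TopologicalSpace.SeparableSpace H] (M N₀ : VonNeumannAlgebra H) (Ω : H)
    (R : (H →L[ℂ] H) → (H →L[ℂ] H)),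
    Std M Ω R → P104.Sim.NoAbelian M → kkDist M N₀ < δ →
    ∃ v ∈ unitary (H →L[ℂ] H), ‖v - 1‖ < θ ∧
      (fun x => v * x * star v) '' (M : Set (H →L[ℂ] H)) = (N₀ : Set (H →L[ℂ] H))

end Vale.Agent.P096.KK
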