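import Vale.Agent.P096.Defs
import Vale.Agent.P096.Stable.Align
import Vale.Agent.P096.Stable.Means
import Vale.Agent.P096.Commutant
import Vale.Agent.P096.KK.Setting

/-!
# P096, finite algebras: rotating a locally finite group into a nearby algebra

For close von Neumann algebras `P`, `Q` a locally finite group of unitaries of `P` is moved into
`Q` by a unitary near one which commutes with whatever commutes with the group and with `Q`.
-/

noncomputable section

namespace Vale.Agent.P096.KK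

open Vale.Agent.P104

universe u

variable {H : Type u} [NormedAddCommGroup H] [InnerProductSpace ℂ H] [CompleteSpace H]

open scoped InnerProductSpace

/-- The operators commuting with the commutant are the algebra itself. -/
theorem comm_commutant (Q : VonNeumannAlgebra H) :
    Stable.Comm (Q.commutant : Set (H →L[ℂ] H)) = (Q : Set (H →L[ℂ] H)) := by
  ext x
  rw [← VonNeumannAlgebra.centralizer_centralizer Q, ← VonNeumannAlgebra.coe_commutant,
    Set.mem_centralizer_iff]
  exact ⟨fun h z hz => (h z hz).symm, fun h z hz => (h z hz).symm⟩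

/-- A group of unitaries of `P` given by a homomorphism, with an invariant mean. -/
theorem exists_rotate_of_amenable {G : Type*} [Group G] (hG : Amenable G)
    {P Q : VonNeumannAlgebra H} {r : ℝ} (h : kkDist P Q < r) (hr : r ≤ 1 / 800)
    (w : G →* unitary (H →L[ℂ] H)) (hw : ∀ g, (w g : H →L[ℂ] H) ∈ P) :
    ∃ v ∈ unitary (H →L[ℂ] H), ‖v - 1‖ ≤ 210 * r ∧
      (∀ g, v * (w g : H →L[ℂ] H) * star v ∈ Q) ∧
      ∀ z, (∀ g, Commute (w g : H →L[ℂ] H) z) → (∀ y ∈ Q, Commute y z) → Commute v z := by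
  obtain ⟨m, hm⟩ := hG
  have hmem : ∀ x, x ∈ Stable.Comm (Q.commutant : Set (H →L[ℂ] H)) ↔ x ∈ Q :=
    Set.ext_iff.1 (comm_commutant Q)
  obtain ⟨v, hv, hv1, hvQ, hvc⟩ := Stable.exists_align hm w (P := (Q.commutant : Set (H →L[ℂ] H)))
    (fun z hz => star_mem hz) hr fun g => by
      obtain ⟨y, hy, -, hd⟩ := kk_exists_near h (hw g) (Stable.norm_le_one_of_unitary (w g).2)
      exact ⟨y, (hmem y).2 hy, by rw [norm_sub_rev]; exact hd.le⟩
  exact ⟨v, hv, hv1, fun g => (hmem _).1 (hvQ g),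
    fun z hz hzQ => hvc z hz fun y hy => hzQ y ((hmem y).1 hy)⟩

/-- The union of an increasing sequence of finite groups is amenable. -/
theorem amenable_iSup {Γ : Type*} [Group Γ] (G : ℕ → Subgroup Γ) (hmono : Monotone G)
    (hfin : ∀ n, (G n : Set Γ).Finite) : Amenable ↥(⨆ n, G n) := by
  refine Stable.amenable_of_locallyFinite fun s => ?_
  classical
  choose n hn using fun g : ↥(⨆ n, G n) =>
    (Subgroup.mem_iSup_of_directed hmono.directed_le).1 g.2
  refine ⟨(G (s.sup n)).subgroupOf _, fun g hg => hmono (Finset.le_sup (f := n) hg) (hn g), ?_⟩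
  show (Subtype.val ⁻¹' (G (s.sup n) : Set Γ) : Set ↥(⨆ n, G n)).Finite
  exact (hfin _).preimage Subtype.val_injective.injOn

/-- (5a) An increasing sequence of finite groups of unitaries of `P` is moved into `Q`. -/
theorem exists_rotate {P Q : VonNeumannAlgebra H} {r : ℝ} (h : kkDist P Q < r) (hr : r ≤ 1 / 800)
    (G : ℕ → Subgroup (unitary (H →L[ℂ] H))) (hmono : Monotone G)
    (hfin : ∀ n, (G n : Set (unitary (H →L[ℂ] H))).Finite)
    (hGP : ∀ n, ∀ g ∈ G n, (g : H →L[ℂ] H) ∈ P) :
    ∃ v ∈ unitary (H →L[ℂ] H), ‖v - 1‖ ≤ 210 * r ∧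
      (∀ n, ∀ g ∈ G n, v * (g : H →L[ℂ] H) * star v ∈ Q) ∧
      (∀ z, (∀ n, ∀ g ∈ G n, Commute (g : H →L[ℂ] H) z) → (∀ y ∈ Q, Commute y z) →
        Commute v z) ∧
      ∀ z, (∀ x ∈ P, Commute x z) → (∀ y ∈ Q, Commute y z) → Commute v z := by
  set L := ⨆ n, G n with hL
  have hmemL : ∀ {g}, g ∈ L ↔ ∃ n, g ∈ G n := Subgroup.mem_iSup_of_directed hmono.directed_le
  have hA : Amenable L := amenable_iSup G hmono hfin
  obtain ⟨v, hv, hv1, hvQ, hvc⟩ := exists_rotate_of_amenable hA h hr L.subtype fun g => by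
    obtain ⟨n, hn⟩ := hmemL.1 g.2
    exact hGP n _ hn
  have key : ∀ z, (∀ n, ∀ g ∈ G n, Commute (g : H →L[ℂ] H) z) → (∀ y ∈ Q, Commute y z) →
      Commute v z := fun z hz hzQ => hvc z (fun g => by
    obtain ⟨n, hn⟩ := hmemL.1 g.2
    exact hz n _ hn) hzQ
  exact ⟨v, hv, hv1, fun n g hg => hvQ ⟨g, hmemL.2 ⟨n, hg⟩⟩, key,
    fun z hzP hzQ => key z (fun n g hg => hzP _ (hGP n g hg)) hzQ⟩

/-- The conjugate of an algebra by a unitary. -/
def conjAlg (v : unitary (H →L[ℂ] H)) (N : VonNeumannAlgebra H) : VonNeumannAlgebra H where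
  toStarSubalgebra := StarSubalgebra.centralizer ℂ
    ((fun y => (v : H →L[ℂ] H) * y * star (v : H →L[ℂ] H)) '' (N.commutant : Set (H →L[ℂ] H)))
  centralizer_centralizer' := by simp

theorem coe_conjAlg (v : unitary (H →L[ℂ] H)) (N : VonNeumannAlgebra H) :
    (conjAlg v N : Set (H →L[ℂ] H)) =
      (fun x => (v : H →L[ℂ] H) * x * star (v : H →L[ℂ] H)) '' (N : Set (H →L[ℂ] H)) := by
  obtain ⟨v, hv⟩ := v
  have h1 : star v * v = 1 := Unitary.star_mul_self_of_mem hv
  have h2 : v * star v = 1 := Unitary.mul_star_self_of_mem hv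
  have hc : ∀ a b : H →L[ℂ] H, (v * a * star v) * (v * b * star v) = v * (a * b) * star v :=
    fun a b => by
    rw [show (v * a * star v) * (v * b * star v) = v * a * (star v * v) * (b * star v) by
      noncomm_ring, h1]
    noncomm_ring
  have hback : ∀ x : H →L[ℂ] H, v * (star v * x * v) * star v = x := fun x => by
    rw [show v * (star v * x * v) * star v = (v * star v) * x * (v * star v) by noncomm_ring, h2,
      one_mul, mul_one]
  have hforth : ∀ x : H →L[ℂ] H, star v * (v * x * star v) * v = x := fun x => by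
    rw [show star v * (v * x * star v) * v = (star v * v) * x * (star v * v) by noncomm_ring, h1,
      one_mul, mul_one]
  ext x
  show x ∈ StarSubalgebra.centralizer ℂ
    ((fun y => v * y * star v) '' (N.commutant : Set (H →L[ℂ] H))) ↔ _
  rw [StarSubalgebra.mem_centralizer_iff, Set.mem_image]
  constructor
  · intro hx
    refine ⟨star v * x * v, ?_, hback x⟩
    rw [← comm_commutant N]
    intro y hy
    have h3 := congrArg (fun t => star v * t * v) (hx _ ⟨y, hy, rfl⟩).1
    simp only at h3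
    rw [← hback x, hc, hc, hforth, hforth] at h3
    exact h3.symm
  · rintro ⟨n, hn, rfl⟩ _ ⟨y, hy, rfl⟩
    have hyn : ∀ {y}, y ∈ N.commutant → n * y = y * n := fun hy =>
      (VonNeumannAlgebra.mem_commutant_iff.1 hy) n hn
    refine ⟨?_, ?_⟩
    · rw [hc, hc, hyn hy]
    · rw [show star (v * y * star v) = v * star y * star v by
        rw [star_mul, star_mul, star_star]; noncomm_ring, hc, hc, hyn (star_mem hy)]

section Right

variable {M : VonNeumannAlgebra H} {Ω : H} {R : (H →L[ℂ] H) → (H →L[ℂ] H)} {a b : H →L[ℂ] H}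

theorem right_comm (h : Std M Ω R) (ha : a ∈ M) (hb : b ∈ M) : a * R b = R b * a :=
  VonNeumannAlgebra.mem_commutant_iff.1 (h.right_mem b hb) a ha

/-- An element of the commutant is determined by its value at the trace vector. -/
theorem commutant_ext (h : Std M Ω R) (ha : a ∈ M.commutant) (hb : b ∈ M.commutant)
    (hab : a Ω = b Ω) : a = b := by
  refine DFunLike.coe_injective (Continuous.ext_on h.cyclic a.continuous b.continuous ?_)
  rintro _ ⟨x, hx, rfl⟩
  have e1 := congrArg (fun f => f Ω) (VonNeumannAlgebra.mem_commutant_iff.1 ha x hx)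
  have e2 := congrArg (fun f => f Ω) (VonNeumannAlgebra.mem_commutant_iff.1 hb x hx)
  simp only [mul_apply_eq_comp] at e1 e2 ⊢
  rw [← e1, ← e2, hab]

theorem right_mul (h : Std M Ω R) (ha : a ∈ M) (hb : b ∈ M) : R (a * b) = R b * R a := by
  refine commutant_ext h (h.right_mem _ (mul_mem ha hb))
    (mul_mem (h.right_mem b hb) (h.right_mem a ha)) ?_
  have e := congrArg (fun f => f Ω) (right_comm h ha hb)
  simp only [mul_apply_eq_comp] at e
  rw [h.right_apply _ (mul_mem ha hb), mul_apply_eq_comp, mul_apply_eq_comp, h.right_apply a ha, ← e,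
    h.right_apply b hb]

theorem right_one (h : Std M Ω R) : R 1 = 1 :=
  commutant_ext h (h.right_mem 1 (one_mem M)) (one_mem _) (h.right_apply 1 (one_mem M))

theorem right_unitary (h : Std M Ω R) (ha : a ∈ M) (h1 : star a * a = 1) (h2 : a * star a = 1) :
    star (R a) = R (star a) ∧ R a ∈ unitary (H →L[ℂ] H) := by
  have hs : star a ∈ M := star_mem ha
  have e1 : R a * R (star a) = 1 := by rw [← right_mul h hs ha, h1, right_one h]
  have e2 : R (star a) * R a = 1 := by rw [← right_mul h ha hs, h2, right_one h]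
  have hiso : star (R a) * R a = 1 := by
    refine (ContinuousLinearMap.norm_map_iff_adjoint_comp_self (R a)).1 fun v => ?_
    refine h.cyclic.induction ?_
      (isClosed_eq (R a).continuous.norm continuous_norm) v
    rintro _ ⟨x, hx, rfl⟩
    have e := congrArg (fun f => f Ω) (right_comm h hx ha)
    simp only [mul_apply_eq_comp] at e
    show ‖R a (x Ω)‖ = ‖x Ω‖
    rw [← e, h.right_apply a ha, ← sq_eq_sq₀ (norm_nonneg _) (norm_nonneg _)]
    have n1 : ∀ y : H →L[ℂ] H, ((‖y Ω‖ ^ 2 : ℝ) : ℂ) = ⟪Ω, star y (y Ω)⟫_ℂ := fun y => by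
      rw [ContinuousLinearMap.star_eq_adjoint, ContinuousLinearMap.adjoint_inner_right,
        inner_self_eq_norm_sq_to_K]
      simp
    have n2 : ((‖(x * a) Ω‖ ^ 2 : ℝ) : ℂ) = ((‖x Ω‖ ^ 2 : ℝ) : ℂ) := by
      rw [n1, n1, star_mul, mul_apply_eq_comp, mul_apply_eq_comp]
      have t := h.trace (star a) hs (star x * x * a) (mul_mem (mul_mem (star_mem hx) hx) ha)
      simp only [mul_apply_eq_comp] at t
      have e := congrArg (fun f => f Ω) h2
      simp only [mul_apply_eq_comp, one_apply_eq_self] at e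
      rw [t, e]
    exact_mod_cast n2
  have e3 : star (R a) = R (star a) := by
    rw [← mul_one (star (R a)), ← e1, ← mul_assoc, hiso, one_mul]
  exact ⟨e3, Unitary.mem_iff.2 ⟨hiso, by rw [e3]; exact e1⟩⟩

end Right

/-- (R1) the groups of a tower and their right multiplications rotate into a close algebra. -/
theorem rotateOut (hD : Sim.DistOut.{u}) : RotateOut.{u} := by
  obtain ⟨k₀, hk₀⟩ := commutant_continuity hD
  refine ⟨800 * (422 + |k₀|), by positivity, fun H _ _ _ M N₀ Ω R G Z r hS hT hr hkr => ?_⟩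
  have hd0 : 0 ≤ kkDist M N₀ := Metric.hausdorffDist_nonneg
  have hr0 : 0 < r := hd0.trans_lt hr
  have hγ : (421 + |k₀|) * r ≤ 1 / 800 := by nlinarith [abs_nonneg k₀]
  have hr800 : r ≤ 1 / 800 := by nlinarith [abs_nonneg k₀]
  -- the groups as subgroups
  let W : ℕ → Subgroup (unitary (H →L[ℂ] H)) := fun k =>
    { carrier := {u | (u : H →L[ℂ] H) ∈ G k}
      mul_mem' := fun {x y} hx hy => hT.mul_mem k _ hx _ hy
      one_mem' := hT.one_mem k
      inv_mem' := fun {x} hx => by
        show ((x⁻¹ : unitary (H →L[ℂ] H)) : H →L[ℂ] H) ∈ G k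
        rw [← Unitary.star_eq_inv]
        exact hT.star_mem k _ hx }
  obtain ⟨v₁, hv₁, hv₁n, hv₁G, -, -⟩ := exists_rotate hr hr800 W
    (monotone_nat_of_le_succ fun k u hu => hT.mono k _ hu)
    (fun k => show (Subtype.val ⁻¹' (G k : Set (H →L[ℂ] H)) : Set (unitary (H →L[ℂ] H))).Finite from
      (G k).finite_toSet.preimage Subtype.val_injective.injOn)
    (fun k u hu => (hT.isometry k _ hu).1)
  have hg : ∀ k, ∀ g ∈ G k, v₁ * g * star v₁ ∈ N₀ := fun k g hg =>
    hv₁G k ⟨g, Unitary.mem_iff.2 (hT.isometry k g hg).2⟩ hg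
  -- the moved right multiplications
  have hRu : ∀ {k g}, g ∈ G k → star (R g) = R (star g) ∧ R g ∈ unitary (H →L[ℂ] H) :=
    fun {k g} hg => right_unitary hS (hT.isometry k g hg).1 (hT.isometry k g hg).2.1
      (hT.isometry k g hg).2.2
  have hcj : ∀ a b : H →L[ℂ] H, (v₁ * a * star v₁) * (v₁ * b * star v₁) = v₁ * (a * b) * star v₁ :=
    fun a b => by
    rw [show (v₁ * a * star v₁) * (v₁ * b * star v₁) =
      v₁ * a * (star v₁ * v₁) * (b * star v₁) by noncomm_ring,
      Unitary.star_mul_self_of_mem hv₁]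
    noncomm_ring
  let W' : ℕ → Subgroup (unitary (H →L[ℂ] H)) := fun k =>
    { carrier := {u | ∃ g ∈ G k, (u : H →L[ℂ] H) = v₁ * R g * star v₁}
      mul_mem' := by
        rintro x y ⟨g, hg, hx⟩ ⟨h, hh, hy⟩
        refine ⟨h * g, hT.mul_mem k _ hh _ hg, ?_⟩
        rw [Submonoid.coe_mul, hx, hy, hcj,
          right_mul hS (hT.isometry k _ hh).1 (hT.isometry k _ hg).1]
      one_mem' := ⟨1, hT.one_mem k, by
        rw [right_one hS, mul_one, Unitary.mul_star_self_of_mem hv₁]; rfl⟩
      inv_mem' := by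
        rintro x ⟨g, hg, hx⟩
        refine ⟨star g, hT.star_mem k _ hg, ?_⟩
        rw [← Unitary.star_eq_inv, Unitary.coe_star, hx, ← (hRu hg).1, star_mul, star_mul,
          star_star, mul_assoc] }
  have hmono : Monotone W' := monotone_nat_of_le_succ fun k u ⟨g, hg, hu⟩ =>
    ⟨g, hT.mono k _ hg, hu⟩
  have hfin : ∀ k, (W' k : Set (unitary (H →L[ℂ] H))).Finite := fun k =>
    (((G k).finite_toSet.image fun g => v₁ * R g * star v₁).preimage
      Subtype.val_injective.injOn).subset fun u ⟨g, hg, hu⟩ => ⟨g, hg, hu.symm⟩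
  obtain ⟨m, hm⟩ := amenable_iSup W' hmono hfin
  have hmem : ∀ x, x ∈ Stable.Comm (N₀ : Set (H →L[ℂ] H)) ↔ x ∈ N₀.commutant := fun x => by
    rw [VonNeumannAlgebra.mem_commutant_iff]
    exact ⟨fun h z hz => (h z hz).symm, fun h z hz => (h z hz).symm⟩
  have hdc : kkDist M.commutant N₀.commutant < (|k₀| + 1) * r := by
    refine ((hk₀ H M N₀).trans (mul_le_mul_of_nonneg_right (le_abs_self k₀) hd0)).trans_lt ?_
    nlinarith [abs_nonneg k₀]
  have hmemW : ∀ {u}, u ∈ (⨆ k, W' k) ↔ ∃ k, u ∈ W' k :=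
    Subgroup.mem_iSup_of_directed hmono.directed_le
  obtain ⟨u, hu, hu1, huN, huc⟩ := Stable.exists_align hm (⨆ k, W' k).subtype
    (P := (N₀ : Set (H →L[ℂ] H))) (fun z hz => star_mem hz) hγ fun w => by
      obtain ⟨k, g, hg, hw⟩ := hmemW.1 w.2
      obtain ⟨y, hy, -, hd⟩ := kk_exists_near hdc (hS.right_mem g (hT.isometry k g hg).1)
        (Stable.norm_le_one_of_unitary (hRu hg).2)
      refine ⟨y, (hmem y).2 hy, ?_⟩
      show ‖y - ((w : unitary (H →L[ℂ] H)) : H →L[ℂ] H)‖ ≤ _
      rw [hw]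
      have e : R g - v₁ * R g * star v₁ =
          (1 - v₁) * R g * star v₁ + R g * (1 - star v₁) := by noncomm_ring
      have hn := Stable.norm_le_one_of_unitary (hRu hg).2
      have hn' := Stable.norm_le_one_of_unitary (Unitary.star_mem hv₁)
      have b1 : ‖(1 - v₁) * R g * star v₁‖ ≤ 210 * r :=
        (norm_mul_le _ _).trans ((mul_le_of_le_one_right (norm_nonneg _) hn').trans
          ((norm_mul_le _ _).trans ((mul_le_of_le_one_right (norm_nonneg _) hn).trans
            (by rw [norm_sub_rev]; exact hv₁n))))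
      have b2 : ‖R g * (1 - star v₁)‖ ≤ 210 * r :=
        (norm_mul_le _ _).trans ((mul_le_of_le_one_left (norm_nonneg _) hn).trans
          (by rw [← norm_star, star_sub, star_one, star_star, norm_sub_rev]; exact hv₁n))
      calc ‖y - v₁ * R g * star v₁‖ = ‖(y - R g) + (R g - v₁ * R g * star v₁)‖ := by
            rw [sub_add_sub_cancel]
        _ ≤ (|k₀| + 1) * r + (210 * r + 210 * r) := by
            refine (norm_add_le _ _).trans (add_le_add (by rw [norm_sub_rev]; exact hd.le) ?_)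
            rw [e]
            exact (norm_add_le _ _).trans (add_le_add b1 b2)
        _ = _ := by ring
  have hug : ∀ k, ∀ g ∈ G k, u * (v₁ * g * star v₁) = (v₁ * g * star v₁) * u := fun k g hgk => by
    refine (huc _ (fun w => ?_) fun y hy => ((hmem y).1 hy |>
      fun hy' => (VonNeumannAlgebra.mem_commutant_iff.1 hy' _ (hg k g hgk)).symm)).eq
    obtain ⟨j, h, hh, hw⟩ := hmemW.1 w.2
    show ((w : unitary (H →L[ℂ] H)) : H →L[ℂ] H) * _ = _ * ((w : unitary (H →L[ℂ] H)) : H →L[ℂ] H)
    rw [hw, hcj, hcj, right_comm hS (hT.isometry k g hgk).1 (hT.isometry j h hh).1]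
  set v₀ := u * v₁
  have hv₀ : v₀ ∈ unitary (H →L[ℂ] H) := mul_mem hu hv₁
  refine ⟨star v₀, conjAlg ⟨star v₀, Unitary.star_mem hv₀⟩ N₀, Unitary.star_mem hv₀, ?_, ?_, ?_⟩
  · have e : v₀ - 1 = (u - 1) * v₁ + (v₁ - 1) := by simp only [v₀]; noncomm_ring
    rw [← star_one (R := H →L[ℂ] H), ← star_sub, norm_star, e]
    refine (norm_add_le _ _).trans (le_trans (add_le_add ((norm_mul_le _ _).trans
      ((mul_le_of_le_one_right (norm_nonneg _) (Stable.norm_le_one_of_unitary hv₁)).trans hu1))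
      hv₁n) ?_)
    nlinarith [abs_nonneg k₀]
  · rw [coe_conjAlg]
  · intro k g hgk
    have hback : ∀ x : H →L[ℂ] H, star v₀ * (v₀ * x * star v₀) * star (star v₀) = x := fun x => by
      rw [star_star, show star v₀ * (v₀ * x * star v₀) * v₀ =
        (star v₀ * v₀) * x * (star v₀ * v₀) by noncomm_ring,
        Unitary.star_mul_self_of_mem hv₀, one_mul, mul_one]
    have e0 : ∀ x : H →L[ℂ] H, v₀ * x * star v₀ = u * (v₁ * x * star v₁) * star u := fun x => by
      simp only [v₀, star_mul]; noncomm_ring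
    have m1 : v₀ * g * star v₀ ∈ N₀ := by
      rw [e0, hug k g hgk, mul_assoc, Unitary.mul_star_self_of_mem hu, mul_one]
      exact hg k g hgk
    have m2 : v₀ * R g * star v₀ ∈ N₀.commutant := by
      rw [e0]
      have hmemu : (⟨v₁ * R g * star v₁, mul_mem (mul_mem hv₁ (hRu hgk).2) (Unitary.star_mem hv₁)⟩ :
          unitary (H →L[ℂ] H)) ∈ ⨆ k, W' k := hmemW.2 ⟨k, g, hgk, rfl⟩
      exact (hmem _).1 (huN ⟨_, hmemu⟩)
    refine ⟨?_, ?_⟩
    · show g ∈ (conjAlg ⟨star v₀, Unitary.star_mem hv₀⟩ N₀ : Set (H →L[ℂ] H))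
      rw [coe_conjAlg]
      exact ⟨_, m1, hback g⟩
    · refine (Subalgebra.mem_centralizer_iff (R := ℂ)).2 fun n hn => ?_
      replace hn : n ∈ (conjAlg ⟨star v₀, Unitary.star_mem hv₀⟩ N₀ : Set (H →L[ℂ] H)) := hn
      rw [coe_conjAlg] at hn
      obtain ⟨x, hx, rfl⟩ := hn
      have e := VonNeumannAlgebra.mem_commutant_iff.1 m2 x hx
      have h3 := congrArg (fun t => star v₀ * t * v₀) e
      have hl : ∀ y : H →L[ℂ] H, star v₀ * (y * (v₀ * R g * star v₀)) * v₀ =
          (star v₀ * y * v₀) * R g := fun y => by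
        rw [show star v₀ * (y * (v₀ * R g * star v₀)) * v₀ =
          star v₀ * y * v₀ * R g * (star v₀ * v₀) by noncomm_ring,
          Unitary.star_mul_self_of_mem hv₀, mul_one]
      have hl' : ∀ y : H →L[ℂ] H, star v₀ * ((v₀ * R g * star v₀) * y) * v₀ =
          R g * (star v₀ * y * v₀) := fun y => by
        rw [show star v₀ * ((v₀ * R g * star v₀) * y) * v₀ =
          (star v₀ * v₀) * (R g * (star v₀ * y * v₀)) by noncomm_ring,
          Unitary.star_mul_self_of_mem hv₀, one_mul]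
      simp only [hl, hl'] at h3
      simpa using h3

end Vale.Agent.P096.KK
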