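import Vale.Agent.P082.Global.Pieces
import Vale.Agent.P082.Global.Glue
import Vale.Agent.P104.Sim.Split
import Vale.Agent.P096.Defs

/-!
# P096: inputs for the reduction to separable algebras with a trace

`Finite M` is the usual definition: every isometry in `M` is unitary. A finite algebra on a
separable space has a faithful normal tracial state. An algebra without abelian projection contains,
for arbitrarily large `n`, families of `n` equivalent orthogonal projections with sum one, and a
finite algebra containing such families has no abelian projection.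
-/

noncomputable section

namespace Vale.Agent.P096.KK.Reduce

set_option linter.unusedSectionVars false

open Filter Topology
open P132.Homog.TypeIII (PI Link Finite' isProj_star isProj_mul_self sub_isProj)
open Vale.Agent.P085 (IsProj IsNormalTrace vecState)
open Vale.Agent.P104.Red (IsCentral Fam exists_maximal_fam exists_trace_piece cs cs_isCentral
  cs_mul_self pieceAlg mem_pieceAlg finite'_of_le sp comp ext0)
open Vale.Agent.P104.Sim (NoAbelian)
open scoped InnerProductSpace

universe u v

variable {H : Type u} [NormedAddCommGroup H] [InnerProductSpace ℂ H] [CompleteSpace H]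
variable {M A : VonNeumannAlgebra H}

/-- Every isometry in `M` is unitary. -/
def Finite (M : VonNeumannAlgebra H) : Prop :=
  ∀ v ∈ M, star v * v = 1 → v * star v = 1

lemma Finite.finite' (h : Finite M) : Finite' M 1 := fun v hv hvi => h v hv.pi.mem hvi

lemma finite_of_finite' (h : Finite' M 1) : Finite M := fun v hv hvi =>
  h v ⟨⟨hv, by rw [hvi]; exact IsStarProjection.one _, by rw [hvi, mul_one]⟩, mul_one v, one_mul v⟩
    hvi

lemma Finite.of_le (h : Finite M) (hA : ∀ x ∈ A, x ∈ M) : Finite A := fun v hv => h v (hA v hv)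

lemma Finite.central (h : Finite M) {z : H →L[ℂ] H} (hz : IsCentral M z) : Finite' M z :=
  finite'_of_le P104.Red.IsCentral.one.proj hz.proj (one_mul z) h.finite'

/-- A central piece of a finite algebra is finite. -/
theorem Finite.piece (h : Finite M) {z : H →L[ℂ] H} (hz : IsCentral M z) :
    Finite (pieceAlg hz) := fun v hv hvi => by
  have hzz := isProj_mul_self hz.proj
  have hone : ext0 hz (1 : sp z →L[ℂ] sp z) = z :=
    ContinuousLinearMap.ext fun w => by simp [ext0, P104.Red.toSp]
  have hV : ext0 hz v ∈ M := (mem_pieceAlg hz).1 hv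
  have h1 : star (ext0 hz v) * ext0 hz v = z := by
    rw [← P104.Red.ext0_star, ← P104.Red.ext0_mul, hvi, hone]
  have hv1 : ext0 hz v * (1 - z) = 0 := by rw [mul_sub, mul_one, P104.Red.ext0_z, sub_self]
  have hv2 : (1 - z) * ext0 hz v = 0 := by rw [sub_mul, one_mul, P104.Red.z_ext0, sub_self]
  have hz1 : star (1 - z) = 1 - z := by rw [star_sub, star_one, isProj_star hz.proj]
  have hz2 : (1 - z) * (1 - z) = 1 - z := by
    rw [sub_mul, one_mul, mul_sub, mul_one, hzz, sub_self, sub_zero]
  have hs1 : (1 - z) * star (ext0 hz v) = 0 := by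
    simpa [star_mul, hz1] using congrArg star hv1
  have hs2 : star (ext0 hz v) * (1 - z) = 0 := by
    simpa [star_mul, hz1] using congrArg star hv2
  have := h (ext0 hz v + (1 - z)) (add_mem hV (sub_mem (one_mem M) hz.proj.1)) (by
    rw [star_add, hz1, add_mul, mul_add, mul_add, h1, hs2, hv2, hz2]; abel)
  rw [star_add, hz1, add_mul, mul_add, mul_add, hv1, hs1, hz2, ← P104.Red.ext0_star,
    ← P104.Red.ext0_mul] at this
  refine P104.Red.ext0_injective hz ?_
  rw [hone]
  have e : ext0 hz (v * star v) = 1 - (1 - z) := eq_sub_of_add_eq (by simpa using this)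
  rw [e, sub_sub_cancel]

/-- A trace on the piece `z`. -/
def Tracial (M : VonNeumannAlgebra H) (z : H →L[ℂ] H) (ξ : ℕ → H) : Prop :=
  (∀ i, z (ξ i) = ξ i) ∧ Summable (fun i => ‖ξ i‖ ^ 2) ∧ ∑' i, ‖ξ i‖ ^ 2 = 1 ∧
    (∀ a ∈ M, ∀ b ∈ M, vecState ξ (a * b) = vecState ξ (b * a)) ∧
    ∀ a ∈ M, z * a = a → vecState ξ (star a * a) = 0 → a = 0

/-- A finite algebra is a sum of central pieces with traces. -/
theorem exists_pieces (hfin : Finite M) :
    ∃ (S : Set (H →L[ℂ] H)) (hf : Fam M fun z : S => (z : H →L[ℂ] H)), hf.sum = 1 ∧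
      ∀ z ∈ S, IsCentral M z ∧ ∃ ξ, Tracial M z ξ := by
  obtain ⟨S, hf, hS, hmax⟩ := exists_maximal_fam (M := M)
    (fun z => IsCentral M z ∧ ∃ ξ : ℕ → H, Tracial M z ξ)
    (fun z hz => PI.of_proj hz.1.proj)
  have hcen : ∀ i : S, IsCentral M (i : H →L[ℂ] H) := fun i => (hS i i.2).1
  -- the pieces have sum one
  have hP : IsCentral M hf.sum := by
    refine ⟨⟨hf.sum_mem, ?_⟩, fun x hx => ContinuousLinearMap.ext fun v => ?_⟩
    · have e : star hf.sum * hf.sum = hf.sum := by
        rw [hf.star_mul_sum]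
        refine ContinuousLinearMap.ext fun v => (hf.initFam.hasSum v).unique ?_
        have e : (fun i : S => (star (i : H →L[ℂ] H) * (i : H →L[ℂ] H)) v)
            = fun i : S => (i : H →L[ℂ] H) v := funext fun i => by
          rw [isProj_star (hcen i).proj, isProj_mul_self (hcen i).proj]
        rw [e]
        exact hf.hasSum v
      have h0 := hf.sum_pi.init
      rw [e] at h0
      exact h0.2
    · refine (hf.hasSum (x v)).unique ?_
      have e : (fun i : S => (i : H →L[ℂ] H) (x v)) = fun i : S => x ((i : H →L[ℂ] H) v) :=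
        funext fun i => DFunLike.congr_fun ((hcen i).comm x hx) v
      rw [e]
      exact (hf.hasSum v).mapL x
  have hrest : IsCentral M (1 - hf.sum) :=
    IsCentral.sub P104.Red.IsCentral.one hP (one_mul _)
  have hone : hf.sum = 1 := by
    by_contra hne
    have hne' : (1 : H →L[ℂ] H) - hf.sum ≠ 0 := sub_ne_zero.2 (Ne.symm hne)
    obtain ⟨w, hw, hle, hw0, hξ⟩ := exists_trace_piece hrest hne' (hfin.central hrest)
    refine hw0 (hmax w ⟨hw, hξ⟩ fun v hv => ?_)
    have hv' := (hS v hv).1
    have h0 : v * w = 0 := by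
      have h1 : v * hf.sum = v := by
        refine ContinuousLinearMap.ext fun x => ((hf.hasSum x).mapL v).unique ?_
        have hi : v (v x) = v x := DFunLike.congr_fun (isProj_mul_self hv'.proj) x
        conv => arg 2; rw [← hi]
        refine hasSum_single (⟨v, hv⟩ : S) fun j hj => ?_
        have h0 := hf.star_mul ⟨v, hv⟩ j hj.symm
        rw [isProj_star hv'.proj] at h0
        exact DFunLike.congr_fun h0 x
      rw [← hle, ← mul_assoc, mul_sub, mul_one, h1, sub_self, zero_mul]
    exact ⟨by rw [isProj_star hv'.proj, h0], by rw [isProj_star hw.proj, h0]⟩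
  exact ⟨S, hf, hone, hS⟩

/-- On a separable space the pieces are countably many. -/
theorem exists_sequence [TopologicalSpace.SeparableSpace H] [Nontrivial H] {S : Set (H →L[ℂ] H)}
    (hf : Fam M fun z : S => (z : H →L[ℂ] H)) (hone : hf.sum = 1)
    (hS : ∀ z ∈ S, IsCentral M z ∧ ∃ ξ, Tracial M z ξ) :
    ∃ e : ℕ → S, Function.Surjective e := by
  obtain ⟨d, hd⟩ := TopologicalSpace.exists_dense_seq H
  have hne0 : ∀ i : S, (i : H →L[ℂ] H) ≠ 0 := fun i h0 => by
    obtain ⟨-, ξ, hzξ, -, h1, -⟩ := hS i i.2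
    have : ∀ k, ξ k = 0 := fun k => by rw [← hzξ k, h0]; rfl
    simp [this] at h1
  have hcount : Countable S := by
    have hcov : (Set.univ : Set S) ⊆
        ⋃ n, Function.support fun i : S => ‖(i : H →L[ℂ] H) (d n)‖ ^ 2 := by
      intro i _
      by_contra hi
      simp only [Set.mem_iUnion, Function.mem_support, not_exists, ne_eq, not_not,
        pow_eq_zero_iff two_ne_zero, norm_eq_zero] at hi
      refine hne0 i (DFunLike.coe_injective ?_)
      exact hd.equalizer (i : H →L[ℂ] H).continuous continuous_const (funext hi)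
    exact Set.countable_univ_iff.1
      ((Set.countable_iUnion fun n => (hf.summable_norm_sq (d n)).countable_support).mono hcov)
  have hne : Nonempty S := by
    by_contra hemp
    rw [not_nonempty_iff] at hemp
    obtain ⟨x, hx⟩ := exists_ne (0 : H)
    have h1 := hf.hasSum x
    rw [hone] at h1
    exact hx ((hasSum_empty (f := fun i : S => (i : H →L[ℂ] H) x)).unique h1).symm
  exact exists_surjective_nat S

/-- Weighted unions of square summable sequences. -/
theorem exists_mixture (ξ : ℕ → ℕ → H) (hs : ∀ n, Summable fun i => ‖ξ n i‖ ^ 2)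
    (h1 : ∀ n, ∑' i, ‖ξ n i‖ ^ 2 = 1) (w : ℕ → ℝ) (hw : ∀ n, 0 < w n) (hwsum : Summable w)
    (hw1 : ∑' n, w n = 1) :
    ∃ η : ℕ × ℕ → H, Summable (fun k => ‖η k‖ ^ 2) ∧ ∑' k, ‖η k‖ ^ 2 = 1 ∧
      ∀ k, η k = (Real.sqrt (w k.1) : ℂ) • ξ k.1 k.2 := by
  have hn : ∀ b c, ‖(Real.sqrt (w b) : ℂ) • ξ b c‖ ^ 2 = w b * ‖ξ b c‖ ^ 2 :=
    fun b c => by
      rw [norm_smul, Complex.norm_real, Real.norm_eq_abs, mul_pow, sq_abs, Real.sq_sqrt (hw _).le]
  have hηs : Summable fun k : ℕ × ℕ => ‖(Real.sqrt (w k.1) : ℂ) • ξ k.1 k.2‖ ^ 2 := by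
    simp only [hn]
    refine (summable_prod_of_nonneg fun k => mul_nonneg (hw _).le (sq_nonneg _)).2
      ⟨fun n => (hs n).mul_left (w n), ?_⟩
    simpa [tsum_mul_left, h1] using hwsum
  refine ⟨_, hηs, ?_, fun k => rfl⟩
  rw [hηs.tsum_prod]
  simp only [hn, tsum_mul_left, h1, mul_one, hw1]

lemma summable_inner {ι : Type*} {η : ι → H} (hη : Summable fun k => ‖η k‖ ^ 2)
    (a : H →L[ℂ] H) : Summable fun k => ⟪η k, a (η k)⟫_ℂ :=
  Summable.of_norm_bounded (hη.mul_left ‖a‖) fun k =>
    (norm_inner_le_norm _ _).trans (by nlinarith [a.le_opNorm (η k), norm_nonneg (η k)])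

/-- The value of a mixture. -/
lemma mixture_value (ξ : ℕ → ℕ → H) (w : ℕ → ℝ) (hw : ∀ n, 0 < w n) (η : ℕ × ℕ → H)
    (hη : ∀ k, η k = (Real.sqrt (w k.1) : ℂ) • ξ k.1 k.2)
    (hηs : Summable fun k => ‖η k‖ ^ 2) (a : H →L[ℂ] H) :
    ∑' k, ⟪η k, a (η k)⟫_ℂ = ∑' n, (w n : ℂ) * vecState (ξ n) a := by
  rw [(summable_inner hηs a).tsum_prod]
  refine tsum_congr fun n => ?_
  rw [vecState, ← tsum_mul_left]
  refine tsum_congr fun i => ?_
  rw [hη, map_smul, inner_smul_left, inner_smul_right, Complex.conj_ofReal, ← mul_assoc,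
    ← Complex.ofReal_mul, Real.mul_self_sqrt (hw n).le]

/-- A state vanishing at `star a * a` has `a` vanishing on its vectors. -/
lemma apply_eq_zero_of_state {ι : Type*} {η : ι → H} (hη : Summable fun k => ‖η k‖ ^ 2)
    {a : H →L[ℂ] H} (h0 : ∑' k, ⟪η k, (star a * a) (η k)⟫_ℂ = 0) (k : ι) : a (η k) = 0 := by
  have hsr : Summable fun k => ‖a (η k)‖ ^ 2 :=
    Summable.of_nonneg_of_le (fun k => sq_nonneg _) (fun k => by
      rw [← mul_pow]; exact pow_le_pow_left₀ (norm_nonneg _) (a.le_opNorm _) 2)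
      (hη.mul_left (‖a‖ ^ 2))
  have e : ∀ k, ⟪η k, (star a * a) (η k)⟫_ℂ = ((‖a (η k)‖ ^ 2 : ℝ) : ℂ) := fun k => by
    rw [mul_apply_eq_comp, ContinuousLinearMap.star_eq_adjoint,
      ContinuousLinearMap.adjoint_inner_right, inner_self_eq_norm_sq_to_K]
    norm_cast
  rw [tsum_congr e, ← Complex.ofReal_tsum, Complex.ofReal_eq_zero] at h0
  have := hsr.hasSum_iff.2 h0
  rw [hasSum_zero_iff_of_nonneg fun k => sq_nonneg _] at this
  exact norm_eq_zero.1 ((pow_eq_zero_iff two_ne_zero).1 (congrFun this k))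

/-- Traces on a sequence of pieces with sum one add up to a trace. -/
theorem exists_trace_of_sequence {S : Set (H →L[ℂ] H)}
    (hf : Fam M fun z : S => (z : H →L[ℂ] H)) (hone : hf.sum = 1)
    (hcen : ∀ z : S, IsCentral M (z : H →L[ℂ] H)) {e : ℕ → S} (he : Function.Surjective e)
    (ξ : ℕ → ℕ → H) (hξ : ∀ n, Tracial M (e n : H →L[ℂ] H) (ξ n)) :
    ∃ ζ : ℕ → H, IsNormalTrace M ζ := by
  have hwsum : Summable fun n : ℕ => (1 / 2 : ℝ) ^ (n + 1) := by
    simpa only [pow_succ] using summable_geometric_two.mul_right (1 / 2 : ℝ)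
  have hw1 : ∑' n : ℕ, (1 / 2 : ℝ) ^ (n + 1) = 1 := by
    simp only [pow_succ]
    rw [tsum_mul_right, tsum_geometric_two]
    norm_num
  have hw : ∀ n : ℕ, (0 : ℝ) < (1 / 2) ^ (n + 1) := fun n => by positivity
  obtain ⟨η, hηs, hη1, hη⟩ := exists_mixture ξ (fun n => (hξ n).2.1) (fun n => (hξ n).2.2.1) _
    hw hwsum hw1
  have hval := mixture_value ξ _ hw η hη hηs
  obtain ⟨g⟩ : Nonempty (ℕ ≃ ℕ × ℕ) := ⟨Nat.pairEquiv.symm⟩
  have e1 : ∀ x : H →L[ℂ] H, vecState (fun k => η (g k)) x = ∑' k, ⟪η k, x (η k)⟫_ℂ := fun x =>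
    g.tsum_eq fun k => ⟪η k, x (η k)⟫_ℂ
  have hs' : Summable fun k => ‖η (g k)‖ ^ 2 :=
    (Equiv.summable_iff g (f := fun k => ‖η k‖ ^ 2)).2 hηs
  have h1' : ∑' k, ‖η (g k)‖ ^ 2 = 1 := (g.tsum_eq fun k => ‖η k‖ ^ 2).trans hη1
  refine ⟨fun k => η (g k), ⟨hs', h1', fun a ha b hb => ?_, fun a ha h0 => ?_⟩⟩
  · rw [e1, e1, hval, hval]
    exact tsum_congr fun n => congrArg _ ((hξ n).2.2.2.1 a ha b hb)
  have hη0 := apply_eq_zero_of_state hηs (a := a)
    ((e1 (star a * a)).symm.trans h0)
  refine P082.eq_of_forall_piece hf hone fun i => ?_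
  obtain ⟨n, rfl⟩ := he i
  rw [mul_zero]
  refine (hξ n).2.2.2.2 _ (mul_mem (hcen _).proj.1 ha)
    (by rw [← mul_assoc, isProj_mul_self (hcen _).proj]) ?_
  have hz0 : ∀ j, ((e n : H →L[ℂ] H) * a) (ξ n j) = 0 := fun j => by
    have hk := hη0 (n, j)
    rw [hη, map_smul, smul_eq_zero, Complex.ofReal_eq_zero] at hk
    rw [mul_apply_eq_comp, hk.resolve_left (Real.sqrt_pos.2 (hw n)).ne', map_zero]
  simp [vecState, mul_apply_eq_comp, hz0]

/-- A finite algebra on a separable space has a faithful normal tracial state. -/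
theorem exists_trace [TopologicalSpace.SeparableSpace H] [Nontrivial H] (hfin : Finite M) :
    ∃ ξ : ℕ → H, IsNormalTrace M ξ := by
  obtain ⟨S, hf, hone, hS⟩ := exists_pieces hfin
  obtain ⟨e, he⟩ := exists_sequence hf hone hS
  choose ξ hξ using fun n => (hS (e n) (e n).2).2
  exact exists_trace_of_sequence hf hone (fun z => (hS z z.2).1) he ξ hξ

/-- `n` orthogonal projections with sum one, all equivalent to `q`. -/
structure Equi (M : VonNeumannAlgebra H) {n : ℕ} (q : H →L[ℂ] H)
    (w : Fin n → (H →L[ℂ] H)) : Prop where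
  proj : IsProj M q
  mem : ∀ i, w i ∈ M
  orth : ∀ i j, star (w i) * w j = if i = j then q else 0
  total : ∑ i, w i * star (w i) = 1

/-- The number of projections can be doubled. -/
theorem exists_equi (hna : NoAbelian M) : ∀ l : ℕ, ∃ (q : H →L[ℂ] H)
    (w : Fin (2 ^ l) → (H →L[ℂ] H)), Equi M q w := by
  intro l
  induction l with
  | zero =>
    refine ⟨1, fun _ => 1, ⟨P132.Homog.TypeIII.one_isProj, fun _ => one_mem M, fun i j => ?_, ?_⟩⟩
    · rw [if_pos (Subsingleton.elim (α := Fin 1) i j), star_one, one_mul]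
    · simp
  | succ l ih =>
    obtain ⟨q, w, hq, hwm, hwo, hwt⟩ := ih
    obtain ⟨v, hv, hvv, hvq⟩ := P104.Sim.exists_half hna hq
    let f : Fin (2 ^ (l + 1)) ≃ Fin (2 ^ l) × Fin 2 :=
      (finCongr (pow_succ 2 l)).trans finProdFinEquiv.symm
    set a := star v * v with ha
    have haa : a * a = a := isProj_mul_self hv.init
    have hsa : star a = a := isProj_star hv.init
    have hva : v * a = v := hv.eq
    have hav : a * v = 0 := by rw [ha, mul_assoc, hvv, mul_zero]
    have hsva : star v * a = 0 := by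
      have := congrArg star hav
      rwa [star_mul, isProj_star hv.init, star_zero] at this
    have hqa : q * a = a := by
      rw [← hvq, add_mul, haa, mul_assoc, hsva, mul_zero, add_zero]
    have hqv : q * v = v := by
      rw [← hvq, add_mul, hav, hv.eq', zero_add]
    let c : Fin 2 → (H →L[ℂ] H) := ![a, v]
    have hcm : ∀ s, c s ∈ M := fun s => by fin_cases s; exacts [hv.init.1, hv.mem]
    have hqc : ∀ s, q * c s = c s := fun s => by fin_cases s; exacts [hqa, hqv]
    have hcc : ∀ s t, star (c s) * c t = if s = t then a else 0 := fun s t => by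
      fin_cases s <;> fin_cases t <;> simp [c, hsa, haa, hav, hsva, ← ha]
    refine ⟨a, fun k => w (f k).1 * c (f k).2, hv.init, fun k => mul_mem (hwm _) (hcm _),
      fun k m => ?_, ?_⟩
    · rw [star_mul, mul_assoc, ← mul_assoc (star (w _)), hwo]
      by_cases h1 : (f k).1 = (f m).1
      · rw [if_pos h1, hqc, hcc]
        by_cases h2 : (f k).2 = (f m).2
        · rw [if_pos h2, if_pos (f.injective (Prod.ext h1 h2))]
        · rw [if_neg h2, if_neg fun e => h2 (by rw [e])]
      · rw [if_neg h1, zero_mul, mul_zero, if_neg fun e => h1 (by rw [e])]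
    · rw [f.sum_comp fun x => (w x.1 * c x.2) * star (w x.1 * c x.2), Fintype.sum_prod_type, ← hwt]
      refine Finset.sum_congr rfl fun i _ => ?_
      have hwq : w i * q = w i := by
        have h0 : star (w i * (1 - q)) * (w i * (1 - q)) = 0 := by
          rw [star_mul, mul_assoc, ← mul_assoc (star (w i)), hwo, if_pos rfl, mul_sub, mul_one,
            isProj_mul_self hq, sub_self, mul_zero]
        have h1 := (CStarRing.star_mul_self_eq_zero_iff _).1 h0
        rwa [mul_sub, mul_one, sub_eq_zero, eq_comm] at h1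
      rw [Fin.sum_univ_two]
      simp only [c, Matrix.cons_val_zero, Matrix.cons_val_one, star_mul, hsa]
      calc w i * a * (a * star (w i)) + w i * v * (star v * star (w i))
          = w i * (a * a + v * star v) * star (w i) := by
            simp only [mul_add, add_mul, mul_assoc]
        _ = w i * star (w i) := by rw [haa, hvq, hwq]

/-- Countably many elements witness the absence of abelian projections. -/
theorem exists_witness (hna : NoAbelian M) :
    ∃ W : Set (H →L[ℂ] H), W.Countable ∧ (∀ x ∈ W, x ∈ M) ∧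
      ∀ N : ℕ, ∃ n, N < n ∧ ∃ (q : H →L[ℂ] H) (w : Fin n → (H →L[ℂ] H)),
        Equi M q w ∧ q ∈ W ∧ ∀ i, w i ∈ W := by
  choose q w h using exists_equi hna
  refine ⟨⋃ l, insert (q l) (Set.range (w l)),
    Set.countable_iUnion fun l => (Set.countable_range _).insert _, ?_,
    fun N => ⟨2 ^ N, Nat.lt_two_pow_self, q N, w N, h N,
      Set.mem_iUnion.2 ⟨N, Set.mem_insert _ _⟩,
      fun i => Set.mem_iUnion.2 ⟨N, Set.mem_insert_of_mem _ ⟨i, rfl⟩⟩⟩⟩
  intro x hx
  obtain ⟨l, rfl | ⟨i, rfl⟩⟩ := Set.mem_iUnion.1 hx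
  exacts [(h l).proj.1, (h l).mem i]

/-- The families move along star homomorphisms. -/
theorem Equi.map {K : Type v} [NormedAddCommGroup K] [InnerProductSpace ℂ K] [CompleteSpace K]
    {B : VonNeumannAlgebra K} {n : ℕ} {q : H →L[ℂ] H} {w : Fin n → (H →L[ℂ] H)}
    (h : Equi M q w) (π : (H →L[ℂ] H) → (K →L[ℂ] K))
    (hmem : π q ∈ B ∧ ∀ i, π (w i) ∈ B)
    (hmul : ∀ x ∈ M, ∀ y ∈ M, π (x * y) = π x * π y) (hstar : ∀ x ∈ M, π (star x) = star (π x))
    (hadd : ∀ x ∈ M, ∀ y ∈ M, π (x + y) = π x + π y) (h1 : π 1 = 1) :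
    Equi B (π q) fun i => π (w i) := by
  have h0 : π 0 = 0 := by simpa using hadd 0 (zero_mem M) 0 (zero_mem M)
  have hsum : ∀ s : Finset (Fin n),
      π (∑ i ∈ s, w i * star (w i)) = ∑ i ∈ s, π (w i) * star (π (w i)) := by
    intro s
    induction s using Finset.induction with
    | empty => simpa using h0
    | insert a s ha ih =>
      rw [Finset.sum_insert ha, Finset.sum_insert ha,
        hadd _ (mul_mem (h.mem a) (star_mem (h.mem a))) _
          (sum_mem fun i _ => mul_mem (h.mem i) (star_mem (h.mem i))),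
        ih, hmul _ (h.mem a) _ (star_mem (h.mem a)), hstar _ (h.mem a)]
  refine ⟨⟨hmem.1, ?_, ?_⟩, hmem.2, fun i j => ?_, by rw [← hsum, h.total, h1]⟩
  · show π q * π q = π q
    rw [← hmul q h.proj.1 q h.proj.1, isProj_mul_self h.proj]
  · show star (π q) = π q
    rw [← hstar q h.proj.1, isProj_star h.proj]
  · rw [← hstar _ (h.mem i), ← hmul _ (star_mem (h.mem i)) _ (h.mem j), h.orth]
    split_ifs
    exacts [rfl, h0]

/-- A finite algebra with arbitrarily large such families has no abelian projection. -/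
theorem noAbelian_of_equi (hfin : Finite M)
    (h : ∀ N : ℕ, ∃ n, N < n ∧ ∃ (q : H →L[ℂ] H) (w : Fin n → (H →L[ℂ] H)), Equi M q w) :
    NoAbelian M := by
  intro p hp hp0
  by_contra hno
  push Not at hno
  have hab : ∀ r, IsProj M r → p * r = r → cs M r * p = r := fun r hr hpr =>
    P104.Red.abelian_of_no_link hp (fun v hv h1 h2 h3 => by
      by_contra hv0
      exact hno v hv hv0 h1 h2 h3) hr hpr
  obtain ⟨c, k, v, hc, -, hc0, hvm, hvv, hvsum⟩ := P082.exists_units_of_abelian
    P104.Red.IsCentral.one hfin.finite' hp hp0 (one_mul p) hab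
  obtain ⟨z, hz, hcz, hz0, ξ, -, hs, h1, hcomm, hfaith⟩ :=
    exists_trace_piece hc hc0 (hfin.central hc)
  obtain ⟨n, hkn, q, w, hq⟩ := h k
  have hzz : z * z = z := isProj_mul_self hz.proj
  have hzc : z * c = z := by rw [hz.comm c hc.proj.1, hcz]
  -- a part of `q` inside the piece lies below a multiple of `c * p`
  have hzq : z * q ≠ 0 := fun h0 => hz0 (by
    rw [← mul_one z, ← hq.total, Finset.mul_sum]
    refine Finset.sum_eq_zero fun i _ => ?_
    have hwq : w i * q = w i := by
      have e0 : star (w i * (1 - q)) * (w i * (1 - q)) = 0 := by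
        rw [star_mul, mul_assoc, ← mul_assoc (star (w i)), hq.orth, if_pos rfl, mul_sub, mul_one,
          isProj_mul_self hq.proj, sub_self, mul_zero]
      have e1 := (CStarRing.star_mul_self_eq_zero_iff _).1 e0
      rwa [mul_sub, mul_one, sub_eq_zero, eq_comm] at e1
    rw [← mul_assoc, ← hwq, ← mul_assoc, hz.comm _ (hq.mem i), mul_assoc (w i) z q, h0, mul_zero,
      zero_mul])
  obtain ⟨j, hj⟩ : ∃ j, star (v j) * (z * q) ≠ 0 := by
    by_contra hall
    push Not at hall
    refine hzq ?_
    calc z * q = c * (z * q) := by rw [← mul_assoc, hcz]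
      _ = ∑ i, v i * (star (v i) * (z * q)) := by
          rw [← hvsum, Finset.sum_mul]
          simp only [mul_assoc]
      _ = 0 := Finset.sum_eq_zero fun i _ => by rw [hall i, mul_zero]
  have hqz : IsProj M (z * q) := hz.mul_proj hq.proj
  have hcp : IsProj M (c * p) := hc.mul_proj hp
  have hvcp : v j * (c * p) = v j := by
    have e0 : star (v j * (1 - c * p)) * (v j * (1 - c * p)) = 0 := by
      rw [star_mul, mul_assoc, ← mul_assoc (star (v j)), hvv, if_pos rfl, mul_sub, mul_one,
        isProj_mul_self hcp, sub_self, mul_zero]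
    have e1 := (CStarRing.star_mul_self_eq_zero_iff _).1 e0
    rwa [mul_sub, mul_one, sub_eq_zero, eq_comm] at e1
  have hleft : c * p * (star (v j) * (z * q)) = star (v j) * (z * q) := by
    have := congrArg star hvcp
    rw [star_mul, isProj_star hcp] at this
    rw [← mul_assoc, this]
  obtain ⟨u, hu, hu1, -, hur, hul⟩ := P132.Homog.TypeIII.exists_polar
    (M := M) (mul_mem (star_mem (hvm j)) hqz.1)
  have huq : u * (z * q) = u := hur _ hqz.2 (by rw [mul_assoc, isProj_mul_self hqz])
  have hcpu : c * p * u = u := hul _ hleft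
  have hu0 : u ≠ 0 := fun h0 => hj (by
    rw [h0, star_zero, zero_mul, zero_mul] at hu1
    exact (CStarRing.star_mul_self_eq_zero_iff _).1 hu1.symm)
  set r := u * star u with hr
  have hrP : IsProj M r := hu.fin
  have hpr : p * r = r := by
    have : p * u = u := by
      rw [← hcpu, ← mul_assoc, ← mul_assoc, ← hc.comm p hp.1, mul_assoc c p p,
        isProj_mul_self hp]
    rw [hr, ← mul_assoc, this]
  set d := z * cs M r with hd
  have hdc : IsCentral M d := hz.mul (cs_isCentral hrP.1)
  have hzu : z * u = u := by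
    calc z * u = u * z := hz.comm u hu.mem
      _ = u * (z * q) * z := by rw [huq]
      _ = u * (z * (q * z)) := by simp only [mul_assoc]
      _ = u := by rw [← hz.comm q hq.proj.1, ← mul_assoc z z, hzz, huq]
  have hdp : d * p = r := by rw [hd, mul_assoc, hab r hrP hpr, hr, ← mul_assoc, hzu]
  have hdu : d * u = u := by
    calc d * u = d * (u * (star u * u)) := by rw [hu.eq]
      _ = d * r * u := by rw [hr]; simp only [mul_assoc]
      _ = z * (cs M r * r) * u := by rw [hd]; simp only [mul_assoc]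
      _ = z * (u * (star u * u)) := by rw [cs_mul_self, hr]; simp only [mul_assoc]
      _ = u := by rw [hu.eq, hzu]
  -- compare the traces
  have hvs : ∀ x : H →L[ℂ] H, Summable fun i => ⟪ξ i, x (ξ i)⟫_ℂ := fun x =>
    Summable.of_norm_bounded (hs.mul_left ‖x‖) fun k =>
      (norm_inner_le_norm _ _).trans (by nlinarith [x.le_opNorm (ξ k), norm_nonneg (ξ k)])
  have hτsum : ∀ {m : ℕ} (x : Fin m → (H →L[ℂ] H)),
      vecState ξ (∑ i, x i) = ∑ i, vecState ξ (x i) := fun x => by
    simp only [vecState, _root_.sum_apply, inner_sum]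
    exact Summable.tsum_finsetSum fun i _ => hvs _
  let T : (H →L[ℂ] H) → ℝ := fun x => ∑' i, ‖x (ξ i)‖ ^ 2
  have hT : ∀ x, IsProj M x → vecState ξ x = (T x : ℂ) := fun x hx => by
    simp only [vecState, T, Complex.ofReal_tsum]
    refine tsum_congr fun i => ?_
    conv_lhs => rw [← isProj_mul_self hx, mul_apply_eq_comp, ← isProj_star hx]
    rw [ContinuousLinearMap.star_eq_adjoint, ContinuousLinearMap.adjoint_inner_right,
      ← ContinuousLinearMap.star_eq_adjoint, isProj_star hx, inner_self_eq_norm_sq_to_K]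
    norm_cast
  have hsplit : ∀ {m : ℕ} (x : Fin m → (H →L[ℂ] H)) (e : H →L[ℂ] H), (∀ i, x i ∈ M) →
      (∀ i, star (x i) * x i = e) →
      vecState ξ (d * ∑ i, x i * star (x i)) = m * vecState ξ (d * e) := fun x e hx hxe => by
    rw [Finset.mul_sum, hτsum]
    have : ∀ i, vecState ξ (d * (x i * star (x i))) = vecState ξ (d * e) := fun i => by
      rw [← hxe i, ← mul_assoc, hcomm _ (mul_mem hdc.proj.1 (hx i)) _ (star_mem (hx i)),
        ← mul_assoc, ← hdc.comm _ (star_mem (hx i)), mul_assoc]
    simp [this]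
  have hd1 : vecState ξ d = n * vecState ξ (d * q) := by
    rw [← hsplit w q hq.mem fun i => by rw [hq.orth, if_pos rfl], hq.total, mul_one]
  have hd2 : vecState ξ d = k * vecState ξ r := by
    have hdc' : d * c = d := by
      rw [hd, mul_assoc, ← hc.comm _ (cs_isCentral hrP.1).proj.1, ← mul_assoc, hzc]
    have h2 := hsplit v (c * p) hvm fun i => by rw [hvv, if_pos rfl]
    rwa [hvsum, hdc', ← mul_assoc, hdc', hdp] at h2
  have hdqP : IsProj M (d * q) := hdc.mul_proj hq.proj
  set s := star u * u with hs'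
  have hsP : IsProj M s := hu.init
  have hrs : vecState ξ r = vecState ξ s := hcomm _ hu.mem _ (star_mem hu.mem)
  have hle : d * q * s = s := by
    have h1 : z * q * star u = star u := by
      have := congrArg star huq
      rwa [star_mul, isProj_star hqz] at this
    have h2 : d * star u = star u := by
      have := congrArg star hdu
      rw [star_mul, isProj_star hdc.proj] at this
      rw [hdc.comm _ (star_mem hu.mem), this]
    have h3 : q * star u = star u := by
      rw [← h1]
      simp only [← mul_assoc]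
      rw [← hz.comm q hq.proj.1, mul_assoc z q q, isProj_mul_self hq.proj]
    rw [hs', ← mul_assoc, mul_assoc d q, h3, h2]
  have hsub : IsProj M (d * q - s) := sub_isProj hdqP hsP (by
    have := congrArg star hle
    rwa [star_mul, isProj_star hsP, isProj_star hdqP] at this)
  have hTle : T s ≤ T (d * q) := by
    have e : vecState ξ (d * q) = vecState ξ (d * q - s) + vecState ξ s := by
      simp only [vecState]
      rw [← (hvs _).tsum_add (hvs _)]
      exact tsum_congr fun i => by rw [← inner_add_right]; simp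
    rw [hT _ hdqP, hT _ hsub, hT _ hsP, ← Complex.ofReal_add, Complex.ofReal_inj] at e
    have : 0 ≤ T (d * q - s) := tsum_nonneg fun i => sq_nonneg _
    linarith
  have h3 : (n : ℝ) * T (d * q) = k * T s := by
    have := hd1.symm.trans hd2
    rw [hrs, hT _ hdqP, hT _ hsP] at this
    exact_mod_cast this
  have hTpos : 0 < T s := by
    refine lt_of_le_of_ne (tsum_nonneg fun i => sq_nonneg _) fun h0 => hu0 ?_
    have h4 : vecState ξ (star u * u) = 0 := by rw [← hs', hT _ hsP, ← h0]; simp
    exact hfaith u hu.mem hzu h4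
  have h5 : (k : ℝ) < n := by exact_mod_cast hkn
  nlinarith

end Vale.Agent.P096.KK.Reduce
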