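import Vale.Agent.P096.KK.Induced
import Vale.Agent.P096.KK.Rotate
import Vale.Agent.P096.KK.Setting
import Vale.Agent.P096.Linear.Main

/-!
# P096: moving a compression into a nearby algebra
-/

noncomputable section

namespace Vale.Agent.P096.KK.Ind

open ContinuousLinearMap

universe u

variable {K : Type u} [NormedAddCommGroup K] [InnerProductSpace ℂ K] [CompleteSpace K]
variable {L : Type u} [NormedAddCommGroup L] [InnerProductSpace ℂ L] [CompleteSpace L]
variable {A B : VonNeumannAlgebra K} {W₀ W : L →L[ℂ] K}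

theorem norm_flip (x y : L →L[ℂ] L) : ‖x - y‖ = ‖y - x‖ := by
  rw [← opNorm_neg, neg_sub]

theorem cmp_near (hi₀ : ‖W₀‖ ≤ 1) (hi : ‖W‖ ≤ 1) {η : ℝ} (hW : ‖W - W₀‖ ≤ η)
    (a b : K →L[ℂ] K) : ‖cmp W₀ a - cmp W b‖ ≤ ‖a - b‖ + 2 * η * ‖b‖ := by
  have e : cmp W₀ a - cmp W b = cmp W₀ (a - b) + (cmp W₀ b - cmp W b) := by
    rw [cmp_sub]; abel
  rw [e]
  refine (opNorm_add_le _ _).trans (add_le_add (norm_cmp_le hi₀ _) ?_)
  rw [norm_flip]
  exact (cmp_dist hi₀ hi b).trans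
    (mul_le_mul_of_nonneg_right (mul_le_mul_of_nonneg_left hW zero_le_two) (norm_nonneg b))

/-- A compression faithful on `A` is moved to one faithful on a nearby `B`. -/
theorem exists_rotated (hg : Good A W₀) {r r' : ℝ} (hcomm : kkDist A.commutant B.commutant < r)
    (h : kkDist A B < r') (hr : r ≤ 1 / 800) (hsmall : r' + 420 * r < 1 / 2) :
    ∃ W : L →L[ℂ] K, Good B W ∧ ‖W‖ ≤ 1 ∧ ‖W - W₀‖ ≤ 210 * r := by
  set e := W₀ ∘L adjoint W₀ with hedef
  have he : IsStarProjection e := by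
    constructor
    · refine ContinuousLinearMap.ext fun k => ?_
      show W₀ (adjoint W₀ (W₀ (adjoint W₀ k))) = W₀ (adjoint W₀ k)
      rw [hg.iso]
    · show star e = e
      rw [hedef, star_eq_adjoint, adjoint_comp, adjoint_adjoint]
  set s : unitary (K →L[ℂ] K) := ⟨2 * e - 1, he.two_mul_sub_one_mem_unitary⟩
  have hs2 : s * s = 1 := by
    refine Subtype.ext ?_
    show (2 * e - 1) * (2 * e - 1) = 1
    rw [two_mul, mul_sub, sub_mul, mul_one, one_mul, mul_add, add_mul, he.isIdempotentElem.eq]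
    abel
  have hfin : (Subgroup.zpowers s : Set (unitary (K →L[ℂ] K))).Finite :=
    (isOfFinOrder_iff_pow_eq_one.2 ⟨2, two_pos, by rw [pow_two, hs2]⟩).finite_zpowers
  have hsP : Subgroup.zpowers s ≤ uGroup A.commutant := by
    rw [Subgroup.zpowers_le]
    show (2 * e - 1) ∈ A.commutant
    rw [two_mul]
    exact sub_mem (add_mem hg.range_mem hg.range_mem) (one_mem _)
  obtain ⟨v, hv, hv1, hvQ, -, -⟩ := exists_rotate hcomm hr (fun _ => Subgroup.zpowers s)
    monotone_const (fun _ => hfin) (fun _ g hg => hsP hg)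
  obtain ⟨hvs, hvv⟩ := Unitary.mem_iff.1 hv
  have hf : v * e * star v ∈ B.commutant := by
    have h2 : v * (2 * e - 1) * star v ∈ B.commutant := hvQ 0 s (Subgroup.mem_zpowers s)
    have e2 : v * e * star v = (2⁻¹ : ℂ) • (v * (2 * e - 1) * star v + 1) := by
      rw [mul_sub, sub_mul, mul_one, hvv, sub_add_cancel, two_mul, mul_add, add_mul, ← two_smul ℂ,
        smul_smul]
      norm_num
    rw [e2]
    exact SMulMemClass.smul_mem (s := B.commutant.toStarSubalgebra) _ (add_mem h2 (one_mem _))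
  have hWadj : adjoint (v ∘L W₀) = adjoint W₀ ∘L star v := by rw [adjoint_comp, star_eq_adjoint]
  have hiso : ∀ l, adjoint (v ∘L W₀) ((v ∘L W₀) l) = l := fun l => by
    rw [hWadj]
    show adjoint W₀ (star v (v (W₀ l))) = l
    rw [show star v (v (W₀ l)) = W₀ l from
      congrArg (fun f : K →L[ℂ] K => f (W₀ l)) hvs]
    exact hg.iso l
  have hi₀ := norm_le_one_of_iso hg.iso
  have hi := norm_le_one_of_iso hiso
  have hW : ‖v ∘L W₀ - W₀‖ ≤ 210 * r := by
    have e1 : v ∘L W₀ - W₀ = (v - 1) ∘L W₀ := by ext l; simp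
    rw [e1]
    exact (opNorm_comp_le _ _).trans ((mul_le_of_le_one_right (norm_nonneg _) hi₀).trans hv1)
  refine ⟨v ∘L W₀, ⟨hiso, ?_, fun b hb h0 => ?_⟩, hi, hW⟩
  · rw [show (v ∘L W₀) ∘L adjoint (v ∘L W₀) = v * e * star v by rw [hWadj]; rfl]
    exact hf
  · obtain ⟨a, ha, hab⟩ := Linear.exists_near_scaled (M := B) (N := A) (by rwa [kk_comm]) hb
    have hz : cmp (v ∘L W₀) b = 0 := ext fun l => by rw [cmp_apply, h0 l]; simp
    have h1 := cmp_near hi₀ hi hW a b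
    rw [hz, sub_zero, hg.norm_cmp ha, norm_sub_rev] at h1
    have h3 : ‖b‖ ≤ ‖b - a‖ + ‖a‖ := by simpa using norm_add_le (b - a) a
    have h5 : ‖b‖ * (1 - 2 * r' - 420 * r) ≤ 0 := by nlinarith
    have h6 : 0 < 1 - 2 * r' - 420 * r := by
      have : 0 < r := Metric.hausdorffDist_nonneg.trans_lt hcomm
      linarith
    exact norm_eq_zero.1 (le_antisymm (nonpos_of_mul_nonpos_left h5 h6) (norm_nonneg b))

/-- The compressed algebras are close. -/
theorem kkDist_induced (hg₀ : Good A W₀) (hg : Good B W) {r η : ℝ} (hW : ‖W - W₀‖ ≤ η)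
    (h : kkDist A B < r) : kkDist (induced A W₀) (induced B W) ≤ r + 2 * η := by
  have hr : 0 ≤ r := (Metric.hausdorffDist_nonneg.trans_lt h).le
  have hη : 0 ≤ η := (W - W₀).opNorm_nonneg.trans hW
  have hi₀ := norm_le_one_of_iso hg₀.iso
  have hi := norm_le_one_of_iso hg.iso
  refine kk_le (by positivity) ?_ ?_
  · intro X hX hX1
    obtain ⟨a, ha, rfl, hna⟩ := hg₀.exists_lift hX
    obtain ⟨b, hb, hb1, hab⟩ := kk_exists_near h ha (hna.trans hX1)
    exact ⟨cmp W b, hg.cmp_mem hb, (norm_cmp_le hi b).trans hb1, (cmp_near hi₀ hi hW a b).trans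
      (add_le_add hab.le (mul_le_of_le_one_right (by positivity) hb1))⟩
  · intro Y hY hY1
    obtain ⟨b, hb, rfl, hbn⟩ := hg.exists_lift hY
    have hb1 : ‖b‖ ≤ 1 := hbn.trans hY1
    obtain ⟨a, ha, ha1, hab⟩ := kk_exists_near (M := B) (N := A) (by rwa [kk_comm]) hb hb1
    refine ⟨cmp W₀ a, hg₀.cmp_mem ha, (norm_cmp_le hi₀ a).trans ha1, ?_⟩
    rw [norm_flip]
    exact (cmp_near hi₀ hi hW a b).trans
      (add_le_add (by rw [norm_sub_rev]; exact hab.le) (mul_le_of_le_one_right (by positivity) hb1))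

theorem norm_conj_sub_le {w X : L →L[ℂ] L} (hw : w ∈ unitary (L →L[ℂ] L)) :
    ‖w * X * star w - X‖ ≤ 2 * ‖w - 1‖ * ‖X‖ := by
  refine (conjDefect_norm_le w (star w) X).trans ?_
  have h1 : ‖star w - 1‖ = ‖w - 1‖ := by rw [← norm_star, star_sub, star_star, star_one]
  have h2 : ‖star w‖ ≤ 1 := by
    rw [norm_star]; exact Vale.Agent.P104.Sim.norm_le_one_of_unitary (Unitary.mem_iff.1 hw).1
  rw [h1]
  refine mul_le_mul_of_nonneg_right ?_ (norm_nonneg _)
  linarith [mul_le_of_le_one_right (norm_nonneg (w - 1)) h2]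

/-- A unitary between the compressed algebras gives a selection which is near the identity. -/
theorem exists_selection (hg₀ : Good A W₀) (hg : Good B W) {r η θ : ℝ} (hW : ‖W - W₀‖ ≤ η)
    (h : kkDist A B < r) (hr : r ≤ 1) {w : L →L[ℂ] L} (hw : w ∈ unitary (L →L[ℂ] L))
    (hw1 : ‖w - 1‖ ≤ θ)
    (himg : (fun x => w * x * star w) '' (induced A W₀ : Set (L →L[ℂ] L)) = (induced B W : Set _))
    {a : K →L[ℂ] K} (ha : a ∈ A) :
    ∃ b ∈ B, cmp W b = w * cmp W₀ a * star w ∧ ‖b - a‖ ≤ (2 * θ + 2 * r + 4 * η) * ‖a‖ := by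
  have hi₀ := norm_le_one_of_iso hg₀.iso
  have hi := norm_le_one_of_iso hg.iso
  have hm : w * cmp W₀ a * star w ∈ (induced B W : Set _) := by
    rw [← himg]; exact ⟨_, hg₀.cmp_mem ha, rfl⟩
  obtain ⟨b, hb, hbc, -⟩ := hg.exists_lift hm
  refine ⟨b, hb, hbc, ?_⟩
  obtain ⟨n, hn, han⟩ := Linear.exists_near_scaled h ha
  have hna : ‖n‖ ≤ 2 * ‖a‖ := by
    have h1 : ‖n‖ ≤ ‖n - a‖ + ‖a‖ := by simpa using norm_add_le (n - a) a
    rw [norm_sub_rev] at h1
    nlinarith [norm_nonneg a]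
  have hη : 0 ≤ η := (W - W₀).opNorm_nonneg.trans hW
  have h1 : ‖b - n‖ ≤ 2 * θ * ‖a‖ + (r * ‖a‖ + 2 * η * (2 * ‖a‖)) := by
    rw [← hg.norm_cmp (sub_mem hb hn), cmp_sub, hbc]
    have e : w * cmp W₀ a * star w - cmp W n
        = (w * cmp W₀ a * star w - cmp W₀ a) + (cmp W₀ a - cmp W n) := by abel
    rw [e]
    refine (opNorm_add_le _ _).trans (add_le_add ?_ ((cmp_near hi₀ hi hW a n).trans
      (add_le_add han (mul_le_mul_of_nonneg_left hna (by positivity)))))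
    refine (norm_conj_sub_le hw).trans ?_
    refine mul_le_mul (mul_le_mul_of_nonneg_left hw1 zero_le_two) (norm_cmp_le hi₀ a)
      (opNorm_nonneg _) ?_
    linarith [(w - 1).opNorm_nonneg]
  calc ‖b - a‖ ≤ ‖b - n‖ + ‖n - a‖ := norm_sub_le_norm_sub_add_norm_sub _ _ _
    _ ≤ (2 * θ * ‖a‖ + (r * ‖a‖ + 2 * η * (2 * ‖a‖))) + r * ‖a‖ := by
        rw [norm_sub_rev n a]; exact add_le_add h1 han
    _ = _ := by ring

end Vale.Agent.P096.KK.Ind
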