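import Vale.Agent.P096.KK.StdOrbit
import Vale.Agent.P096.KK.RepresentBasic
import Vale.Agent.P096.Commutant
import Vale.Agent.P085.Final.Sep

/-!
# P096: from standard form to an arbitrary representation

Amplify by `ℓ²`, compress `M` to the closed orbit of the trace family and `N` to a nearby projection
of its commutant. Both compressions are faithful, so stability in standard form gives a linear map
`M → N` near the inclusion, and linearly close algebras are conjugate by a unitary near one.
-/

noncomputable section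

namespace Vale.Agent.P096.KK

open ContinuousLinearMap Vale.Agent.P096.KK.Ind
open Vale.Agent.P085 (IsNormalTrace emb separableSpace_lp_two)

universe u

/-- Strong Kadison-Kastler stability for finite algebras without abelian part whose trace orbit is
separable, in any representation. -/
def FiniteTraceKKOrbit : Prop :=
  ∀ θ : ℝ, 0 < θ → ∃ δ : ℝ, 0 < δ ∧ ∀ (H : Type u) [NormedAddCommGroup H] [InnerProductSpace ℂ H]
    [CompleteSpace H] (M N : VonNeumannAlgebra H) (ξ : ℕ → H) (h : IsNormalTrace M ξ),
    TopologicalSpace.SeparableSpace (orbit h) → P104.Sim.NoAbelian M → kkDist M N < δ →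
    Linear.ConjWithin (Linear.carrierSet M) (Linear.carrierSet N) θ

/-- The same for separable spaces. -/
def FiniteTraceKKSep : Prop :=
  ∀ θ : ℝ, 0 < θ → ∃ δ : ℝ, 0 < δ ∧ ∀ (H : Type u) [NormedAddCommGroup H] [InnerProductSpace ℂ H]
    [CompleteSpace H] [TopologicalSpace.SeparableSpace H] (M N : VonNeumannAlgebra H) (ξ : ℕ → H),
    IsNormalTrace M ξ → P104.Sim.NoAbelian M → kkDist M N < δ →
    Linear.ConjWithin (Linear.carrierSet M) (Linear.carrierSet N) θ

theorem representKKOrbit (hS : FiniteStdKK.{u}) : FiniteTraceKKOrbit.{u} := by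
  intro θ hθ
  obtain ⟨k, hk⟩ := commutant_continuity (Linear.distance_formula.{u})
  obtain ⟨δL, hδL, hL⟩ := Linear.linearlyClose.{u} θ hθ
  obtain ⟨δS, hδS, hSt⟩ := hS (δL / 8) (by positivity)
  set C : ℝ := 210 * (|k| * 2 + 1) with hC
  have hC0 : 0 < C := by positivity
  set δ : ℝ := min (δL / (16 * (1 + C))) (min (δS / (16 * (1 + C))) (1 / (1000 * (1 + C))))
  have hδ : 0 < δ := by positivity
  refine ⟨δ, hδ, fun H _ _ _ M N ξ h hsep hna hMN => ?_⟩
  have b1 : δ * (16 * (1 + C)) ≤ δL := (le_div_iff₀ (by positivity)).1 (min_le_left _ _)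
  have b2 : δ * (16 * (1 + C)) ≤ δS :=
    (le_div_iff₀ (by positivity)).1 ((min_le_right _ _).trans (min_le_left _ _))
  have b3 : δ * (1000 * (1 + C)) ≤ 1 :=
    (le_div_iff₀ (by positivity)).1 ((min_le_right _ _).trans (min_le_right _ _))
  have hCδ : 0 ≤ C * δ := by positivity
  have hB : kkDist (bigAlg M) (bigAlg N) < 2 * δ := by linarith [kkDist_bigAlg_le hMN]
  set r : ℝ := |k| * 2 * δ + δ with hr
  have hcomm : kkDist (bigAlg M).commutant (bigAlg N).commutant < r := by
    have h1 := ((hk _ (bigAlg M) (bigAlg N)).trans (mul_le_mul_of_nonneg_right (le_abs_self k)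
      Metric.hausdorffDist_nonneg)).trans (mul_le_mul_of_nonneg_left hB.le (abs_nonneg k))
    linarith
  have hr210 : 210 * r = C * δ := by rw [hr, hC]; ring
  obtain ⟨W, hgW, -, hW⟩ := exists_rotated (good_incl h) hcomm hB (by nlinarith) (by nlinarith)
  rw [hr210] at hW
  have hLd : kkDist (orbAlg h) (induced (bigAlg N) W) < δS :=
    (kkDist_induced (good_incl h) hgW hW hB).trans_lt (by nlinarith)
  obtain ⟨w, hw, hw1, himg⟩ := @hSt (orbit h) _ _ _ hsep (orbAlg h) (induced (bigAlg N) W)
    (orbVec h) (rightMul h) (std h) (noAbelian h hna) hLd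
  have hex : ∀ x : Ind.Mod M, ∃ b ∈ N, cmp W (dia b) = w * act h (x : H →L[ℂ] H) * star w ∧
      ‖b - (x : H →L[ℂ] H)‖ ≤ δL * ‖(x : H →L[ℂ] H)‖ := by
    intro x
    obtain ⟨B, hBm, hBc, hBn⟩ := exists_selection (good_incl h) hgW hW hB (by nlinarith) hw hw1.le
      himg (dia_mem x.2)
    obtain ⟨b, hb, rfl⟩ := mem_bigAlg.1 hBm
    rw [← dia_sub, norm_dia, norm_dia] at hBn
    exact ⟨b, hb, hBc, hBn.trans (mul_le_mul_of_nonneg_right (by nlinarith) (norm_nonneg _))⟩
  choose T hTN hT hTn using hex
  have hinj : ∀ {a b : H →L[ℂ] H}, a ∈ N → b ∈ N → cmp W (dia a) = cmp W (dia b) → a = b :=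
    fun {a b} ha hb e => by
      have h1 := hgW.cmp_injective (dia_mem ha) (dia_mem hb) e
      have h2 := norm_dia (a - b)
      rw [dia_sub, h1, sub_self, norm_zero] at h2
      exact sub_eq_zero.1 (norm_eq_zero.1 h2.symm)
  let TL : Ind.Mod M →ₗ[ℂ] (H →L[ℂ] H) :=
    { toFun := T
      map_add' := fun x y => hinj (hTN _) (add_mem (hTN x) (hTN y)) (by
        rw [dia_add, cmp_add, hT, hT, hT, ← add_mul, ← mul_add]
        simp only [act, AddMemClass.coe_add, dia_add, cmp_add])
      map_smul' := fun c x => hinj (hTN _)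
        (SMulMemClass.smul_mem (s := N.toStarSubalgebra) c (hTN x)) (by
          simp only [RingHom.id_apply]
          rw [dia_smul, cmp_smul, hT, hT, ← smul_mul_assoc, ← mul_smul_comm]
          simp only [act, SetLike.val_smul, dia_smul, cmp_smul]) }
  exact hL H M N (hMN.trans_le (by nlinarith)) TL fun x => ⟨hTN x, hTn x⟩

/-- Stability in standard form gives stability in every separable representation. -/
theorem representKK (hS : FiniteStdKK.{u}) : FiniteTraceKKSep.{u} := by
  intro θ hθ
  obtain ⟨δ, hδ, hmain⟩ := representKKOrbit hS θ hθ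
  refine ⟨δ, hδ, fun H _ _ _ _ M N ξ h hna hMN => hmain H M N ξ h ?_ hna hMN⟩
  have : TopologicalSpace.SeparableSpace (Big H) := separableSpace_lp_two
  have : SecondCountableTopology (Big H) := UniformSpace.secondCountable_of_separable _
  infer_instance

end Vale.Agent.P096.KK
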