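import Vale.Agent.P096.KK.Defs

/-!
# Moving the middle vertex of a long random path (P096, KK/Difference)

The multiplier bound at `c = W_α`, `c' = W_β` controls second differences, in the position of the
middle vertex, of the averaged cochain. The free group only enters through reduced words; everything
is then transferred to words with independent letters and to random assignments of the generators.
-/

noncomputable section

namespace Vale.Agent.P096.KK.Difference

open Finset
open FreeGroup (invRev)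

universe u v

/-! ## Lists -/

section Lists

variable {G : Type u} [Group G] {X : Type*}

/-- The product of the steps of a word. -/
def val (st : X → G) (w : List X) : G := (w.map st).prod

lemma val_append (st : X → G) (u v : List X) : val st (u ++ v) = val st u * val st v := by
  simp [val]

lemma val_nil (st : X → G) : val st [] = 1 := rfl

variable {d : ℕ}

/-- Every pair of reduced words splits at the cancelled part. -/
lemma exists_split (u v : List (Fin d × Bool)) (hu : FreeGroup.IsReduced u) (hv : FreeGroup.IsReduced v) :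
    ∃ u' K v' : List (Fin d × Bool), u = u' ++ K ∧ v = invRev K ++ v' ∧ FreeGroup.IsReduced (u' ++ v') := by
  induction v generalizing u with
  | nil => exact ⟨u, [], [], by simp, by simp [invRev], by simpa using hu⟩
  | cons x v ih =>
    rcases List.eq_nil_or_concat' u with rfl | ⟨u₀, y, rfl⟩
    · exact ⟨[], [], x :: v, rfl, by simp [invRev], by simpa using hv⟩
    by_cases hxy : y.1 = x.1 ∧ y.2 ≠ x.2
    · obtain ⟨u', K, v', h1, h2, h3⟩ := ih u₀ (List.IsChain.left_of_append hu)
        (List.IsChain.tail hv)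
      refine ⟨u', K ++ [y], v', by simp [h1], ?_, h3⟩
      have : x = (y.1, !y.2) := by
        obtain ⟨a, b⟩ := x
        obtain ⟨a', b'⟩ := y
        simp only at hxy
        simp only [Prod.mk.injEq]
        exact ⟨hxy.1.symm, by cases b <;> cases b' <;> simp_all⟩
      simp [invRev, h2, this]
    · refine ⟨u₀ ++ [y], [], x :: v, by simp, by simp [invRev], ?_⟩
      unfold FreeGroup.IsReduced at *
      rw [List.isChain_append]
      refine ⟨hu, hv, fun p hp r hr => ?_⟩
      simp only [List.getLast?_concat, Option.mem_def, Option.some.injEq] at hp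
      simp only [List.head?_cons, Option.mem_def, Option.some.injEq] at hr
      subst hp hr
      intro h
      by_contra h'
      exact hxy ⟨h, h'⟩

lemma invRev_length (K : List (Fin d × Bool)) : (invRev K).length = K.length := by
  simp [invRev]

lemma mk_invRev (K : List (Fin d × Bool)) :
    FreeGroup.mk (invRev K) = (FreeGroup.mk K)⁻¹ := FreeGroup.inv_mk.symm

/-- Admissible middle words at position `j` of `w`. -/
def Adm (w K : List (Fin d × Bool)) (j : ℕ) : Prop :=
  FreeGroup.IsReduced (w.take j ++ K) ∧ FreeGroup.IsReduced (invRev K ++ w.drop j)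

lemma toWord_mk_of_reduced {L : List (Fin d × Bool)} (h : FreeGroup.IsReduced L) :
    FreeGroup.toWord (FreeGroup.mk L) = L := by
  rw [FreeGroup.toWord_mk, h.reduce_eq]

/-- The two factors given by an admissible word. -/
lemma adm_factor {w K : List (Fin d × Bool)} {j : ℕ} (hj : j ≤ w.length) (h : Adm w K j) :
    (FreeGroup.toWord (FreeGroup.mk (w.take j ++ K))).length = j + K.length ∧
      (FreeGroup.toWord ((FreeGroup.mk (w.take j ++ K))⁻¹ * FreeGroup.mk w)).length
        = w.length - j + K.length := by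
  refine ⟨by rw [toWord_mk_of_reduced h.1]; simp [hj], ?_⟩
  have : (FreeGroup.mk (w.take j ++ K))⁻¹ * FreeGroup.mk w
      = FreeGroup.mk (invRev K ++ w.drop j) := by
    rw [← FreeGroup.mul_mk, ← FreeGroup.mul_mk, mk_invRev, mul_inv_rev]
    conv_lhs => enter [2]; rw [← List.take_append_drop j w, ← FreeGroup.mul_mk]
    group
  rw [this, toWord_mk_of_reduced h.2]
  simp [add_comm]

/-- Every factorisation with these lengths comes from an admissible word. -/
lemma factor_adm {w : List (Fin d × Bool)} (hw : FreeGroup.IsReduced w) {j k : ℕ} (hj : j ≤ w.length)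
    (g : FreeGroup (Fin d)) (h1 : (FreeGroup.toWord g).length = j + k)
    (h2 : (FreeGroup.toWord (g⁻¹ * FreeGroup.mk w)).length = w.length - j + k) :
    ∃ K : List (Fin d × Bool), K.length = k ∧ Adm w K j ∧ g = FreeGroup.mk (w.take j ++ K) := by
  obtain ⟨u', K, v', hu, hv, hred⟩ := exists_split _ _ (FreeGroup.isReduced_toWord (x := g))
    (FreeGroup.isReduced_toWord (x := g⁻¹ * FreeGroup.mk w))
  have hw' : u' ++ v' = w := by
    have hprod : FreeGroup.mk w = FreeGroup.mk (u' ++ v') := by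
      calc FreeGroup.mk w = g * (g⁻¹ * FreeGroup.mk w) := by group
        _ = FreeGroup.mk (u' ++ K) * FreeGroup.mk (invRev K ++ v') := by
          rw [← hu, ← hv, FreeGroup.mk_toWord, FreeGroup.mk_toWord]
        _ = FreeGroup.mk (u' ++ v') := by
          rw [← FreeGroup.mul_mk, ← FreeGroup.mul_mk, ← FreeGroup.mul_mk, mk_invRev]; group
    have := congrArg FreeGroup.toWord hprod
    rwa [toWord_mk_of_reduced hw, toWord_mk_of_reduced hred, eq_comm] at this
  have l1 := congrArg List.length hu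
  have l2 := congrArg List.length hv
  have l3 := congrArg List.length hw'
  simp only [List.length_append, invRev_length] at l1 l2 l3
  have hju : u'.length = j := by omega
  have ht : w.take j = u' := by rw [← hw', ← hju, List.take_left]
  have hd : w.drop j = v' := by rw [← hw', ← hju, List.drop_left]
  refine ⟨K, by omega, ⟨?_, ?_⟩, ?_⟩
  · rw [ht, ← hu]; exact FreeGroup.isReduced_toWord
  · rw [hd, ← hv]; exact FreeGroup.isReduced_toWord
  · rw [ht, ← hu, FreeGroup.mk_toWord]

end Lists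
/-! ## Averages -/

section Averages

variable {E : Type v} [NormedAddCommGroup E] [NormedSpace ℝ E] {κ κ' : Type*} [Fintype κ] [Fintype κ']

lemma avg_congr {F F' : κ → E} (h : ∀ x, F x = F' x) : avg F = avg F' := by simp [avg, h]

lemma avg_add (F F' : κ → E) : avg (fun x => F x + F' x) = avg F + avg F' := by
  simp [avg, Finset.sum_add_distrib, smul_add]

lemma avg_sub (F F' : κ → E) : avg (fun x => F x - F' x) = avg F - avg F' := by
  simp [avg, Finset.sum_sub_distrib, smul_sub]

lemma avg_smul (c : ℝ) (F : κ → E) : avg (fun x => c • F x) = c • avg F := by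
  simp [avg, ← Finset.smul_sum, smul_comm c]

lemma avg_const [Nonempty κ] (x : E) : avg (fun _ : κ => x) = x := by
  rw [avg, Finset.sum_const, Finset.card_univ, ← Nat.cast_smul_eq_nsmul ℝ, smul_smul,
    inv_mul_cancel₀ (by exact_mod_cast Fintype.card_ne_zero), one_smul]

lemma avg_sum {σ : Type*} (s : Finset σ) (F : σ → κ → E) :
    avg (fun x => ∑ i ∈ s, F i x) = ∑ i ∈ s, avg (F i) := by
  simp only [avg, ← Finset.smul_sum]
  rw [Finset.sum_comm]

lemma avg_mul (c : ℝ) (F : κ → ℝ) : avg (fun x => c * F x) = c * avg F :=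
  avg_smul c F

lemma avg_le {F F' : κ → ℝ} (h : ∀ x, F x ≤ F' x) : avg F ≤ avg F' := by
  simp only [avg, smul_eq_mul]
  exact mul_le_mul_of_nonneg_left (Finset.sum_le_sum fun x _ => h x) (by positivity)

lemma avg_nonneg {F : κ → ℝ} (h : ∀ x, 0 ≤ F x) : 0 ≤ avg F := by
  simp only [avg, smul_eq_mul]
  exact mul_nonneg (by positivity) (Finset.sum_nonneg fun x _ => h x)

lemma norm_avg_le (F : κ → E) : ‖avg F‖ ≤ avg fun x => ‖F x‖ := by
  simp only [avg, smul_eq_mul]
  refine (norm_smul_le _ _).trans ?_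
  rw [Real.norm_eq_abs, abs_of_nonneg (by positivity)]
  exact mul_le_mul_of_nonneg_left (norm_sum_le _ _) (by positivity)

lemma norm_avg_le_of [Nonempty κ] {F : κ → E} {C : ℝ} (h : ∀ x, ‖F x‖ ≤ C) : ‖avg F‖ ≤ C :=
  (norm_avg_le F).trans ((avg_le h).trans_eq (avg_const C))

lemma avg_equiv (e : κ ≃ κ') (F : κ' → E) : avg (fun x => F (e x)) = avg F := by
  rw [avg, avg, e.sum_comp F, Fintype.card_congr e]

lemma avg_prod (F : κ × κ' → E) : avg F = avg fun x => avg fun y => F (x, y) := by
  simp only [avg, ← Finset.smul_sum, smul_smul, Fintype.card_prod, Fintype.sum_prod_type]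
  push_cast
  rw [mul_inv_rev, mul_comm]

lemma avg_comm (F : κ → κ' → E) :
    (avg fun x => avg fun y => F x y) = avg fun y => avg fun x => F x y := by
  simp only [avg, ← Finset.smul_sum, smul_smul]
  rw [Finset.sum_comm, mul_comm]

lemma avg_sq_le [Nonempty κ] (F : κ → ℝ) : avg F ^ 2 ≤ avg fun x => F x ^ 2 := by
  simp only [avg, smul_eq_mul]
  have h := sq_sum_le_card_mul_sum_sq (s := Finset.univ) (f := F)
  rw [Finset.card_univ] at h
  have hc : (0 : ℝ) < Fintype.card κ := by exact_mod_cast Fintype.card_pos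
  rw [mul_pow, inv_pow, inv_mul_le_iff₀ (by positivity)]
  refine h.trans (le_of_eq ?_)
  field_simp

variable {ι : Type*} [Fintype ι] [Nonempty ι]

/-- Independent coordinates: only the coordinates that are used matter. -/
lemma avg_comp_emb {β γ : Type*} [Fintype β] [Fintype γ] [DecidableEq β] [DecidableEq γ]
    (em : β ↪ γ) (f : (β → ι) → E) :
    (avg fun φ : γ → ι => f (φ ∘ em)) = avg f := by
  classical
  let e : β ⊕ {i // i ∉ Set.range em} ≃ γ :=
    (Equiv.sumCongr (Equiv.ofInjective em em.injective) (Equiv.refl _)).trans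
      (Equiv.Set.sumCompl (Set.range em))
  let E' : (γ → ι) ≃ (β → ι) × ({i // i ∉ Set.range em} → ι) :=
    (e.arrowCongr (Equiv.refl ι)).symm.trans (Equiv.sumArrowEquivProdArrow _ _ _)
  have h1 : (avg fun φ : γ → ι => f (φ ∘ em)) =
      avg fun p : (β → ι) × ({i // i ∉ Set.range em} → ι) => f p.1 := by
    rw [← avg_equiv E']
    exact avg_congr fun b => rfl
  rw [h1, avg_prod]
  exact avg_congr fun b => avg_const (f b)

omit [Nonempty ι] in
/-- Words split into a first and a second part. -/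
lemma avg_append (a b : ℕ) (f : (Fin (a + b) → ι) → E) :
    avg f = avg fun u : Fin a → ι => avg fun v : Fin b → ι => f (Fin.append u v) := by
  rw [← avg_equiv (Fin.appendEquiv a b) f, avg_prod]
  rfl

/-- A prefix of a random word is a random word. -/
lemma avg_take {k' k : ℕ} (h : k' ≤ k) (f : List ι → E) :
    (avg fun K : Fin k → ι => f ((List.ofFn K).take k')) =
      avg fun K : Fin k' → ι => f (List.ofFn K) := by
  obtain ⟨r, rfl⟩ := Nat.exists_eq_add_of_le h
  rw [avg_append]
  refine avg_congr fun u => ?_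
  have : ∀ v : Fin r → ι, f ((List.ofFn (Fin.append u v)).take k') = f (List.ofFn u) := by
    intro v
    rw [List.ofFn_fin_append, List.take_left' List.length_ofFn]
  simp [avg_const]

end Averages

/-! ## The averaged cochain along a word -/

section Cochain

variable {G : Type u} [Group G] {E : Type v} [NormedAddCommGroup E] [NormedSpace ℝ E]
variable {X : Type*} [Fintype X]

/-- The value at the middle vertex given by position `j` of `w` and the word `K`. -/
def term (V : G → G → E) (st : X → G) (w : List X) (j : ℕ) (K : List X) : E :=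
  V (val st (w.take j) * val st K) ((val st (w.take j) * val st K)⁻¹ * val st w)

/-- The average over middle words of length `k`. -/
def gm (V : G → G → E) (st : X → G) (k : ℕ) (w : List X) (j : ℕ) : E :=
  avg fun K : Fin k → X => term V st w j (List.ofFn K)

/-- The average over middle words of length in `[n, 2n)`. -/
def gbar (V : G → G → E) (st : X → G) (n : ℕ) (w : List X) (j : ℕ) : E :=
  (n : ℝ)⁻¹ • ∑ k ∈ Finset.Ico n (2 * n), gm V st k w j

/-- The combination seen by the multiplier bound. -/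
def comb (V : G → G → E) (st : X → G) (w : List X) (j k : ℕ) (K : List X) : E :=
  term V st w j (K.take k) + term V st w j (K.take (k - 2))
    - term V st w (j + 1) (K.take (k - 1)) - term V st w (j - 1) (K.take (k - 1))

/-- Its average. -/
def cmb (V : G → G → E) (st : X → G) (w : List X) (j k : ℕ) : E :=
  avg fun K : Fin k → X => comb V st w j k (List.ofFn K)

variable {V : G → G → E} {C : ℝ} (hC : ∀ g h, ‖V g h‖ ≤ C) (st : X → G)

lemma cmb_eq [Nonempty X] (w : List X) (j k : ℕ) :
    cmb V st w j k = gm V st k w j + gm V st (k - 2) w j - gm V st (k - 1) w (j + 1)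
      - gm V st (k - 1) w (j - 1) := by
  simp only [cmb, comb, avg_sub, avg_add, gm]
  rw [avg_take (le_refl k) (fun K => term V st w j K), avg_take (Nat.sub_le k 2) (fun K => term V st w j K),
    avg_take (Nat.sub_le k 1) (fun K => term V st w (j + 1) K),
    avg_take (Nat.sub_le k 1) (fun K => term V st w (j - 1) K)]

include hC

omit [NormedSpace ℝ E] [Fintype X] in
lemma norm_comb_le (w : List X) (j k : ℕ) (K : List X) : ‖comb V st w j k K‖ ≤ 4 * C := by
  have h : ∀ i L, ‖term V st w i L‖ ≤ C := fun i L => hC _ _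
  refine (norm_sub_le _ _).trans ((add_le_add ((norm_sub_le _ _).trans
    (add_le_add ((norm_add_le _ _).trans (add_le_add (h _ _) (h _ _))) (h _ _))) (h _ _)).trans ?_)
  linarith

lemma norm_gm_le [Nonempty X] (k : ℕ) (w : List X) (j : ℕ) : ‖gm V st k w j‖ ≤ C :=
  norm_avg_le_of fun _ => hC _ _

lemma norm_gbar_le [Nonempty X] {n : ℕ} (hn : 0 < n) (w : List X) (j : ℕ) :
    ‖gbar V st n w j‖ ≤ C := by
  refine (norm_smul_le _ _).trans ?_
  rw [norm_inv, Real.norm_natCast, inv_mul_le_iff₀ (by exact_mod_cast hn)]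
  refine (norm_sum_le_of_le _ fun k _ => norm_gm_le hC st k w j).trans (le_of_eq ?_)
  rw [Finset.sum_const, Nat.card_Ico, nsmul_eq_mul]
  congr 1
  push_cast [show 2 * n - n = n by omega]
  rfl

/-- Averaging over `k` turns the combination into a second difference in the position. -/
lemma second_diff_le [Nonempty X] {n : ℕ} (hn : 2 ≤ n) (w : List X) (j : ℕ) :
    ‖gbar V st n w (j + 2) + gbar V st n w j - (2 : ℝ) • gbar V st n w (j + 1)‖ ≤
      (n : ℝ)⁻¹ * (∑ k ∈ Finset.Ico n (2 * n), ‖cmb V st w (j + 1) k‖) + 8 * C / n := by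
  have hn0 : (0 : ℝ) < n := by exact_mod_cast (by omega : 0 < n)
  set g : ℕ → ℕ → E := fun i k => gm V st k w i with hg
  have htel : ∀ (i : ℕ), ‖∑ k ∈ Finset.Ico n (2 * n), (g i k - g i (k - 1))‖ ≤ 2 * C := by
    intro i
    have h : ∀ b, n ≤ b → ∑ k ∈ Finset.Ico n b, (g i k - g i (k - 1)) = g i (b - 1) - g i (n - 1) := by
      intro b hb
      induction b, hb using Nat.le_induction with
      | base => simp
      | succ b hb ih =>
        rw [Finset.sum_Ico_succ_top hb, ih, show b + 1 - 1 = b by omega]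
        abel
    rw [h _ (by omega)]
    refine (norm_sub_le _ _).trans ?_
    have := norm_gm_le hC st (2 * n - 1) w i
    have := norm_gm_le hC st (n - 1) w i
    simp only [hg]; linarith
  have htel2 : ‖∑ k ∈ Finset.Ico n (2 * n), (g (j + 1) k - g (j + 1) (k - 2))‖ ≤ 4 * C := by
    have h : ∀ b, n ≤ b → ∑ k ∈ Finset.Ico n b, (g (j + 1) k - g (j + 1) (k - 2)) =
        g (j + 1) (b - 1) + g (j + 1) (b - 2) - g (j + 1) (n - 1) - g (j + 1) (n - 2) := by
      intro b hb
      induction b, hb using Nat.le_induction with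
      | base => simp
      | succ b hb ih =>
        rw [Finset.sum_Ico_succ_top hb, ih, show b + 1 - 1 = b by omega,
          show b + 1 - 2 = b - 1 by omega]
        abel
    rw [h _ (by omega)]
    refine (norm_sub_le _ _).trans ((add_le_add ((norm_sub_le _ _).trans (add_le_add
      ((norm_add_le _ _).trans (add_le_add (norm_gm_le hC st _ w _) (norm_gm_le hC st _ w _)))
      (norm_gm_le hC st _ w _))) (norm_gm_le hC st _ w _)).trans ?_)
    linarith
  have key : gbar V st n w (j + 2) + gbar V st n w j - (2 : ℝ) • gbar V st n w (j + 1) =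
      (n : ℝ)⁻¹ • (-(∑ k ∈ Finset.Ico n (2 * n), cmb V st w (j + 1) k)
        + (∑ k ∈ Finset.Ico n (2 * n), (g (j + 2) k - g (j + 2) (k - 1)))
        + (∑ k ∈ Finset.Ico n (2 * n), (g j k - g j (k - 1)))
        - (∑ k ∈ Finset.Ico n (2 * n), (g (j + 1) k - g (j + 1) (k - 2)))) := by
    simp only [cmb_eq, gbar, hg, Nat.add_sub_cancel, show j + 1 + 1 = j + 2 by rfl,
      Finset.sum_sub_distrib, Finset.sum_add_distrib, smul_sub, smul_add, smul_neg, two_smul]
    abel
  rw [key]
  refine (norm_smul_le _ _).trans ?_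
  rw [norm_inv, Real.norm_natCast]
  refine (mul_le_mul_of_nonneg_left ((norm_sub_le _ _).trans (add_le_add ((norm_add_le _ _).trans
    (add_le_add ((norm_add_le _ _).trans (add_le_add ((norm_neg _).trans_le (norm_sum_le _ _))
      (htel (j + 2)))) (htel j))) htel2)) (by positivity)).trans (le_of_eq ?_)
  ring

omit hC

/-- A first difference from second differences. -/
lemma first_diff_le (f : ℕ → E) {C : ℝ} (hf : ∀ i, ‖f i‖ ≤ C) (j : ℕ) {m : ℕ} (hm : 0 < m) :
    ‖f (j + 1) - f j‖ ≤ 2 * C / m +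
      ∑ t ∈ Finset.range m, ‖f (j + t + 2) + f (j + t) - (2 : ℝ) • f (j + t + 1)‖ := by
  set S := ∑ t ∈ Finset.range m, ‖f (j + t + 2) + f (j + t) - (2 : ℝ) • f (j + t + 1)‖ with hS
  have hstep : ∀ i ≤ m, ‖(f (j + i + 1) - f (j + i)) - (f (j + 1) - f j)‖ ≤ S := by
    intro i hi
    have h := norm_sum_le (Finset.range i)
      (fun t => f (j + t + 2) + f (j + t) - (2 : ℝ) • f (j + t + 1))
    have htel : ∑ t ∈ Finset.range i, (f (j + t + 2) + f (j + t) - (2 : ℝ) • f (j + t + 1)) =
        (f (j + i + 1) - f (j + i)) - (f (j + 1) - f j) := by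
      clear hi h
      induction i with
      | zero => simp
      | succ i ih => rw [Finset.sum_range_succ, ih, two_smul,
          show j + (i + 1) + 1 = j + i + 2 by omega, show j + (i + 1) = j + i + 1 by omega]; abel
    rw [htel] at h
    exact h.trans (Finset.sum_le_sum_of_subset_of_nonneg (Finset.range_mono hi)
      fun _ _ _ => norm_nonneg _)
  have hsum : (m : ℝ) • (f (j + 1) - f j) = (f (j + m) - f j)
      - ∑ i ∈ Finset.range m, ((f (j + i + 1) - f (j + i)) - (f (j + 1) - f j)) := by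
    rw [Finset.sum_sub_distrib, Finset.sum_const, Finset.card_range, Nat.cast_smul_eq_nsmul]
    have : ∑ i ∈ Finset.range m, (f (j + i + 1) - f (j + i)) = f (j + m) - f j := by
      have h := Finset.sum_range_sub (fun i => f (j + i)) m
      simpa [add_assoc] using h
    rw [this]; abel
  have hm0 : (0 : ℝ) < m := by exact_mod_cast hm
  have hb : (m : ℝ) * ‖f (j + 1) - f j‖ ≤ 2 * C + m * S := by
    rw [← abs_of_pos hm0, ← Real.norm_eq_abs, ← norm_smul, hsum, Real.norm_eq_abs, abs_of_pos hm0]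
    refine (norm_sub_le _ _).trans (add_le_add ?_ ?_)
    · exact (norm_sub_le _ _).trans ((add_le_add (hf _) (hf _)).trans_eq (two_mul C).symm)
    · refine (norm_sum_le_of_le _ fun i hi => hstep i (Finset.mem_range.mp hi).le).trans ?_
      simp
  rw [div_add' _ _ _ hm0.ne', le_div_iff₀ hm0]
  linarith

end Cochain

/-! ## Random assignments of the generators -/

section Transfer

variable {G : Type u} [Group G] {E : Type v} [NormedAddCommGroup E] [NormedSpace ℝ E]
variable {ι : Type} [Fintype ι] [Nonempty ι] {d : ℕ}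

/-- The step of a letter. -/
def lab (i : ι ≃ ι) (φ : Fin d → ι) (x : Fin d × Bool) : ι := cond x.2 (φ x.1) (i (φ x.1))

/-- The generators of a word. -/
def gens {l : ℕ} (w : Fin l → Fin d × Bool) : Fin l → Fin d := fun a => (w a).1

lemma avg_gen_eq [NeZero d] (c : Fin d) :
    (avg fun x : Fin d × Bool => if x.1 = c then (1 : ℝ) else 0) = 1 / d := by
  have hd : (d : ℝ) ≠ 0 := by exact_mod_cast NeZero.ne d
  rw [avg_prod]
  have : ∀ x : Fin d, (avg fun _ : Bool => if x = c then (1 : ℝ) else 0) = if x = c then 1 else 0 :=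
    fun x => avg_const _
  refine (avg_congr this).trans ?_
  simp [avg]

lemma avg_bad_word [NeZero d] {l k : ℕ} (w : Fin l → Fin d × Bool) :
    (avg fun K : Fin k → Fin d × Bool =>
      if Function.Injective (gens K) ∧ (∀ a b, gens K a ≠ gens w b) then (0 : ℝ) else 1) ≤
      ((k : ℝ) * k + k * l) / d := by
  classical
  have hd : (0 : ℝ) < d := by exact_mod_cast Nat.pos_of_ne_zero (NeZero.ne d)
  have hpt : ∀ K : Fin k → Fin d × Bool,
      (if Function.Injective (gens K) ∧ (∀ a b, gens K a ≠ gens w b) then (0 : ℝ) else 1) ≤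
        (∑ a : Fin k, ∑ b : Fin k, if a ≠ b ∧ gens K a = gens K b then 1 else 0)
          + ∑ a : Fin k, ∑ b : Fin l, if gens K a = gens w b then 1 else 0 := by
    intro K
    have h1 : 0 ≤ ∑ a : Fin k, ∑ b : Fin k, if a ≠ b ∧ gens K a = gens K b then (1 : ℝ) else 0 :=
      Finset.sum_nonneg fun a _ => Finset.sum_nonneg fun b _ => by split_ifs <;> norm_num
    have h2 : 0 ≤ ∑ a : Fin k, ∑ b : Fin l, if gens K a = gens w b then (1 : ℝ) else 0 :=
      Finset.sum_nonneg fun a _ => Finset.sum_nonneg fun b _ => by split_ifs <;> norm_num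
    split_ifs with h
    · exact add_nonneg h1 h2
    by_cases hK : Function.Injective (gens K)
    · obtain ⟨a, b, hab⟩ : ∃ a b, gens K a = gens w b := by
        by_contra hc; push Not at hc; exact h ⟨hK, hc⟩
      have : (1 : ℝ) ≤ ∑ a : Fin k, ∑ b : Fin l, if gens K a = gens w b then (1 : ℝ) else 0 := by
        refine le_trans ?_ (Finset.single_le_sum (fun a _ => Finset.sum_nonneg fun b _ => by
          split_ifs <;> norm_num) (Finset.mem_univ a))
        refine le_trans ?_ (Finset.single_le_sum (fun b _ => by split_ifs <;> norm_num)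
          (Finset.mem_univ b))
        simp [hab]
      linarith
    · obtain ⟨a, b, hab, hne⟩ := Function.not_injective_iff.mp hK
      have : (1 : ℝ) ≤ ∑ a : Fin k, ∑ b : Fin k,
          if a ≠ b ∧ gens K a = gens K b then (1 : ℝ) else 0 := by
        refine le_trans ?_ (Finset.single_le_sum (fun a _ => Finset.sum_nonneg fun b _ => by
          split_ifs <;> norm_num) (Finset.mem_univ a))
        refine le_trans ?_ (Finset.single_le_sum (fun b _ => by split_ifs <;> norm_num)
          (Finset.mem_univ b))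
        simp [hne, hab]
      linarith
  refine (avg_le hpt).trans ?_
  rw [avg_add, avg_sum, avg_sum, add_div]
  refine add_le_add ?_ ?_
  · refine (Finset.sum_le_sum (g := fun _ => (k : ℝ) / d) fun a _ => ?_).trans_eq (by simp [mul_div_assoc])
    rw [avg_sum]
    refine (Finset.sum_le_sum (g := fun _ => 1 / (d : ℝ)) fun b _ => ?_).trans_eq (by simp [div_eq_mul_inv])
    by_cases hab : a = b
    · simp [hab, avg]
    let em : Fin 2 ↪ Fin k := ⟨![a, b], fun p q => by
      fin_cases p <;> fin_cases q <;> simp [hab, Ne.symm hab]⟩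
    simp only [hab, ne_eq, not_false_eq_true, true_and, gens]
    refine ((avg_comp_emb (ι := Fin d × Bool) em
      (fun z : Fin 2 → Fin d × Bool => if (z 0).1 = (z 1).1 then (1 : ℝ) else 0)).trans ?_).le
    rw [← avg_equiv (finTwoArrowEquiv (Fin d × Bool)).symm, avg_prod, avg_comm]
    simp [avg_gen_eq, avg_const, finTwoArrowEquiv]
  · refine (Finset.sum_le_sum (g := fun _ => (l : ℝ) / d) fun a _ => ?_).trans_eq (by simp [mul_div_assoc])
    rw [avg_sum]
    refine (Finset.sum_le_sum (g := fun _ => 1 / (d : ℝ)) fun b _ => ?_).trans_eq (by simp [div_eq_mul_inv])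
    let em : Fin 1 ↪ Fin k := ⟨fun _ => a, fun p q _ => Subsingleton.elim p q⟩
    refine ((avg_comp_emb (ι := Fin d × Bool) em
      (fun z : Fin 1 → Fin d × Bool => if (z 0).1 = gens w b then (1 : ℝ) else 0)).trans ?_).le
    rw [← avg_equiv (Equiv.funUnique (Fin 1) (Fin d × Bool)).symm]
    simp [avg_gen_eq]

lemma avg_not_injective [NeZero d] (l : ℕ) :
    (avg fun w : Fin l → Fin d × Bool =>
      if Function.Injective (gens w) then (0 : ℝ) else 1) ≤ (l : ℝ) * l / d := by
  have h := avg_bad_word (d := d) (k := l) (Fin.elim0 : Fin 0 → Fin d × Bool)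
  simpa using h

/-- Distinct generators receive independent steps. -/
lemma transfer [NeZero d] (V : G → G → E) {C : ℝ} (hC : ∀ g h, ‖V g h‖ ≤ C) (a : ι → G)
    (i : ι ≃ ι) (hai : ∀ x, a (i x) = (a x)⁻¹) (l j k : ℕ) :
    (avg fun u : Fin l → ι => ‖cmb V a (List.ofFn u) j k‖) ≤
      (avg fun φ : Fin d → ι => avg fun w : Fin l → Fin d × Bool =>
        ‖cmb V (fun x => cond x.2 (a (φ x.1)) (a (φ x.1))⁻¹) (List.ofFn w) j k‖)
      + 8 * C * (((l : ℝ) + k) ^ 2 / d) := by
  classical
  have hC0 : 0 ≤ C := le_trans (norm_nonneg _) (hC 1 1)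
  set st : (Fin d → ι) → Fin d × Bool → G := fun φ x => cond x.2 (a (φ x.1)) (a (φ x.1))⁻¹ with hst
  have hlab : ∀ φ x, st φ x = a (lab i φ x) := by
    intro φ x; rcases x with ⟨g, b⟩; cases b <;> simp [hst, lab, hai]
  set T : List ι → List ι → E := fun u v => comb V a u j k v with hT
  have hval : ∀ φ (L : List (Fin d × Bool)), val (st φ) L = val a (L.map (lab i φ)) := by
    intro φ L
    rw [show st φ = fun x => a (lab i φ x) from funext (hlab φ)]
    simp [val, List.map_map, Function.comp_def]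
  have hcomb : ∀ φ (w K : List (Fin d × Bool)),
      comb V (st φ) w j k K = T (w.map (lab i φ)) (K.map (lab i φ)) := by
    intro φ w K
    simp [hT, comb, term, hval, List.map_take]
  have hpoint : ∀ w : Fin l → Fin d × Bool,
      (avg fun u : Fin l → ι => ‖cmb V a (List.ofFn u) j k‖) ≤
        (avg fun φ : Fin d → ι => ‖cmb V (st φ) (List.ofFn w) j k‖)
        + (4 * C * (if Function.Injective (gens w) then 0 else 1)
          + 8 * C * (((k : ℝ) * k + k * l) / d)) := by
    intro w
    have hnn : 0 ≤ 8 * C * (((k : ℝ) * k + k * l) / d) := by positivity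
    by_cases hw : Function.Injective (gens w)
    swap
    · rw [if_neg hw]
      have h1 := avg_nonneg (F := fun φ : Fin d → ι => ‖cmb V (st φ) (List.ofFn w) j k‖)
        fun _ => norm_nonneg _
      have h2 : (avg fun u : Fin l → ι => ‖cmb V a (List.ofFn u) j k‖) ≤ 4 * C :=
        (avg_le fun u => norm_avg_le_of fun _ => norm_comb_le hC a _ j k _).trans_eq
          (avg_const (κ := Fin l → ι) (4 * C))
      linarith
    rw [if_pos hw, mul_zero, zero_add]
    -- twist by the signs and split off the generators of the word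
    let tw : (Fin l → ι) ≃ (Fin l → ι) :=
      Equiv.piCongrRight fun b => if (w b).2 then Equiv.refl ι else i
    let e : Fin l ⊕ {g // g ∉ Set.range (gens w)} ≃ Fin d :=
      (Equiv.sumCongr (Equiv.ofInjective _ hw) (Equiv.refl _)).trans
        (Equiv.Set.sumCompl (Set.range (gens w)))
    let Φ : (Fin l → ι) × ({g // g ∉ Set.range (gens w)} → ι) ≃ (Fin d → ι) :=
      (Equiv.prodCongr tw.symm (Equiv.refl _)).trans
        ((Equiv.sumArrowEquivProdArrow _ _ _).symm.trans (e.arrowCongr (Equiv.refl ι)))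
    have hΦw : ∀ p, (List.ofFn w).map (lab i (Φ p)) = List.ofFn p.1 := by
      intro p
      rw [List.map_ofFn]
      congr 1
      funext b
      have : Φ p (gens w b) = tw.symm p.1 b := by
        have he : e.symm (gens w b) = Sum.inl b := by
          rw [Equiv.symm_apply_eq]; rfl
        simp [Φ, Equiv.arrowCongr, he, Equiv.sumArrowEquivProdArrow]
      simp only [Function.comp_apply, lab, gens] at this ⊢
      rw [this]
      cases h : (w b).2 <;> simp [tw, Equiv.piCongrRight, h]
    have hφ : (avg fun φ : Fin d → ι => ‖cmb V (st φ) (List.ofFn w) j k‖) =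
        avg fun u : Fin l → ι => avg fun ψ : {g // g ∉ Set.range (gens w)} → ι =>
          ‖avg fun K : Fin k → Fin d × Bool =>
            T (List.ofFn u) ((List.ofFn K).map (lab i (Φ (u, ψ))))‖ := by
      rw [← avg_equiv Φ, avg_prod]
      refine avg_congr fun u => avg_congr fun ψ => ?_
      simp only [cmb, hcomb, hΦw]
    rw [hφ, ← avg_const (κ := Fin l → ι) (8 * C * (((k : ℝ) * k + k * l) / d)), ← avg_add]
    refine avg_le fun u => ?_
    refine le_trans ?_ (add_le_add (norm_avg_le _) le_rfl)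
    set x := avg fun ψ : {g // g ∉ Set.range (gens w)} → ι =>
      avg fun K : Fin k → Fin d × Bool => T (List.ofFn u) ((List.ofFn K).map (lab i (Φ (u, ψ))))
    have hdiff : ‖cmb V a (List.ofFn u) j k - x‖ ≤ 8 * C * (((k : ℝ) * k + k * l) / d) := by
      have hx : cmb V a (List.ofFn u) j k - x = avg fun K : Fin k → Fin d × Bool =>
          (avg fun v : Fin k → ι => T (List.ofFn u) (List.ofFn v))
            - avg fun ψ : {g // g ∉ Set.range (gens w)} → ι =>
              T (List.ofFn u) ((List.ofFn K).map (lab i (Φ (u, ψ)))) := by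
        rw [avg_sub, avg_const]
        simp only [x]
        rw [avg_comm]
        rfl
      rw [hx]
      refine (norm_avg_le _).trans ((avg_le (F' := fun K : Fin k → Fin d × Bool => (8 * C) •
        (if Function.Injective (gens K) ∧ (∀ p q, gens K p ≠ gens w q) then (0 : ℝ) else 1))
        fun K => ?_).trans ?_)
      · by_cases hK : Function.Injective (gens K) ∧ ∀ p q, gens K p ≠ gens w q
        · rw [if_pos hK, smul_zero]
          apply le_of_eq
          rw [norm_eq_zero, sub_eq_zero]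
          let em : Fin k ↪ {g // g ∉ Set.range (gens w)} :=
            ⟨fun p => ⟨gens K p, fun ⟨q, hq⟩ => hK.2 p q hq.symm⟩,
              fun p q hpq => hK.1 (congrArg Subtype.val hpq)⟩
          let tK : (Fin k → ι) ≃ (Fin k → ι) :=
            Equiv.piCongrRight fun b => if (K b).2 then Equiv.refl ι else i
          rw [← avg_equiv tK (fun v => T (List.ofFn u) (List.ofFn v)), ← avg_comp_emb em]
          refine avg_congr fun ψ => ?_
          rw [List.map_ofFn]
          congr 2
          funext p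
          have he : e.symm (gens K p) = Sum.inr (em p) := by
            rw [Equiv.symm_apply_eq]; rfl
          have : Φ (u, ψ) (gens K p) = ψ (em p) := by
            simp [Φ, Equiv.arrowCongr, he, Equiv.sumArrowEquivProdArrow]
          simp only [Function.comp_apply, lab, gens] at this ⊢
          rw [this]
          cases h : (K p).2 <;> simp [tK, Equiv.piCongrRight, h]
        · rw [if_neg hK, smul_eq_mul, mul_one]
          exact (norm_sub_le _ _).trans ((add_le_add
            (norm_avg_le_of fun _ => norm_comb_le hC a _ j k _)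
            (norm_avg_le_of fun _ => norm_comb_le hC a _ j k _)).trans (by linarith))
      · rw [avg_smul, smul_eq_mul]
        exact mul_le_mul_of_nonneg_left (avg_bad_word w) (by positivity)
    have := norm_le_norm_sub_add (cmb V a (List.ofFn u) j k) x
    linarith
  refine le_trans ?_ (le_of_eq_of_le (by rw [avg_comm]) le_rfl)
  rw [← avg_const (κ := Fin l → Fin d × Bool) (avg fun u : Fin l → ι => ‖cmb V a (List.ofFn u) j k‖)]
  refine (avg_le hpoint).trans ?_
  rw [avg_add, avg_add, avg_const]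
  simp only [← smul_eq_mul (4 * C), avg_smul]
  rw [smul_eq_mul]
  have h1 := mul_le_mul_of_nonneg_left (avg_not_injective (d := d) l) (by positivity : (0:ℝ) ≤ 4 * C)
  have h2 : 4 * C * ((l : ℝ) * l / d) + 8 * C * (((k : ℝ) * k + k * l) / d)
      ≤ 8 * C * (((l : ℝ) + k) ^ 2 / d) := by
    rw [← mul_div_assoc, ← mul_div_assoc, ← mul_div_assoc, ← add_div]
    gcongr
    nlinarith [mul_nonneg (mul_nonneg hC0 (Nat.cast_nonneg l)) (Nat.cast_nonneg k),
      mul_nonneg hC0 (mul_self_nonneg (l : ℝ))]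
  linarith

end Transfer

/-! ## The multiplier bound on reduced words -/

section Free

variable {G : Type u} [Group G] {E : Type v} [NormedAddCommGroup E] [NormedSpace ℝ E] {d : ℕ}

/-- The image of a letter. -/
def img (ρ : FreeGroup (Fin d) →* G) (x : Fin d × Bool) : G := ρ (FreeGroup.mk [x])

lemma val_img (ρ : FreeGroup (Fin d) →* G) (L : List (Fin d × Bool)) :
    val (img ρ) L = ρ (FreeGroup.mk L) := by
  induction L with
  | nil => rw [val_nil, ← FreeGroup.one_eq_mk, map_one]
  | cons x L ih =>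
    rw [show x :: L = [x] ++ L from rfl, val_append, ih, ← FreeGroup.mul_mk, map_mul]
    simp [val, img]

open scoped Classical in
/-- The admissible part of `gm`, normalised by `q ^ k`. -/
def fr (V : G → G → E) (ρ : FreeGroup (Fin d) →* G) (k : ℕ) (w : List (Fin d × Bool)) (j : ℕ) : E :=
  ((2 * (d : ℝ) - 1) ^ k)⁻¹ •
    ∑ K ∈ Finset.univ.filter (fun K : Fin k → Fin d × Bool => Adm w (List.ofFn K) j),
      term V (img ρ) w j (List.ofFn K)

/-- The combination read off by the multiplier bound. -/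
def cfr (V : G → G → E) (ρ : FreeGroup (Fin d) →* G) (w : List (Fin d × Bool)) (j k : ℕ) : E :=
  fr V ρ k w j + fr V ρ (k - 2) w j - fr V ρ (k - 1) w (j + 1) - fr V ρ (k - 1) w (j - 1)

open scoped Classical in
/-- The square sum over reduced words. -/
def Y (V : G → G → E) (ρ : FreeGroup (Fin d) →* G) (l j k : ℕ) : ℝ :=
  ((2 * (d : ℝ) - 1) ^ l)⁻¹ *
    ∑ w ∈ Finset.univ.filter (fun w : Fin l → Fin d × Bool => FreeGroup.IsReduced (List.ofFn w)),
      ‖cfr V ρ (List.ofFn w) j k‖ ^ 2

lemma mem_sphere {n : ℕ} {g : FreeGroup (Fin d)} :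
    g ∈ sphere d n ↔ (FreeGroup.toWord g).length = n := by
  simp only [sphere, Finset.mem_filter, Finset.mem_image, Finset.mem_univ, true_and,
    and_iff_right_iff_imp]
  intro h
  subst h
  exact ⟨(FreeGroup.toWord g).get, by rw [List.ofFn_get, FreeGroup.mk_toWord]⟩

lemma piece_eq (V : G → G → E) (ρ : FreeGroup (Fin d) →* G) {w : List (Fin d × Bool)}
    (hw : FreeGroup.IsReduced w) {a b j k : ℕ} (hj : j ≤ w.length) (ha : a = j + k)
    (hb : b = w.length - j + k) :
    (∑ g ∈ sphere d a, ∑ h ∈ sphere d b, if g * h = FreeGroup.mk w then V (ρ g) (ρ h) else 0) =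
      (2 * (d : ℝ) - 1) ^ k • fr V ρ k w j := by
  classical
  have h1 : ∀ g ∈ sphere d a,
      (∑ h ∈ sphere d b, if g * h = FreeGroup.mk w then V (ρ g) (ρ h) else 0) =
        if g⁻¹ * FreeGroup.mk w ∈ sphere d b then V (ρ g) (ρ (g⁻¹ * FreeGroup.mk w)) else 0 := by
    intro g _
    simp only [← eq_inv_mul_iff_mul_eq]
    rw [Finset.sum_ite_eq']
  rw [Finset.sum_congr rfl h1, ← Finset.sum_filter]
  rcases eq_or_ne d 0 with rfl | hd
  · -- no letters
    have hw0 : w = [] := by
      rcases w with _ | ⟨x, w⟩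
      · rfl
      · exact x.1.elim0
    subst hw0
    have hj0 : j = 0 := by simpa using hj
    subst hj0
    have : ∀ g : FreeGroup (Fin 0), g = 1 := fun g => by
      rw [← FreeGroup.mk_toWord (x := g)]
      rcases FreeGroup.toWord g with _ | ⟨x, _⟩
      · exact FreeGroup.one_eq_mk.symm
      · exact x.1.elim0
    rcases Nat.eq_zero_or_pos k with rfl | hk
    · have h0 : sphere 0 a = {1} := by
        ext g; simp [mem_sphere, this g, ha]
      simp [h0, mem_sphere, hb, fr, Adm, term, val, Finset.filter_singleton,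
        FreeGroup.IsReduced, ← FreeGroup.one_eq_mk, List.ofFn_zero]
    · have h0 : sphere 0 a = ∅ := by
        ext g; simp [mem_sphere, this g, ha]; omega
      have : IsEmpty (Fin k → Fin 0 × Bool) := ⟨fun f => (f ⟨0, hk⟩).1.elim0⟩
      simp [h0, fr]
  have hq : (2 * (d : ℝ) - 1) ^ k ≠ 0 := by
    apply pow_ne_zero
    have : (1 : ℝ) ≤ d := by exact_mod_cast Nat.pos_of_ne_zero hd
    linarith
  rw [fr, smul_smul, mul_inv_cancel₀ hq, one_smul]
  symm
  refine Finset.sum_bij (fun K _ => FreeGroup.mk (w.take j ++ List.ofFn K)) ?_ ?_ ?_ ?_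
  · intro K hK
    obtain ⟨l1, l2⟩ := adm_factor hj (Finset.mem_filter.mp hK).2
    rw [List.length_ofFn] at l1 l2
    exact Finset.mem_filter.mpr ⟨mem_sphere.mpr (l1.trans ha.symm), mem_sphere.mpr (l2.trans hb.symm)⟩
  · intro K hK K' hK' h
    have h' := congrArg FreeGroup.toWord h
    rw [toWord_mk_of_reduced (Finset.mem_filter.mp hK).2.1,
      toWord_mk_of_reduced (Finset.mem_filter.mp hK').2.1] at h'
    exact List.ofFn_injective (List.append_cancel_left h')
  · intro g hg
    rw [Finset.mem_filter, mem_sphere, mem_sphere] at hg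
    obtain ⟨K, hK, hA, rfl⟩ := factor_adm hw hj g (hg.1.trans ha) (hg.2.trans hb)
    subst hK
    exact ⟨K.get, by simp [List.ofFn_get, hA], by rw [List.ofFn_get]⟩
  · intro K _
    rw [term, ← val_append, val_img, val_img, map_mul, map_inv]

open scoped Classical in
/-- The coefficient of `V` in the product of two coefficient functions. -/
def coef (V : G → G → E) (ρ : FreeGroup (Fin d) →* G) (α β : ℕ) (p : FreeGroup (Fin d)) : E :=
  ∑ z ∈ ((sphere d α ∪ sphere d (α - 2)) ×ˢ (sphere d β ∪ sphere d (β - 2))).filter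
      (fun z => z.1 * z.2 = p),
    (wCoef d α z.1 * wCoef d β z.2) • V (ρ z.1) (ρ z.2)

lemma coef_eq (V : G → G → E) (ρ : FreeGroup (Fin d) →* G) (hd : 2 ≤ d) {α β k : ℕ}
    (hk : 2 ≤ k) (hα : k < α) (hβ : k < β) {w : List (Fin d × Bool)}
    (hw : FreeGroup.IsReduced w) (hl : w.length = α + β - 2 * k) :
    coef V ρ α β (FreeGroup.mk w) =
      (Real.sqrt (2 * d - 1) ^ w.length)⁻¹ • cfr V ρ w (α - k) k := by
  classical
  have hdis : ∀ γ, 2 ≤ γ → Disjoint (sphere d γ) (sphere d (γ - 2)) := by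
    intro γ hγ
    rw [Finset.disjoint_left]
    intro g h1 h2
    rw [mem_sphere] at h1 h2
    omega
  have hc1 : ∀ γ, ∀ g ∈ sphere d γ, wCoef d γ g = (Real.sqrt (2 * d - 1) ^ γ)⁻¹ := by
    intro γ g hg
    rw [mem_sphere] at hg
    simp [wCoef, hg]
  have hc2 : ∀ γ, 2 ≤ γ → ∀ g ∈ sphere d (γ - 2),
      wCoef d γ g = -(Real.sqrt (2 * d - 1) ^ (γ - 2))⁻¹ := by
    intro γ hγ g hg
    rw [mem_sphere] at hg
    rw [wCoef, if_neg (by omega), if_pos (by omega)]
  have hpiece : ∀ (a b : ℕ) (x y : ℝ), (∀ g ∈ sphere d a, wCoef d α g = x) →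
      (∀ h ∈ sphere d b, wCoef d β h = y) → ∀ j k', j ≤ w.length → a = j + k' →
      b = w.length - j + k' →
      (∑ g ∈ sphere d a, ∑ h ∈ sphere d b,
        if g * h = FreeGroup.mk w then (wCoef d α g * wCoef d β h) • V (ρ g) (ρ h) else 0) =
        (x * y * (2 * (d : ℝ) - 1) ^ k') • fr V ρ k' w j := by
    intro a b x y hx hy j k' hj ha hb
    rw [mul_smul, ← piece_eq V ρ hw hj ha hb, Finset.smul_sum]
    refine Finset.sum_congr rfl fun g hg => ?_
    rw [Finset.smul_sum]
    refine Finset.sum_congr rfl fun h hh => ?_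
    rw [hx g hg, hy h hh, smul_ite, smul_zero]
  set s := Real.sqrt (2 * d - 1) with hs
  have hq0 : (0 : ℝ) < 2 * d - 1 := by
    have : (2 : ℝ) ≤ d := by exact_mod_cast hd
    linarith
  have hss : (2 * (d : ℝ) - 1) = s ^ 2 := (Real.sq_sqrt hq0.le).symm
  have hs0 : s ≠ 0 := (Real.sqrt_pos.mpr hq0).ne'
  have hsc : ∀ a b k', a + b = w.length + 2 * k' →
      (s ^ a)⁻¹ * (s ^ b)⁻¹ * (2 * (d : ℝ) - 1) ^ k' = (s ^ w.length)⁻¹ := by
    intro a b k' h
    rw [← mul_inv, ← pow_add, h, pow_add, hss, ← pow_mul]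
    field_simp
  rw [coef, Finset.sum_filter, Finset.sum_product, Finset.sum_union (hdis α (by omega))]
  simp only [Finset.sum_union (hdis β (by omega)), Finset.sum_add_distrib]
  rw [hpiece α β _ _ (hc1 α) (hc1 β) (α - k) k (by omega) (by omega) (by omega),
    hpiece α (β - 2) _ _ (hc1 α) (hc2 β (by omega)) (α - k + 1) (k - 1) (by omega) (by omega) (by omega),
    hpiece (α - 2) β _ _ (hc2 α (by omega)) (hc1 β) (α - k - 1) (k - 1) (by omega) (by omega) (by omega),
    hpiece (α - 2) (β - 2) _ _ (hc2 α (by omega)) (hc2 β (by omega)) (α - k) (k - 2) (by omega)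
      (by omega) (by omega)]
  simp only [neg_mul, mul_neg, neg_neg]
  rw [hsc α β k (by omega), hsc α (β - 2) (k - 1) (by omega), hsc (α - 2) β (k - 1) (by omega),
    hsc (α - 2) (β - 2) (k - 2) (by omega), cfr]
  simp only [smul_add, smul_sub, neg_smul]
  abel

/-- The multiplier bound, read on reduced words. -/
lemma sum_Y_le (hsph : SpheresOut) {V : G → G → E} {D N : ℕ} {B : ℝ} (hM : MultHyp V D N B)
    (hd : 2 ≤ d) (hdD : d ≤ D) (ρ : FreeGroup (Fin d) →* G) {α β : ℕ} (hα : α ≤ N) (hβ : β ≤ N)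
    (Ks : Finset ℕ) (hKs : ∀ k ∈ Ks, 2 ≤ k ∧ k < α ∧ k < β) :
    ∑ k ∈ Ks, Y V ρ (α + β - 2 * k) (α - k) k ≤ B ^ 2 := by
  classical
  rcases Ks.eq_empty_or_nonempty with rfl | ⟨k0, hk0⟩
  · simpa using sq_nonneg B
  have hα2 : 2 ≤ α := by have := hKs k0 hk0; omega
  have hβ2 : 2 ≤ β := by have := hKs k0 hk0; omega
  have hlen : ∀ γ, γ ≤ N → ∀ g ∈ sphere d γ ∪ sphere d (γ - 2), (FreeGroup.toWord g).length ≤ N := by
    intro γ hγ g hg
    rw [Finset.mem_union, mem_sphere, mem_sphere] at hg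
    omega
  have hb := hM d hdD ρ _ _ _ _ (hlen α hα) (hlen β hβ) (hsph d α hd hα2) (hsph d β hd hβ2)
  let P : ℕ → Finset (FreeGroup (Fin d)) := fun k =>
    (Finset.univ.filter fun w : Fin (α + β - 2 * k) → Fin d × Bool =>
      FreeGroup.IsReduced (List.ofFn w)).image fun w => FreeGroup.mk (List.ofFn w)
  have hP : ∀ k, ∀ p ∈ P k, (FreeGroup.toWord p).length = α + β - 2 * k := by
    intro k p hp
    simp only [P, Finset.mem_image, Finset.mem_filter, Finset.mem_univ, true_and] at hp
    obtain ⟨w, hw, rfl⟩ := hp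
    rw [toWord_mk_of_reduced hw, List.length_ofFn]
  have hY : ∀ k ∈ Ks, Y V ρ (α + β - 2 * k) (α - k) k = ∑ p ∈ P k, ‖coef V ρ α β p‖ ^ 2 := by
    intro k hk
    rw [Y, Finset.mul_sum, Finset.sum_image]
    · refine Finset.sum_congr rfl fun w hw => ?_
      have hk' := hKs k hk
      rw [coef_eq V ρ hd hk'.1 hk'.2.1 hk'.2.2 (Finset.mem_filter.mp hw).2 List.length_ofFn,
        norm_smul, mul_pow, norm_inv, norm_pow, Real.norm_eq_abs, abs_of_nonneg (Real.sqrt_nonneg _),
        inv_pow, ← pow_mul, mul_comm (List.ofFn w).length 2, pow_mul, Real.sq_sqrt, List.length_ofFn]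
      have : (2 : ℝ) ≤ d := by exact_mod_cast hd
      linarith
    · intro w hw w' hw' h
      have h' := congrArg FreeGroup.toWord h
      rw [toWord_mk_of_reduced (Finset.mem_filter.mp hw).2,
        toWord_mk_of_reduced (Finset.mem_filter.mp hw').2] at h'
      exact List.ofFn_injective h'
  rw [Finset.sum_congr rfl hY, ← Finset.sum_biUnion]
  swap
  · intro k hk k' hk' hne
    change Disjoint (P k) (P k')
    rw [Finset.disjoint_left]
    intro p hp hp'
    have := hP k p hp
    have := hP k' p hp'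
    have := hKs k hk
    have := hKs k' hk'
    omega
  refine le_trans ?_ hb
  rw [show (∑ p ∈ ((sphere d α ∪ sphere d (α - 2)) ×ˢ (sphere d β ∪ sphere d (β - 2))).image
      (fun z => z.1 * z.2), ‖∑ z ∈ ((sphere d α ∪ sphere d (α - 2)) ×ˢ (sphere d β ∪ sphere d (β - 2))).filter
      (fun z => z.1 * z.2 = p), (wCoef d α z.1 * wCoef d β z.2) • V (ρ z.1) (ρ z.2)‖ ^ 2)
    = ∑ p ∈ ((sphere d α ∪ sphere d (α - 2)) ×ˢ (sphere d β ∪ sphere d (β - 2))).image
      (fun z => z.1 * z.2), ‖coef V ρ α β p‖ ^ 2 from rfl]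
  refine le_trans (Finset.sum_le_sum_of_subset_of_nonneg Finset.subset_union_right
    fun _ _ _ => by positivity) (le_of_eq (Finset.sum_subset Finset.subset_union_left ?_).symm)
  intro p _ hp
  rw [coef, Finset.filter_eq_empty_iff.mpr, Finset.sum_empty, norm_zero, zero_pow two_ne_zero]
  intro z hz h
  exact hp (Finset.mem_image.mpr ⟨z, hz, h⟩)

lemma reduced_of_nodup {L : List (Fin d × Bool)} (h : (L.map Prod.fst).Nodup) :
    FreeGroup.IsReduced L :=
  (((List.pairwise_map.mp h).imp fun hab h' => absurd h' hab)).isChain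

lemma adm_of_inj {l k : ℕ} {w : Fin l → Fin d × Bool} (hw : Function.Injective (gens w))
    {K : Fin k → Fin d × Bool} (hK : Function.Injective (gens K))
    (hd : ∀ a b, gens K a ≠ gens w b) (j : ℕ) : Adm (List.ofFn w) (List.ofFn K) j := by
  have hwN : ((List.ofFn w).map Prod.fst).Nodup := by
    rw [List.map_ofFn]; exact List.nodup_ofFn.mpr hw
  have hKN : ((List.ofFn K).map Prod.fst).Nodup := by
    rw [List.map_ofFn]; exact List.nodup_ofFn.mpr hK
  have hne : ∀ x ∈ (List.ofFn K).map Prod.fst, ∀ y ∈ (List.ofFn w).map Prod.fst, x ≠ y := by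
    simp only [List.map_ofFn, List.mem_ofFn']
    rintro x ⟨a, rfl⟩ y ⟨b, rfl⟩
    exact hd a b
  constructor <;> refine reduced_of_nodup ?_ <;> rw [List.map_append, List.nodup_append]
  · refine ⟨hwN.sublist ((List.take_sublist _ _).map _), hKN, fun x hx y hy => ?_⟩
    exact (hne y hy x (((List.take_sublist _ _).map _).subset hx)).symm
  · have hrev : (invRev (List.ofFn K)).map Prod.fst = ((List.ofFn K).map Prod.fst).reverse := by
      simp [invRev, List.map_reverse, Function.comp_def]
    rw [hrev]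
    refine ⟨List.nodup_reverse.mpr hKN, hwN.sublist ((List.drop_sublist _ _).map _), fun x hx y hy => ?_⟩
    exact hne x (List.mem_reverse.mp hx) y (((List.drop_sublist _ _).map _).subset hy)

lemma Y_nonneg (V : G → G → E) (ρ : FreeGroup (Fin d) →* G) (hd : 2 ≤ d) (l j k : ℕ) :
    0 ≤ Y V ρ l j k := by
  have : (2 : ℝ) ≤ d := by exact_mod_cast hd
  exact mul_nonneg (inv_nonneg.mpr (pow_nonneg (by linarith) _)) (Finset.sum_nonneg fun _ _ => by positivity)

lemma norm_gm_sub_fr_le {V : G → G → E} {C : ℝ} (hC : ∀ g h, ‖V g h‖ ≤ C)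
    (ρ : FreeGroup (Fin d) →* G) (hd : 2 ≤ d) {l : ℕ} {w : Fin l → Fin d × Bool}
    (hw : Function.Injective (gens w)) (j : ℕ) {k : ℕ} (hk : k ≤ d) :
    ‖gm V (img ρ) k (List.ofFn w) j - fr V ρ k (List.ofFn w) j‖ ≤ C * (2 * (((l : ℝ) + k) ^ 2 / d)) := by
  classical
  have : NeZero d := ⟨by omega⟩
  have hC0 : 0 ≤ C := le_trans (norm_nonneg _) (hC 1 1)
  have hd0 : (0 : ℝ) < d := by exact_mod_cast (by omega : 0 < d)
  have hd1 : (2 : ℝ) ≤ d := by exact_mod_cast hd
  have hq : (0 : ℝ) < 2 * d - 1 := by linarith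
  have hkd : (k : ℝ) / d ≤ 1 := by rw [div_le_one hd0]; exact_mod_cast hk
  set x : ℝ := ((2 * (d : ℝ) - 1) ^ k)⁻¹ * (2 * d : ℝ) ^ k with hx
  have hx1 : 1 ≤ x := by
    rw [hx, le_inv_mul_iff₀ (pow_pos hq k), mul_one]
    exact pow_le_pow_left₀ hq.le (by linarith) k
  have hxk : x ≤ 1 + k / d := by
    have hb := one_add_mul_le_pow (a := -1 / (2 * (d : ℝ))) (by rw [le_div_iff₀ (by positivity)]; linarith) k
    have hinv : (1 + -1 / (2 * (d : ℝ))) ^ k = ((2 * (d : ℝ) - 1) ^ k) / (2 * d : ℝ) ^ k := by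
      rw [← div_pow]; congr 1; field_simp; ring
    rw [hinv, le_div_iff₀ (by positivity)] at hb
    rw [hx, inv_mul_le_iff₀ (pow_pos hq k)]
    have hp : (0 : ℝ) ≤ 1 + k / d := by positivity
    refine le_trans ?_ (mul_le_mul_of_nonneg_right hb hp)
    have he : (1 + (k : ℝ) * (-1 / (2 * d))) * (1 + k / d) = 1 + (k / d) * (1 - k / d) / 2 := by
      field_simp; ring
    have : 1 ≤ (1 + (k : ℝ) * (-1 / (2 * d))) * (1 + k / d) := by
      rw [he]
      have : 0 ≤ (k : ℝ) / d * (1 - k / d) := mul_nonneg (by positivity) (by linarith)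
      linarith
    nlinarith [pow_pos (show (0 : ℝ) < 2 * d by positivity) k]
  have hfr : fr V ρ k (List.ofFn w) j = avg fun K : Fin k → Fin d × Bool =>
      (if Adm (List.ofFn w) (List.ofFn K) j then x else 0) • term V (img ρ) (List.ofFn w) j (List.ofFn K) := by
    simp only [fr, avg, ite_smul, zero_smul, ← Finset.sum_filter, ← Finset.smul_sum, smul_smul]
    congr 1
    rw [hx]
    simp [mul_comm (2 : ℝ) d]
    field_simp
  rw [gm, hfr, ← avg_sub]
  refine (norm_avg_le _).trans ((avg_le (F' := fun K : Fin k → Fin d × Bool => C • ((k : ℝ) / d +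
    (if Function.Injective (gens K) ∧ (∀ a b, gens K a ≠ gens w b) then (0 : ℝ) else 1)))
    fun K => ?_).trans ?_)
  · rw [smul_eq_mul]
    generalize hT : term V (img ρ) (List.ofFn w) j (List.ofFn K) = T
    have hTC : ‖T‖ ≤ C := hT ▸ hC _ _
    rw [show T - (if Adm (List.ofFn w) (List.ofFn K) j then x else 0) • T
      = (1 - if Adm (List.ofFn w) (List.ofFn K) j then x else 0) • T by rw [sub_smul, one_smul],
      norm_smul, Real.norm_eq_abs, mul_comm C]
    refine mul_le_mul ?_ hTC (norm_nonneg _) (by split_ifs <;> positivity)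
    by_cases hA : Adm (List.ofFn w) (List.ofFn K) j
    · rw [if_pos hA, abs_sub_comm, abs_of_nonneg (by linarith)]
      split_ifs <;> linarith
    · rw [if_neg hA, if_neg (fun h => hA (adm_of_inj hw h.1 h.2 j))]
      simp
      positivity
  · rw [avg_smul, avg_add, avg_const, smul_eq_mul]
    refine mul_le_mul_of_nonneg_left ((add_le_add le_rfl (avg_bad_word w)).trans ?_) hC0
    rw [← add_div, ← mul_div_assoc, div_le_div_iff_of_pos_right hd0]
    rcases Nat.eq_zero_or_pos k with rfl | hk1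
    · simp
    · have : (1 : ℝ) ≤ k := by exact_mod_cast hk1
      nlinarith [Nat.cast_nonneg (α := ℝ) l]

/-- Words with independent letters against reduced words. -/
lemma compare {V : G → G → E} {C : ℝ} (hC : ∀ g h, ‖V g h‖ ≤ C) (ρ : FreeGroup (Fin d) →* G)
    (hd : 2 ≤ d) (l j : ℕ) {k : ℕ} (hk : k ≤ d) :
    (avg fun w : Fin l → Fin d × Bool => ‖cmb V (img ρ) (List.ofFn w) j k‖) ≤
      Real.sqrt (Y V ρ l j k) + 12 * C * (((l : ℝ) + k) ^ 2 / d) := by
  classical
  have : NeZero d := ⟨by omega⟩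
  have hC0 : 0 ≤ C := le_trans (norm_nonneg _) (hC 1 1)
  set E2 : ℝ := ((l : ℝ) + k) ^ 2 / d with hE2
  have hE0 : 0 ≤ E2 := by positivity
  have hpt : ∀ w : Fin l → Fin d × Bool, ‖cmb V (img ρ) (List.ofFn w) j k‖ ≤
      (if FreeGroup.IsReduced (List.ofFn w) then ‖cfr V ρ (List.ofFn w) j k‖ else 0) +
        (8 * C * E2 + 4 * C * (if Function.Injective (gens w) then 0 else 1)) := by
    intro w
    by_cases hw : Function.Injective (gens w)
    · have hr : FreeGroup.IsReduced (List.ofFn w) :=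
        reduced_of_nodup (by rw [List.map_ofFn]; exact List.nodup_ofFn.mpr hw)
      rw [if_pos hr, if_pos hw, mul_zero, add_zero]
      refine le_trans (norm_le_norm_add_norm_sub' _ (cfr V ρ (List.ofFn w) j k)) (add_le_add le_rfl ?_)
      rw [cmb_eq]
      have hb : ∀ k' j', k' ≤ k →
          ‖gm V (img ρ) k' (List.ofFn w) j' - fr V ρ k' (List.ofFn w) j'‖ ≤ 2 * C * E2 := by
        intro k' j' hk'
        refine (norm_gm_sub_fr_le hC ρ hd hw j' (hk'.trans hk)).trans ?_
        rw [hE2, mul_comm 2 C, mul_assoc]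
        gcongr
      have e : ∀ a b c e a' b' c' e' : E,
          a + b - c - e - (a' + b' - c' - e') = (a - a') + (b - b') - (c - c') - (e - e') := by
        intros; abel
      rw [cfr, e]
      refine (norm_sub_le _ _).trans ((add_le_add ((norm_sub_le _ _).trans
        (add_le_add ((norm_add_le _ _).trans (add_le_add (hb _ _ le_rfl) (hb _ _ (Nat.sub_le k 2))))
          (hb _ _ (Nat.sub_le k 1)))) (hb _ _ (Nat.sub_le k 1))).trans (le_of_eq ?_))
      ring
    · rw [if_neg hw, mul_one]
      have h1 : ‖cmb V (img ρ) (List.ofFn w) j k‖ ≤ 4 * C :=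
        norm_avg_le_of fun _ => norm_comb_le hC _ _ j k _
      have h2 : 0 ≤ 8 * C * E2 := by positivity
      have h3 : 0 ≤ (if FreeGroup.IsReduced (List.ofFn w) then ‖cfr V ρ (List.ofFn w) j k‖ else 0) := by
        split_ifs <;> simp
      linarith
  refine (avg_le hpt).trans ?_
  rw [avg_add, avg_add, avg_const]
  have hinj : (avg fun w : Fin l → Fin d × Bool =>
      4 * C * (if Function.Injective (gens w) then 0 else 1)) ≤ 4 * C * E2 := by
    simp only [← smul_eq_mul (4 * C), avg_smul]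
    rw [smul_eq_mul, smul_eq_mul]
    refine mul_le_mul_of_nonneg_left ((avg_not_injective l).trans ?_) (by positivity)
    rw [hE2]
    gcongr
    nlinarith [Nat.cast_nonneg (α := ℝ) l, Nat.cast_nonneg (α := ℝ) k]
  have hmain : (avg fun w : Fin l → Fin d × Bool =>
      if FreeGroup.IsReduced (List.ofFn w) then ‖cfr V ρ (List.ofFn w) j k‖ else 0)
      ≤ Real.sqrt (Y V ρ l j k) := by
    refine Real.le_sqrt_of_sq_le ((avg_sq_le _).trans ?_)
    simp only [ite_pow, zero_pow two_ne_zero, avg, smul_eq_mul, ← Finset.sum_filter, Y]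
    have hd1 : (2 : ℝ) ≤ d := by exact_mod_cast hd
    refine mul_le_mul_of_nonneg_right ?_ (Finset.sum_nonneg fun _ _ => by positivity)
    simp only [Fintype.card_fun, Fintype.card_fin, Fintype.card_prod, Fintype.card_bool]
    push_cast
    gcongr
    · exact pow_pos (by linarith) l
    · linarith
    · linarith
  linarith

end Free

/-! ## Summing over a box of positions and lengths -/

section Box

variable {G : Type u} [Group G] {E : Type v} [NormedAddCommGroup E] [NormedSpace ℝ E]
variable {ι : Type} [Fintype ι] [Nonempty ι]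

/-- The averaged combinations at position `i` of words of length `l`. -/
def S (V : G → G → E) (a : ι → G) (n l i : ℕ) : ℝ :=
  avg fun u : Fin l → ι => ∑ k ∈ Finset.Ico n (2 * n), ‖cmb V a (List.ofFn u) i k‖

omit [Nonempty ι] in
lemma S_nonneg (V : G → G → E) (a : ι → G) (n l i : ℕ) : 0 ≤ S V a n l i :=
  avg_nonneg fun _ => Finset.sum_nonneg fun _ _ => norm_nonneg _

/-- The box of positions and lengths. -/
def box (n : ℕ) : Finset (ℕ × ℕ) := Finset.Icc 1 (4 * n) ×ˢ Finset.Icc 1 (4 * n)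

lemma sum_sqrt_le {σ : Type*} (s : Finset σ) (f : σ → ℝ) (hf : ∀ x ∈ s, 0 ≤ f x) {M A : ℝ}
    (hs : (s.card : ℝ) ≤ M) (hA : ∑ x ∈ s, f x ≤ A) :
    ∑ x ∈ s, Real.sqrt (f x) ≤ Real.sqrt (M * A) := by
  refine Real.le_sqrt_of_sq_le (sq_sum_le_card_mul_sum_sq.trans ?_)
  rw [Finset.sum_congr rfl fun x hx => Real.sq_sqrt (hf x hx)]
  exact mul_le_mul hs hA (Finset.sum_nonneg hf) ((Nat.cast_nonneg _).trans hs)

lemma box_bound (hsph : SpheresOut) {V : G → G → E} {C B : ℝ} (hC : ∀ g h, ‖V g h‖ ≤ C)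
    (hB : 0 ≤ B) (a : ι → G) (ha : IsSymm a) {n d : ℕ} (hn : 2 ≤ n) (hd : 2 * n ≤ d)
    (hM : MultHyp V d (6 * n) B) :
    ∑ p ∈ box n, S V a n (p.1 + p.2) p.1 ≤
      24 * (n : ℝ) ^ 2 * Real.sqrt n * B + 32000 * C * (n : ℝ) ^ 5 / d := by
  classical
  have hd2 : 2 ≤ d := by omega
  have : NeZero d := ⟨by omega⟩
  have hd0 : (0 : ℝ) < d := by exact_mod_cast (by omega : 0 < d)
  have hC0 : 0 ≤ C := le_trans (norm_nonneg _) (hC 1 1)
  obtain ⟨σ, -, hσ⟩ := ha
  set tt : Finset (ℕ × ℕ × ℕ) :=
    Finset.Ico n (2 * n) ×ˢ Finset.Icc 1 (4 * n) ×ˢ Finset.Icc 1 (4 * n) with htt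
  have hcard : (tt.card : ℝ) = 16 * (n : ℝ) ^ 3 := by
    simp only [htt, Finset.card_product, Nat.card_Ico, Nat.card_Icc]
    rw [show 2 * n - n = n by omega, show 4 * n + 1 - 1 = 4 * n by omega]
    push_cast
    ring
  have hmem : ∀ q ∈ tt, n ≤ q.1 ∧ q.1 < 2 * n ∧ 1 ≤ q.2.1 ∧ q.2.1 ≤ 4 * n ∧ 1 ≤ q.2.2 ∧
      q.2.2 ≤ 4 * n := by
    intro q hq
    simp only [htt, Finset.mem_product, Finset.mem_Ico, Finset.mem_Icc] at hq
    omega
  have hswap : ∑ p ∈ box n, S V a n (p.1 + p.2) p.1 =
      ∑ q ∈ tt, avg fun u : Fin (q.2.1 + q.2.2) → ι => ‖cmb V a (List.ofFn u) q.2.1 q.1‖ := by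
    simp only [S, avg_sum]
    rw [Finset.sum_comm, htt, Finset.sum_product, box]
  set ρ : (Fin d → ι) → FreeGroup (Fin d) →* G := fun φ => FreeGroup.lift fun g => a (φ g) with hρ
  have himg : ∀ φ, img (ρ φ) = fun x => cond x.2 (a (φ x.1)) (a (φ x.1))⁻¹ := by
    intro φ; funext x; simp [img, hρ, FreeGroup.lift_mk]
  have hterm : ∀ q ∈ tt, (avg fun u : Fin (q.2.1 + q.2.2) → ι => ‖cmb V a (List.ofFn u) q.2.1 q.1‖) ≤
      (avg fun φ : Fin d → ι => Real.sqrt (Y V (ρ φ) (q.2.1 + q.2.2) q.2.1 q.1))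
        + 2000 * C * (n : ℝ) ^ 2 / d := by
    intro q hq
    obtain ⟨h1, h2, h3, h4, h5, h6⟩ := hmem q hq
    refine (transfer (d := d) V hC a σ hσ _ _ _).trans ?_
    have hcmp : (avg fun φ : Fin d → ι => avg fun w : Fin (q.2.1 + q.2.2) → Fin d × Bool =>
        ‖cmb V (fun x => cond x.2 (a (φ x.1)) (a (φ x.1))⁻¹) (List.ofFn w) q.2.1 q.1‖) ≤
        (avg fun φ : Fin d → ι => Real.sqrt (Y V (ρ φ) (q.2.1 + q.2.2) q.2.1 q.1))
          + 12 * C * ((((q.2.1 + q.2.2 : ℕ) : ℝ) + q.1) ^ 2 / d) := by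
      refine (avg_le fun φ => ?_).trans_eq ((avg_add _ _).trans (congrArg₂ _ rfl (avg_const _)))
      rw [← himg]
      exact compare hC (ρ φ) hd2 _ _ (by omega)
    have hsz : (((q.2.1 + q.2.2 : ℕ) : ℝ) + q.1) ^ 2 / d ≤ 100 * (n : ℝ) ^ 2 / d := by
      have : (((q.2.1 + q.2.2 : ℕ) : ℝ) + q.1) ≤ 10 * n := by
        exact_mod_cast (by omega : q.2.1 + q.2.2 + q.1 ≤ 10 * n)
      rw [show (100 : ℝ) * (n : ℝ) ^ 2 = (10 * n) ^ 2 by ring]
      gcongr
    have := mul_le_mul_of_nonneg_left hsz hC0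
    have e : 2000 * C * (n : ℝ) ^ 2 / d = 20 * (C * (100 * (n : ℝ) ^ 2 / d)) := by ring
    linarith
  have hY : ∀ φ : Fin d → ι,
      ∑ q ∈ tt, Y V (ρ φ) (q.2.1 + q.2.2) q.2.1 q.1 ≤ 36 * (n : ℝ) ^ 2 * B ^ 2 := by
    intro φ
    set ab : Finset (ℕ × ℕ) := Finset.range (6 * n) ×ˢ Finset.range (6 * n) with hab
    have hmap : ∀ q ∈ tt, (q.2.1 + q.1, q.2.2 + q.1) ∈ ab := by
      intro q hq
      obtain ⟨h1, h2, h3, h4, h5, h6⟩ := hmem q hq
      simp only [hab, Finset.mem_product, Finset.mem_range]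
      omega
    rw [← Finset.sum_fiberwise_of_maps_to hmap]
    refine (Finset.sum_le_sum (g := fun _ => B ^ 2) fun p hp => ?_).trans_eq ?_
    · have hp' : p.1 < 6 * n ∧ p.2 < 6 * n := by
        simpa [hab] using hp
      have hKs := sum_Y_le hsph hM hd2 le_rfl (ρ φ) (α := p.1) (β := p.2) hp'.1.le hp'.2.le
        ((tt.filter fun q => (q.2.1 + q.1, q.2.2 + q.1) = p).image fun q => q.1) (by
          intro k hk
          simp only [Finset.mem_image, Finset.mem_filter] at hk
          obtain ⟨q, ⟨hq, rfl⟩, rfl⟩ := hk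
          obtain ⟨h1, h2, h3, h4, h5, h6⟩ := hmem q hq
          simp only
          omega)
      rw [Finset.sum_image] at hKs
      · refine le_trans (Finset.sum_le_sum fun q hq => ?_) hKs
        obtain ⟨hq, rfl⟩ := Finset.mem_filter.mp hq
        simp only [show q.2.1 + q.1 + (q.2.2 + q.1) - 2 * q.1 = q.2.1 + q.2.2 by omega,
          show q.2.1 + q.1 - q.1 = q.2.1 by omega]
        exact le_rfl
      · intro q hq q' hq' h
        have e1 := (Finset.mem_filter.mp hq).2
        rw [← (Finset.mem_filter.mp hq').2, Prod.mk.injEq] at e1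
        have h' : q.1 = q'.1 := h
        simp only [Prod.ext_iff]
        omega
    · rw [Finset.sum_const, hab, Finset.card_product, Finset.card_range, nsmul_eq_mul]
      push_cast
      ring
  have hmain : (avg fun φ : Fin d → ι => ∑ q ∈ tt, Real.sqrt (Y V (ρ φ) (q.2.1 + q.2.2) q.2.1 q.1))
      ≤ 24 * (n : ℝ) ^ 2 * Real.sqrt n * B := by
    refine (avg_le fun φ => sum_sqrt_le tt _ (fun q _ => Y_nonneg V (ρ φ) hd2 _ _ _) hcard.le (hY φ)).trans ?_
    rw [avg_const]
    refine le_of_eq ?_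
    rw [show 16 * (n : ℝ) ^ 3 * (36 * (n : ℝ) ^ 2 * B ^ 2) = (24 * (n : ℝ) ^ 2 * B) ^ 2 * n by ring,
      Real.sqrt_mul (sq_nonneg _), Real.sqrt_sq (by positivity)]
    ring
  rw [hswap]
  refine (Finset.sum_le_sum hterm).trans ?_
  rw [Finset.sum_add_distrib, ← avg_sum, Finset.sum_const, nsmul_eq_mul, hcard]
  refine add_le_add hmain (le_of_eq ?_)
  ring

end Box

/-! ## The walks -/

section Walks

variable {G : Type u} [Group G] {E : Type v} [NormedAddCommGroup E] [NormedSpace ℝ E]
variable {ι : Type} [Fintype ι] (n : ℕ) (a : ι → G)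

lemma walkAvg_eq (F : G → E) : walkAvg n a F =
    (n : ℝ)⁻¹ • ∑ l ∈ Finset.Ico n (2 * n), avg fun w : Fin l → ι => F (val a (List.ofFn w)) := by
  simp [walkAvg, val, List.map_ofFn, Function.comp_def]

lemma walkAvg_sub (F F' : G → E) :
    walkAvg n a (fun K => F K - F' K) = walkAvg n a F - walkAvg n a F' := by
  simp [walkAvg, avg_sub, Finset.sum_sub_distrib, smul_sub]

lemma walkAvg_comm (F : G → G → E) :
    (walkAvg n a fun K => walkAvg n a fun K' => F K K') =
      walkAvg n a fun K' => walkAvg n a fun K => F K K' := by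
  simp only [walkAvg, avg_smul, avg_sum, ← Finset.smul_sum]
  rw [Finset.sum_comm]
  refine congrArg _ (congrArg _ (Finset.sum_congr rfl fun l _ => Finset.sum_congr rfl fun l' _ => ?_))
  exact avg_comm _

lemma walkAvg_map (L : E ≃ₗᵢ[ℝ] E) (F : G → E) :
    (walkAvg n a fun K => L (F K)) = L (walkAvg n a F) := by
  simp [walkAvg, avg, map_sum, map_smul]

lemma norm_walkAvg_le (F : G → E) : ‖walkAvg n a F‖ ≤ walkAvg n a fun K => ‖F K‖ := by
  simp only [walkAvg, smul_eq_mul]
  refine (norm_smul_le _ _).trans ?_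
  rw [norm_inv, Real.norm_natCast]
  exact mul_le_mul_of_nonneg_left (norm_sum_le_of_le _ fun l _ => norm_avg_le _) (by positivity)

lemma walkAvg_le {F F' : G → ℝ} (h : ∀ K, F K ≤ F' K) : walkAvg n a F ≤ walkAvg n a F' := by
  simp only [walkAvg, smul_eq_mul]
  exact mul_le_mul_of_nonneg_left (Finset.sum_le_sum fun l _ => avg_le fun w => h _) (by positivity)

omit [Fintype ι] in
lemma val_inv (σ : ι → ι) (hσ : ∀ x, a (σ x) = (a x)⁻¹) (L : List ι) :
    val a (L.map σ).reverse = (val a L)⁻¹ := by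
  induction L with
  | nil => simp [val]
  | cons x L ih =>
    rw [List.map_cons, List.reverse_cons, val_append, ih]
    simp [val, hσ]

lemma avg_reverse (σ : ι ≃ ι) {l : ℕ} (f : List ι → ℝ) :
    (avg fun w : Fin l → ι => f ((List.ofFn w).map σ).reverse) =
      avg fun w : Fin l → ι => f (List.ofFn w) := by
  rw [← avg_equiv (Equiv.arrowCongr Fin.revPerm σ) (fun w : Fin l → ι => f (List.ofFn w))]
  refine avg_congr fun w => congrArg f ?_
  rw [List.map_ofFn]
  apply List.ext_getElem (by simp)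
  intro i h1 h2
  simp only [List.length_reverse, List.length_ofFn] at h1
  simp only [List.getElem_reverse, List.getElem_ofFn, List.length_ofFn, Equiv.arrowCongr_apply,
    Function.comp_apply, Fin.revPerm_symm, Fin.revPerm_apply]
  congr 2
  ext
  simp only [Fin.val_rev]
  omega

lemma avg_steps (l₀ l₂ : ℕ) (σ : ι ≃ ι) (f : List ι → ℝ) :
    (avg fun w : ι × ι × ι => avg fun w₀ : Fin l₀ → ι => avg fun w₂ : Fin l₂ → ι =>
        f (((List.ofFn w₀).map σ).reverse ++ [w.1, w.2.1, w.2.2] ++ List.ofFn w₂)) =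
      avg fun u : Fin (l₀ + 3 + l₂) → ι => f (List.ofFn u) := by
  rw [avg_comm]
  refine (avg_reverse σ (fun L => avg fun w : ι × ι × ι => avg fun w₂ : Fin l₂ → ι =>
    f (L ++ [w.1, w.2.1, w.2.2] ++ List.ofFn w₂))).trans ?_
  rw [avg_append (l₀ + 3) l₂, avg_append l₀ 3]
  refine avg_congr fun w₀ => ?_
  let e : (ι × ι × ι) ≃ (Fin 3 → ι) :=
    { toFun := fun w => ![w.1, w.2.1, w.2.2]
      invFun := fun u => (u 0, u 1, u 2)
      left_inv := fun w => rfl
      right_inv := fun u => by ext i; fin_cases i <;> rfl }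
  rw [← avg_equiv e]
  refine avg_congr fun w => avg_congr fun w₂ => ?_
  congr 1
  rw [List.ofFn_fin_append, List.ofFn_fin_append]
  simp [e, List.ofFn_succ]
  exact ⟨rfl, rfl, rfl⟩

variable {n a}

/-- Both middle vertices are read off one word. -/
lemma Gam_sub_le (π : G →* (E ≃ₗᵢ[ℝ] E)) (V : G → G → E) (σ : ι ≃ ι)
    (hσ : ∀ x, a (σ x) = (a x)⁻¹) (r s t : ι) :
    ‖Gam n a π V (a r)⁻¹ 1 (a s * a t) - Gam n a π V (a r)⁻¹ (a s) (a s * a t)‖ ≤
      (n : ℝ)⁻¹ * ∑ l₀ ∈ Finset.Ico n (2 * n), avg fun w₀ : Fin l₀ → ι =>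
        (n : ℝ)⁻¹ * ∑ l₂ ∈ Finset.Ico n (2 * n), avg fun w₂ : Fin l₂ → ι =>
          ‖gbar V a n (((List.ofFn w₀).map σ).reverse ++ [r, s, t] ++ List.ofFn w₂) (l₀ + 1) -
            gbar V a n (((List.ofFn w₀).map σ).reverse ++ [r, s, t] ++ List.ofFn w₂) (l₀ + 2)‖ := by
  simp only [Gam, ← walkAvg_sub]
  refine (norm_walkAvg_le n a _).trans ?_
  rw [walkAvg_eq, smul_eq_mul]
  refine mul_le_mul_of_nonneg_left (Finset.sum_le_sum fun l₀ _ => avg_le fun w₀ => ?_) (by positivity)
  simp only [tri, walkAvg_map, ← map_sub]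
  rw [LinearIsometryEquiv.norm_map, walkAvg_comm]
  refine (norm_walkAvg_le n a _).trans ?_
  rw [walkAvg_eq, smul_eq_mul]
  refine mul_le_mul_of_nonneg_left (Finset.sum_le_sum fun l₂ _ => avg_le fun w₂ => le_of_eq ?_)
    (by positivity)
  set u := ((List.ofFn w₀).map σ).reverse with hu
  have hul : u.length = l₀ := by simp [hu]
  set W := u ++ [r, s, t] ++ List.ofFn w₂ with hW
  have hW' : val a W = (val a (List.ofFn w₀))⁻¹ * a r * a s * a t * val a (List.ofFn w₂) := by
    rw [hW, val_append, val_append, hu, val_inv a σ hσ]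
    simp [val, mul_assoc]
  have h1 : val a (W.take (l₀ + 1)) = (val a (List.ofFn w₀))⁻¹ * a r := by
    rw [show W = u ++ (r :: s :: t :: List.ofFn w₂) by simp [hW], List.take_append, hul,
      List.take_of_length_le (by omega), Nat.add_sub_cancel_left, val_append, hu, val_inv a σ hσ]
    simp [val]
  have h2 : val a (W.take (l₀ + 2)) = (val a (List.ofFn w₀))⁻¹ * a r * a s := by
    rw [show W = u ++ (r :: s :: t :: List.ofFn w₂) by simp [hW], List.take_append, hul,
      List.take_of_length_le (by omega), Nat.add_sub_cancel_left, val_append, hu, val_inv a σ hσ]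
    simp [val, mul_assoc]
  simp only [gbar, gm, term, h1, h2, hW']
  rw [walkAvg_sub, walkAvg_eq, walkAvg_eq]
  simp only [mul_inv_rev, inv_inv, one_mul, mul_assoc, mul_inv_cancel_left, inv_mul_cancel_left]

end Walks

/-! ## The bound -/

section Main

variable {G : Type u} [Group G] {E : Type v} [NormedAddCommGroup E] [NormedSpace ℝ E]
variable {ι : Type} [Fintype ι] [Nonempty ι]

lemma avg_first_diff_le {V : G → G → E} {C : ℝ} (hC : ∀ g h, ‖V g h‖ ≤ C) (a : ι → G) {n m : ℕ}
    (hn : 2 ≤ n) (hm : 0 < m) (l₀ l : ℕ) :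
    (avg fun u : Fin l → ι =>
        ‖gbar V a n (List.ofFn u) (l₀ + 1) - gbar V a n (List.ofFn u) (l₀ + 2)‖) ≤
      2 * C / m + 8 * m * C / n + (n : ℝ)⁻¹ * ∑ t ∈ Finset.range m, S V a n l (l₀ + t + 2) := by
  have hpt : ∀ u : Fin l → ι,
      ‖gbar V a n (List.ofFn u) (l₀ + 1) - gbar V a n (List.ofFn u) (l₀ + 2)‖ ≤
        (2 * C / m + 8 * m * C / n) + (n : ℝ)⁻¹ • ∑ t ∈ Finset.range m,
          ∑ k ∈ Finset.Ico n (2 * n), ‖cmb V a (List.ofFn u) (l₀ + t + 2) k‖ := by
    intro u
    rw [norm_sub_rev, show l₀ + 2 = l₀ + 1 + 1 from rfl]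
    refine (first_diff_le (fun i => gbar V a n (List.ofFn u) i)
      (fun i => norm_gbar_le hC a (by omega) _ i) (l₀ + 1) hm).trans ?_
    rw [add_assoc, smul_eq_mul, Finset.mul_sum]
    refine add_le_add le_rfl ?_
    refine (Finset.sum_le_sum fun t _ => second_diff_le hC a hn _ (l₀ + 1 + t)).trans (le_of_eq ?_)
    rw [Finset.sum_add_distrib, add_comm, Finset.sum_const, Finset.card_range, nsmul_eq_mul]
    simp only [show ∀ t, l₀ + 1 + t + 1 = l₀ + t + 2 from fun t => by omega]
    ring
  refine (avg_le hpt).trans (le_of_eq ?_)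
  rw [avg_add, avg_const, avg_smul, avg_sum, smul_eq_mul]
  rfl

lemma lhs_le (hsph : SpheresOut) (π : G →* (E ≃ₗᵢ[ℝ] E)) {V : G → G → E} {C B : ℝ}
    (hC : ∀ g h, ‖V g h‖ ≤ C) (hB : 0 ≤ B) (a : ι → G) (ha : IsSymm a) {n m d : ℕ} (hn : 2 ≤ n)
    (hm : 0 < m) (hmn : m ≤ n) (hd : 2 * n ≤ d) (hM : MultHyp V d (6 * n) B) :
    avg (fun w : ι × ι × ι =>
        ‖Gam n a π V (a w.1)⁻¹ 1 (a w.2.1 * a w.2.2) -
          Gam n a π V (a w.1)⁻¹ (a w.2.1) (a w.2.1 * a w.2.2)‖) ≤
      2 * C / m + 8 * m * C / n + 24 * m * B * Real.sqrt n / n + 32000 * m * (n : ℝ) ^ 2 * C / d := by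
  classical
  have hbox := box_bound hsph hC hB a ha hn hd hM
  obtain ⟨σ, -, hσ⟩ := ha
  have hn0 : (0 : ℝ) < n := by exact_mod_cast (by omega : 0 < n)
  refine (avg_le fun w : ι × ι × ι => Gam_sub_le π V σ hσ w.1 w.2.1 w.2.2).trans ?_
  simp only [avg_mul, avg_sum, ← Finset.mul_sum]
  set sumS := ∑ p ∈ box n, S V a n (p.1 + p.2) p.1 with hsumS
  set L := Finset.Ico n (2 * n) with hL
  set c₁ := 2 * C / m + 8 * m * C / n with hc₁
  have hsum : ∑ l₀ ∈ L, ∑ l₂ ∈ L,
      (avg fun w : ι × ι × ι => avg fun w₀ : Fin l₀ → ι => avg fun w₂ : Fin l₂ → ι =>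
        ‖gbar V a n (((List.ofFn w₀).map σ).reverse ++ [w.1, w.2.1, w.2.2] ++ List.ofFn w₂) (l₀ + 1) -
          gbar V a n (((List.ofFn w₀).map σ).reverse ++ [w.1, w.2.1, w.2.2] ++ List.ofFn w₂) (l₀ + 2)‖) ≤
      (n : ℝ) ^ 2 * c₁ + (n : ℝ)⁻¹ * (m * sumS) := by
    refine (Finset.sum_le_sum fun l₀ _ => Finset.sum_le_sum fun l₂ _ =>
      (avg_steps l₀ l₂ σ (fun W => ‖gbar V a n W (l₀ + 1) - gbar V a n W (l₀ + 2)‖)).trans_le
        (avg_first_diff_le hC a hn hm l₀ _)).trans ?_
    simp only [Finset.sum_add_distrib, Finset.sum_const, nsmul_eq_mul, ← Finset.mul_sum, ← hc₁]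
    refine add_le_add (le_of_eq ?_) (mul_le_mul_of_nonneg_left ?_ (by positivity))
    · rw [hL, Nat.card_Ico, show 2 * n - n = n by omega]
      ring
    rw [Finset.sum_congr rfl fun l₀ _ => Finset.sum_comm, Finset.sum_comm]
    refine (Finset.sum_le_sum (g := fun _ => sumS) fun t ht => ?_).trans_eq (by simp)
    rw [Finset.mem_range] at ht
    rw [hsumS, ← Finset.sum_product']
    set g : ℕ × ℕ → ℕ × ℕ := fun x => (x.1 + t + 2, x.2 + 1 - t) with hg
    have hinj : Set.InjOn g (L ×ˢ L : Finset (ℕ × ℕ)) := by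
      intro x hx y hy hxy
      simp only [hg, Prod.mk.injEq] at hxy
      simp only [Finset.mem_coe, Finset.mem_product, hL, Finset.mem_Ico] at hx hy
      simp only [Prod.ext_iff]
      omega
    calc ∑ x ∈ L ×ˢ L, S V a n (x.1 + 3 + x.2) (x.1 + t + 2)
        = ∑ x ∈ L ×ˢ L, S V a n ((g x).1 + (g x).2) (g x).1 := by
          refine Finset.sum_congr rfl fun x hx => ?_
          simp only [Finset.mem_product, hL, Finset.mem_Ico] at hx
          simp only [hg]
          rw [show x.1 + t + 2 + (x.2 + 1 - t) = x.1 + 3 + x.2 by omega]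
      _ = ∑ p ∈ (L ×ˢ L).image g, S V a n (p.1 + p.2) p.1 := by
          rw [Finset.sum_image hinj]
      _ ≤ ∑ p ∈ box n, S V a n (p.1 + p.2) p.1 := by
          refine Finset.sum_le_sum_of_subset_of_nonneg ?_ fun _ _ _ => S_nonneg V a n _ _
          intro p hp
          simp only [Finset.mem_image, Finset.mem_product, hL, Finset.mem_Ico, hg] at hp
          obtain ⟨x, hx, rfl⟩ := hp
          simp only [box, Finset.mem_product, Finset.mem_Icc]
          omega
  refine (mul_le_mul_of_nonneg_left (mul_le_mul_of_nonneg_left (hsum.trans (add_le_add le_rfl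
    (mul_le_mul_of_nonneg_left (mul_le_mul_of_nonneg_left hbox (by positivity)) (by positivity))))
      (by positivity)) (by positivity)).trans (le_of_eq ?_)
  rw [hc₁]
  field_simp
  ring

end Main

end Vale.Agent.P096.KK.Difference

namespace Vale.Agent.P096.KK

universe u v

/-- (K2): the middle vertex of a long random path may be moved by one step. -/
theorem differenceOut (hsph : SpheresOut) : DifferenceOut.{u, v} := by
  intro η hη
  obtain ⟨m, hm⟩ : ∃ m : ℕ, 8 / η < m := exists_nat_gt _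
  have hm0 : (0 : ℝ) < m := lt_trans (by positivity) hm
  obtain ⟨n₁, hn₁⟩ : ∃ k : ℕ, 32 * (m : ℝ) / η + (24 * (m : ℝ) / η) ^ 2 < k := exists_nat_gt _
  set n := n₁ + m + 2 with hn
  obtain ⟨d₁, hd₁⟩ : ∃ k : ℕ, 128000 * (m : ℝ) * (n : ℝ) ^ 2 / η < k := exists_nat_gt _
  set d := d₁ + 2 * n with hd
  refine ⟨n, d, 6 * n, by omega, fun G _ E _ _ π V C B e ι _ _ a ha hB he hC _ hM => ?_⟩
  have hC0 : 0 ≤ C := le_trans (norm_nonneg _) (hC 1 1)
  have hmN : 0 < m := by exact_mod_cast hm0
  refine (Difference.lhs_le hsph π hC hB a ha (n := n) (m := m) (d := d) (by omega) hmN (by omega)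
    (by omega) hM).trans ?_
  have hne : 0 ≤ (((6 * n : ℕ) : ℝ)) * e := mul_nonneg (Nat.cast_nonneg _) he
  have hn0 : (0 : ℝ) < n := by exact_mod_cast (by omega : 0 < n)
  have hd0 : (0 : ℝ) < d := by exact_mod_cast (by omega : 0 < d)
  have hn₁' : (n₁ : ℝ) ≤ n := by exact_mod_cast (by omega : n₁ ≤ n)
  have hd₁' : (d₁ : ℝ) ≤ d := by exact_mod_cast (by omega : d₁ ≤ d)
  have h1 : 2 * C / m ≤ η / 4 * C := by
    rw [div_le_iff₀ hm0]
    rw [div_lt_iff₀ hη] at hm
    nlinarith
  have hp1 : 0 ≤ 32 * (m : ℝ) / η := by positivity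
  have hp2 : 0 ≤ (24 * (m : ℝ) / η) ^ 2 := by positivity
  have h2 : 8 * m * C / n ≤ η / 4 * C := by
    have : 32 * (m : ℝ) ≤ n * η := by rw [← div_le_iff₀ hη]; linarith
    rw [div_le_iff₀ hn0]
    nlinarith
  have h3 : 24 * m * B * Real.sqrt n / n ≤ η * B := by
    have hs : 24 * (m : ℝ) / η ≤ Real.sqrt n := Real.le_sqrt_of_sq_le (by linarith)
    rw [div_le_iff₀ hη] at hs
    rw [div_le_iff₀ hn0]
    calc 24 * (m : ℝ) * B * Real.sqrt n ≤ Real.sqrt n * η * B * Real.sqrt n := by gcongr
      _ = η * B * (Real.sqrt n * Real.sqrt n) := by ring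
      _ = η * B * n := by rw [Real.mul_self_sqrt hn0.le]
  have h4 : 32000 * m * (n : ℝ) ^ 2 * C / d ≤ η / 4 * C := by
    have : 128000 * (m : ℝ) * (n : ℝ) ^ 2 ≤ d * η := by rw [← div_le_iff₀ hη]; linarith
    rw [div_le_iff₀ hd0]
    nlinarith
  nlinarith

end Vale.Agent.P096.KK
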