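import Vale.Agent.P096.KK.Gauge.Limit

/-!
# P096 (S3): the linear gauge for one group and one partition

On each atom of the partition: the gauge for one pair at every size, all pairs and sizes at once
by convexity and compactness, then contractions; the atoms are glued.
-/

noncomputable section

namespace Vale.Agent.P096.KK

open scoped InnerProductSpace
open Finset hiding sum_apply

universe u

variable {H : Type u} [NormedAddCommGroup H] [InnerProductSpace ℂ H] [CompleteSpace H]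

lemma MultHyp.abs {G : Type*} [Group G] {E : Type*} [NormedAddCommGroup E] [NormedSpace ℝ E]
    {V : G → G → E} {D N : ℕ} {B : ℝ} (h : MultHyp V D N B) : MultHyp V D N |B| :=
  fun d hd ρ S T c c' hS hT h1 h2 => by
    rw [sq_abs]
    exact h d hd ρ S T c c' hS hT h1 h2

/-- (S3) -/
theorem gaugeOut (hkey : KeyOut.{u, u}) (hmult : MultOut.{u}) (hamp : AmpOut.{u})
    (hsel : SelectOut.{u}) : GaugeOut.{u} := by
  intro η hη
  obtain ⟨k₀, hk₀⟩ := hmult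
  obtain ⟨ks, hks, hselect⟩ := hsel
  set η' : ℝ := min 1 (η / (4 * 16 * 196 * (2 + |k₀|))) with hη'
  have hη'0 : 0 < η' := lt_min one_pos (by positivity)
  obtain ⟨n, D, N₁, hn, hkn⟩ := hkey η' hη'0
  obtain ⟨km, hkm⟩ := hk₀ D N₁
  set K₁ : ℝ := 16 * (196 * (|km| * (1 + ks) + (N₁ * (6 * ks + 2 * ks ^ 2) + 6 * ks ^ 2)) + ks)
    with hK₁
  set C₀ : ℝ := 6 * (6 + 2 * ks) with hC₀
  set k : ℝ := 4 * (K₁ + 2 * ks) + 2 * ks + C₀ + |km| + ks + 1 with hk
  have hK₁0 : 0 ≤ K₁ := by rw [hK₁]; positivity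
  have hC₀0 : 0 ≤ C₀ := by rw [hC₀]; positivity
  refine ⟨k, by rw [hk]; positivity, ?_⟩
  intro H _ _ _ M Ω R N G Z d ε hT hN hA hkd j
  classical
  have hd := hA.1.d_nonneg
  have hε := hA.1.ε_nonneg
  have hS := hA.1.std
  have hR : RightAlg M R := (hamp H M Ω R hS).1
  have hks1 : ks * d ≤ 1 := le_trans (mul_le_mul_of_nonneg_right (by
    rw [hk]; linarith [hK₁0, hC₀0, abs_nonneg km]) hd) hkd
  have hkm1 : km * d ≤ 1 := le_trans (mul_le_mul_of_nonneg_right (by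
    rw [hk]; linarith [hK₁0, hC₀0, le_abs_self km, hks.le]) hd) hkd
  -- selections at every size
  have hex : ∀ (m : ℕ) [NeZero m], ∀ x ∈ sqM M m, ∃ w ∈ sqN N m, ‖w - x‖ ≤ ks * d * ‖x‖ ∧
      ∀ z ∈ sdiag m '' towerPieces Z,
        ‖(w - x) (z (sqVec m Ω))‖ ≤ ks * ε * ‖x‖ * ‖z (sqVec m Ω)‖ := fun m _ =>
    (hselect (Sq H m) (sqM M m) (sqVec m Ω) (sqR R m) (sqN N m) _ d ε (hA.2 m) hks1).1
  have hex' : ∀ (m : ℕ) [NeZero m], ∀ y ∈ (sqM M m).commutant, ∃ w ∈ cent (sqN N m),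
      ‖w - y‖ ≤ ks * d * ‖y‖ ∧ ∀ z ∈ sdiag m '' towerPieces Z,
        ‖(w - y) (z (sqVec m Ω))‖ ≤ ks * ε * ‖y‖ * ‖z (sqVec m Ω)‖ := fun m _ =>
    (hselect (Sq H m) (sqM M m) (sqVec m Ω) (sqR R m) (sqN N m) _ d ε (hA.2 m) hks1).2
  let θ : ∀ m : ℕ, (Sq H m →L[ℂ] Sq H m) → (Sq H m →L[ℂ] Sq H m) := fun m x =>
    if h : m ≠ 0 ∧ x ∈ sqM M m then
      (haveI : NeZero m := ⟨h.1⟩; (hex m x h.2).choose) else 0
  let θ' : ∀ m : ℕ, (Sq H m →L[ℂ] Sq H m) → (Sq H m →L[ℂ] Sq H m) := fun m y =>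
    if h : m ≠ 0 ∧ y ∈ (sqM M m).commutant then
      (haveI : NeZero m := ⟨h.1⟩; (hex' m y h.2).choose) else 0
  have hθ : ∀ (m : ℕ) [NeZero m], ∀ x ∈ sqM M m, θ m x ∈ sqN N m ∧ ‖θ m x - x‖ ≤ ks * d * ‖x‖ ∧
      ∀ z ∈ sdiag m '' towerPieces Z,
        ‖(θ m x - x) (z (sqVec m Ω))‖ ≤ ks * ε * ‖x‖ * ‖z (sqVec m Ω)‖ := fun m _ x hx => by
    simp only [θ]
    rw [dif_pos ⟨NeZero.ne m, hx⟩]
    exact (hex m x hx).choose_spec
  have hθ' : ∀ (m : ℕ) [NeZero m], ∀ y ∈ (sqM M m).commutant, θ' m y ∈ cent (sqN N m) ∧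
      ‖θ' m y - y‖ ≤ ks * d * ‖y‖ ∧ ∀ z ∈ sdiag m '' towerPieces Z,
        ‖(θ' m y - y) (z (sqVec m Ω))‖ ≤ ks * ε * ‖y‖ * ‖z (sqVec m Ω)‖ := fun m _ y hy => by
    simp only [θ']
    rw [dif_pos ⟨NeZero.ne m, hy⟩]
    exact (hex' m y hy).choose_spec
  have hG : GroupData M R N (G j) :=
    ⟨hT.one_mem j, hT.mul_mem j, hT.star_mem j, hT.isometry j, hN j⟩
  set e₀ : ℝ := 16 * 196 * η' * (2 + |k₀|) + K₁ * d with he₀
  -- the atoms
  have hatom : ∀ z ∈ Z j, ∃ a : (H →L[ℂ] H) →ₗ[ℂ] H, a 1 = 0 ∧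
      (∀ g ∈ G j, ∀ x ∈ M, a (g * x) = g (a x) ∧ a (x * g) = R g (a x)) ∧
      (∀ x ∈ M, ‖a x‖ ≤ C₀ * ε * ‖z Ω‖ * ‖x‖) ∧
      ∀ (m : ℕ) [NeZero m], ∀ x ∈ sqM M m, ∀ b ∈ sqM M m, ∀ w ∈ sqN N m, ∀ c : ℝ,
        ‖w - x‖ ≤ c * d → ‖x‖ ≤ 1 → ‖b‖ ≤ 1 →
        ‖gaugeD (sqR R m) (sqLin a) x b - delVec (sqR R m) (sqVec m Ω) (sdiag m z) w b‖ ≤
          (4 * (e₀ + 2 * ks * d) + (|c| + 2 * ks) * d) * ε * ‖z Ω‖ := by
    intro z hz
    have hzP : ∀ (m : ℕ), sdiag m z ∈ sdiag m '' towerPieces Z := fun m => ⟨z, ⟨j, hz⟩, rfl⟩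
    have hP : Provider M Ω R N z (G j) θ ks d ε (C₀ * ε * ‖z Ω‖) (e₀ * ε * ‖z Ω‖) := by
      refine ⟨hA.1.bicent, hS, hG, by positivity, by rw [he₀]; positivity,
        fun m _ => (hA.2 m).std, fun m _ x hx => (hθ m x hx).1, fun m _ x hx => (hθ m x hx).2.1,
        fun m _ w hw b hb => ?_, mul_nonneg hks.le hd, hε, fun m _ U V => ?_⟩
      · have := (hA.2 m).small w hw b hb _ (hzP m)
        rwa [norm_sdiag_sqVec] at this
      · have hX : Ctx (sqM M m) (sqVec m Ω) (sqR R m) (sqN N m) (sdiag m '' towerPieces Z)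
            (sdiag m z) ks d ε (θ m) (θ' m) :=
          ⟨hA.2 m, (hamp (Sq H m) (sqM M m) (sqVec m Ω) (sqR R m) (hA.2 m).std).1,
            ⟨fun x hx => (hθ m x hx).1, fun x hx => (hθ m x hx).2.1,
              fun x hx => (hθ m x hx).2.2 _ (hzP m), fun y hy => (hθ' m y hy).1,
              fun y hy => (hθ' m y hy).2.1, fun y hy => (hθ' m y hy).2.2 _ (hzP m)⟩,
            hzP m, hks.le, hks1⟩
        have hM := (hkm (Sq H m) (sqM M m) (sqVec m Ω) (sqR R m) (sqN N m)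
          (sdiag m '' towerPieces Z) d ε ks (θ m) (allSizes_sq hA m) hks.le hkm1
          (fun x hx => ⟨(hθ m x hx).1, (hθ m x hx).2.1⟩) _ (hzP m)).abs
        obtain ⟨A, h1, h2, h3, h4⟩ := hX.exists_pair hn hη'0.le
          (fun π V' C' B' e' ι _ _ a => hkn _ _ π V' C' B' e' ι a) (abs_nonneg _) hM
          (groupData_monoSet hS hG) U V
        simp only [norm_sdiag_sqVec] at h3 h4
        refine ⟨A, h1, h2, fun T hT => (h3 T hT).trans (le_of_eq (by rw [hC₀])), h4.trans ?_⟩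
        have hB : |(k₀ + km * (1 + ks) * d) * ε * ‖z Ω‖| ≤
            (|k₀| + |km| * (1 + ks) * d) * ε * ‖z Ω‖ := by
          rw [abs_mul, abs_mul, abs_of_nonneg hε, abs_norm]
          refine mul_le_mul_of_nonneg_right (mul_le_mul_of_nonneg_right ?_ hε) (norm_nonneg _)
          refine (abs_add_le _ _).trans ?_
          rw [abs_mul, abs_mul, abs_of_nonneg hd, abs_of_nonneg (by linarith : (0 : ℝ) ≤ 1 + ks)]
        have h7 := mul_le_mul_of_nonneg_left hB (mul_nonneg (by norm_num : (0 : ℝ) ≤ 16 * 196) hη'0.le)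
        have h8 : 16 * 196 * η' * (|km| * (1 + ks) * d * ε * ‖z Ω‖) ≤
            16 * 196 * 1 * (|km| * (1 + ks) * d * ε * ‖z Ω‖) := by
          gcongr
          exact min_le_left _ _
        rw [he₀, hK₁]
        nlinarith [h7, h8]
    obtain ⟨a, ⟨a1, a2, a3⟩, a4⟩ := hP.all_tests
    refine ⟨a, a1, a2, a3, fun m _ x hx b hb w hw c hwx hx1 hb1 => ?_⟩
    refine (hP.contractions a4 m hx hb hw (c := |c| * d) (hwx.trans
      (mul_le_mul_of_nonneg_right (le_abs_self c) hd)) hx1 hb1).trans (le_of_eq ?_)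
    ring
  choose! a ha1 ha2 ha3 ha4 using hatom
  let A : (H →L[ℂ] H) →ₗ[ℂ] H := ∑ z ∈ Z j, (z : H →L[ℂ] H).toLinearMap.comp (a z)
  have hAap : ∀ x, A x = ∑ z ∈ Z j, z (a z x) := fun x => by
    simp [A, LinearMap.sum_apply]
  have hzA : ∀ z ∈ Z j, ∀ x, z (A x) = z (a z x) := by
    intro z hz x
    rw [hAap, map_sum, Finset.sum_eq_single z (fun w hw hne => by
      rw [← mul_apply_eq_comp, hT.orth j z hz w hw hne.symm, zero_apply])
      (fun h => absurd hz h), ← mul_apply_eq_comp, (hT.proj j z hz).2.1.isIdempotentElem.eq]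
  refine ⟨A, ?_, ?_, ?_, ?_⟩
  · rw [hAap]
    exact Finset.sum_eq_zero fun z hz => by rw [ha1 z hz, map_zero]
  · intro g hg x hx
    have hgM : g ∈ M := (hT.isometry j g hg).1
    have hzM : ∀ z ∈ Z j, z ∈ M := fun z hz => (hA.1.pieces.proj z ⟨j, hz⟩).1
    refine ⟨?_, ?_⟩
    · rw [hAap, hAap, map_sum]
      refine Finset.sum_congr rfl fun z hz => ?_
      rw [(ha2 z hz g hg x hx).1, apply_comm ((hT.proj j z hz).2.2 g hgM)]
    · rw [hAap, hAap, map_sum]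
      refine Finset.sum_congr rfl fun z hz => ?_
      rw [(ha2 z hz g hg x hx).2, hS.comm_right (hzM z hz) hgM]
  · intro z hz x hx
    rw [hzA z hz x]
    refine (z.le_opNorm _).trans ?_
    calc ‖z‖ * ‖a z x‖ ≤ 1 * (C₀ * ε * ‖z Ω‖ * ‖x‖) := by
          gcongr
          · exact (hT.proj j z hz).2.1.norm_le
          · exact ha3 z hz x hx
      _ ≤ k * ε * ‖x‖ * ‖z Ω‖ := by
          rw [one_mul]
          have : C₀ ≤ k := by rw [hk]; linarith [hK₁0, abs_nonneg km, hks.le]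
          calc C₀ * ε * ‖z Ω‖ * ‖x‖ = C₀ * (ε * ‖x‖ * ‖z Ω‖) := by ring
            _ ≤ k * (ε * ‖x‖ * ‖z Ω‖) := by gcongr
            _ = _ := by ring
  · intro m _ z hz x hx b hb w hw c hwx hx1 hb1
    have hC := hA.2 m
    have hzS : sdiag m z ∈ sdiag m '' towerPieces Z := ⟨z, ⟨j, hz⟩, rfl⟩
    have hzz : sdiag m z * sdiag m z = sdiag m z := by
      rw [← sdiag_mul, (hT.proj j z hz).2.1.isIdempotentElem.eq]
    have hgz : ∀ T, sdiag m z (sqGauge A T) = sdiag m z (sqLin (a z) T) := fun T =>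
      sq_ext fun i l => by
        simp only [sdiag_apply, sqLin_apply, sqGauge_apply, map_smul, hzA z hz]
    have e1 : delVec (sqR R m) (sqVec m Ω) (sdiag m z) w b =
        sdiag m z (delVec (sqR R m) (sqVec m Ω) (sdiag m z) w b) := by
      rw [hC.delVec_piece hzS hw hb, ← mul_apply_eq_comp (sdiag m z) (sdiag m z), hzz]
    have e2 : sdiag m z (x (sqGauge A b) - sqGauge A (x * b) + sqR R m b (sqGauge A x)) =
        sdiag m z (gaugeD (sqR R m) (sqLin (a z)) x b) := by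
      simp only [gaugeD, map_add, map_sub, ← hC.comm_piece_left hzS hx,
        ← hC.comm_piece_right hzS hb, hgz]
    rw [e1, e2, ← map_sub]
    refine le_trans ?_ ((ha4 z hz m x hx b hb w hw c hwx hx1 hb1).trans ?_)
    · rw [norm_sub_rev (gaugeD _ _ _ _)]
      refine ((sdiag m z).le_opNorm _).trans (mul_le_of_le_one_left (norm_nonneg _) ?_)
      exact (norm_sdiag_le z).trans (hT.proj j z hz).2.1.norm_le
    · refine mul_le_mul_of_nonneg_right (mul_le_mul_of_nonneg_right ?_ hε) (norm_nonneg _)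
      have h1 : 4 * (16 * 196 * η' * (2 + |k₀|)) ≤ η := by
        have := min_le_right (1 : ℝ) (η / (4 * 16 * 196 * (2 + |k₀|)))
        rw [← hη', le_div_iff₀ (by positivity)] at this
        linarith
      have h2 : (4 * (K₁ + 2 * ks) + 2 * ks + |c|) * d ≤ k * (1 + |c|) * d := by
        refine mul_le_mul_of_nonneg_right ?_ hd
        have hk1 : 1 ≤ k := by rw [hk]; linarith [hK₁0, hC₀0, abs_nonneg km, hks.le]
        have h3 := mul_le_mul_of_nonneg_right hk1 (abs_nonneg c)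
        have h4 : 4 * (K₁ + 2 * ks) + 2 * ks ≤ k := by
          rw [hk]; linarith [hC₀0, abs_nonneg km, hks.le]
        nlinarith
      rw [he₀]
      nlinarith

end Vale.Agent.P096.KK
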