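import Vale.Agent.P096.KK.Setting


/-!
# P096 (S1): the matrices over a standard form

Operators on `Sq H m` are handled by entries: the matrices over an algebra are the left
multiplications `mL`, their centralisers the right multiplications `mR`.
-/

noncomputable section

namespace Vale.Agent.P096.KK

open ContinuousLinearMap
open scoped InnerProductSpace

universe u

variable {H : Type u} [NormedAddCommGroup H] [InnerProductSpace ℂ H] [CompleteSpace H]

variable {m : ℕ}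

namespace Amp

/-! ### Entries -/

lemma spr_apply (p : Fin m × Fin m) (v : Sq H m) : spr p v = v p := rfl

lemma sinj_apply (p q : Fin m × Fin m) (x : H) :
    sinj p x q = if q = p then x else 0 := by
  set S : H →L[ℂ] Sq H m :=
    ((PiLp.continuousLinearEquiv 2 ℂ fun _ : Fin m × Fin m => H).symm :
      (Fin m × Fin m → H) →L[ℂ] Sq H m) ∘L
        ContinuousLinearMap.single ℂ (fun _ : Fin m × Fin m => H) p with hS
  have hval : ∀ y r, S y r = if r = p then y else 0 := fun y r => by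
    simp [hS, Pi.single_apply]
  have h : sinj p = S := by
    refine ((ContinuousLinearMap.eq_adjoint_iff _ _).2 fun y v => ?_).symm
    simp only [PiLp.inner_apply, hval, spr_apply]
    rw [Finset.sum_eq_single p] <;> simp +contextual
  rw [h, hval]

lemma adjoint_spr (p : Fin m × Fin m) : adjoint (spr p : Sq H m →L[ℂ] H) = sinj p := rfl

lemma adjoint_sinj (p : Fin m × Fin m) : adjoint (sinj p : H →L[ℂ] Sq H m) = spr p :=
  adjoint_adjoint _

lemma sum_sinj (v : Sq H m) : ∑ p, sinj p (v p) = v := by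
  ext q
  simp [sinj_apply]

lemma norm_sinj (p : Fin m × Fin m) (x : H) : ‖sinj p x‖ = ‖x‖ :=
  (sq_eq_sq₀ (norm_nonneg _) (norm_nonneg _)).1 (by
    simp [PiLp.norm_sq_eq_of_L2, sinj_apply, apply_ite norm, ite_pow])

lemma norm_sq_Sq (v : Sq H m) : ‖v‖ ^ 2 = ∑ i, ∑ k, ‖v (i, k)‖ ^ 2 := by
  rw [PiLp.norm_sq_eq_of_L2, Fintype.sum_prod_type]

lemma sq_ext {S T : Sq H m →L[ℂ] Sq H m} (h : ∀ v i k, S v (i, k) = T v (i, k)) : S = T := by
  refine ContinuousLinearMap.ext fun v => ?_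
  ext ⟨i, k⟩
  exact h v i k

lemma sdiag_apply (x : (H →L[ℂ] H)) (v : Sq H m) (p : Fin m × Fin m) : sdiag m x v p = x (v p) := by
  simp [sdiag, sinj_apply, spr_apply]

lemma mL_apply (X : Fin m → Fin m → (H →L[ℂ] H)) (v : Sq H m) (i k : Fin m) :
    mL X v (i, k) = ∑ j, X i j (v (j, k)) := by
  simp only [mL, FunLike.coe_sum, Finset.sum_apply, WithLp.ofLp_sum,
    ContinuousLinearMap.comp_apply, sinj_apply, spr_apply, Prod.mk.injEq]
  rw [Finset.sum_eq_single i]
  · exact Finset.sum_congr rfl fun j _ => by rw [Finset.sum_eq_single k] <;> simp +contextual [eq_comm]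
  · intro b _ hb
    simp [Ne.symm hb]
  · simp

lemma mR_apply (Y : Fin m → Fin m → (H →L[ℂ] H)) (v : Sq H m) (i k : Fin m) :
    mR Y v (i, k) = ∑ j, Y j k (v (i, j)) := by
  simp only [mR, FunLike.coe_sum, Finset.sum_apply, WithLp.ofLp_sum,
    ContinuousLinearMap.comp_apply, sinj_apply, spr_apply, Prod.mk.injEq]
  rw [Finset.sum_eq_single i]
  · exact Finset.sum_congr rfl fun j _ => by rw [Finset.sum_eq_single k] <;> simp +contextual [eq_comm]
  · intro b _ hb
    simp [Ne.symm hb]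
  · simp

lemma rUnit_apply (a b : Fin m) (v : Sq H m) (i k : Fin m) :
    rUnit a b v (i, k) = if k = b then v (i, a) else 0 := by
  simp only [rUnit, FunLike.coe_sum, Finset.sum_apply, WithLp.ofLp_sum,
    ContinuousLinearMap.comp_apply, sinj_apply, spr_apply, Prod.mk.injEq]
  rw [Finset.sum_eq_single i] <;> simp +contextual [eq_comm]

lemma sdiag_one : sdiag m (1 : (H →L[ℂ] H)) = 1 := by
  refine ContinuousLinearMap.ext fun v => ?_
  ext p
  simp [sdiag_apply]

lemma sdiag_mul (x y : (H →L[ℂ] H)) : sdiag m (x * y) = sdiag m x * sdiag m y := by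
  refine ContinuousLinearMap.ext fun v => ?_
  ext p
  simp [sdiag_apply]

lemma star_sdiag (x : (H →L[ℂ] H)) : star (sdiag m x) = sdiag m (star x) := by
  simp [sdiag, star_eq_adjoint, map_sum, adjoint_comp, adjoint_spr, adjoint_sinj,
    ContinuousLinearMap.comp_assoc]

lemma star_rUnit (a b : Fin m) : star (rUnit a b : Sq H m →L[ℂ] Sq H m) = rUnit b a := by
  simp [rUnit, star_eq_adjoint, map_sum, adjoint_comp, adjoint_spr, adjoint_sinj]

lemma sdiag_sinj (x : (H →L[ℂ] H)) (p : Fin m × Fin m) (y : H) :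
    sdiag m x (sinj p y) = sinj p (x y) := by
  ext q
  rw [sdiag_apply, sinj_apply, sinj_apply]
  split_ifs <;> simp

lemma sdiag_mem_gen {S : Set (H →L[ℂ] H)} {x : (H →L[ℂ] H)} (hx : x ∈ S) : sdiag m x ∈ sqGen m S :=
  Or.inl ⟨x, hx, rfl⟩

lemma rUnit_mem_gen {S : Set (H →L[ℂ] H)} (a b : Fin m) :
    (rUnit a b : Sq H m →L[ℂ] Sq H m) ∈ sqGen m S :=
  Or.inr ⟨(a, b), rfl⟩

lemma mL_sub (X Y : Fin m → Fin m → (H →L[ℂ] H)) : mL (fun i j => X i j - Y i j) = mL X - mL Y :=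
  sq_ext fun v i k => by simp [mL_apply, Finset.sum_sub_distrib]

lemma mL_mul (X Y : Fin m → Fin m → (H →L[ℂ] H)) :
    mL X * mL Y = mL fun i k => ∑ j, X i j * Y j k := by
  refine sq_ext fun v i k => ?_
  simp only [mul_apply_eq_comp, mL_apply, map_sum, FunLike.coe_sum, Finset.sum_apply]
  exact Finset.sum_comm

lemma sdiag_eq_mL (x : (H →L[ℂ] H)) : sdiag m x = mL fun i j => if i = j then x else 0 := by
  refine sq_ext fun v i k => ?_
  rw [sdiag_apply, mL_apply, Finset.sum_eq_single i] <;> simp +contextual [eq_comm]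

lemma mL_mR_comm {X Y : Fin m → Fin m → (H →L[ℂ] H)} (h : ∀ i j a b, X i j * Y a b = Y a b * X i j) :
    mL X * mR Y = mR Y * mL X := by
  refine sq_ext fun v i k => ?_
  simp only [mul_apply_eq_comp, mL_apply, mR_apply, map_sum]
  rw [Finset.sum_comm]
  refine Finset.sum_congr rfl fun a _ => Finset.sum_congr rfl fun j _ => ?_
  exact DFunLike.congr_fun (h i j a k) (v (j, a))

lemma sdiag_mL_comm {x : (H →L[ℂ] H)} {X : Fin m → Fin m → (H →L[ℂ] H)} (h : ∀ i j, x * X i j = X i j * x) :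
    sdiag m x * mL X = mL X * sdiag m x := by
  refine sq_ext fun v i k => ?_
  simp only [mul_apply_eq_comp, mL_apply, sdiag_apply, map_sum]
  exact Finset.sum_congr rfl fun j _ => DFunLike.congr_fun (h i j) (v (j, k))

lemma sdiag_mR_comm {x : (H →L[ℂ] H)} {Y : Fin m → Fin m → (H →L[ℂ] H)} (h : ∀ i j, x * Y i j = Y i j * x) :
    sdiag m x * mR Y = mR Y * sdiag m x := by
  refine sq_ext fun v i k => ?_
  simp only [mul_apply_eq_comp, mR_apply, sdiag_apply, map_sum]
  exact Finset.sum_congr rfl fun j _ => DFunLike.congr_fun (h j k) (v (i, j))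

lemma rUnit_mL_comm (X : Fin m → Fin m → (H →L[ℂ] H)) (a b : Fin m) :
    rUnit a b * mL X = mL X * rUnit a b := by
  refine sq_ext fun v i k => ?_
  simp only [mul_apply_eq_comp, mL_apply, rUnit_apply]
  split_ifs <;> simp

variable [NeZero m]

lemma lEnt_apply (T : Sq H m →L[ℂ] Sq H m) (i j : Fin m) (x : H) :
    lEnt T i j x = T (sinj (j, 0) x) (i, 0) := rfl

lemma lEnt_mL (X : Fin m → Fin m → (H →L[ℂ] H)) : lEnt (mL X) = X := by
  funext i j
  refine ContinuousLinearMap.ext fun x => ?_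
  rw [lEnt_apply, mL_apply, Finset.sum_eq_single j] <;> simp +contextual [sinj_apply]

/-- An operator commuting with the right units is a left multiplication. -/
lemma eq_mL_of_comm {T : Sq H m →L[ℂ] Sq H m} (h : ∀ a b, rUnit a b * T = T * rUnit a b) :
    T = mL (lEnt T) := by
  have key : ∀ (j c : Fin m) (x : H) (i k : Fin m),
      T (sinj (j, c) x) (i, k) = if k = c then lEnt T i j x else 0 := by
    intro j c x i k
    have e : rUnit (0 : Fin m) c (sinj (j, 0) x) = sinj (j, c) x := by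
      ext ⟨a, b⟩
      rw [rUnit_apply, sinj_apply, sinj_apply]
      by_cases hb : b = c <;> simp [hb]
    rw [← e, ← mul_apply_eq_comp, ← h, mul_apply_eq_comp, rUnit_apply, lEnt_apply]
  refine sq_ext fun v i k => ?_
  conv_lhs => rw [← sum_sinj v]
  rw [map_sum, WithLp.ofLp_sum, Finset.sum_apply, Fintype.sum_prod_type, mL_apply]
  refine Finset.sum_congr rfl fun j _ => ?_
  simp [key]

/-- The right entries of an operator. -/
def rEnt (T : Sq H m →L[ℂ] Sq H m) (j k : Fin m) : (H →L[ℂ] H) := spr (0, k) ∘L T ∘L sinj (0, j)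

lemma rEnt_apply (T : Sq H m →L[ℂ] Sq H m) (j k : Fin m) (x : H) :
    rEnt T j k x = T (sinj (0, j) x) (0, k) := rfl

/-- The matrix units acting from the left. -/
def lUnit (a b : Fin m) : Fin m → Fin m → (H →L[ℂ] H) := fun i j => if i = a ∧ j = b then 1 else 0

lemma mL_lUnit_apply (a b : Fin m) (v : Sq H m) (i k : Fin m) :
    mL (lUnit a b) v (i, k) = if i = a then v (b, k) else 0 := by
  rw [mL_apply]
  by_cases hi : i = a
  · rw [Finset.sum_eq_single b] <;> simp +contextual [lUnit, hi]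
  · simp [lUnit, hi]

/-- An operator commuting with the left units is a right multiplication. -/
lemma eq_mR_of_comm {T : Sq H m →L[ℂ] Sq H m}
    (h : ∀ a b, mL (lUnit a b) * T = T * mL (lUnit a b)) : T = mR (rEnt T) := by
  have key : ∀ (j c : Fin m) (x : H) (i k : Fin m),
      T (sinj (j, c) x) (i, k) = if i = j then rEnt T c k x else 0 := by
    intro j c x i k
    have e : mL (lUnit j (0 : Fin m)) (sinj (0, c) x) = sinj (j, c) x := by
      ext ⟨a, b⟩
      rw [mL_lUnit_apply, sinj_apply, sinj_apply]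
      by_cases ha : a = j <;> simp [ha]
    rw [← e, ← mul_apply_eq_comp, ← h, mul_apply_eq_comp, mL_lUnit_apply, rEnt_apply]
  refine sq_ext fun v i k => ?_
  conv_lhs => rw [← sum_sinj v]
  rw [map_sum, WithLp.ofLp_sum, Finset.sum_apply, Fintype.sum_prod_type, mR_apply,
    Finset.sum_eq_single i]
  · simp [key]
  · intro a _ ha
    simp [key, Ne.symm ha]
  · simp

lemma sdiag_lEnt_comm {x : (H →L[ℂ] H)} {T : Sq H m →L[ℂ] Sq H m} (h : sdiag m x * T = T * sdiag m x)
    (i j : Fin m) : x * lEnt T i j = lEnt T i j * x := by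
  refine ContinuousLinearMap.ext fun y => ?_
  have e := congrArg (fun f : Sq H m →L[ℂ] Sq H m => f (sinj (j, 0) y) (i, 0)) h
  simp only [mul_apply_eq_comp, sdiag_apply, sdiag_sinj] at e
  simpa [lEnt_apply] using e

lemma sdiag_rEnt_comm {x : (H →L[ℂ] H)} {T : Sq H m →L[ℂ] Sq H m} (h : sdiag m x * T = T * sdiag m x)
    (j k : Fin m) : x * rEnt T j k = rEnt T j k * x := by
  refine ContinuousLinearMap.ext fun y => ?_
  have e := congrArg (fun f : Sq H m →L[ℂ] Sq H m => f (sinj (0, j) y) (0, k)) h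
  simp only [mul_apply_eq_comp, sdiag_apply, sdiag_sinj] at e
  simpa [rEnt_apply] using e

/-! ### The matrices over `M` -/

variable {M : VonNeumannAlgebra H}

omit [NeZero m] in
lemma mL_mem_sqM {X : Fin m → Fin m → (H →L[ℂ] H)} (hX : ∀ i j, X i j ∈ M) : mL X ∈ sqM M m := by
  change mL X ∈ StarSubalgebra.centralizer ℂ _
  rw [StarSubalgebra.mem_centralizer_iff]
  have hd : ∀ x ∈ M.commutant, sdiag m x * mL X = mL X * sdiag m x := fun x hx =>
    sdiag_mL_comm fun i j => (VonNeumannAlgebra.mem_commutant_iff.1 hx _ (hX i j)).symm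
  rintro g (⟨x, hx, rfl⟩ | ⟨⟨a, b⟩, rfl⟩)
  · exact ⟨hd x hx, by rw [star_sdiag]; exact hd _ (star_mem (s := M.commutant) hx)⟩
  · exact ⟨rUnit_mL_comm X a b, by rw [star_rUnit]; exact rUnit_mL_comm X b a⟩

lemma mem_sqM {T : Sq H m →L[ℂ] Sq H m} (hT : T ∈ sqM M m) :
    (∀ i j, lEnt T i j ∈ M) ∧ T = mL (lEnt T) := by
  have h := (StarSubalgebra.mem_centralizer_iff ℂ).1
    (show T ∈ StarSubalgebra.centralizer ℂ (sqGen m (M.commutant : Set (H →L[ℂ] H))) from hT)
  refine ⟨fun i j => ?_, eq_mL_of_comm fun a b => (h _ (rUnit_mem_gen a b)).1⟩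
  rw [← M.commutant_commutant, VonNeumannAlgebra.mem_commutant_iff]
  exact fun x hx => sdiag_lEnt_comm (h _ (sdiag_mem_gen hx)).1 i j

lemma mem_sqM_iff {T : Sq H m →L[ℂ] Sq H m} :
    T ∈ sqM M m ↔ ∃ X : Fin m → Fin m → (H →L[ℂ] H), (∀ i j, X i j ∈ M) ∧ T = mL X :=
  ⟨fun h => ⟨lEnt T, mem_sqM h⟩, by rintro ⟨X, hX, rfl⟩; exact mL_mem_sqM hX⟩

omit [NeZero m] in
lemma sdiag_mem_sqM {x : (H →L[ℂ] H)} (hx : x ∈ M) : sdiag m x ∈ sqM M m := by
  rw [sdiag_eq_mL]
  refine mL_mem_sqM fun i j => ?_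
  split_ifs
  exacts [hx, zero_mem M]

lemma mR_mem_sqM_commutant {Y : Fin m → Fin m → (H →L[ℂ] H)} (hY : ∀ i j, Y i j ∈ M.commutant) :
    mR Y ∈ (sqM M m).commutant := by
  rw [VonNeumannAlgebra.mem_commutant_iff]
  intro T hT
  obtain ⟨X, hX, rfl⟩ := mem_sqM_iff.1 hT
  exact mL_mR_comm fun i j a b => VonNeumannAlgebra.mem_commutant_iff.1 (hY a b) _ (hX i j)

/-! ### The matrices over `N` -/

omit [NeZero m] in
lemma mL_mem_sqN {N : Subalgebra ℂ (H →L[ℂ] H)} {X : Fin m → Fin m → (H →L[ℂ] H)}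
    (hX : ∀ i j, X i j ∈ cent (cent N)) : mL X ∈ sqN N m := by
  rw [sqN, Subalgebra.mem_centralizer_iff]
  rintro g (⟨x, hx, rfl⟩ | ⟨⟨a, b⟩, rfl⟩)
  · exact sdiag_mL_comm fun i j => (Subalgebra.mem_centralizer_iff ℂ).1 (hX i j) x hx
  · exact rUnit_mL_comm X a b

lemma mem_sqN {N : Subalgebra ℂ (H →L[ℂ] H)} {T : Sq H m →L[ℂ] Sq H m} (hT : T ∈ sqN N m) :
    (∀ i j, lEnt T i j ∈ cent (cent N)) ∧ T = mL (lEnt T) := by
  have h := (Subalgebra.mem_centralizer_iff ℂ).1
    (show T ∈ Subalgebra.centralizer ℂ (sqGen m (cent N : Set (H →L[ℂ] H))) from hT)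
  exact ⟨fun i j => (Subalgebra.mem_centralizer_iff ℂ).2 fun x hx =>
      sdiag_lEnt_comm (h _ (sdiag_mem_gen hx)) i j,
    eq_mL_of_comm fun a b => h _ (rUnit_mem_gen a b)⟩

omit [NeZero m] in
lemma le_cent_cent (N : Subalgebra ℂ (H →L[ℂ] H)) {n : (H →L[ℂ] H)} (hn : n ∈ N) : n ∈ cent (cent N) :=
  (Subalgebra.mem_centralizer_iff ℂ).2 fun _ hx =>
    ((Subalgebra.mem_centralizer_iff ℂ).1 hx n hn).symm

omit [NeZero m] in
lemma sdiag_mem_sqN {N : Subalgebra ℂ (H →L[ℂ] H)} {x : (H →L[ℂ] H)} (hx : x ∈ N) : sdiag m x ∈ sqN N m := by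
  rw [sdiag_eq_mL]
  refine mL_mem_sqN fun i j => ?_
  split_ifs
  exacts [le_cent_cent N hx, zero_mem _]

/-- The centraliser of the matrices over `N` consists of right multiplications. -/
lemma mem_cent_sqN {N : Subalgebra ℂ (H →L[ℂ] H)} {T : Sq H m →L[ℂ] Sq H m} (hT : T ∈ cent (sqN N m)) :
    (∀ j k, rEnt T j k ∈ cent N) ∧ T = mR (rEnt T) := by
  have h := (Subalgebra.mem_centralizer_iff ℂ).1 hT
  refine ⟨fun j k => (Subalgebra.mem_centralizer_iff ℂ).2 fun n hn =>
    sdiag_rEnt_comm (h _ (sdiag_mem_sqN hn)) j k, eq_mR_of_comm fun a b => h _ (mL_mem_sqN ?_)⟩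
  intro i j
  unfold lUnit
  split_ifs
  exacts [one_mem _, zero_mem _]

lemma mR_mem_cent_sqN {N : Subalgebra ℂ (H →L[ℂ] H)} {Y : Fin m → Fin m → (H →L[ℂ] H)}
    (hY : ∀ i j, Y i j ∈ cent N) : mR Y ∈ cent (sqN N m) := by
  refine (Subalgebra.mem_centralizer_iff ℂ).2 fun T hT => ?_
  obtain ⟨hX, e⟩ := mem_sqN hT
  rw [e]
  exact mL_mR_comm fun i j a b =>
    ((Subalgebra.mem_centralizer_iff ℂ).1 (hX i j) _ (hY a b)).symm

end Amp

variable [NeZero m] {M : VonNeumannAlgebra H}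

/-! ### The standard form -/

section Std

variable {Ω : H} {R : (H →L[ℂ] H) → (H →L[ℂ] H)}

/-- Two elements of the commutant agreeing on the trace vector are equal. -/
lemma Std.commutant_ext (hS : Std M Ω R) {S T : (H →L[ℂ] H)} (h1 : S ∈ M.commutant) (h2 : T ∈ M.commutant)
    (h : S Ω = T Ω) : S = T := by
  refine ContinuousLinearMap.ext fun v => ?_
  refine congrFun (Continuous.ext_on hS.cyclic S.continuous T.continuous ?_) v
  rintro _ ⟨x, hx, rfl⟩
  show S (x Ω) = T (x Ω)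
  rw [← mul_apply_eq_comp, ← mul_apply_eq_comp, ← VonNeumannAlgebra.mem_commutant_iff.1 h1 x hx,
    ← VonNeumannAlgebra.mem_commutant_iff.1 h2 x hx, mul_apply_eq_comp, mul_apply_eq_comp, h]

lemma Std.R_apply (hS : Std M Ω R) {a x : (H →L[ℂ] H)} (ha : a ∈ M) (hx : x ∈ M) :
    R a (x Ω) = x (a Ω) := by
  rw [← mul_apply_eq_comp, ← VonNeumannAlgebra.mem_commutant_iff.1 (hS.right_mem a ha) x hx,
    mul_apply_eq_comp, hS.right_apply a ha]

lemma Std.R_eq_self (hS : Std M Ω R) {z : (H →L[ℂ] H)} (hz : z ∈ M) (hc : ∀ x ∈ M, z * x = x * z) :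
    R z = z :=
  hS.commutant_ext (hS.right_mem z hz)
    (VonNeumannAlgebra.mem_commutant_iff.2 fun x hx => (hc x hx).symm) (hS.right_apply z hz)

lemma Std.R_mul (hS : Std M Ω R) {a b : (H →L[ℂ] H)} (ha : a ∈ M) (hb : b ∈ M) :
    R (a * b) = R b * R a := by
  refine hS.commutant_ext (hS.right_mem _ (mul_mem ha hb))
    (mul_mem (hS.right_mem _ hb) (hS.right_mem _ ha)) ?_
  rw [mul_apply_eq_comp, hS.right_apply _ (mul_mem ha hb), hS.right_apply _ ha,
    hS.R_apply hb ha, mul_apply_eq_comp]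

lemma Std.R_add (hS : Std M Ω R) {a b : (H →L[ℂ] H)} (ha : a ∈ M) (hb : b ∈ M) :
    R (a + b) = R a + R b := by
  refine hS.commutant_ext (hS.right_mem _ (add_mem ha hb))
    (add_mem (hS.right_mem _ ha) (hS.right_mem _ hb)) ?_
  simp [hS.right_apply _ (add_mem ha hb), hS.right_apply _ ha, hS.right_apply _ hb]

lemma Std.R_smul (hS : Std M Ω R) (c : ℂ) {a : (H →L[ℂ] H)} (ha : a ∈ M) : R (c • a) = c • R a := by
  refine hS.commutant_ext (hS.right_mem _ (SMulMemClass.smul_mem (s := M.toStarSubalgebra) c ha))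
    (SMulMemClass.smul_mem (s := M.commutant.toStarSubalgebra) c (hS.right_mem _ ha)) ?_
  simp [hS.right_apply _ (SMulMemClass.smul_mem (s := M.toStarSubalgebra) c ha),
    hS.right_apply _ ha]

lemma Std.R_zero (hS : Std M Ω R) : R 0 = 0 :=
  hS.R_eq_self (zero_mem M) (by simp)

lemma Std.R_one (hS : Std M Ω R) : R 1 = 1 :=
  hS.R_eq_self (one_mem M) (by simp)

/-- The trace: `x Ω` and `x* Ω` have the same norm. -/
lemma Std.norm_star_apply (hS : Std M Ω R) {x : (H →L[ℂ] H)} (hx : x ∈ M) : ‖star x Ω‖ = ‖x Ω‖ := by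
  have h : ⟪star x Ω, star x Ω⟫_ℂ = ⟪x Ω, x Ω⟫_ℂ := by
    have e := hS.trace x hx (star x) (star_mem hx)
    rw [star_eq_adjoint] at e ⊢
    rw [adjoint_inner_left, adjoint_inner_right] at *
    exact e
  rw [inner_self_eq_norm_sq_to_K, inner_self_eq_norm_sq_to_K] at h
  exact (sq_eq_sq₀ (norm_nonneg _) (norm_nonneg _)).1 (by exact_mod_cast h)

lemma Std.norm_R (hS : Std M Ω R) {a : (H →L[ℂ] H)} (ha : a ∈ M) : ‖R a‖ ≤ ‖a‖ := by
  refine ContinuousLinearMap.opNorm_le_bound _ (norm_nonneg _) fun v => ?_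
  refine hS.cyclic.induction (P := fun v => ‖R a v‖ ≤ ‖a‖ * ‖v‖) ?_
    (isClosed_le (R a).continuous.norm (continuous_const.mul continuous_norm)) v
  rintro _ ⟨x, hx, rfl⟩
  show ‖R a (x Ω)‖ ≤ ‖a‖ * ‖x Ω‖
  rw [hS.R_apply ha hx, ← mul_apply_eq_comp, ← hS.norm_star_apply (mul_mem hx ha), star_mul,
    mul_apply_eq_comp, ← norm_star a, ← hS.norm_star_apply hx]
  exact (star a).le_opNorm _

lemma Std.R_star (hS : Std M Ω R) {a : (H →L[ℂ] H)} (ha : a ∈ M) : R (star a) = star (R a) := by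
  refine hS.commutant_ext (hS.right_mem _ (star_mem ha)) (star_mem (hS.right_mem _ ha)) ?_
  rw [hS.right_apply _ (star_mem ha)]
  refine ext_inner_left ℂ fun v => ?_
  refine congrFun (Continuous.ext_on hS.cyclic (f := fun v : H => ⟪v, star a Ω⟫_ℂ)
    (g := fun v : H => ⟪v, star (R a) Ω⟫_ℂ) (by fun_prop) (by fun_prop) ?_) v
  rintro _ ⟨x, hx, rfl⟩
  show ⟪x Ω, star a Ω⟫_ℂ = ⟪x Ω, star (R a) Ω⟫_ℂ
  have e := hS.trace (star x) (star_mem hx) (star a) (star_mem ha)
  simp only [star_eq_adjoint, adjoint_inner_right] at e ⊢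
  rw [hS.R_apply ha hx, e]

end Std

namespace Amp

lemma sqVec_apply (Ω : H) (i k : Fin m) :
    sqVec m Ω (i, k) = if i = k then ((Real.sqrt m)⁻¹ : ℂ) • Ω else 0 := by
  simp only [sqVec, WithLp.ofLp_smul, Pi.smul_apply, WithLp.ofLp_sum, Finset.sum_apply,
    sinj_apply, Prod.mk.injEq]
  rw [Finset.sum_eq_single i]
  · by_cases h : i = k <;> simp [h, eq_comm]
  · intro b _ hb
    simp [Ne.symm hb]
  · simp

lemma mL_sqVec (X : Fin m → Fin m → (H →L[ℂ] H)) (Ω : H) (i k : Fin m) :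
    mL X (sqVec m Ω) (i, k) = ((Real.sqrt m)⁻¹ : ℂ) • X i k Ω := by
  rw [mL_apply, Finset.sum_eq_single k] <;> simp +contextual [sqVec_apply]

lemma mR_sqVec (Y : Fin m → Fin m → (H →L[ℂ] H)) (Ω : H) (i k : Fin m) :
    mR Y (sqVec m Ω) (i, k) = ((Real.sqrt m)⁻¹ : ℂ) • Y i k Ω := by
  rw [mR_apply, Finset.sum_eq_single i] <;> simp +contextual [sqVec_apply, eq_comm]

end Amp

open Amp

/-- The matrices over a standard form are in standard form. -/
lemma Std.square {Ω : H} {R : (H →L[ℂ] H) → (H →L[ℂ] H)} (hS : Std M Ω R) :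
    Std (sqM M m) (sqVec m Ω) (sqR R m) := by
  have hm : (0 : ℝ) < m := by exact_mod_cast Nat.pos_of_ne_zero (NeZero.ne m)
  set c : ℂ := ((Real.sqrt m)⁻¹ : ℂ) with hc
  have hcn : ‖c‖ = (Real.sqrt m)⁻¹ := by
    rw [hc, norm_inv, Complex.norm_real, Real.norm_of_nonneg (Real.sqrt_nonneg _)]
  have hc0 : c ≠ 0 := by
    rw [← norm_ne_zero_iff, hcn]
    positivity
  constructor
  · refine (sq_eq_sq₀ (norm_nonneg _) zero_le_one).1 ?_
    rw [norm_sq_Sq, one_pow]
    simp only [sqVec_apply, apply_ite norm, norm_zero, ite_pow, norm_smul, ← hc, hcn, hS.norm_one,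
      mul_one, inv_pow, Real.sq_sqrt hm.le, ne_eq, OfNat.ofNat_ne_zero, not_false_eq_true, zero_pow,
      Finset.sum_ite_eq, Finset.mem_univ, if_true, Finset.sum_const, Finset.card_univ,
      Fintype.card_fin, nsmul_eq_mul]
    field_simp
  · intro S hS' T hT'
    obtain ⟨X, hX, rfl⟩ := mem_sqM_iff.1 hS'
    obtain ⟨Y, hY, rfl⟩ := mem_sqM_iff.1 hT'
    have key : ∀ X Y : Fin m → Fin m → (H →L[ℂ] H), ⟪sqVec m Ω, mL X (mL Y (sqVec m Ω))⟫_ℂ =
        ∑ i, ∑ j, starRingEnd ℂ c * c * ⟪Ω, X i j (Y j i Ω)⟫_ℂ := by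
      intro X Y
      rw [PiLp.inner_apply, Fintype.sum_prod_type]
      refine Finset.sum_congr rfl fun i _ => ?_
      rw [Finset.sum_eq_single i]
      · simp only [mL_apply (X := X), mL_sqVec, sqVec_apply, if_true, inner_sum, map_smul,
          inner_smul_left, inner_smul_right, ← hc, mul_assoc]
        exact Finset.sum_congr rfl fun j _ => by ring
      · intro b _ hb
        simp [sqVec_apply, Ne.symm hb]
      · simp
    rw [key, key, Finset.sum_comm]
    exact Finset.sum_congr rfl fun i _ => Finset.sum_congr rfl fun j _ => by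
      rw [hS.trace _ (hX j i) _ (hY i j)]
  · rw [Metric.dense_iff]
    intro v η hη
    set η' : ℝ := η / (m * m + 1) with hη'
    have hη'0 : 0 < η' := by positivity
    have hy : ∀ p, ∃ y ∈ M, ‖v p - y Ω‖ < η' := fun p => by
      obtain ⟨_, h1, y, hy, rfl⟩ := (Metric.dense_iff.1 hS.cyclic) (v p) η' hη'0
      exact ⟨y, hy, by rw [← dist_eq_norm, dist_comm]; exact h1⟩
    choose y hy hy' using hy
    set X : Fin m → Fin m → (H →L[ℂ] H) := fun i k => c⁻¹ • y (i, k) with hXdef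
    refine ⟨mL X (sqVec m Ω), ?_, _,
      mL_mem_sqM fun i k => SMulMemClass.smul_mem (s := M.toStarSubalgebra) _ (hy (i, k)), rfl⟩
    rw [Metric.mem_ball, dist_eq_norm, norm_sub_rev, ← sum_sinj (v - mL X (sqVec m Ω))]
    refine (norm_sum_le _ _).trans_lt ((Finset.sum_le_card_nsmul _ _ η' fun p _ => ?_).trans_lt ?_)
    · obtain ⟨i, k⟩ := p
      rw [norm_sinj, WithLp.ofLp_sub, Pi.sub_apply, mL_sqVec, ← hc]
      simp only [hXdef, smul_apply, smul_smul, mul_inv_cancel₀ hc0, one_smul]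
      exact (hy' (i, k)).le
    · rw [Finset.card_univ, Fintype.card_prod, Fintype.card_fin, nsmul_eq_mul, hη', ← mul_div_assoc,
        div_lt_iff₀ (by positivity)]
      push_cast
      nlinarith
  · intro T hT
    exact mR_mem_sqM_commutant fun i j => hS.right_mem _ ((mem_sqM hT).1 i j)
  · intro T hT
    obtain ⟨hX, e⟩ := mem_sqM hT
    conv_rhs => rw [e]
    ext ⟨i, k⟩
    rw [sqR, mR_sqVec, mL_sqVec, hS.right_apply _ (hX i k)]

omit [NeZero m] in
/-- The matrices are again in standard form, and `R` is an antihomomorphism. -/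
theorem ampOut : AmpOut.{u} := fun _ _ _ _ _ _ _ hS =>
  ⟨fun _ ha _ hb => ⟨hS.R_mul ha hb, hS.R_add ha hb, hS.norm_R ha, hS.R_star ha⟩,
    fun _ _ => hS.square⟩

lemma Amp.sqR_sdiag {Ω : H} {R : (H →L[ℂ] H) → (H →L[ℂ] H)} (hS : Std M Ω R) {z : (H →L[ℂ] H)} (hz : R z = z) :
    sqR R m (sdiag m z) = sdiag m z := by
  refine sq_ext fun v i k => ?_
  rw [sqR, sdiag_eq_mL, lEnt_mL, mR_apply, ← sdiag_eq_mL, sdiag_apply, Finset.sum_eq_single k]
  · simp [hz]
  · intro b _ hb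
    simp [hb, hS.R_zero]
  · simp

end Vale.Agent.P096.KK
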