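import Vale.Agent.P096.KK.Setting

/-!
# P096: the theorem for finite algebras in separable standard form from its modules
-/

noncomputable section

namespace Vale.Agent.P096.KK

universe u

variable {H : Type u} [NormedAddCommGroup H] [InnerProductSpace ℂ H] [CompleteSpace H]

lemma norm_unitary_le {v : H →L[ℂ] H} (hv : v ∈ unitary (H →L[ℂ] H)) : ‖v‖ ≤ 1 :=
  v.opNorm_le_bound zero_le_one fun ξ => by
    rw [(ContinuousLinearMap.norm_map_iff_adjoint_comp_self v).2 (Unitary.star_mul_self_of_mem hv) ξ,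
      one_mul]

lemma norm_conjugate_le {v x : H →L[ℂ] H} (hv : v ∈ unitary (H →L[ℂ] H)) :
    ‖v * x * star v‖ ≤ ‖x‖ := by
  refine (norm_mul_le _ _).trans ?_
  rw [norm_star]
  calc ‖v * x‖ * ‖v‖ ≤ ‖v * x‖ * 1 :=
        mul_le_mul_of_nonneg_left (norm_unitary_le hv) (norm_nonneg _)
    _ ≤ ‖v‖ * ‖x‖ := by rw [mul_one]; exact norm_mul_le _ _
    _ ≤ ‖x‖ := mul_le_of_le_one_left (norm_nonneg _) (norm_unitary_le hv)

lemma norm_sub_conjugate_le {v x : H →L[ℂ] H} (hv : v ∈ unitary (H →L[ℂ] H)) :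
    ‖x - v * x * star v‖ ≤ 2 * ‖v - 1‖ * ‖x‖ := by
  have e : x - v * x * star v = (1 - v) * x + v * x * (1 - star v) := by noncomm_ring
  have h₁ : ‖1 - star v‖ = ‖v - 1‖ := by
    rw [← norm_star, star_sub, star_one, star_star, norm_sub_rev]
  rw [e]
  refine (norm_add_le _ _).trans ?_
  calc ‖(1 - v) * x‖ + ‖v * x * (1 - star v)‖
      ≤ ‖1 - v‖ * ‖x‖ + 1 * ‖x‖ * ‖1 - star v‖ := by
        refine add_le_add (norm_mul_le _ _) ((norm_mul_le _ _).trans ?_)
        refine mul_le_mul_of_nonneg_right ?_ (norm_nonneg _)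
        exact (norm_mul_le _ _).trans
          (mul_le_mul_of_nonneg_right (norm_unitary_le hv) (norm_nonneg _))
    _ = 2 * ‖v - 1‖ * ‖x‖ := by rw [h₁, norm_sub_rev 1 v]; ring

lemma norm_star_mul_sub_one_le {v w : H →L[ℂ] H} (hv : v ∈ unitary (H →L[ℂ] H)) :
    ‖star v * w - 1‖ ≤ ‖v - 1‖ + ‖w - 1‖ := by
  have e : star v * w - 1 = (star v - 1) + star v * (w - 1) := by noncomm_ring
  rw [e]
  refine (norm_add_le _ _).trans (add_le_add (le_of_eq ?_) ((norm_mul_le _ _).trans ?_))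
  · rw [← norm_star, star_sub, star_star, star_one]
  · exact mul_le_of_le_one_left (norm_nonneg _) (by rw [norm_star]; exact norm_unitary_le hv)

/-- The distance to a rotated algebra. -/
lemma kkDist_rotate_le {M N₀ N : VonNeumannAlgebra H} {r : ℝ} {v : H →L[ℂ] H}
    (hr : kkDist M N₀ < r) (hv : v ∈ unitary (H →L[ℂ] H))
    (hN : (fun x => v * x * star v) '' (N₀ : Set (H →L[ℂ] H)) = (N : Set (H →L[ℂ] H))) :
    kkDist M N ≤ r + 2 * ‖v - 1‖ := by
  have hr0 : 0 ≤ r := Metric.hausdorffDist_nonneg.trans hr.le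
  refine kk_le (by positivity) (fun x hx hx1 => ?_) fun y hy hy1 => ?_
  · obtain ⟨y, hy, hy1, hd⟩ := kk_exists_near hr hx hx1
    refine ⟨v * y * star v, ?_, (norm_conjugate_le hv).trans hy1, ?_⟩
    · exact (Set.ext_iff.1 hN (v * y * star v)).1 ⟨y, hy, rfl⟩
    · calc ‖x - v * y * star v‖ ≤ ‖x - y‖ + ‖y - v * y * star v‖ :=
            norm_sub_le_norm_sub_add_norm_sub _ _ _
        _ ≤ r + 2 * ‖v - 1‖ := add_le_add hd.le ((norm_sub_conjugate_le hv).trans
            (mul_le_of_le_one_right (by positivity) hy1))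
  · obtain ⟨y₀, hy₀, rfl⟩ := (Set.ext_iff.1 hN y).2 hy
    have hback : star v * (v * y₀ * star v) * v = y₀ := by
      simp only [mul_assoc, Unitary.star_mul_self_of_mem hv, mul_one]
      rw [← mul_assoc, Unitary.star_mul_self_of_mem hv, one_mul]
    have hy₀1 : ‖y₀‖ ≤ 1 := by
      rw [← hback]
      refine le_trans ?_ hy1
      simpa [star_star] using norm_conjugate_le (x := v * y₀ * star v) (Unitary.star_mem hv)
    obtain ⟨x, hx, hx1, hd⟩ := kk_exists_near ((kk_comm N₀ M).trans_lt hr) hy₀ hy₀1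
    refine ⟨x, hx, hx1, ?_⟩
    calc ‖v * y₀ * star v - x‖ ≤ ‖v * y₀ * star v - y₀‖ + ‖y₀ - x‖ :=
          norm_sub_le_norm_sub_add_norm_sub _ _ _
      _ ≤ 2 * ‖v - 1‖ + r := add_le_add (by
          rw [norm_sub_rev]
          exact (norm_sub_conjugate_le hv).trans (mul_le_of_le_one_right (by positivity) hy₀1)) hd.le
      _ = _ := add_comm _ _

/-- The finite case from the iteration, the rotation, the towers and the start. -/
theorem finiteStd (hIt : IterateOut.{u}) (hRot : RotateOut.{u}) (hFl : FlattenOut.{u})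
    (hIn : InitOut.{u}) : FiniteStdKK.{u} := by
  intro θ hθ
  obtain ⟨δ₀, hδ₀, hit⟩ := hIt (θ / 4) (by positivity)
  obtain ⟨k₁, hk₁, hrot⟩ := hRot
  obtain ⟨k₂, hk₂, hin⟩ := hIn
  set δ := min (1 / k₁) (min (θ / (4 * k₁)) (δ₀ / (k₂ * (2 + 3 * k₁)))) with hδdef
  have hδ : 0 < δ := lt_min (by positivity) (lt_min (by positivity) (by positivity))
  refine ⟨δ, hδ, fun H _ _ _ _ M N₀ Ω R hstd hna hd => ?_⟩
  obtain ⟨G, Z, D, hT, hD, hflat⟩ := hFl H M Ω R hstd hna
  have h1 : k₁ * δ ≤ 1 := by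
    rw [← le_div_iff₀' hk₁]; exact min_le_left _ _
  have h2 : k₁ * δ ≤ θ / 4 := by
    rw [← le_div_iff₀' hk₁, div_div]
    exact (min_le_right _ _).trans (min_le_left _ _)
  have h3 : k₂ * ((2 + 3 * k₁) * δ) ≤ δ₀ := by
    rw [← mul_assoc, ← le_div_iff₀' (by positivity)]
    exact (min_le_right _ _).trans (min_le_right _ _)
  obtain ⟨v, N, hv, hv1, hN, hinN⟩ := hrot H M N₀ Ω R G Z δ hstd hT hd h1
  have hkk : kkDist M N < (2 + 3 * k₁) * δ := by
    have := kkDist_rotate_le hd hv hN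
    nlinarith [mul_pos hk₁ hδ]
  obtain ⟨w, hw, hw1, hwM⟩ := hit H M N Ω R G Z D _ hT hinN hD hflat
    (hin H M N Ω R G Z _ hstd hT hinN hkk) h3
  refine ⟨star v * w, mul_mem (Unitary.star_mem hv) hw, ?_, ?_⟩
  · calc ‖star v * w - 1‖ ≤ ‖v - 1‖ + ‖w - 1‖ := norm_star_mul_sub_one_le hv
      _ ≤ θ / 4 + θ / 4 := add_le_add (hv1.trans h2) hw1
      _ < θ := by linarith
  · have e : (fun x => star v * w * x * star (star v * w))
        = (fun x : H →L[ℂ] H => star v * x * v) ∘ fun x => w * x * star w := by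
      funext x
      simp only [Function.comp_apply, star_mul, star_star, mul_assoc]
    rw [e, Set.image_comp, hwM, ← hN, Set.image_image]
    have e' : ∀ x : H →L[ℂ] H, star v * (v * x * star v) * v = x := fun x => by
      simp only [mul_assoc, Unitary.star_mul_self_of_mem hv, mul_one]
      rw [← mul_assoc, Unitary.star_mul_self_of_mem hv, one_mul]
    simp [e']

end Vale.Agent.P096.KK
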