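import Vale.Agent.P096.KK.Setting
import Vale.Agent.P085.Defs

/-!
# P096, Flatten: countable dense algebras in separable standard form

For separable `H` a countable set of entries suffices to approximate every matrix over `M` on the
trace vector with almost the same norm; the countable algebra generated by a countable set.
-/

noncomputable section

namespace Vale.Agent.P096.KK.Flatten

open scoped InnerProductSpace
open Finset

universe u

variable {H : Type u} [NormedAddCommGroup H] [InnerProductSpace ℂ H] [CompleteSpace H]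
variable {M : VonNeumannAlgebra H} {Ω : H} {R : (H →L[ℂ] H) → (H →L[ℂ] H)} {m : ℕ}

/-- The trace vector gives a faithful normal trace. -/
lemma isNormalTrace_of_std (hS : Std M Ω R) :
    P085.IsNormalTrace M (fun i : ℕ => if i = 0 then Ω else 0) := by
  have hv : ∀ a : H →L[ℂ] H,
      P085.vecState (fun i : ℕ => if i = 0 then Ω else 0) a = ⟪Ω, a Ω⟫_ℂ := fun a => by
    rw [P085.vecState, tsum_eq_single 0 fun i hi => by simp [hi]]
    simp
  refine ⟨?_, ?_, fun a ha b hb => ?_, fun a ha h0 => ?_⟩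
  · exact summable_of_hasFiniteSupport ((Set.finite_singleton 0).subset fun i hi => by
      by_contra h; simp [Set.mem_singleton_iff] at h; simp [h] at hi)
  · rw [tsum_eq_single 0 fun i hi => by simp [hi]]
    simp [hS.norm_one]
  · rw [hv, hv]
    exact hS.trace a ha b hb
  · rw [hv, mul_apply_eq_comp, ContinuousLinearMap.star_eq_adjoint,
      ContinuousLinearMap.adjoint_inner_right, inner_self_eq_zero] at h0
    refine ContinuousLinearMap.coeFn_injective
      (Continuous.ext_on hS.cyclic a.continuous continuous_zero ?_)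
    rintro _ ⟨b, hb, rfl⟩
    have h1 := congrArg (fun T : H →L[ℂ] H => T Ω)
      (VonNeumannAlgebra.mem_commutant_iff.1 (hS.right_mem b hb) a ha)
    simp only [mul_apply_eq_comp, h0, map_zero, hS.right_apply b hb] at h1
    exact h1

omit [CompleteSpace H] in
lemma spr_apply (p : Fin m × Fin m) (F : Sq H m) : spr p F = F p := rfl

lemma sinj_eq (p : Fin m × Fin m) (v : H) : sinj p v = WithLp.toLp 2 (Pi.single p v) := by
  refine ext_inner_right ℂ fun F => ?_
  rw [sinj, ContinuousLinearMap.adjoint_inner_left, spr_apply, PiLp.inner_apply,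
    Finset.sum_eq_single p (fun q _ hq => by simp [hq]) (by simp)]
  simp

lemma spr_sinj (p q : Fin m × Fin m) (v : H) : spr p (sinj q v) = if p = q then v else 0 := by
  rw [spr_apply, sinj_eq]
  simp [Pi.single_apply]

lemma sum_sinj_spr (F : Sq H m) : ∑ p, sinj p (spr p F) = F := by
  refine PiLp.ext fun q => ?_
  rw [← spr_apply q, map_sum]
  simp only [spr_sinj]
  simp [spr_apply]

lemma sdiag_sinj (y : H →L[ℂ] H) (p : Fin m × Fin m) (v : H) :
    sdiag m y (sinj p v) = sinj p (y v) := by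
  simp only [sdiag, _root_.sum_apply, ContinuousLinearMap.comp_apply]
  rw [Finset.sum_eq_single p]
  · rw [spr_sinj, if_pos rfl]
  · intro q _ hq
    rw [spr_sinj, if_neg hq, map_zero, map_zero]
  · simp

lemma spr_sdiag (y : H →L[ℂ] H) (p : Fin m × Fin m) (F : Sq H m) :
    spr p (sdiag m y F) = y (spr p F) := by
  simp only [sdiag, _root_.sum_apply, ContinuousLinearMap.comp_apply, map_sum, spr_sinj]
  simp

variable [NeZero m] {T : Sq H m →L[ℂ] Sq H m}

omit [NeZero m] in
lemma sqM_comm (hT : T ∈ sqM M m) {g : Sq H m →L[ℂ] Sq H m}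
    (hg : g ∈ sqGen m (M.commutant : Set (H →L[ℂ] H))) (F : Sq H m) : g (T F) = T (g F) := by
  change T ∈ StarSubalgebra.centralizer ℂ (sqGen m (M.commutant : Set (H →L[ℂ] H))) at hT
  rw [StarSubalgebra.mem_centralizer_iff] at hT
  exact congrArg (fun S : Sq H m →L[ℂ] Sq H m => S F) (hT g hg).1

lemma lEnt_mem (hT : T ∈ sqM M m) (i j : Fin m) : lEnt T i j ∈ M := by
  rw [← VonNeumannAlgebra.commutant_commutant M, VonNeumannAlgebra.mem_commutant_iff]
  intro y hy
  refine ContinuousLinearMap.ext fun v => ?_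
  simp only [mul_apply_eq_comp, lEnt, ContinuousLinearMap.comp_apply]
  rw [← spr_sdiag, sqM_comm hT (Or.inl ⟨y, hy, rfl⟩), sdiag_sinj]

/-- A matrix over `M` is the left multiplication by its entries. -/
lemma mL_lEnt (hT : T ∈ sqM M m) : mL (lEnt T) = T := by
  have hcol : ∀ (j k : Fin m) (v : H),
      T (sinj (j, k) v) = ∑ a, sinj (a, k) (lEnt T a j v) := fun j k v => by
    have h1 : sinj (j, k) v = rUnit 0 k (sinj (j, 0) v) := by
      simp only [rUnit, _root_.sum_apply, ContinuousLinearMap.comp_apply, spr_sinj]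
      rw [Finset.sum_eq_single j (fun a _ ha => by simp [Prod.ext_iff, ha]) (by simp)]
      simp
    rw [h1, ← sqM_comm hT (Or.inr ⟨(0, k), rfl⟩)]
    simp only [rUnit, _root_.sum_apply, ContinuousLinearMap.comp_apply, lEnt]
  refine ContinuousLinearMap.ext fun F => ?_
  conv_rhs => rw [← sum_sinj_spr F, map_sum, Fintype.sum_prod_type]
  simp only [hcol, mL, _root_.sum_apply, ContinuousLinearMap.comp_apply]
  rw [Finset.sum_comm]
  exact Finset.sum_congr rfl fun j _ => Finset.sum_comm

omit [NeZero m] in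
/-- The entries of countably many matrices approximate all of them on the trace vector. -/
lemma exists_entries [TopologicalSpace.SeparableSpace H] (M : VonNeumannAlgebra H) (Ω : H) :
    ∃ S : Set (H →L[ℂ] H), S.Countable ∧ S ⊆ M ∧ ∀ (m : ℕ) [NeZero m], ∀ T ∈ sqM M m, ∀ η : ℝ,
      0 < η → ∃ X : Fin m → Fin m → (H →L[ℂ] H), (∀ i j, X i j ∈ S) ∧
        ‖mL X‖ ≤ 2 * ‖T‖ + η ∧ ‖mL X (sqVec m Ω) - T (sqVec m Ω)‖ ≤ η := by
  have : SecondCountableTopology H := UniformSpace.secondCountable_of_separable H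
  have key : ∀ m : ℕ, ∃ 𝒯 : Set (Sq H (m + 1) →L[ℂ] Sq H (m + 1)), 𝒯.Countable ∧
      (∀ T ∈ 𝒯, T ∈ sqM M (m + 1)) ∧ ∀ T ∈ sqM M (m + 1), ∀ η : ℝ, 0 < η →
        ∃ T' ∈ 𝒯, |‖T'‖ - ‖T‖| < η ∧ ‖T' (sqVec (m + 1) Ω) - T (sqVec (m + 1) Ω)‖ < η := by
    intro m
    let f : (Sq H (m + 1) →L[ℂ] Sq H (m + 1)) → ℝ × Sq H (m + 1) := fun T =>
      (‖T‖, T (sqVec (m + 1) Ω))
    obtain ⟨t, hts, htc, htd⟩ := (TopologicalSpace.IsSeparable.of_separableSpace
      (f '' (sqM M (m + 1) : Set (Sq H (m + 1) →L[ℂ] Sq H (m + 1))))).exists_countable_dense_subset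
    choose g hg hgf using hts
    refine ⟨Set.range fun x : t => g x.2, ?_, ?_, fun T hT η hη => ?_⟩
    · have := htc.to_subtype
      exact Set.countable_range _
    · rintro _ ⟨x, rfl⟩
      exact hg x.2
    · obtain ⟨y, hy, hd⟩ := Metric.mem_closure_iff.1 (htd (Set.mem_image_of_mem f hT)) η hη
      refine ⟨g hy, ⟨⟨y, hy⟩, rfl⟩, ?_⟩
      rw [← hgf hy, dist_comm, Prod.dist_eq, max_lt_iff, Real.dist_eq, dist_eq_norm] at hd
      exact hd
  choose 𝒯 hc hsub happ using key
  refine ⟨⋃ m, ⋃ T ∈ 𝒯 m, Set.range fun p : Fin (m + 1) × Fin (m + 1) => lEnt T p.1 p.2,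
    Set.countable_iUnion fun m => (hc m).biUnion fun T _ => Set.countable_range _, ?_,
    fun m _ T hT η hη => ?_⟩
  · intro x hx
    simp only [Set.mem_iUnion, Set.mem_range] at hx
    obtain ⟨m, T, hT, p, rfl⟩ := hx
    exact lEnt_mem (hsub m T hT) _ _
  · obtain ⟨l, rfl⟩ := Nat.exists_eq_succ_of_ne_zero (NeZero.ne m)
    obtain ⟨T', hT', hn, hv⟩ := happ l T hT η hη
    refine ⟨lEnt T', fun i j => ?_, ?_, ?_⟩
    · simp only [Set.mem_iUnion, Set.mem_range]
      exact ⟨l, T', hT', (i, j), rfl⟩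
    · rw [mL_lEnt (hsub l T' hT')]
      linarith [(abs_lt.1 hn).2, norm_nonneg T]
    · rw [mL_lEnt (hsub l T' hT')]
      exact hv.le

/-! ### The countable algebra generated by a set -/

/-- One round of the operations. -/
def genStep (A : Set (H →L[ℂ] H)) : Set (H →L[ℂ] H) :=
  A ∪ Set.image2 (· * ·) A A ∪ Set.image2 (· + ·) A A ∪ star '' A ∪ (Complex.I • ·) '' A

/-- The closure under product, sum, adjoint and multiplication by `I`. -/
def gen (A : Set (H →L[ℂ] H)) : Set (H →L[ℂ] H) := ⋃ i, genStep^[i] A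

omit [NeZero m]

lemma iterate_genStep_mono (A : Set (H →L[ℂ] H)) {i j : ℕ} (hij : i ≤ j) :
    genStep^[i] A ⊆ genStep^[j] A := by
  induction j, hij using Nat.le_induction with
  | base => exact subset_rfl
  | succ j _ ih =>
    rw [Function.iterate_succ_apply']
    exact fun x hx => Or.inl (Or.inl (Or.inl (Or.inl (ih hx))))

lemma subset_gen (A : Set (H →L[ℂ] H)) : A ⊆ gen A := Set.subset_iUnion (fun i => genStep^[i] A) 0

lemma gen_countable {A : Set (H →L[ℂ] H)} (hA : A.Countable) : (gen A).Countable := by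
  refine Set.countable_iUnion fun i => ?_
  induction i with
  | zero => exact hA
  | succ i ih =>
    rw [Function.iterate_succ_apply']
    exact (((ih.union (ih.image2 ih _)).union (ih.image2 ih _)).union (ih.image _)).union
      (ih.image _)

lemma gen_subset {A : Set (H →L[ℂ] H)} (hA : A ⊆ M) : gen A ⊆ M := by
  refine Set.iUnion_subset fun i => ?_
  induction i with
  | zero => exact hA
  | succ i ih =>
    rw [Function.iterate_succ_apply']
    rintro x ((((hx | ⟨a, ha, b, hb, rfl⟩) | ⟨a, ha, b, hb, rfl⟩) | ⟨a, ha, rfl⟩) | ⟨a, ha, rfl⟩)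
    · exact ih hx
    · exact mul_mem (ih ha) (ih hb)
    · exact add_mem (ih ha) (ih hb)
    · exact star_mem (s := M) (ih ha)
    · exact SMulMemClass.smul_mem (s := M.toStarSubalgebra) _ (ih ha)

lemma gen_mono {A B : Set (H →L[ℂ] H)} (h : A ⊆ B) : gen A ⊆ gen B := by
  refine Set.iUnion_mono fun i => ?_
  induction i with
  | zero => exact h
  | succ i ih =>
    rw [Function.iterate_succ_apply', Function.iterate_succ_apply']
    exact Set.union_subset_union (Set.union_subset_union (Set.union_subset_union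
      (Set.union_subset_union ih (Set.image2_subset ih ih)) (Set.image2_subset ih ih))
      (Set.image_mono ih)) (Set.image_mono ih)

lemma exists_common {A : Set (H →L[ℂ] H)} {x y : H →L[ℂ] H} (hx : x ∈ gen A) (hy : y ∈ gen A) :
    ∃ i, x ∈ genStep^[i] A ∧ y ∈ genStep^[i] A := by
  obtain ⟨i, hi⟩ := Set.mem_iUnion.1 hx
  obtain ⟨j, hj⟩ := Set.mem_iUnion.1 hy
  exact ⟨max i j, iterate_genStep_mono A (le_max_left i j) hi,
    iterate_genStep_mono A (le_max_right i j) hj⟩

lemma gen_closed (A : Set (H →L[ℂ] H)) {x y : H →L[ℂ] H} (hx : x ∈ gen A) (hy : y ∈ gen A) :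
    x * y ∈ gen A ∧ x + y ∈ gen A ∧ star x ∈ gen A ∧ Complex.I • x ∈ gen A := by
  obtain ⟨i, hi, hj⟩ := exists_common hx hy
  have h : ∀ z ∈ genStep (genStep^[i] A), z ∈ gen A := fun z hz =>
    Set.mem_iUnion.2 ⟨i + 1, by rwa [Function.iterate_succ_apply']⟩
  exact ⟨h _ (Or.inl (Or.inl (Or.inl (Or.inr ⟨x, hi, y, hj, rfl⟩)))),
    h _ (Or.inl (Or.inl (Or.inr ⟨x, hi, y, hj, rfl⟩))),
    h _ (Or.inl (Or.inr ⟨x, hi, rfl⟩)), h _ (Or.inr ⟨x, hi, rfl⟩)⟩

end Vale.Agent.P096.KK.Flatten
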