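import Vale.Agent.P096.KK.FlattenLayer
import Vale.Agent.P096.KK.FlattenDense

/-!
# P096: towers with a dense flattened algebra (`KK_PROOF.md` sections 0 and 5b)

For `M` in separable standard form without abelian projections: an increasing sequence of finite
groups of unitaries with central partitions and a countable star algebra containing the groups,
dense on the trace vector at every matrix size, whose self adjoint elements are flattened by the
groups. The groups and the algebra are built by alternation.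
-/

noncomputable section

universe u

namespace Vale.Agent.P096.KK.Flatten

open P104.Sim Finset
open scoped InnerProductSpace

variable {K : Type u} [NormedAddCommGroup K] [InnerProductSpace ℂ K] [CompleteSpace K]
variable {N : VonNeumannAlgebra K}

namespace Layer

lemma neg_one_mem_grp (L : Layer N) : (-1 : K →L[ℂ] K) ∈ L.grp :=
  L.mem_grp.2 ⟨neg_mem (one_mem N), by simp, by simp, fun z _ a => ⟨a, -1, Or.inr rfl, by simp⟩⟩

lemma sign_mem_grp' (L : Layer N) {z : K →L[ℂ] K} (hz : z ∈ L.P) : 2 • z - 1 ∈ L.grp := by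
  have := L.mul_mem_grp L.neg_one_mem_grp (L.sign_mem_grp hz)
  rwa [neg_one_mul, neg_sub, two_smul, ← two_nsmul] at this

end Layer

lemma conjAvg_complex (G : Finset (K →L[ℂ] K)) (x : K →L[ℂ] K) :
    ((G.card : ℂ)⁻¹ • ∑ g ∈ G, g * x * star g) = conjAvg G x := by
  rw [conjAvg, ← Complex.coe_smul (G.card : ℝ)⁻¹]
  push_cast
  rfl

end Flatten

open Flatten P104.Sim in
/-- **(R2)** Towers with a dense flattened algebra exist. -/
theorem flattenOut : FlattenOut.{u} := by
  intro H _ _ _ _ M Ω R hS hNA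
  classical
  have h := isNormalTrace_of_std hS
  obtain ⟨S, hSc, hSM, hSd⟩ := exists_entries M Ω
  -- the algebra of a layer, enumerated
  let alg : Layer M → Set (H →L[ℂ] H) := fun L => gen (S ∪ (L.grp : Set (H →L[ℂ] H)))
  have halg : ∀ L, (alg L).Countable ∧ alg L ⊆ (M : Set (H →L[ℂ] H)) := fun L =>
    ⟨gen_countable (hSc.union L.grp.countable_toSet),
      gen_subset (Set.union_subset hSM fun u hu => (L.mem_grp.1 hu).1)⟩
  let X := {x : H →L[ℂ] H // x ∈ M ∧ IsSelfAdjoint x}
  have henum : ∀ L, ∃ e : ℕ → X, ∀ x ∈ alg L, IsSelfAdjoint x → ∃ b, (e b).1 = x := fun L => by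
    obtain ⟨e, he⟩ := Set.Countable.exists_eq_range
      (s := insert (⟨0, zero_mem M, .zero _⟩ : X) ((fun x : X => x.1) ⁻¹' alg L))
      (((halg L).1.preimage Subtype.val_injective).insert _) (Set.insert_nonempty _ _)
    exact ⟨e, fun x hx hxs => by
      obtain ⟨b, hb⟩ : (⟨x, (halg L).2 hx, hxs⟩ : X) ∈ Set.range e :=
        he ▸ Set.mem_insert_of_mem _ hx
      exact ⟨b, congrArg Subtype.val hb⟩⟩
  choose enum henum using henum
  -- the recursion
  choose next hnG hnP hnc using fun (i : ℕ) (L : Layer M) (x : X) =>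
    exists_next h hNA L x.2.1 x.2.2 (Nat.one_div_pos_of_nat (α := ℝ) (n := (Nat.unpair i).2))
  let tgt : ℕ → (ℕ → ℕ → X) → X := fun i tab =>
    tab (Nat.unpair (Nat.unpair i).1).1 (Nat.unpair (Nat.unpair i).1).2
  let st : ℕ → Layer M × (ℕ → ℕ → X) := fun i =>
    Nat.rec (baseLayer h, fun _ => enum (baseLayer h))
      (fun i s => (next i s.1 (tgt i s.2),
        Function.update s.2 (i + 1) (enum (next i s.1 (tgt i s.2))))) i
  let L : ℕ → Layer M := fun i => (st i).1
  have htab : ∀ i j, j ≤ i → (st i).2 j = enum (L j) := by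
    intro i
    induction i with
    | zero => intro j hj; obtain rfl := Nat.le_zero.1 hj; rfl
    | succ i ih =>
      intro j hj
      change Function.update (st i).2 (i + 1) (enum (L (i + 1))) j = _
      rcases Nat.lt_or_eq_of_le hj with hlt | rfl
      · rw [Function.update_of_ne hlt.ne]
        exact ih j (Nat.le_of_lt_succ hlt)
      · rw [Function.update_self]
  have hmono : ∀ {i j}, i ≤ j → (L i).grp ⊆ (L j).grp ∧ Refines (L j).P (L i).P :=
    fun {i j} hij => mono_layers L (fun i => hnG i (L i) _) (fun i => hnP i (L i) _) hij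
  refine ⟨fun k => (L k).grp, fun k => (L k).P, ⋃ k, alg (L k), ?_, ?_, ?_⟩
  · refine ⟨fun k => (L k).one_mem_grp, fun k g hg g' hg' => (L k).mul_mem_grp hg hg',
      fun k g hg => (L k).star_mem_grp hg, fun k g hg => ?_,
      fun k g hg => (hmono (Nat.le_succ k)).1 hg, fun z => Finset.mem_singleton,
      fun k z hz => ⟨(L k).part.ne_zero z hz, ((L k).part.proj z hz).1.2,
        ((L k).part.proj z hz).2⟩,
      fun k => (L k).part.orth, fun k => (L k).part.total, fun k z hz w hw => ?_,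
      fun k z hz => (L k).sign_mem_grp' hz⟩
    · obtain ⟨h1, h2, h3, -⟩ := (L k).mem_grp.1 hg
      exact ⟨h1, h2, h3⟩
    · obtain ⟨v, hv, hwv⟩ := (hmono (Nat.le_succ k)).2 w hw
      have hvw : v * w = w := by rw [((L k).part.proj v hv).2 w ((L (k + 1)).part.proj w hw).1.1, hwv]
      by_cases hzv : z = v
      · exact Or.inl (hzv ▸ hvw)
      · exact Or.inr (by rw [← hvw, ← mul_assoc, (L k).part.orth z hz v hv hzv, zero_mul])
  · have hup : ∀ x ∈ ⋃ k, alg (L k), ∀ y ∈ ⋃ k, alg (L k), ∃ k, x ∈ alg (L k) ∧ y ∈ alg (L k) := by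
      intro x hx y hy
      obtain ⟨i, hi⟩ := Set.mem_iUnion.1 hx
      obtain ⟨j, hj⟩ := Set.mem_iUnion.1 hy
      have hsub : ∀ {a b}, a ≤ b → alg (L a) ⊆ alg (L b) := fun hab =>
        gen_mono (Set.union_subset_union_right S (Finset.coe_subset.2 (hmono hab).1))
      exact ⟨max i j, hsub (le_max_left i j) hi, hsub (le_max_right i j) hj⟩
    have hS0 : S ⊆ alg (L 0) := fun x hx => subset_gen _ (Or.inl hx)
    refine ⟨Set.countable_iUnion fun k => (halg _).1, Set.iUnion_subset fun k => (halg _).2,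
      fun x hx y hy => ?_, fun x hx => ?_, fun x hx y hy => ?_, fun x hx => ?_,
      fun j g hg => Set.mem_iUnion.2 ⟨j, subset_gen _ (Or.inr hg)⟩, fun m _ T hT η hη => ?_⟩
    · obtain ⟨k, h1, h2⟩ := hup x hx y hy
      exact Set.mem_iUnion.2 ⟨k, (gen_closed _ h1 h2).1⟩
    · obtain ⟨k, h1⟩ := Set.mem_iUnion.1 hx
      exact Set.mem_iUnion.2 ⟨k, (gen_closed _ h1 h1).2.2.1⟩
    · obtain ⟨k, h1, h2⟩ := hup x hx y hy
      exact Set.mem_iUnion.2 ⟨k, (gen_closed _ h1 h2).2.1⟩
    · obtain ⟨k, h1⟩ := Set.mem_iUnion.1 hx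
      exact Set.mem_iUnion.2 ⟨k, (gen_closed _ h1 h1).2.2.2⟩
    · obtain ⟨Y, hY, h1, h2⟩ := hSd m T hT η hη
      exact ⟨Y, fun i j => Set.mem_iUnion.2 ⟨0, hS0 (hY i j)⟩, h1, h2⟩
  · intro x hx hxs η hη k₀
    obtain ⟨j, hj⟩ := Set.mem_iUnion.1 hx
    obtain ⟨b, hb⟩ := henum (L j) x hj hxs
    obtain ⟨p, hp⟩ := exists_nat_one_div_lt hη
    set i := Nat.pair (Nat.pair j b) p with hi
    have hji : j ≤ i := (Nat.left_le_pair j b).trans (Nat.left_le_pair _ p)
    have htg : (tgt i (st i).2).1 = x := by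
      simp only [tgt, hi, Nat.unpair_pair]
      rw [← hi, htab i j hji, hb]
    obtain ⟨c, hc⟩ := hnc i (L i) (tgt i (st i).2)
    rw [htg] at hc
    change ‖(L (i + 1)).T ((L i).T x) - ∑ z ∈ (L (i + 1)).P, c z • z‖ ≤ _ at hc
    have hxM : x ∈ M := (halg _).2 hj
    rw [T_T _ _ (hmono (Nat.le_succ i)).1 hxM, hi, Nat.unpair_pair, ← hi] at hc
    obtain ⟨c', hc'⟩ := close_mono (hmono (le_max_left (i + 1) k₀)).1
      (hmono (le_max_left (i + 1) k₀)).2 hxM hxs (hc.trans hp.le)
    refine ⟨max (i + 1) k₀, fun z => (c' z : ℂ), le_max_right _ _, ?_⟩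
    simpa only [conjAvg_complex, Complex.coe_smul] using hc'

end Vale.Agent.P096.KK
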