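import Vale.Agent.P096.KK.Amp
import Vale.Agent.P096.MatClose
import Vale.Agent.P104.Sim.Main
import Vale.Agent.P104.Sim.Flat
import Vale.Agent.P104.Sim.Flatten
import Vale.Agent.P104.Sim.Split
import Vale.Agent.P104.Sim.Dist
import Vale.Agent.P104.Sim.Reduction

/-!
# P096 (S0): the start of the iteration

Close algebras are completely close, also for the commutants, so every matrix size starts with
`d` a multiple of the Kadison-Kastler distance and `ε = 2 d`.
-/

noncomputable section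

namespace Vale.Agent.P096.KK

open ContinuousLinearMap Amp

universe u

variable {H : Type u} [NormedAddCommGroup H] [InnerProductSpace ℂ H] [CompleteSpace H]

namespace Init

/-- The distance formula of P104. -/
lemma distFormula : P104.Sim.DistOut.{u} := by
  open P104.Sim in
  exact have hP := patchOut splitOut
    have hS := supportOut compareOut.{u}
    have hcore := coreOut (flattenOut hP) (mainStepOut hS) (signalOut hS) flatOut hP centerExpOut
    distOut (reductionOut (amplifyOut hcore))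

lemma near_scaled {M N : VonNeumannAlgebra H} {r : ℝ} (h : kkDist M N < r) {x : (H →L[ℂ] H)} (hx : x ∈ M) :
    ∃ n ∈ N, ‖n - x‖ ≤ r * ‖x‖ := by
  rcases eq_or_ne ‖x‖ 0 with h0 | h0
  · exact ⟨0, zero_mem N, by simp [h0]⟩
  obtain ⟨n, hn, -, hd⟩ := kk_exists_near h (x := ((‖x‖ : ℂ))⁻¹ • x)
    (M.toStarSubalgebra.smul_mem hx _) (by rw [norm_smul]; simp [h0])
  refine ⟨(‖x‖ : ℂ) • n, N.toStarSubalgebra.smul_mem hn _, ?_⟩
  have e : (‖x‖ : ℂ) • n - x = -((‖x‖ : ℂ) • (((‖x‖ : ℂ))⁻¹ • x - n)) := by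
    rw [smul_sub, smul_smul, mul_inv_cancel₀ (by exact_mod_cast h0), one_smul, neg_sub]
  rw [e, norm_neg, norm_smul, Complex.norm_real, norm_norm, mul_comm r]
  exact mul_le_mul_of_nonneg_left hd.le (norm_nonneg _)

lemma mem_toSub {N : VonNeumannAlgebra H} {x : (H →L[ℂ] H)} :
    x ∈ N.toStarSubalgebra.toSubalgebra ↔ x ∈ N := Iff.rfl

lemma cent_toSub (N : VonNeumannAlgebra H) :
    cent N.toStarSubalgebra.toSubalgebra = N.commutant.toStarSubalgebra.toSubalgebra := by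
  refine SetLike.ext fun x => ?_
  rw [mem_toSub, VonNeumannAlgebra.mem_commutant_iff, cent, Subalgebra.mem_centralizer_iff]
  rfl

lemma cent_cent_toSub (N : VonNeumannAlgebra H) :
    cent (cent N.toStarSubalgebra.toSubalgebra) = N.toStarSubalgebra.toSubalgebra := by
  rw [cent_toSub, cent_toSub, VonNeumannAlgebra.commutant_commutant]

lemma sqN_toSub (N : VonNeumannAlgebra H) (m : ℕ) [NeZero m] :
    sqN N.toStarSubalgebra.toSubalgebra m = (sqM N m).toStarSubalgebra.toSubalgebra := by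
  refine SetLike.ext fun T => ⟨fun hT => ?_, fun hT => ?_⟩
  · obtain ⟨hX, e⟩ := mem_sqN hT
    rw [cent_cent_toSub] at hX
    rw [e]
    exact mL_mem_sqM hX
  · obtain ⟨hX, e⟩ := mem_sqM hT
    rw [e]
    exact mL_mem_sqN fun i j => by rw [cent_cent_toSub]; exact hX i j

lemma pieces {M N : VonNeumannAlgebra H} {Ω : H} {R : (H →L[ℂ] H) → (H →L[ℂ] H)} {G Z : ℕ → Finset (H →L[ℂ] H)}
    (hS : Std M Ω R) (hT : Tower M G Z) (hI : InN R N.toStarSubalgebra.toSubalgebra G) :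
    Pieces M R N.toStarSubalgebra.toSubalgebra (towerPieces Z) := by
  have hsm : ∀ (A : VonNeumannAlgebra H) (z : (H →L[ℂ] H)), (2 • z - 1) ∈ A → z ∈ A := by
    intro A z h
    have h2 := A.toStarSubalgebra.smul_mem (add_mem h (one_mem A)) (2⁻¹ : ℂ)
    rwa [sub_add_cancel, two_smul ℕ z, ← two_smul ℂ z, smul_smul, inv_mul_cancel₀ two_ne_zero,
      one_smul] at h2
  refine ⟨⟨0, (hT.zero 1).2 rfl⟩, ?_, ?_⟩
  · rintro z ⟨k, hk⟩
    exact ⟨hsm M z (hT.isometry k _ (hT.sign k z hk)).1, (hT.proj k z hk).2⟩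
  · rintro z ⟨k, hk⟩
    have hw := hI k _ (hT.sign k z hk)
    have hwM := (hT.isometry k _ (hT.sign k z hk)).1
    have hc := (hT.proj k z hk).2.2
    have hw' : R (2 • z - 1) = 2 • z - 1 := hS.R_eq_self hwM fun x hx => by
      simp [sub_mul, mul_sub, two_smul, add_mul, mul_add, hc x hx]
    refine ⟨hsm N z hw.1, ?_, hS.R_eq_self (hsm M z hwM) hc⟩
    rw [hw', cent_toSub] at hw
    rw [cent_toSub]
    exact hsm N.commutant z hw.2

/-- Closeness from the two distances. -/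
lemma close {M N : VonNeumannAlgebra H} {Ω : H} {R : (H →L[ℂ] H) → (H →L[ℂ] H)} {P : Set (H →L[ℂ] H)} {d : ℝ}
    (hS : Std M Ω R) (hP : Pieces M R N.toStarSubalgebra.toSubalgebra P) (h : kkDist M N < d)
    (h' : kkDist M.commutant N.commutant < d) :
    Close M Ω R N.toStarSubalgebra.toSubalgebra P d (2 * d) := by
  have hd : 0 ≤ d := (Metric.hausdorffDist_nonneg.trans_lt h).le
  have near' : ∀ n ∈ N.toStarSubalgebra.toSubalgebra, ∃ x ∈ M, ‖n - x‖ ≤ d * ‖n‖ := fun n hn => by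
    obtain ⟨x, hx, hnx⟩ := near_scaled (by rwa [kk_comm]) (mem_toSub.1 hn)
    exact ⟨x, hx, by rwa [norm_sub_rev]⟩
  refine ⟨hS, hP, cent_cent_toSub N, hd, by linarith, fun x hx => ?_, near', fun y hy => ?_,
    fun y' hy' => ?_, fun n hn b hb z hz => ?_⟩
  · exact near_scaled h hx
  · obtain ⟨y', hy', hyy⟩ := near_scaled h' hy
    exact ⟨y', by rw [cent_toSub]; exact hy', hyy⟩
  · rw [cent_toSub] at hy'
    obtain ⟨y, hy, hyy⟩ := near_scaled (M := N.commutant) (N := M.commutant) (by rwa [kk_comm])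
      (mem_toSub.1 hy')
    exact ⟨y, hy, by rwa [norm_sub_rev]⟩
  · obtain ⟨x, hx, hnx⟩ := near' n hn
    have hc : ∀ v, x (R b v) = R b (x v) := fun v =>
      DFunLike.congr_fun (VonNeumannAlgebra.mem_commutant_iff.1 (hS.right_mem b hb) x hx) v
    have e : n (R b (z Ω)) - R b (n (z Ω)) = (n - x) (R b (z Ω)) - R b ((n - x) (z Ω)) := by
      simp only [sub_apply, map_sub, hc]
      abel
    have h0 := norm_nonneg (z Ω)
    have h1 : ‖(n - x) (R b (z Ω))‖ ≤ d * ‖n‖ * (‖b‖ * ‖z Ω‖) :=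
      ((n - x).le_opNorm _).trans (mul_le_mul hnx
        (((R b).le_opNorm _).trans (mul_le_mul_of_nonneg_right (hS.norm_R hb) h0))
        (norm_nonneg _) (by positivity))
    have h2 : ‖R b ((n - x) (z Ω))‖ ≤ ‖b‖ * (d * ‖n‖ * ‖z Ω‖) :=
      ((R b).le_opNorm _).trans (mul_le_mul (hS.norm_R hb)
        (((n - x).le_opNorm _).trans (mul_le_mul_of_nonneg_right hnx h0))
        (norm_nonneg _) (norm_nonneg _))
    rw [e]
    refine (norm_sub_le _ _).trans ((add_le_add h1 h2).trans_eq ?_)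
    ring

/-- The pieces of the matrices. -/
lemma pieces_square {M N : VonNeumannAlgebra H} {Ω : H} {R : (H →L[ℂ] H) → (H →L[ℂ] H)} {P : Set (H →L[ℂ] H)} (hS : Std M Ω R)
    (hP : Pieces M R N.toStarSubalgebra.toSubalgebra P) (m : ℕ) [NeZero m] :
    Pieces (sqM M m) (sqR R m) (sqM N m).toStarSubalgebra.toSubalgebra (sdiag m '' P) := by
  refine ⟨⟨1, hP.one, sdiag_one⟩, ?_, ?_⟩
  · rintro _ ⟨z, hz, rfl⟩
    obtain ⟨hzM, hzp, hzc⟩ := hP.proj z hz
    refine ⟨sdiag_mem_sqM hzM, ⟨?_, ?_⟩, fun T hT => ?_⟩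
    · show sdiag m z * sdiag m z = sdiag m z
      rw [← sdiag_mul, hzp.isIdempotentElem.eq]
    · show star (sdiag m z) = sdiag m z
      rw [star_sdiag, hzp.isSelfAdjoint.star_eq]
    · obtain ⟨hX, e⟩ := mem_sqM hT
      rw [e]
      exact sdiag_mL_comm fun i j => hzc _ (hX i j)
  · rintro _ ⟨z, hz, rfl⟩
    obtain ⟨hzN, hzc, hzR⟩ := hP.mem z hz
    refine ⟨sdiag_mem_sqM (mem_toSub.1 hzN), ?_, sqR_sdiag hS hzR⟩
    rw [cent, Subalgebra.mem_centralizer_iff]
    intro T hT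
    obtain ⟨hX, e⟩ := mem_sqM hT
    rw [e]
    exact (sdiag_mL_comm fun i j =>
      ((Subalgebra.mem_centralizer_iff ℂ).1 hzc _ (hX i j)).symm).symm

/-- Matrix closeness gives closeness of the matrices in one direction. -/
lemma sq_within {M N : VonNeumannAlgebra H} {r : ℝ} (hr : 0 ≤ r) (h : MatWithin M N r) (m : ℕ)
    [NeZero m] {T : Sq H m →L[ℂ] Sq H m} (hT : T ∈ sqM M m) (hT1 : ‖T‖ ≤ 1) :
    ∃ S ∈ sqM N m, ‖S‖ ≤ 1 ∧ ‖T - S‖ ≤ r := by
  obtain ⟨hX, e⟩ := mem_sqM hT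
  have hXc : P104.Sim.MatContraction (lEnt T) := by
    intro v
    set w : Sq H m := ∑ j, sinj (j, (0 : Fin m)) (v j) with hw
    have hwv : ∀ j k, w (j, k) = if k = 0 then v j else 0 := fun j k => by
      simp only [hw, WithLp.ofLp_sum, Finset.sum_apply, sinj_apply, Prod.mk.injEq]
      rw [Finset.sum_eq_single j] <;> simp +contextual [eq_comm]
    have h1 : ‖T w‖ ^ 2 ≤ ‖w‖ ^ 2 := pow_le_pow_left₀ (norm_nonneg _)
      ((T.le_opNorm w).trans (mul_le_of_le_one_left (norm_nonneg _) hT1)) 2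
    rw [norm_sq_Sq, norm_sq_Sq] at h1
    have h2 : ∑ i, ∑ k, ‖w (i, k)‖ ^ 2 = ∑ q, ‖v q‖ ^ 2 := by
      simp [hwv, apply_ite norm, ite_pow]
    refine le_trans ?_ (h1.trans h2.le)
    refine Finset.sum_le_sum fun i _ => le_trans (le_of_eq ?_)
      (Finset.single_le_sum (f := fun k => ‖T w (i, k)‖ ^ 2) (fun _ _ => by positivity)
        (Finset.mem_univ (0 : Fin m)))
    show _ = ‖T w (i, 0)‖ ^ 2
    rw [show T w = mL (lEnt T) w from congrArg (fun f : Sq H m →L[ℂ] Sq H m => f w) e, mL_apply]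
    simp [hwv]
  obtain ⟨Y, hY, hYc, hXY⟩ := h m (lEnt T) hX hXc
  have bound : ∀ (Z : Fin m → Fin m → (H →L[ℂ] H)) (c : ℝ), 0 ≤ c →
      (∀ v : Fin m → H, ∑ i, ‖∑ j, Z i j (v j)‖ ^ 2 ≤ c ^ 2 * ∑ j, ‖v j‖ ^ 2) → ‖mL Z‖ ≤ c := by
    intro Z c hc hZ
    refine ContinuousLinearMap.opNorm_le_bound _ hc fun v => ?_
    refine le_of_pow_le_pow_left₀ two_ne_zero (by positivity) ?_
    rw [mul_pow, norm_sq_Sq, norm_sq_Sq, Finset.sum_comm,
      Finset.sum_comm (f := fun i k => ‖v (i, k)‖ ^ 2), Finset.mul_sum]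
    refine Finset.sum_le_sum fun k _ => ?_
    simp only [mL_apply]
    exact hZ fun j => v (j, k)
  refine ⟨mL Y, mL_mem_sqM hY, bound Y 1 zero_le_one fun v => by simpa using hYc v, ?_⟩
  rw [e, ← mL_sub]
  exact bound _ r hr hXY

/-- Start of the iteration at every size. -/
theorem initOut : InitOut.{u} := by
  obtain ⟨k₁, h₁⟩ := commutant_continuity distFormula.{u}
  obtain ⟨k₂, h₂⟩ := commutant_and_matWithin distFormula.{u}
  refine ⟨(|k₁| + 1) * (|k₂| + 1) + (|k₂| + 1), by positivity,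
    fun H _ _ _ M N Ω R G Z r hS hT hI hr => ?_⟩
  set K := (|k₁| + 1) * (|k₂| + 1) + (|k₂| + 1)
  have hr0 : 0 < r := Metric.hausdorffDist_nonneg.trans_lt hr
  have h0 : 0 ≤ kkDist M N := Metric.hausdorffDist_nonneg
  have le1 : ∀ {k a b : ℝ}, 0 ≤ a → a < b → k * a < (|k| + 1) * b := by
    intro k a b ha hab
    nlinarith [le_abs_self k, abs_nonneg k]
  have hK1 : r ≤ K * r := by
    nlinarith [abs_nonneg k₁, abs_nonneg k₂, mul_nonneg (abs_nonneg k₁) (abs_nonneg k₂)]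
  have hK2 : (|k₂| + 1) * r ≤ K * r := by nlinarith [abs_nonneg k₁, abs_nonneg k₂, mul_nonneg (abs_nonneg k₁) (abs_nonneg k₂)]
  have hc : kkDist M.commutant N.commutant < K * r :=
    ((h₂ H M N).1.trans_lt (le1 h0 hr)).trans_le hK2
  refine ⟨close hS (pieces hS hT hI) (hr.trans_le hK1) hc, fun m _ => ?_⟩
  have hr2 : k₂ * kkDist M N < (|k₂| + 1) * r := le1 h0 hr
  have hr2' : k₂ * kkDist N M < (|k₂| + 1) * r := by rwa [kk_comm N M]
  have hsq : kkDist (sqM M m) (sqM N m) ≤ (|k₂| + 1) * r := by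
    refine kk_le (by positivity) (fun T hT hT1 => ?_) fun T hT hT1 => ?_
    · exact sq_within (by positivity) ((h₂ H M N).2 _ hr2) m hT hT1
    · exact sq_within (by positivity) ((h₂ H N M).2 _ hr2') m hT hT1
  have hsq' : kkDist (sqM M m).commutant (sqM N m).commutant < K * r := by
    refine ((h₁ _ (sqM M m) (sqM N m)).trans
      ((mul_le_mul_of_nonneg_right (le_abs_self k₁) Metric.hausdorffDist_nonneg).trans
        (mul_le_mul_of_nonneg_left hsq (abs_nonneg k₁)))).trans_lt ?_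
    nlinarith [abs_nonneg k₁, abs_nonneg k₂]
  rw [sqN_toSub]
  refine close hS.square (pieces_square hS (pieces hS hT hI) m) (hsq.trans_lt ?_) hsq'
  nlinarith [mul_pos (mul_pos (show (0:ℝ) < |k₁| + 1 by positivity) (show (0:ℝ) < |k₂| + 1 by positivity)) hr0]

end Init

end Vale.Agent.P096.KK
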