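import Vale.Agent.P096.KK.Setting
import Vale.Agent.P096.Polar

/-!
# P096 (S6): the iteration

The products of the exponentials converge geometrically. In the limit the transformed algebra
commutes with the right multiplications, hence lies in `M` (commutation for a trace vector); being
near `M` and norm closed it equals `M`, and the similarity is made unitary by polar decomposition.
-/

noncomputable section

namespace Vale.Agent.P096.KK

open scoped InnerProductSpace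
open Filter Topology

universe u

variable {H : Type u} [NormedAddCommGroup H] [InnerProductSpace ℂ H] [CompleteSpace H]
variable {M : VonNeumannAlgebra H} {Ω : H} {R : (H →L[ℂ] H) → (H →L[ℂ] H)}

namespace Iterate

lemma apply_comm {x y : H →L[ℂ] H} (hx : x ∈ M) (hy : y ∈ M.commutant) (v : H) :
    x (y v) = y (x v) :=
  DFunLike.congr_fun (VonNeumannAlgebra.mem_commutant_iff.1 hy x hx) v

lemma ext_dense (h : Std M Ω R) {x y : H →L[ℂ] H} (he : ∀ c ∈ M, x (c Ω) = y (c Ω)) : x = y :=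
  DFunLike.coe_injective (Continuous.ext_on h.cyclic x.continuous y.continuous
    (by rintro _ ⟨c, hc, rfl⟩; exact he c hc))

lemma ext_vec (h : Std M Ω R) {x y : H →L[ℂ] H} (hx : x ∈ M.commutant) (hy : y ∈ M.commutant)
    (he : x Ω = y Ω) : x = y :=
  ext_dense h fun c hc => by rw [← apply_comm hc hx, ← apply_comm hc hy, he]

lemma norm_le_of_inner (h : Std M Ω R) {u : H} {δ : ℝ}
    (hb : ∀ c ∈ M, ‖⟪u, c Ω⟫_ℂ‖ ≤ δ * ‖c Ω‖) (hδ : 0 ≤ δ) : ‖u‖ ≤ δ := by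
  have hs : ‖⟪u, u⟫_ℂ‖ ≤ δ * ‖u‖ :=
    h.cyclic.induction (P := fun v => ‖⟪u, v⟫_ℂ‖ ≤ δ * ‖v‖)
      (by rintro _ ⟨c, hc, rfl⟩; exact hb c hc)
      (isClosed_le (by fun_prop) (by fun_prop)) u
  rw [inner_self_eq_norm_sq_to_K, norm_pow, RCLike.norm_ofReal, abs_norm, pow_two] at hs
  by_contra hlt
  rw [not_le] at hlt
  nlinarith

lemma eq_of_inner (h : Std M Ω R) {u w : H} (hb : ∀ c ∈ M, ⟪u, c Ω⟫_ℂ = ⟪w, c Ω⟫_ℂ) : u = w := by
  have := norm_le_of_inner h (u := u - w) (δ := 0)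
    (fun c hc => by rw [inner_sub_left, hb c hc, sub_self, norm_zero, zero_mul]) le_rfl
  exact sub_eq_zero.1 (norm_le_zero_iff.1 this)

lemma inner_star (x : H →L[ℂ] H) (u v : H) : ⟪(star x) u, v⟫_ℂ = ⟪u, x v⟫_ℂ := by
  rw [ContinuousLinearMap.star_eq_adjoint, ContinuousLinearMap.adjoint_inner_left]

lemma inner_star' (x : H →L[ℂ] H) (u v : H) : ⟪u, (star x) v⟫_ℂ = ⟪x u, v⟫_ℂ := by
  rw [← inner_star, star_star]

lemma right_right (h : Std M Ω R) {b c : H →L[ℂ] H} (hb : b ∈ M) (hc : c ∈ M) :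
    R b (c Ω) = c (b Ω) := by
  rw [← apply_comm hc (h.right_mem b hb), h.right_apply b hb]

lemma star_right_apply (h : Std M Ω R) {b : H →L[ℂ] H} (hb : b ∈ M) :
    star (R b) Ω = star b Ω :=
  eq_of_inner h fun c hc => by
    rw [inner_star, inner_star, right_right h hb hc, h.trace c hc b hb]

lemma star_right (h : Std M Ω R) {b : H →L[ℂ] H} (hb : b ∈ M) : star (R b) = R (star b) :=
  ext_vec h (star_mem (h.right_mem b hb)) (h.right_mem _ (star_mem hb))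
    (by rw [star_right_apply h hb, h.right_apply _ (star_mem hb)])

lemma norm_star_apply (h : Std M Ω R) {b : H →L[ℂ] H} (hb : b ∈ M) : ‖star b Ω‖ = ‖b Ω‖ := by
  have e : ⟪star b Ω, star b Ω⟫_ℂ = ⟪b Ω, b Ω⟫_ℂ := by
    rw [inner_star, h.trace b hb _ (star_mem hb), ← inner_star, star_star]
  rw [@norm_eq_sqrt_re_inner ℂ, @norm_eq_sqrt_re_inner ℂ _ _ _ _ (b Ω), e]

/-- An operator commuting with the right multiplications on the trace vector lies in `M`. -/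
theorem mem_of_right (h : Std M Ω R) {T : H →L[ℂ] H}
    (hT : ∀ b ∈ M, T (R b Ω) = R b (T Ω)) : T ∈ M := by
  have hmul : ∀ b ∈ M, ∀ c ∈ M, R (c * b) = R b * R c := fun b hb c hc =>
    ext_vec h (h.right_mem _ (mul_mem hc hb)) (mul_mem (h.right_mem b hb) (h.right_mem c hc))
      (by
        show _ = R b (R c Ω)
        rw [h.right_apply _ (mul_mem hc hb), h.right_apply c hc, right_right h hb hc]; rfl)
  have hall : ∀ b ∈ M, ∀ v, T (R b v) = R b (T v) := fun b hb v =>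
    DFunLike.congr_fun (ext_dense h (x := T * R b) (y := R b * T) fun c hc => by
      show T (R b (c Ω)) = R b (T (c Ω))
      have e := hT _ (mul_mem hc hb)
      rw [hmul b hb c hc] at e
      have e' : R b (T (c Ω)) = R b (R c (T Ω)) := by
        rw [← h.right_apply c hc, hT c hc]
      rw [e', ← h.right_apply c hc]
      exact e) v
  have key : ∀ y ∈ M.commutant, ⟪Ω, T (y Ω)⟫_ℂ = ⟪Ω, y (T Ω)⟫_ℂ := by
    intro y hy
    rw [← sub_eq_zero, ← norm_le_zero_iff]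
    refine le_of_forall_pos_le_add fun e he => ?_
    rw [zero_add]
    set K := ‖y Ω‖ + ‖star y Ω‖ + 1 with hK
    have hK0 : 0 < K := by positivity
    obtain ⟨_, ⟨c, hc, rfl⟩, hcd⟩ := h.cyclic.exists_dist_lt (T Ω) (div_pos he hK0)
    rw [dist_eq_norm] at hcd
    have h1 : ‖star T Ω - star c Ω‖ ≤ ‖T Ω - c Ω‖ := by
      refine norm_le_of_inner h (fun b hb => ?_) (norm_nonneg _)
      have e1 : ⟪star T Ω - star c Ω, b Ω⟫_ℂ = ⟪star b Ω, T Ω - c Ω⟫_ℂ := by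
        rw [← star_right_apply h hb, inner_star, map_sub, inner_sub_right, inner_sub_left,
          inner_star, inner_star, ← hT b hb, h.right_apply b hb, right_right h hb hc]
      rw [e1]
      exact (norm_inner_le_norm _ _).trans (by rw [norm_star_apply h hb, mul_comm])
    have e2 : ⟪Ω, T (y Ω)⟫_ℂ - ⟪Ω, y (T Ω)⟫_ℂ =
        ⟪star T Ω - star c Ω, y Ω⟫_ℂ - ⟪star y Ω, T Ω - c Ω⟫_ℂ := by
      rw [inner_sub_left, inner_sub_right, inner_star, inner_star, inner_star, inner_star,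
        apply_comm hc hy]
      ring
    rw [e2]
    refine (norm_sub_le _ _).trans ?_
    have a1 := (norm_inner_le_norm (𝕜 := ℂ) (star T Ω - star c Ω) (y Ω)).trans
      (mul_le_mul_of_nonneg_right h1 (norm_nonneg _))
    have a2 := norm_inner_le_norm (𝕜 := ℂ) (star y Ω) (T Ω - c Ω)
    have a3 : ‖T Ω - c Ω‖ * K ≤ e := by rw [← le_div_iff₀ hK0]; exact hcd.le
    have a4 := norm_nonneg (T Ω - c Ω)
    rw [hK] at a3
    nlinarith
  rw [← M.commutant_commutant, VonNeumannAlgebra.mem_commutant_iff]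
  intro y hy
  refine ext_dense h fun b hb => eq_of_inner h fun a ha => ?_
  have hy' : star (R a) * y * R b ∈ M.commutant :=
    mul_mem (mul_mem (star_mem (h.right_mem a ha)) hy) (h.right_mem b hb)
  rw [← inner_conj_symm, ← inner_conj_symm ((T * y) (b Ω)), ← h.right_apply a ha,
    ← h.right_apply b hb]
  congr 1
  show ⟪R a Ω, y (T (R b Ω))⟫_ℂ = ⟪R a Ω, T (y (R b Ω))⟫_ℂ
  calc ⟪R a Ω, y (T (R b Ω))⟫_ℂ = ⟪Ω, star (R a) (y (T (R b Ω)))⟫_ℂ := (inner_star' _ _ _).symm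
    _ = ⟪Ω, (star (R a) * y * R b) (T Ω)⟫_ℂ := by rw [hT b hb]; rfl
    _ = ⟪Ω, T ((star (R a) * y * R b) Ω)⟫_ℂ := (key _ hy').symm
    _ = ⟪Ω, star (R a) (T (y (R b Ω)))⟫_ℂ := by
        show ⟪Ω, T (star (R a) (y (R b Ω)))⟫_ℂ = _
        rw [star_right h ha, hall _ (star_mem ha)]
    _ = _ := inner_star' _ _ _

/-- The exponential is near one. -/
lemma norm_exp_sub_one_le {A : H →L[ℂ] H} (hA : ‖A‖ ≤ 1 / 2) :
    ‖NormedSpace.exp A - 1‖ ≤ 2 * ‖A‖ := by
  have h1 := (hasSum_nat_add_iff' 1).2 (NormedSpace.exp_series_hasSum_exp' (𝕂 := ℂ) A)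
  simp only [Finset.sum_range_one, Nat.factorial_zero, Nat.cast_one, inv_one, pow_zero,
    one_smul] at h1
  have h2 := (hasSum_geometric_of_lt_one (norm_nonneg A) (by linarith)).mul_left ‖A‖
  refine (h1.norm_le_of_bounded h2 fun n => ?_).trans ?_
  · rw [norm_smul, ← pow_succ', norm_inv, Complex.norm_natCast]
    refine (mul_le_mul (inv_le_one_of_one_le₀ ?_) (norm_pow_le' A (Nat.succ_pos n)) (norm_nonneg _)
      zero_le_one).trans (one_mul _).le
    exact_mod_cast Nat.factorial_pos _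
  · rw [mul_comm]
    refine mul_le_mul_of_nonneg_right ?_ (norm_nonneg _)
    rw [inv_le_comm₀ (by linarith) two_pos]
    linarith

lemma exp_mul_exp_neg (A : H →L[ℂ] H) : NormedSpace.exp A * NormedSpace.exp (-A) = 1 := by
  let : NormedAlgebra ℚ (H →L[ℂ] H) := .restrictScalars ℚ ℂ _
  rw [← NormedSpace.exp_add_of_commute (Commute.refl A).neg_right, add_neg_cancel,
    NormedSpace.exp_zero]

omit [CompleteSpace H] in
lemma norm_le_two {x : H →L[ℂ] H} (hx : ‖x - 1‖ ≤ 1) : ‖x‖ ≤ 2 := by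
  have := norm_le_norm_add_norm_sub' x 1
  have h1 : ‖(1 : H →L[ℂ] H)‖ ≤ 1 := ContinuousLinearMap.norm_id_le
  linarith

/-- A state of the iteration: the algebra, the similarity and its inverse, with their bounds. -/
def State (M N₀ : VonNeumannAlgebra H) (Ω : H) (R : (H →L[ℂ] H) → (H →L[ℂ] H))
    (G Z : ℕ → Finset (H →L[ℂ] H)) (k d : ℝ) (j : ℕ)
    (p : Subalgebra ℂ (H →L[ℂ] H) × (H →L[ℂ] H) × (H →L[ℂ] H)) : Prop :=
  InN R p.1 G ∧ (p.2.1 * p.2.2 = 1 ∧ p.2.2 * p.2.1 = 1) ∧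
    (∀ n ∈ N₀, p.2.1 * n * p.2.2 ∈ p.1) ∧
    (‖p.2.1 - 1‖ ≤ 2 * (8 * k * d) * (1 - (1 / 2) ^ j) ∧
      ‖p.2.2 - 1‖ ≤ 2 * (8 * k * d) * (1 - (1 / 2) ^ j)) ∧
    ∃ dj εj : ℝ, AllSizes M Ω R p.1 (towerPieces Z) dj εj ∧
      εj ≤ 2 * d * (1 / 2) ^ j ∧ εj ≤ 2 * dj ∧ dj ≤ d + 4 * k * d * (1 - (1 / 2) ^ j)

lemma exists_next {N₀ : VonNeumannAlgebra H} {G Z : ℕ → Finset (H →L[ℂ] H)}
    {k d : ℝ} (hk : 0 < k) (hd0 : 0 ≤ d)
    (hk4 : k * (d + 4 * k * d) ≤ 1 / 4) (hkd : k * d ≤ 1 / 1000)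
    (hstep : ∀ (N : Subalgebra ℂ (H →L[ℂ] H)) (dj εj : ℝ), InN R N G →
      AllSizes M Ω R N (towerPieces Z) dj εj → εj ≤ 2 * dj → k * dj ≤ 1 →
      ∃ (A : H →L[ℂ] H) (N₁ : Subalgebra ℂ (H →L[ℂ] H)), ‖A‖ ≤ k * εj ∧
        (N₁ : Set (H →L[ℂ] H)) = expConj A N ∧ InN R N₁ G ∧
        AllSizes M Ω R N₁ (towerPieces Z) (dj + k * εj) ((1 / 4 + k * dj) * εj)) :
    ∀ j p, State M N₀ Ω R G Z k d j p → ∃ q, State M N₀ Ω R G Z k d (j + 1) q ∧
      ‖q.2.1 - p.2.1‖ ≤ 8 * k * d * (1 / 2) ^ j ∧ ‖q.2.2 - p.2.2‖ ≤ 8 * k * d * (1 / 2) ^ j := by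
  rintro j ⟨N, S, S'⟩ ⟨hN, ⟨hSS, hS'S⟩, hmem, ⟨hS, hS'⟩, dj, εj, hcl, he1, he2, hdj⟩
  simp only at hN hSS hS'S hmem hS hS' hcl he1 he2 hdj
  have hp0 : (0 : ℝ) ≤ (1 / 2) ^ j := by positivity
  have hp1 : (1 / 2 : ℝ) ^ j ≤ 1 := pow_le_one₀ (by norm_num) (by norm_num)
  have hkdp : k * d * (1 / 2) ^ j ≤ 1 / 1000 :=
    (mul_le_of_le_one_right (by positivity) hp1).trans hkd
  have he0 := hcl.1.ε_nonneg
  have hdj0 := hcl.1.d_nonneg
  have hdj1 : dj ≤ d + 4 * k * d :=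
    hdj.trans (by linarith [mul_nonneg (mul_nonneg hk.le hd0) hp0])
  have hkdj : k * dj ≤ 1 / 4 := (mul_le_mul_of_nonneg_left hdj1 hk.le).trans hk4
  obtain ⟨A, N₁, hA, hN₁, hIn₁, hcl₁⟩ := hstep N dj εj hN hcl he2 (by linarith)
  have hA1 : ‖A‖ ≤ 2 * k * d * (1 / 2) ^ j :=
    hA.trans ((mul_le_mul_of_nonneg_left he1 hk.le).trans_eq (by ring))
  have hA2 : ‖A‖ ≤ 1 / 2 := by linarith
  have hS2 : ‖S‖ ≤ 2 := norm_le_two (by linarith [mul_nonneg (mul_nonneg hk.le hd0) hp0])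
  have hS2' : ‖S'‖ ≤ 2 := norm_le_two (by linarith [mul_nonneg (mul_nonneg hk.le hd0) hp0])
  have d1 : ‖NormedSpace.exp A * S - S‖ ≤ 8 * k * d * (1 / 2) ^ j := by
    rw [← sub_one_mul]
    refine (norm_mul_le _ _).trans ((mul_le_mul (norm_exp_sub_one_le hA2) hS2 (norm_nonneg _)
      (by positivity)).trans ?_)
    linarith
  have d2 : ‖S' * NormedSpace.exp (-A) - S'‖ ≤ 8 * k * d * (1 / 2) ^ j := by
    rw [← mul_sub_one]
    refine (norm_mul_le _ _).trans ((mul_le_mul hS2'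
      (norm_exp_sub_one_le (A := -A) (by rwa [norm_neg])) (norm_nonneg _) (by positivity)).trans ?_)
    rw [norm_neg]; linarith
  have hpow : (1 / 2 : ℝ) ^ (j + 1) = (1 / 2) ^ j / 2 := by rw [pow_succ]; ring
  have hea := exp_mul_exp_neg A
  have hea' : NormedSpace.exp (-A) * NormedSpace.exp A = 1 := by
    simpa using exp_mul_exp_neg (-A)
  refine ⟨⟨N₁, NormedSpace.exp A * S, S' * NormedSpace.exp (-A)⟩,
    ⟨hIn₁, ⟨?_, ?_⟩, ?_, ⟨?_, ?_⟩, dj + k * εj, (1 / 4 + k * dj) * εj, hcl₁, ?_, ?_, ?_⟩, d1, d2⟩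
  · rw [mul_assoc, ← mul_assoc S, hSS, one_mul, hea]
  · rw [mul_assoc, ← mul_assoc (NormedSpace.exp (-A)), hea', one_mul, hS'S]
  · intro n hn
    show _ ∈ (N₁ : Set (H →L[ℂ] H))
    rw [hN₁]
    exact ⟨S * n * S', hmem n hn, by simp only [mul_assoc]⟩
  · refine (norm_sub_le_norm_sub_add_norm_sub _ S _).trans ?_
    rw [hpow]; linarith
  · refine (norm_sub_le_norm_sub_add_norm_sub _ S' _).trans ?_
    rw [hpow]; linarith
  · rw [hpow]
    refine (mul_le_mul_of_nonneg_right (by linarith : 1 / 4 + k * dj ≤ 1 / 2) he0).trans ?_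
    linarith
  · have := mul_le_mul_of_nonneg_right (by linarith : 1 / 4 + k * dj ≤ 1) he0
    linarith [mul_nonneg hk.le he0]
  · rw [hpow]
    have := mul_le_mul_of_nonneg_left he1 hk.le
    linarith

/-- An algebra mapped into `M` by a similarity near one and near `M` is mapped onto `M`. -/
lemma conj_onto {N₀ : VonNeumannAlgebra H} {S S' : H →L[ℂ] H} {E d : ℝ} (hS'S : S' * S = 1)
    (hS : ‖S - 1‖ ≤ E) (hS' : ‖S' - 1‖ ≤ E) (hE : 0 ≤ E) (hEd : 6 * E + d ≤ 1 / 2)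
    (near : ∀ x ∈ M, ∃ n ∈ N₀.toStarSubalgebra.toSubalgebra, ‖n - x‖ ≤ d * ‖x‖)
    (hd : 0 ≤ d) (hinto : ∀ n ∈ N₀, S * n * S' ∈ M) : ∀ x ∈ M, S' * x * S ∈ N₀ := by
  intro x hx
  have hclosed : IsClosed {y : H →L[ℂ] H | S' * y * S ∈ N₀} :=
    (isClosed_vna N₀).preimage (by fun_prop)
  have hcancel : ∀ n, S' * (S * n * S') * S = n := fun n => by
    rw [← mul_assoc, ← mul_assoc, hS'S, one_mul, mul_assoc, hS'S, mul_one]
  have hiter : ∀ m : ℕ, ∃ n ∈ N₀, ‖S * n * S' - x‖ ≤ (1 / 2) ^ m * ‖x‖ := by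
    intro m
    induction m with
    | zero => exact ⟨0, zero_mem _, by simp⟩
    | succ m ih =>
      obtain ⟨n, hn, hnx⟩ := ih
      obtain ⟨n', hn', hn'x⟩ := near _ (sub_mem hx (hinto n hn))
      refine ⟨n + n', add_mem hn hn', ?_⟩
      generalize hrdef : x - S * n * S' = r at hn'x
      have hr : ‖r‖ ≤ (1 / 2) ^ m * ‖x‖ := by rwa [← hrdef, norm_sub_rev]
      have e : S * (n + n') * S' - x = conjDefect S S' n' + (n' - r) := by
        simp only [conjDefect, ← hrdef, mul_add, add_mul]; abel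
      rw [e]
      refine (norm_add_le _ _).trans ?_
      have hn'n : ‖n'‖ ≤ 2 * ‖r‖ :=
        (norm_le_norm_add_norm_sub' n' r).trans (by
          linarith [hn'x.trans (mul_le_mul_of_nonneg_right (by linarith : d ≤ 1) (norm_nonneg r))])
      have hcd : ‖conjDefect S S' n'‖ ≤ 3 * E * (2 * ‖r‖) :=
        (conjDefect_norm_le _ _ _).trans (mul_le_mul (by
          linarith [mul_le_mul hS (norm_le_two (x := S') (by linarith)) (norm_nonneg _) hE])
          hn'n (norm_nonneg _) (by positivity))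
      rw [pow_succ]
      linarith [mul_le_mul_of_nonneg_right hEd (norm_nonneg r)]
  choose n hn hnx using hiter
  show x ∈ {y : H →L[ℂ] H | S' * y * S ∈ N₀}
  refine hclosed.mem_of_tendsto (f := fun m => S * n m * S') (b := atTop) ?_
    (Eventually.of_forall fun m => by
      show S' * (S * n m * S') * S ∈ N₀
      rw [hcancel]; exact hn m)
  rw [tendsto_iff_norm_sub_tendsto_zero]
  refine squeeze_zero (fun m => norm_nonneg _) hnx ?_
  simpa using (tendsto_pow_atTop_nhds_zero_of_lt_one (by norm_num : (0 : ℝ) ≤ 1 / 2)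
      (by norm_num)).mul_const ‖x‖

end Iterate

open Iterate in
/-- (S6) -/
theorem iterateOut_of_step (hStep : StepOut.{u}) : IterateOut.{u} := by
  intro θ hθ
  obtain ⟨k, hk, hstep⟩ := hStep (1 / 4) (by norm_num)
  set L : ℝ := 2000 * (1 + k) * (1 + k) with hL
  have hL0 : 0 < L := by positivity
  refine ⟨min (1 / L) (θ / L), by positivity, ?_⟩
  intro H _ _ _ M N₀ Ω R G Z D d hTow hIn hD hFlat hAll hd
  have hd0 := hAll.1.d_nonneg
  have hLd : L * d ≤ 1 := by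
    rw [mul_comm, ← le_div_iff₀ hL0]; exact hd.trans (min_le_left _ _)
  have hLθ : L * d ≤ θ := by
    rw [mul_comm, ← le_div_iff₀ hL0]; exact hd.trans (min_le_right _ _)
  have hkd : 2000 * (k * d) ≤ L * d := by rw [hL]; nlinarith [mul_nonneg hk.le hd0]
  have hkkd : 2000 * (k * k * d) ≤ L * d := by rw [hL]; nlinarith [mul_nonneg hk.le hd0]
  have hd1 : 2000 * d ≤ L * d := by rw [hL]; nlinarith [mul_nonneg hk.le hd0]
  set C : ℝ := 8 * k * d with hC
  have hC0 : 0 ≤ C := by positivity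
  have hC1 : 2 * C ≤ 1 / 10 := by rw [hC]; linarith
  have hk4 : k * (d + 4 * k * d) ≤ 1 / 4 := by linarith
  have hkd' : k * d ≤ 1 / 1000 := by linarith
  let P := State M N₀ Ω R G Z k d
  have step : ∀ j p, P j p → ∃ q, P (j + 1) q ∧ ‖q.2.1 - p.2.1‖ ≤ C * (1 / 2) ^ j ∧
      ‖q.2.2 - p.2.2‖ ≤ C * (1 / 2) ^ j :=
    exists_next hk hd0 hk4 hkd' (fun N dj εj h1 h2 h3 h4 =>
      hstep H M Ω R N G Z D dj εj hTow h1 hD hFlat h2 h3 h4)
  have hp : ∀ j : ℕ, (0 : ℝ) ≤ (1 / 2) ^ j ∧ (1 / 2 : ℝ) ^ j ≤ 1 := fun j =>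
    ⟨by positivity, pow_le_one₀ (by norm_num) (by norm_num)⟩
  have h0 : P 0 ⟨N₀.toStarSubalgebra.toSubalgebra, 1, 1⟩ := by
    refine ⟨hIn, ⟨one_mul 1, one_mul 1⟩, fun n hn => by simpa using hn, ⟨?_, ?_⟩,
      d, 2 * d, hAll, ?_, le_rfl, ?_⟩ <;> simp
  choose next hnext hdiff hdiff' using step
  let seq : ∀ j, {p // P j p} := fun j => Nat.rec (motive := fun j => {p // P j p}) ⟨_, h0⟩
    (fun j p => ⟨next j p.1 p.2, hnext j p.1 p.2⟩) j
  obtain ⟨S, hS⟩ := cauchySeq_tendsto_of_complete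
    (cauchySeq_of_le_geometric (1 / 2) C (by norm_num) (f := fun j => (seq j).1.2.1) fun j => by
      rw [dist_comm, dist_eq_norm]; exact hdiff j _ (seq j).2)
  obtain ⟨S', hS'⟩ := cauchySeq_tendsto_of_complete
    (cauchySeq_of_le_geometric (1 / 2) C (by norm_num) (f := fun j => (seq j).1.2.2) fun j => by
      rw [dist_comm, dist_eq_norm]; exact hdiff' j _ (seq j).2)
  have hSS : S * S' = 1 := tendsto_nhds_unique
    ((hS.mul hS').congr fun j => (seq j).2.2.1.1) tendsto_const_nhds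
  have hS'S : S' * S = 1 := tendsto_nhds_unique
    ((hS'.mul hS).congr fun j => (seq j).2.2.1.2) tendsto_const_nhds
  have hb1 : ∀ j, ‖(seq j).1.2.1 - 1‖ ≤ 2 * C ∧ ‖(seq j).1.2.2 - 1‖ ≤ 2 * C := fun j => by
    have h2j := hp j
    obtain ⟨-, -, -, ⟨h1, h2⟩, -⟩ := (seq j).2
    constructor <;> nlinarith
  have hSn : ‖S - 1‖ ≤ 2 * C := le_of_tendsto' (hS.sub_const 1).norm fun j => (hb1 j).1
  have hSn' : ‖S' - 1‖ ≤ 2 * C := le_of_tendsto' (hS'.sub_const 1).norm fun j => (hb1 j).2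
  have hinto : ∀ n ∈ N₀, S * n * S' ∈ M := by
    intro n hn
    refine mem_of_right hAll.1.std fun b hb => ?_
    have ht : Tendsto (fun j => (seq j).1.2.1 * n * (seq j).1.2.2) atTop (𝓝 (S * n * S')) :=
      (hS.mul_const n).mul hS'
    have hcont : Continuous fun T : H →L[ℂ] H => T (R b Ω) - R b (T Ω) := by fun_prop
    have hz : Tendsto (fun j : ℕ => 2 * d * (1 / 2 : ℝ) ^ j * (4 * ‖n‖ * ‖b‖)) atTop (𝓝 0) := by
      simpa using ((tendsto_pow_atTop_nhds_zero_of_lt_one (by norm_num : (0 : ℝ) ≤ 1 / 2)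
        (by norm_num)).const_mul (2 * d)).mul_const (4 * ‖n‖ * ‖b‖)
    refine sub_eq_zero.1 (tendsto_nhds_unique ((hcont.tendsto _).comp ht)
      (squeeze_zero_norm (fun j => ?_) hz))
    obtain ⟨-, -, hmem, -, dj, εj, hcl, he, -, -⟩ := (seq j).2
    have h1 : (1 : H →L[ℂ] H) ∈ towerPieces Z := ⟨0, (hTow.zero 1).2 rfl⟩
    have hsm := hcl.1.small _ (hmem n hn) b hb 1 h1
    simp only [one_apply_eq_self, hcl.1.std.norm_one, mul_one] at hsm
    refine hsm.trans ?_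
    have hn4 : ‖(seq j).1.2.1 * n * (seq j).1.2.2‖ ≤ 4 * ‖n‖ := by
      refine (norm_mul₃_le).trans ?_
      refine (mul_le_mul (mul_le_mul_of_nonneg_right (norm_le_two (by linarith [(hb1 j).1]))
        (norm_nonneg _)) (norm_le_two (by linarith [(hb1 j).2])) (norm_nonneg _) (by positivity)).trans ?_
      linarith [norm_nonneg n]
    calc εj * ‖(seq j).1.2.1 * n * (seq j).1.2.2‖ * ‖b‖
        ≤ 2 * d * (1 / 2) ^ j * (4 * ‖n‖) * ‖b‖ := mul_le_mul_of_nonneg_right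
          (mul_le_mul he hn4 (norm_nonneg _) (by positivity)) (norm_nonneg _)
      _ = _ := by ring
  have honto := conj_onto hS'S hSn hSn' (by positivity) (by rw [hC]; linarith)
    hAll.1.near hd0 hinto
  obtain ⟨v, hv, hv1, hv2⟩ := unitary_of_similarity M N₀ (η := 2 * C)
    (by rw [hC]; linarith) S' hSn'
    (fun x hx => ⟨S' * x * S, honto x hx, by rw [mul_assoc, hSS, mul_one]⟩)
    (fun y hy => ⟨S * y * S', hinto y hy, by rw [← mul_assoc, ← mul_assoc, hS'S, one_mul]⟩)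
  exact ⟨v, hv, hv1.trans (by rw [hC]; linarith), hv2⟩

/-- (S6), in the requested form. -/
theorem iterateOut (h5 : StepOut.{u}) (_h2 : SelectOut.{u}) : IterateOut.{u} :=
  iterateOut_of_step h5

end Vale.Agent.P096.KK
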