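import Vale.Agent.P096.KK.Setting
import Vale.Agent.P104.Groth

/-!
# P096: a gauge invariant under the groups is given by a bounded operator

Little Grothendieck, applied to the family `g x h` over a flattening group, replaces both of its
operator norms by the centre trace; on the atoms of a partition this is the trace.
-/

noncomputable section

set_option linter.unusedSectionVars false

namespace Vale.Agent.P096.KK

open scoped InnerProductSpace
open Finset

universe u

namespace L2Bound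

variable {H : Type u} [NormedAddCommGroup H] [InnerProductSpace ℂ H] [CompleteSpace H]
variable {M : VonNeumannAlgebra H} {Ω : H} {R : (H →L[ℂ] H) → (H →L[ℂ] H)}
variable {G Z : ℕ → Finset (H →L[ℂ] H)} {D : Set (H →L[ℂ] H)}

/-- The algebra as a C*-algebra. -/
abbrev algC (M : VonNeumannAlgebra H) : Type u := M.toStarSubalgebra

instance isClosed_algC (M : VonNeumannAlgebra H) :
    IsClosed (M.toStarSubalgebra : Set (H →L[ℂ] H)) := by
  change IsClosed (M : Set (H →L[ℂ] H))
  rw [← M.centralizer_centralizer]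
  exact Set.isClosed_centralizer _

instance cstarAlgC (M : VonNeumannAlgebra H) : CStarAlgebra (algC M) :=
  StarSubalgebra.cstarAlgebra M.toStarSubalgebra

/-- The average of the conjugates over a group. -/
def conjAvg (G : ℕ → Finset (H →L[ℂ] H)) (k : ℕ) (x : H →L[ℂ] H) : H →L[ℂ] H :=
  ((G k).card : ℂ)⁻¹ • ∑ g ∈ G k, g * x * star g

lemma card_ne_zero (hT : Tower M G Z) (k : ℕ) : ((G k).card : ℂ) ≠ 0 :=
  Nat.cast_ne_zero.2 (Finset.card_ne_zero.2 ⟨1, hT.one_mem k⟩)

lemma norm_le_one_of_iso {g : H →L[ℂ] H} (h : star g * g = 1) : ‖g‖ ≤ 1 := by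
  have h1 : ‖g‖ * ‖g‖ ≤ 1 := by
    rw [← CStarRing.norm_star_mul_self, h]
    exact ContinuousLinearMap.norm_id_le
  nlinarith [norm_nonneg g]

lemma norm_apply_iso {g : H →L[ℂ] H} (h : star g * g = 1) (v : H) : ‖g v‖ = ‖v‖ := by
  have h1 : ⟪g v, g v⟫_ℂ = ⟪v, v⟫_ℂ := by
    rw [← ContinuousLinearMap.adjoint_inner_right g v (g v), ← ContinuousLinearMap.star_eq_adjoint,
      ← mul_apply_eq_comp, h, one_apply_eq_self]
  rw [norm_eq_sqrt_re_inner (𝕜 := ℂ), h1, ← norm_eq_sqrt_re_inner (𝕜 := ℂ)]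

lemma norm_conjAvg_le (hT : Tower M G Z) (k : ℕ) (x : H →L[ℂ] H) : ‖conjAvg G k x‖ ≤ ‖x‖ := by
  refine (norm_smul_le _ _).trans ?_
  rw [norm_inv, Complex.norm_natCast, inv_mul_le_iff₀
    (Nat.cast_pos.2 (Finset.card_pos.2 ⟨1, hT.one_mem k⟩))]
  refine (norm_sum_le _ _).trans (le_trans (Finset.sum_le_card_nsmul _ _ ‖x‖ fun g hg => ?_) ?_)
  · have h1 := norm_le_one_of_iso (hT.isometry k g hg).2.1
    refine (norm_mul_le _ _).trans ?_
    rw [norm_star]
    refine (mul_le_of_le_one_right (norm_nonneg _) h1).trans ?_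
    exact (norm_mul_le _ _).trans (mul_le_of_le_one_left (norm_nonneg _) h1)
  · rw [nsmul_eq_mul]

lemma mem_group_of_le (hT : Tower M G Z) {k k' : ℕ} (h : k ≤ k') {g : H →L[ℂ] H}
    (hg : g ∈ G k) : g ∈ G k' := by
  induction k', h using Nat.le_induction with
  | base => exact hg
  | succ k' _ ih => exact hT.mono k' g ih

lemma conjAvg_absorb (hT : Tower M G Z) {k k' : ℕ} (h : k ≤ k') (x : H →L[ℂ] H) :
    conjAvg G k' (conjAvg G k x) = conjAvg G k' x := by
  have key : ∀ t ∈ G k, conjAvg G k' (t * x * star t) = conjAvg G k' x := by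
    intro t ht
    have ht' := mem_group_of_le hT h ht
    obtain ⟨-, h1, h2⟩ := hT.isometry k t ht
    unfold conjAvg
    congr 1
    refine Finset.sum_nbij' (fun g => g * t) (fun g => g * star t) ?_ ?_ ?_ ?_ ?_
    · exact fun g hg => hT.mul_mem k' g hg t ht'
    · exact fun g hg => hT.mul_mem k' g hg _ (hT.star_mem k' t ht')
    · intro g _; simp only [mul_assoc, h2, mul_one]
    · intro g _; simp only [mul_assoc, h1, mul_one]
    · intro g _; simp only [star_mul, mul_assoc]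
  have lin : conjAvg G k' (conjAvg G k x)
      = ((G k).card : ℂ)⁻¹ • ∑ t ∈ G k, conjAvg G k' (t * x * star t) := by
    simp only [conjAvg, Finset.smul_sum, Finset.mul_sum, Finset.sum_mul, mul_smul_comm,
      smul_mul_assoc]
    rw [Finset.sum_comm]
    refine Finset.sum_congr rfl fun t _ => Finset.sum_congr rfl fun g _ => smul_comm _ _ _
  rw [lin, Finset.sum_congr rfl key, Finset.sum_const, ← Nat.cast_smul_eq_nsmul ℂ, smul_smul,
    inv_mul_cancel₀ (card_ne_zero hT k), one_smul]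

lemma refine_le (hT : Tower M G Z) {k k' : ℕ} (h : k ≤ k') :
    ∀ z ∈ Z k, ∀ w ∈ Z k', z * w = w ∨ z * w = 0 := by
  induction k', h using Nat.le_induction with
  | base =>
    intro z hz w hw
    rcases eq_or_ne z w with rfl | hne
    · exact Or.inl (hT.proj k z hz).2.1.isIdempotentElem
    · exact Or.inr (hT.orth k z hz w hw hne)
  | succ k' _ ih =>
    intro z hz w hw
    by_cases h0 : ∀ u ∈ Z k', u * w = 0
    · have hw0 : w = 0 := by
        calc w = (∑ u ∈ Z k', u) * w := by rw [hT.total, one_mul]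
          _ = 0 := by rw [Finset.sum_mul]; exact Finset.sum_eq_zero h0
      exact absurd hw0 (hT.proj _ w hw).1
    · push Not at h0
      obtain ⟨u, hu, hne⟩ := h0
      have huw : u * w = w := (hT.refine' k' u hu w hw).resolve_right hne
      rcases ih z hz u hu with h1 | h1
      · left; rw [← huw, ← mul_assoc, h1]
      · right; rw [← huw, ← mul_assoc, h1, zero_mul]

lemma conjAvg_comb (hT : Tower M G Z) {k : ℕ} {j : ℕ} (c : (H →L[ℂ] H) → ℂ) :
    conjAvg G k (∑ z ∈ Z j, c z • z) = ∑ z ∈ Z j, c z • z := by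
  have h : ∀ g ∈ G k, g * (∑ z ∈ Z j, c z • z) * star g = ∑ z ∈ Z j, c z • z := by
    intro g hg
    obtain ⟨hgM, -, h2⟩ := hT.isometry k g hg
    rw [Finset.mul_sum, Finset.sum_mul]
    refine Finset.sum_congr rfl fun z hz => ?_
    rw [mul_smul_comm, smul_mul_assoc, ← (hT.proj j z hz).2.2 g hgM, mul_assoc, h2, mul_one]
  rw [conjAvg, Finset.sum_congr rfl h, Finset.sum_const, ← Nat.cast_smul_eq_nsmul ℂ, smul_smul,
    inv_mul_cancel₀ (card_ne_zero hT k), one_smul]

lemma comb_refine (hT : Tower M G Z) {k k' : ℕ} (h : k ≤ k') (c : (H →L[ℂ] H) → ℂ) :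
    ∃ c' : (H →L[ℂ] H) → ℂ, ∑ z ∈ Z k, c z • z = ∑ w ∈ Z k', c' w • w := by
  classical
  refine ⟨fun w => ∑ z ∈ Z k, if z * w = w then c z else 0, ?_⟩
  calc ∑ z ∈ Z k, c z • z = ∑ z ∈ Z k, ∑ w ∈ Z k', c z • (z * w) := by
        refine Finset.sum_congr rfl fun z _ => ?_
        rw [← Finset.smul_sum, ← Finset.mul_sum, hT.total, mul_one]
    _ = ∑ w ∈ Z k', ∑ z ∈ Z k, c z • (z * w) := Finset.sum_comm
    _ = _ := by
        refine Finset.sum_congr rfl fun w hw => ?_
        rw [Finset.sum_smul]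
        refine Finset.sum_congr rfl fun z hz => ?_
        split_ifs with h1
        · rw [h1]
        · rw [(refine_le hT h z hz w hw).resolve_left h1, smul_zero, zero_smul]

/-- Elements flattened from some stage on. -/
def flatSub (G Z : ℕ → Finset (H →L[ℂ] H)) : Submodule ℂ (H →L[ℂ] H) where
  carrier := {x | ∀ η : ℝ, 0 < η → ∃ k, ∀ k', k ≤ k' →
    ∃ c : (H →L[ℂ] H) → ℂ, ‖conjAvg G k' x - ∑ z ∈ Z k', c z • z‖ ≤ η}
  zero_mem' := fun η hη => ⟨0, fun k' _ => ⟨0, by simp [conjAvg, hη.le]⟩⟩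
  add_mem' := by
    intro x y hx hy η hη
    obtain ⟨k₁, h₁⟩ := hx (η / 2) (half_pos hη)
    obtain ⟨k₂, h₂⟩ := hy (η / 2) (half_pos hη)
    refine ⟨max k₁ k₂, fun k' hk => ?_⟩
    obtain ⟨c₁, e₁⟩ := h₁ k' (le_of_max_le_left hk)
    obtain ⟨c₂, e₂⟩ := h₂ k' (le_of_max_le_right hk)
    refine ⟨fun z => c₁ z + c₂ z, ?_⟩
    have e : conjAvg G k' (x + y) - ∑ z ∈ Z k', (c₁ z + c₂ z) • z
        = (conjAvg G k' x - ∑ z ∈ Z k', c₁ z • z) + (conjAvg G k' y - ∑ z ∈ Z k', c₂ z • z) := by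
      simp only [conjAvg, mul_add, add_mul, Finset.sum_add_distrib, smul_add, add_smul]
      abel
    rw [e]
    linarith [norm_add_le (conjAvg G k' x - ∑ z ∈ Z k', c₁ z • z)
      (conjAvg G k' y - ∑ z ∈ Z k', c₂ z • z)]
  smul_mem' := by
    intro r x hx η hη
    obtain ⟨k, hk⟩ := hx (η / (‖r‖ + 1)) (div_pos hη (by positivity))
    refine ⟨k, fun k' h => ?_⟩
    obtain ⟨c, hc⟩ := hk k' h
    refine ⟨fun z => r * c z, ?_⟩
    have e : conjAvg G k' (r • x) - ∑ z ∈ Z k', (r * c z) • z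
        = r • (conjAvg G k' x - ∑ z ∈ Z k', c z • z) := by
      simp only [conjAvg, mul_smul_comm, smul_mul_assoc, smul_sub, Finset.smul_sum, smul_smul]
      congr 1
      refine Finset.sum_congr rfl fun g _ => by rw [mul_comm]
    rw [e, norm_smul]
    refine (mul_le_mul_of_nonneg_left hc (norm_nonneg r)).trans ?_
    rw [mul_div_assoc', div_le_iff₀ (by positivity)]
    nlinarith

lemma span_le_flatSub (hT : Tower M G Z) (hD : DenseAlg M Ω G D) (hF : Flat G Z D) :
    Submodule.span ℂ D ≤ flatSub G Z := by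
  have hsa : ∀ x ∈ D, IsSelfAdjoint x → x ∈ flatSub G Z := by
    intro x hx hxs η hη
    obtain ⟨k, c, -, hc⟩ := hF x hx hxs η hη 0
    refine ⟨k, fun k' hk => ?_⟩
    obtain ⟨c', hc'⟩ := comb_refine hT hk c
    refine ⟨c', ?_⟩
    rw [← hc', ← conjAvg_comb hT (k := k') c, ← conjAvg_absorb hT hk x]
    refine le_trans (le_of_eq ?_) ((norm_conjAvg_le hT k' _).trans hc)
    simp only [conjAvg, mul_sub, sub_mul, Finset.sum_sub_distrib, smul_sub]
  refine Submodule.span_le.2 fun x hx => ?_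
  have h1 : x + star x ∈ flatSub G Z :=
    hsa _ (hD.add_mem x hx _ (hD.star_mem x hx)) (IsSelfAdjoint.add_star_self x)
  have hI := hD.smul_I_mem x hx
  have h2 : Complex.I • x + star (Complex.I • x) ∈ flatSub G Z :=
    hsa _ (hD.add_mem _ hI _ (hD.star_mem _ hI)) (IsSelfAdjoint.add_star_self _)
  have e : x = (1 / 2 : ℂ) • (x + star x)
      + (-Complex.I / 2) • (Complex.I • x + star (Complex.I • x)) := by
    rw [star_smul, Complex.star_def, Complex.conj_I, smul_add, smul_add, smul_smul, smul_smul]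
    rw [show -Complex.I / 2 * Complex.I = (1 / 2 : ℂ) by
        rw [div_mul_eq_mul_div, neg_mul, Complex.I_mul_I]; norm_num,
      show -Complex.I / 2 * -Complex.I = (-1 / 2 : ℂ) by
        rw [div_mul_eq_mul_div, neg_mul_neg, Complex.I_mul_I]]
    module
  rw [SetLike.mem_coe, e]
  exact add_mem (Submodule.smul_mem _ _ h1) (Submodule.smul_mem _ _ h2)

lemma span_mul (hD : DenseAlg M Ω G D) {x y : H →L[ℂ] H} (hx : x ∈ Submodule.span ℂ D)
    (hy : y ∈ Submodule.span ℂ D) : x * y ∈ Submodule.span ℂ D := by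
  induction hx using Submodule.span_induction with
  | mem x hxD =>
    induction hy using Submodule.span_induction with
    | mem y hyD => exact Submodule.subset_span (hD.mul_mem x hxD y hyD)
    | zero => simp
    | add a b _ _ ha hb => rw [mul_add]; exact add_mem ha hb
    | smul r a _ ha => rw [mul_smul_comm]; exact Submodule.smul_mem _ _ ha
  | zero => simp
  | add a b _ _ ha hb => rw [add_mul]; exact add_mem ha hb
  | smul r a _ ha => rw [smul_mul_assoc]; exact Submodule.smul_mem _ _ ha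

lemma span_star (hD : DenseAlg M Ω G D) {x : H →L[ℂ] H} (hx : x ∈ Submodule.span ℂ D) :
    star x ∈ Submodule.span ℂ D := by
  induction hx using Submodule.span_induction with
  | mem x hxD => exact Submodule.subset_span (hD.star_mem x hxD)
  | zero => simp
  | add a b _ _ ha hb => rw [star_add]; exact add_mem ha hb
  | smul r a _ ha => rw [star_smul]; exact Submodule.smul_mem _ _ ha

lemma span_mem (hD : DenseAlg M Ω G D) {x : H →L[ℂ] H} (hx : x ∈ Submodule.span ℂ D) :
    x ∈ M := by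
  induction hx using Submodule.span_induction with
  | mem x hxD => exact hD.sub hxD
  | zero => exact zero_mem M.toStarSubalgebra
  | add a b _ _ ha hb => exact add_mem (S := StarSubalgebra ℂ _) (s := M.toStarSubalgebra) ha hb
  | smul r a _ ha => exact M.toStarSubalgebra.smul_mem ha r

/-! ### the trace vector -/

lemma inner_sq (y : H →L[ℂ] H) (v : H) : ⟪v, star y (y v)⟫_ℂ = ((‖y v‖ ^ 2 : ℝ) : ℂ) := by
  rw [ContinuousLinearMap.star_eq_adjoint, ContinuousLinearMap.adjoint_inner_right,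
    inner_self_eq_norm_sq_to_K]
  simp

lemma norm_star_vec (hS : Std M Ω R) {y : H →L[ℂ] H} (hy : y ∈ M) : ‖star y Ω‖ = ‖y Ω‖ := by
  have h1 := inner_sq (star y) Ω
  rw [star_star, hS.trace y hy (star y) (star_mem (s := M) hy), inner_sq] at h1
  exact ((pow_left_inj₀ (norm_nonneg _) (norm_nonneg _) two_ne_zero).1
    (Complex.ofReal_injective h1.symm))

lemma norm_mul_unit (hS : Std M Ω R) {y g : H →L[ℂ] H} (hy : y ∈ M) (hg : g ∈ M)
    (hgg : g * star g = 1) : ‖y (g Ω)‖ = ‖y Ω‖ := by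
  have hxm : star g * (star y * y) ∈ M :=
    mul_mem (star_mem (s := M) hg) (mul_mem (star_mem (s := M) hy) hy)
  have h1 := inner_sq (y * g) Ω
  have h2 : star (y * g) ((y * g) Ω) = (star g * (star y * y)) (g Ω) := by
    simp only [star_mul, mul_apply_eq_comp]
  rw [h2, hS.trace _ hxm g hg, ← mul_apply_eq_comp, ← mul_assoc, hgg, one_mul, mul_apply_eq_comp,
    inner_sq] at h1
  exact ((pow_left_inj₀ (norm_nonneg _) (norm_nonneg _) two_ne_zero).1
    (Complex.ofReal_injective h1.symm))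

lemma R_apply (hS : Std M Ω R) {g x : H →L[ℂ] H} (hg : g ∈ M) (hx : x ∈ M) :
    R g (x Ω) = x (g Ω) := by
  have h := VonNeumannAlgebra.mem_commutant_iff.1 (hS.right_mem g hg) x hx
  have := congrArg (fun T : H →L[ℂ] H => T Ω) h
  simp only [mul_apply_eq_comp, hS.right_apply g hg] at this
  exact this.symm

lemma norm_R_unit (hS : Std M Ω R) {g : H →L[ℂ] H} (hg : g ∈ M) (hgg : g * star g = 1) (v : H) :
    ‖R g v‖ = ‖v‖ := by
  refine hS.cyclic.induction (P := fun v => ‖R g v‖ = ‖v‖) ?_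
    (isClosed_eq (by fun_prop) (by fun_prop)) v
  rintro _ ⟨x, hx, rfl⟩
  simp only
  rw [R_apply hS hg hx, norm_mul_unit hS hx hg hgg]

lemma sum_norm_sq (hT : Tower M G Z) (k : ℕ) (v : H) :
    ∑ w ∈ Z k, ‖w v‖ ^ 2 = ‖v‖ ^ 2 := by
  have h : ∀ w ∈ Z k, ((‖w v‖ ^ 2 : ℝ) : ℂ) = ⟪v, w v⟫_ℂ := by
    intro w hw
    obtain ⟨hi, hs⟩ := isStarProjection_iff _ |>.1 (hT.proj k w hw).2.1
    rw [← inner_sq, hs.star_eq, ← mul_apply_eq_comp, hi.eq]
  have h2 : ((∑ w ∈ Z k, ‖w v‖ ^ 2 : ℝ) : ℂ) = ((‖v‖ ^ 2 : ℝ) : ℂ) := by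
    rw [Complex.ofReal_sum, Finset.sum_congr rfl h, ← inner_sum, ← _root_.sum_apply, hT.total,
      one_apply_eq_self, inner_self_eq_norm_sq_to_K]
    simp
  exact Complex.ofReal_injective h2

/-- Density read at matrix size one. -/
lemma exists_near (hD : DenseAlg M Ω G D) {c : H →L[ℂ] H} (hc : c ∈ M) {r : ℝ} (hr : 0 < r) :
    ∃ x ∈ D, ‖x Ω - c Ω‖ ≤ r := by
  set p0 : Fin 1 × Fin 1 := (0, 0) with hp0
  have hspr : ∀ F : Sq H 1, spr p0 F = F p0 := fun F => rfl
  have hadj : ∀ (v : H) (F : Sq H 1), ⟪sinj p0 v, F⟫_ℂ = ⟪v, F p0⟫_ℂ := fun v F => by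
    rw [sinj, ContinuousLinearMap.adjoint_inner_left, hspr]
  have hsinj : ∀ v : H, sinj p0 v p0 = v := fun v => by
    refine ext_inner_right ℂ fun w => ?_
    have h := hadj v (WithLp.toLp 2 fun _ : Fin 1 × Fin 1 => w)
    rw [PiLp.inner_apply, Fintype.sum_prod_type, Fin.sum_univ_one, Fin.sum_univ_one] at h
    simpa using h
  have hone : ∀ F : Sq H 1, sinj p0 (F p0) = F := fun F => by
    refine PiLp.ext fun q => ?_
    rw [show q = p0 from Subsingleton.elim _ _, hsinj]
  have hval : ∀ (X : Fin 1 → Fin 1 → H →L[ℂ] H) (v : H), mL X (sinj p0 v) p0 = X 0 0 v := by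
    intro X v
    simp only [mL, Fin.sum_univ_one, ContinuousLinearMap.comp_apply, ← hp0, hspr, hsinj]
  have hT : mL (fun _ _ : Fin 1 => c) ∈ sqM M 1 := by
    change _ ∈ StarSubalgebra.centralizer ℂ (sqGen 1 (M.commutant : Set (H →L[ℂ] H)))
    rw [StarSubalgebra.mem_centralizer_iff]
    have key : ∀ g ∈ sqGen 1 (M.commutant : Set (H →L[ℂ] H)),
        g * mL (fun _ _ : Fin 1 => c) = mL (fun _ _ : Fin 1 => c) * g := by
      intro g hg
      refine ContinuousLinearMap.ext fun F => ?_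
      rcases hg with ⟨y, hy, rfl⟩ | ⟨⟨i, j⟩, rfl⟩
      · have hcy : c (y (F p0)) = y (c (F p0)) :=
          congrArg (fun T : H →L[ℂ] H => T (F p0))
            (VonNeumannAlgebra.mem_commutant_iff.1 hy c hc)
        simp only [mul_apply_eq_comp, sdiag, mL, Fintype.sum_prod_type, Fin.sum_univ_one,
          ContinuousLinearMap.comp_apply, ← hp0, hspr, hsinj, hcy]
      · obtain rfl : i = 0 := Subsingleton.elim _ _
        obtain rfl : j = 0 := Subsingleton.elim _ _
        simp only [mul_apply_eq_comp, rUnit, Fin.sum_univ_one, ContinuousLinearMap.comp_apply,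
          ← hp0, hspr, hone]
    intro g hg
    refine ⟨key g hg, ?_⟩
    rcases hg with ⟨y, hy, rfl⟩ | ⟨⟨i, j⟩, rfl⟩
    · have hs : star (sdiag 1 y) = sdiag 1 (star y) := by
        simp only [sdiag, Fintype.sum_prod_type, Fin.sum_univ_one, sinj,
          ContinuousLinearMap.star_eq_adjoint, ContinuousLinearMap.adjoint_comp,
          ContinuousLinearMap.adjoint_adjoint, ContinuousLinearMap.comp_assoc]
      rw [hs]
      exact key _ (Or.inl ⟨_, star_mem (s := M.commutant) hy, rfl⟩)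
    · obtain rfl : i = 0 := Subsingleton.elim _ _
      obtain rfl : j = 0 := Subsingleton.elim _ _
      have hs : star (rUnit (H := H) (0 : Fin 1) 0) = rUnit 0 0 := by
        simp only [rUnit, Fin.sum_univ_one, sinj, ContinuousLinearMap.star_eq_adjoint,
          ContinuousLinearMap.adjoint_comp, ContinuousLinearMap.adjoint_adjoint]
      rw [hs]
      exact key _ (Or.inr ⟨(0, 0), rfl⟩)
  obtain ⟨X, hX, -, hXc⟩ := hD.dense 1 (mL fun _ _ : Fin 1 => c) hT r hr
  refine ⟨X 0 0, hX 0 0, ?_⟩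
  have hvec : sqVec 1 Ω = sinj p0 Ω := by
    simp [sqVec, hp0]
  rw [hvec] at hXc
  refine le_trans (le_of_eq ?_) ((PiLp.norm_apply_le _ p0).trans hXc)
  rw [PiLp.sub_apply, hval, hval]

/-- The flattened average on an atom has the size of the trace. -/
lemma atom_bound (hS : Std M Ω R) (hT : Tower M G Z) {k : ℕ} {y w : H →L[ℂ] H} (hy : y ∈ M)
    (hw : w ∈ Z k) (hwM : w ∈ M) {c : (H →L[ℂ] H) → ℂ} {η : ℝ}
    (hc : ‖conjAvg G k (star y * y) - ∑ z ∈ Z k, c z • z‖ ≤ η) :
    ‖w * conjAvg G k (star y * y)‖ * ‖w Ω‖ ^ 2 ≤ ‖(w * y) Ω‖ ^ 2 + 2 * η * ‖w Ω‖ ^ 2 := by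
  obtain ⟨-, hwp, hwc⟩ := hT.proj k w hw
  set E := conjAvg G k (star y * y) with hE
  set S := ∑ z ∈ Z k, c z • z with hSdef
  have hwS : w * S = c w • w := by
    rw [hSdef, Finset.mul_sum, Finset.sum_eq_single w
      (fun z hz hne => by rw [mul_smul_comm, hT.orth k w hw z hz (Ne.symm hne), smul_zero])
      (fun h => absurd hw h), mul_smul_comm, hwp.isIdempotentElem]
  have hw1 : ‖w‖ ≤ 1 := hwp.norm_le
  have hd : ‖w * E - c w • w‖ ≤ η := by
    rw [← hwS, ← mul_sub]
    exact ((norm_mul_le _ _).trans (mul_le_of_le_one_left (norm_nonneg _) hw1)).trans hc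
  have hinner : ⟪w Ω, E (w Ω)⟫_ℂ = ((‖(w * y) Ω‖ ^ 2 : ℝ) : ℂ) := by
    have hg : ∀ g ∈ G k, ⟪w Ω, (g * (star y * y) * star g) (w Ω)⟫_ℂ
        = ((‖(w * y) Ω‖ ^ 2 : ℝ) : ℂ) := by
      intro g hg
      obtain ⟨hgM, h1, h2⟩ := hT.isometry k g hg
      have e : g * (star y * y) * star g = star (y * star g) * (y * star g) := by
        simp only [star_mul, star_star, mul_assoc]
      rw [e, mul_apply_eq_comp, inner_sq]
      congr 2
      have e2 : (y * star g) (w Ω) = (w * y) ((star g) Ω) := by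
        simp only [← mul_apply_eq_comp]
        congr 1
        rw [mul_assoc, ← hwc (star g) (star_mem (s := M) hgM), ← mul_assoc, ← hwc y hy]
      rw [e2, norm_mul_unit hS (mul_mem hwM hy) (star_mem (s := M) hgM) (by rwa [star_star])]
    rw [hE, conjAvg, smul_apply, inner_smul_right, _root_.sum_apply, inner_sum, Finset.sum_congr rfl hg,
      Finset.sum_const, nsmul_eq_mul, ← mul_assoc, inv_mul_cancel₀ (card_ne_zero hT k), one_mul]
  have hww : ⟪w Ω, (c w • w) (w Ω)⟫_ℂ = c w * ((‖w Ω‖ ^ 2 : ℝ) : ℂ) := by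
    have : w (w Ω) = w Ω := by rw [← mul_apply_eq_comp, hwp.isIdempotentElem]
    rw [smul_apply, inner_smul_right, this, inner_self_eq_norm_sq_to_K]
    simp
  have hwE : ⟪w Ω, (w * E) (w Ω)⟫_ℂ = ⟪w Ω, E (w Ω)⟫_ℂ := by
    have hs : star w = w := hwp.isSelfAdjoint.star_eq
    rw [mul_apply_eq_comp, ← ContinuousLinearMap.adjoint_inner_left w, ←
      ContinuousLinearMap.star_eq_adjoint, hs, ← mul_apply_eq_comp, hwp.isIdempotentElem]
  have hcw : ‖c w‖ * ‖w Ω‖ ^ 2 ≤ ‖(w * y) Ω‖ ^ 2 + η * ‖w Ω‖ ^ 2 := by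
    have e : c w * ((‖w Ω‖ ^ 2 : ℝ) : ℂ)
        = ((‖(w * y) Ω‖ ^ 2 : ℝ) : ℂ) - ⟪w Ω, (w * E - c w • w) (w Ω)⟫_ℂ := by
      rw [sub_apply, inner_sub_right, hwE, hinner, hww]
      ring
    have e' := congrArg norm e
    rw [norm_mul, Complex.norm_real, Real.norm_eq_abs, abs_of_nonneg (sq_nonneg _)] at e'
    rw [e']
    refine (norm_sub_le _ _).trans (add_le_add ?_ ?_)
    · rw [Complex.norm_real, Real.norm_eq_abs, abs_of_nonneg (sq_nonneg _)]
    · refine (norm_inner_le_norm _ _).trans ?_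
      rw [mul_comm]
      exact (mul_le_mul_of_nonneg_right (((w * E - c w • w).le_opNorm _).trans
        (mul_le_mul_of_nonneg_right hd (norm_nonneg _))) (norm_nonneg _)).trans_eq (by ring)
  have htop : ‖w * E‖ ≤ ‖c w‖ + η := by
    have := norm_le_insert' (w * E) (c w • w)
    have h2 : ‖c w • w‖ ≤ ‖c w‖ := by
      rw [norm_smul]; exact mul_le_of_le_one_right (norm_nonneg _) hw1
    linarith
  calc ‖w * E‖ * ‖w Ω‖ ^ 2 ≤ (‖c w‖ + η) * ‖w Ω‖ ^ 2 :=
        mul_le_mul_of_nonneg_right htop (sq_nonneg _)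
    _ ≤ _ := by nlinarith

lemma norm_le (hS : Std M Ω R) (hT : Tower M G Z) (hD : DenseAlg M Ω G D) (hF : Flat G Z D)
    (a : (H →L[ℂ] H) →ₗ[ℂ] H) {C : ℝ} (hC : 0 ≤ C)
    (hmod : ∀ j, ∀ g ∈ G j, ∀ x ∈ M, a (g * x) = g (a x) ∧ a (x * g) = R g (a x))
    (hbd : ∀ j, ∀ z ∈ Z j, ∀ x ∈ M, ‖z (a x)‖ ≤ C * ‖x‖ * ‖z Ω‖)
    {x : H →L[ℂ] H} (hx : x ∈ Submodule.span ℂ D) : ‖a x‖ ≤ 2 * C * ‖x Ω‖ := by
  have hxM := span_mem hD hx
  have key : ∀ η : ℝ, 0 < η → ‖a x‖ ^ 2 ≤ C ^ 2 * (2 * ‖x Ω‖ ^ 2 + 4 * η) := by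
    intro η hη
    have hfl := span_le_flatSub hT hD hF
    obtain ⟨k₁, hk₁⟩ := hfl (span_mul hD (span_star hD hx) hx) η hη
    obtain ⟨k₂, hk₂⟩ := hfl (span_mul hD hx (span_star hD hx)) η hη
    set k := max k₁ k₂ with hk
    obtain ⟨c₁, e₁⟩ := hk₁ k (le_max_left _ _)
    obtain ⟨c₂, e₂⟩ := hk₂ k (le_max_right _ _)
    have hatom : ∀ w ∈ Z k, ‖w (a x)‖ ^ 2
        ≤ C ^ 2 * (2 * ‖w (x Ω)‖ ^ 2 + 4 * η * ‖w Ω‖ ^ 2) := by
      intro w hw
      obtain ⟨-, hwp, hwc⟩ := hT.proj k w hw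
      have hsig := hT.sign k w hw
      have hsM := (hT.isometry k _ hsig).1
      have ew : w = (1 / 2 : ℂ) • ((2 • w - 1) + 1) := by
        rw [sub_add_cancel, ← Nat.cast_smul_eq_nsmul ℂ, smul_smul]
        norm_num
      have hwM : w ∈ M := by
        rw [ew]; exact M.toStarSubalgebra.smul_mem (add_mem hsM (one_mem _)) _
      have hawx : ∀ v ∈ M, a (w * v) = w (a v) := by
        intro v hv
        have h := (hmod k _ hsig v hv).1
        conv_lhs => rw [ew, smul_mul_assoc, add_mul, one_mul, map_smul, map_add, h]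
        conv_rhs => rw [ew, smul_apply, add_apply, one_apply_eq_self]
      have hwwa : w (a (w * x)) = w (a x) := by
        rw [hawx x hxM, ← mul_apply_eq_comp, hwp.isIdempotentElem]
      let T0 : algC M →ₗ[ℂ] H :=
        { toFun := fun y => w (a (y : H →L[ℂ] H))
          map_add' := fun p q => by push_cast; rw [map_add, map_add]
          map_smul' := fun r p => by push_cast; rw [map_smul, map_smul]; rfl }
      let T : algC M →L[ℂ] H := T0.mkContinuous (C * ‖w Ω‖) fun y =>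
        (hbd k w hw y y.2).trans_eq (by rw [show ‖(y : H →L[ℂ] H)‖ = ‖y‖ from rfl]; ring)
      have hTn : ‖T‖ ≤ C * ‖w Ω‖ :=
        T0.mkContinuous_norm_le (mul_nonneg hC (norm_nonneg _)) _
      have hgM : ∀ p : {g // g ∈ G k} × {g // g ∈ G k},
          (p.1 : H →L[ℂ] H) * (w * x) * (p.2 : H →L[ℂ] H) ∈ M.toStarSubalgebra := fun p =>
        mul_mem (mul_mem (hT.isometry k _ p.1.2).1 (mul_mem hwM hxM)) (hT.isometry k _ p.2.2).1
      let fam : {g // g ∈ G k} × {g // g ∈ G k} → algC M :=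
        fun p => ⟨_, hgM p⟩
      have hval : ∀ p, ‖T (fam p)‖ = ‖w (a x)‖ := by
        intro p
        obtain ⟨h1M, h1a, -⟩ := hT.isometry k _ p.1.2
        obtain ⟨h2M, -, h2b⟩ := hT.isometry k _ p.2.2
        show ‖w (a ((p.1 : H →L[ℂ] H) * (w * x) * (p.2 : H →L[ℂ] H)))‖ = _
        rw [(hmod k _ p.2.2 _ (mul_mem h1M (mul_mem hwM hxM))).2,
          (hmod k _ p.1.2 _ (mul_mem hwM hxM)).1]
        have e1 : w (R (p.2 : H →L[ℂ] H) ((p.1 : H →L[ℂ] H) (a (w * x))))
            = R (p.2 : H →L[ℂ] H) ((p.1 : H →L[ℂ] H) (w (a (w * x)))) := by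
          have hc := VonNeumannAlgebra.mem_commutant_iff.1 (hS.right_mem _ h2M) w hwM
          simp only [← mul_apply_eq_comp]
          congr 1
          rw [← mul_assoc, hc, mul_assoc, hwc _ h1M]
        rw [e1, norm_R_unit hS h2M h2b, norm_apply_iso h1a, hwwa]
      have hgt := P104.Groth.little_grothendieck T Finset.univ fam
      rw [Finset.sum_congr rfl (fun p _ => by rw [hval p]), Finset.sum_const, nsmul_eq_mul] at hgt
      have hcard : ((Finset.univ : Finset ({g // g ∈ G k} ×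
          {g // g ∈ G k})).card : ℝ) = ((G k).card : ℝ) ^ 2 := by
        simp [sq]
      have hnorm : ∀ y : algC M, ‖y‖ = ‖(y : H →L[ℂ] H)‖ := fun y => rfl
      have hwy : ∀ v ∈ M, (w * v) * star (w * v) = w * (v * star v) ∧
          star (w * v) * (w * v) = w * (star v * v) := by
        intro v hv
        have hs : star w = w := hwp.isSelfAdjoint.star_eq
        have hi : w * w = w := hwp.isIdempotentElem
        constructor
        · rw [star_mul, hs, show w * v * (star v * w) = w * ((v * star v) * w) by noncomm_ring,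
            ← hwc (v * star v) (mul_mem hv (star_mem (s := M) hv)), ← mul_assoc w w, hi]
        · rw [star_mul, hs, show star v * w * (w * v) = star v * (w * w) * v by noncomm_ring, hi,
            ← hwc (star v) (star_mem (s := M) hv), mul_assoc]
      have hflip : ∀ v : H →L[ℂ] H, ∑ g ∈ G k, star g * v * g = ∑ g ∈ G k, g * v * star g := by
        intro v
        refine Finset.sum_nbij' star star (fun g hg => hT.star_mem k g hg)
          (fun g hg => hT.star_mem k g hg) (fun g _ => star_star g) (fun g _ => star_star g) ?_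
        intro g _; rw [star_star]
      have havg : ∀ v ∈ M, ∑ g ∈ G k, g * (w * v) * star g
          = ((G k).card : ℂ) • (w * conjAvg G k v) := by
        intro v hv
        rw [conjAvg, mul_smul_comm, smul_smul, mul_inv_cancel₀ (card_ne_zero hT k), one_smul,
          Finset.mul_sum]
        refine Finset.sum_congr rfl fun g hg => ?_
        rw [← mul_assoc g, ← hwc g (hT.isometry k g hg).1]
        noncomm_ring
      have n1 : ‖∑ p, star (fam p) * fam p‖
          = ((G k).card : ℝ) ^ 2 * ‖w * conjAvg G k (star x * x)‖ := by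
        rw [hnorm]
        push_cast [StarMemClass.coe_star]
        have e : ∀ p, star (fam p : H →L[ℂ] H) * (fam p : H →L[ℂ] H)
            = star (p.2 : H →L[ℂ] H) * (w * (star x * x)) * (p.2 : H →L[ℂ] H) := by
          intro p
          show star ((p.1 : H →L[ℂ] H) * (w * x) * (p.2 : H →L[ℂ] H))
            * ((p.1 : H →L[ℂ] H) * (w * x) * (p.2 : H →L[ℂ] H)) = _
          rw [← (hwy x hxM).2]
          simp only [star_mul, mul_assoc]
          rw [← mul_assoc (star (p.1 : H →L[ℂ] H)), (hT.isometry k _ p.1.2).2.1, one_mul]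
        rw [Finset.sum_congr rfl (fun p _ => e p), Fintype.sum_prod_type_right,
          show (∑ g : {g // g ∈ G k}, ∑ _h : {g // g ∈ G k},
              star (g : H →L[ℂ] H) * (w * (star x * x)) * (g : H →L[ℂ] H))
            = ((G k).card : ℂ) • ∑ g ∈ G k, star g * (w * (star x * x)) * g by
            rw [Finset.smul_sum, ← Finset.sum_coe_sort (G k)]
            refine Finset.sum_congr rfl fun g _ => ?_
            simp [Nat.cast_smul_eq_nsmul],
          hflip, havg _ (mul_mem (star_mem (s := M) hxM) hxM), smul_smul, norm_smul, norm_mul,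
          Complex.norm_natCast]
        ring
      have n2 : ‖∑ p, fam p * star (fam p)‖
          = ((G k).card : ℝ) ^ 2 * ‖w * conjAvg G k (x * star x)‖ := by
        rw [hnorm]
        push_cast [StarMemClass.coe_star]
        have e : ∀ p, (fam p : H →L[ℂ] H) * star (fam p : H →L[ℂ] H)
            = (p.1 : H →L[ℂ] H) * (w * (x * star x)) * star (p.1 : H →L[ℂ] H) := by
          intro p
          show ((p.1 : H →L[ℂ] H) * (w * x) * (p.2 : H →L[ℂ] H))
            * star ((p.1 : H →L[ℂ] H) * (w * x) * (p.2 : H →L[ℂ] H)) = _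
          rw [← (hwy x hxM).1]
          simp only [star_mul, mul_assoc]
          rw [← mul_assoc (p.2 : H →L[ℂ] H), (hT.isometry k _ p.2.2).2.2, one_mul]
        rw [Finset.sum_congr rfl (fun p _ => e p), Fintype.sum_prod_type,
          show (∑ g : {g // g ∈ G k}, ∑ _h : {g // g ∈ G k},
              (g : H →L[ℂ] H) * (w * (x * star x)) * star (g : H →L[ℂ] H))
            = ((G k).card : ℂ) • ∑ g ∈ G k, g * (w * (x * star x)) * star g by
            rw [Finset.smul_sum, ← Finset.sum_coe_sort (G k)]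
            refine Finset.sum_congr rfl fun g _ => ?_
            simp [Nat.cast_smul_eq_nsmul],
          havg _ (mul_mem hxM (star_mem (s := M) hxM)), smul_smul, norm_smul, norm_mul,
          Complex.norm_natCast]
        ring
      rw [n1, n2, hcard] at hgt
      have hpos : (0 : ℝ) < ((G k).card : ℝ) ^ 2 := by
        exact pow_pos (Nat.cast_pos.2 (Finset.card_pos.2 ⟨1, hT.one_mem k⟩)) 2
      have hq : ‖w (a x)‖ ^ 2 ≤ ‖T‖ ^ 2 *
          (‖w * conjAvg G k (star x * x)‖ + ‖w * conjAvg G k (x * star x)‖) := by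
        refine le_of_mul_le_mul_left ?_ hpos
        linarith
      have b1 := atom_bound hS hT hxM hw hwM e₁
      have e₂' : ‖conjAvg G k (star (star x) * star x) - ∑ z ∈ Z k, c₂ z • z‖ ≤ η := by
        rwa [star_star]
      have b2 := atom_bound hS hT (star_mem (s := M) hxM) hw hwM e₂'
      rw [star_star] at b2
      have hsx : ‖(w * star x) Ω‖ = ‖(w * x) Ω‖ := by
        rw [← norm_star_vec hS (mul_mem hwM (star_mem (s := M) hxM)), star_mul, star_star,
          hwp.isSelfAdjoint.star_eq, ← hwc x hxM]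
      rw [hsx] at b2
      rw [← mul_apply_eq_comp w x]
      calc ‖w (a x)‖ ^ 2
          ≤ (C * ‖w Ω‖) ^ 2 *
              (‖w * conjAvg G k (star x * x)‖ + ‖w * conjAvg G k (x * star x)‖) :=
            hq.trans (mul_le_mul_of_nonneg_right (pow_le_pow_left₀ (norm_nonneg _) hTn 2)
              (by positivity))
        _ = C ^ 2 * (‖w * conjAvg G k (star x * x)‖ * ‖w Ω‖ ^ 2
              + ‖w * conjAvg G k (x * star x)‖ * ‖w Ω‖ ^ 2) := by ring
        _ ≤ C ^ 2 * (2 * ‖(w * x) Ω‖ ^ 2 + 4 * η * ‖w Ω‖ ^ 2) :=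
            mul_le_mul_of_nonneg_left (by linarith) (sq_nonneg C)
    calc ‖a x‖ ^ 2 = ∑ w ∈ Z k, ‖w (a x)‖ ^ 2 := (sum_norm_sq hT k _).symm
      _ ≤ ∑ w ∈ Z k, C ^ 2 * (2 * ‖w (x Ω)‖ ^ 2 + 4 * η * ‖w Ω‖ ^ 2) := Finset.sum_le_sum hatom
      _ = C ^ 2 * (2 * ‖x Ω‖ ^ 2 + 4 * η) := by
        rw [← Finset.mul_sum, Finset.sum_add_distrib, ← Finset.mul_sum, ← Finset.mul_sum,
          sum_norm_sq hT, sum_norm_sq hT, hS.norm_one]
        ring
  have h2 : ‖a x‖ ^ 2 ≤ (2 * C * ‖x Ω‖) ^ 2 := by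
    refine le_of_forall_pos_le_add fun e he => ?_
    have hk := key (e / (4 * C ^ 2 + 1)) (by positivity)
    have h3 : C ^ 2 * (4 * (e / (4 * C ^ 2 + 1))) ≤ e := by
      rw [mul_div_assoc', mul_div_assoc', div_le_iff₀ (by positivity)]
      nlinarith
    nlinarith [sq_nonneg (C * ‖x Ω‖)]
  exact le_of_pow_le_pow_left₀ two_ne_zero (by positivity) h2

end L2Bound

open L2Bound in
/-- (S4) a gauge which is good for all groups is given by a bounded operator. -/
theorem l2Out : L2Out.{u} := by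
  refine ⟨2, fun H _ _ _ M Ω R G Z D a C hS hT hD hF hC ha1 hmod hbd => ?_⟩
  set p := Submodule.span ℂ D with hp
  let e : p →ₗ[ℂ] H := (ContinuousLinearMap.apply ℂ H Ω).toLinearMap.comp p.subtype
  let f : p →ₗ[ℂ] H := a.comp p.subtype
  have hden : DenseRange e := by
    refine Metric.denseRange_iff.2 fun v r hr => ?_
    obtain ⟨_, ⟨c, hc, rfl⟩, hvc⟩ := hS.cyclic.exists_dist_lt v (half_pos hr)
    obtain ⟨x, hx, hxc⟩ := exists_near hD hc (r := r / 3) (by linarith)
    refine ⟨⟨x, Submodule.subset_span hx⟩, ?_⟩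
    show dist v (x Ω) < r
    have : dist (c Ω) (x Ω) ≤ r / 3 := by rwa [dist_comm, dist_eq_norm]
    linarith [dist_triangle v (c Ω) (x Ω)]
  have hb : ∀ x : p, ‖f x‖ ≤ 2 * C * ‖e x‖ := fun x => norm_le hS hT hD hF a hC hmod hbd x.2
  have hA : ∀ x ∈ p, f.extendOfNorm e (x Ω) = a x := fun x hx =>
    LinearMap.extendOfNorm_eq hden ⟨_, hb⟩ ⟨x, hx⟩
  refine ⟨f.extendOfNorm e, LinearMap.opNorm_extendOfNorm_le hden (by positivity) hb,
    fun j g hg => ?_, ?_, fun x hx => hA x (Submodule.subset_span hx)⟩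
  · obtain ⟨hgM, -, -⟩ := hT.isometry j g hg
    have hgD : g ∈ p := Submodule.subset_span (hD.group_mem j g hg)
    refine ⟨ContinuousLinearMap.ext fun v => ?_, ContinuousLinearMap.ext fun v => ?_⟩
    · refine hden.induction (P := fun v => _ = _) ?_ (isClosed_eq (by fun_prop) (by fun_prop)) v
      rintro _ ⟨⟨x, hx⟩, rfl⟩
      show f.extendOfNorm e (g (x Ω)) = g (f.extendOfNorm e (x Ω))
      rw [hA x hx, ← mul_apply_eq_comp g x, hA _ (span_mul hD hgD hx),
        (hmod j g hg x (span_mem hD hx)).1]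
    · refine hden.induction (P := fun v => _ = _) ?_ (isClosed_eq (by fun_prop) (by fun_prop)) v
      rintro _ ⟨⟨x, hx⟩, rfl⟩
      show f.extendOfNorm e (R g (x Ω)) = R g (f.extendOfNorm e (x Ω))
      rw [hA x hx, R_apply hS hgM (span_mem hD hx), ← mul_apply_eq_comp x g,
        hA _ (span_mul hD hx hgD), (hmod j g hg x (span_mem hD hx)).2]
  · have h1 : (1 : H →L[ℂ] H) ∈ p := Submodule.subset_span (hD.group_mem 0 1 (hT.one_mem 0))
    have := hA 1 h1
    rwa [one_apply_eq_self, ha1] at this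

end Vale.Agent.P096.KK
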