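import Mathlib

/-!
# P096: interfaces of the key lemma of the strong Kadison-Kastler theorem for finite algebras

The key lemma is pure group theory and analysis in a normed space `E` with an isometric action of a
group `G`: a bounded approximate two-cocycle `V` which satisfies the multiplier bound `MultHyp` on
free groups is, on average over pairs of any finite symmetric family of steps, approximately the
coboundary of the explicit cochain `gauge` plus a constant. No bound depends on the family: the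
generators of the free group are mapped to random steps. See `Vale/Agent/P096/KK_PROOF.md`, sections 2 and 3.

The `...Out` propositions are proved in their own modules; none is assumed by the final theorem.
-/

noncomputable section

namespace Vale.Agent.P096.KK

open Finset

universe u v

variable {G : Type u} [Group G] {E : Type v} [NormedAddCommGroup E] [NormedSpace ℝ E]

/-- The average of `F` over a finite type. -/
def avg {ι : Type*} [Fintype ι] (F : ι → E) : E :=
  (Fintype.card ι : ℝ)⁻¹ • ∑ i, F i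

/-- The average over walks with steps `a` and a length uniform in `[n, 2n)`. -/
def walkAvg {ι : Type*} [Fintype ι] (n : ℕ) (a : ι → G) (F : G → E) : E :=
  (n : ℝ)⁻¹ • ∑ l ∈ Finset.Ico n (2 * n), avg fun w : Fin l → ι =>
    F ((List.ofFn fun i => a (w i)).prod)

/-- The homogeneous cochain of `V`. -/
def tri (π : G →* (E ≃ₗᵢ[ℝ] E)) (V : G → G → E) (x y z : G) : E :=
  π x (V (x⁻¹ * y) (y⁻¹ * z))

/-- The value of the cochain on three random vertices near `x`, `y`, `z`. -/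
def Gam {ι : Type*} [Fintype ι] (n : ℕ) (a : ι → G) (π : G →* (E ≃ₗᵢ[ℝ] E)) (V : G → G → E) (x y z : G) : E :=
  walkAvg n a fun K₀ => walkAvg n a fun K₁ => walkAvg n a fun K₂ =>
    tri π V (x * K₀) (y * K₁) (z * K₂)

/-- The cone cochain. -/
def gauge {ι : Type*} [Fintype ι] (n : ℕ) (a : ι → G) (V : G → G → E) (g : G) : E :=
  (walkAvg n a fun K' => V g K') -
    walkAvg n a fun K => walkAvg n a fun K' => V K (K⁻¹ * g * K')

/-- `V` is a two-cocycle up to `e`. -/
def IsApproxCocycle (π : G →* (E ≃ₗᵢ[ℝ] E)) (V : G → G → E) (e : ℝ) : Prop :=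
  ∀ g h k : G, ‖π g (V h k) - V (g * h) k + V g (h * k) - V g h‖ ≤ e

/-- The family of steps is symmetric. -/
def IsSymm {ι : Type*} (a : ι → G) : Prop :=
  ∃ i : ι ≃ ι, (∀ k, i (i k) = k) ∧ ∀ k, a (i k) = (a k)⁻¹

/-- The elements of word length `n` in the free group on `d` letters. -/
def sphere (d n : ℕ) : Finset (FreeGroup (Fin d)) :=
  ((Finset.univ : Finset (Fin n → Fin d × Bool)).image fun w => FreeGroup.mk (List.ofFn w)).filter
    fun g => (FreeGroup.toWord g).length = n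

/-- Left convolution by `c`, supported on `S`, has norm at most `A` on square summable functions. -/
def ConvBound {Γ : Type*} [Group Γ] [DecidableEq Γ] (S : Finset Γ) (c : Γ → ℝ) (A : ℝ) : Prop :=
  ∀ (U : Finset Γ) (f : Γ → ℝ),
    ∑ p ∈ (S ×ˢ U).image (fun z => z.1 * z.2),
        (∑ z ∈ (S ×ˢ U).filter (fun z => z.1 * z.2 = p), c z.1 * f z.2) ^ 2 ≤
      A ^ 2 * ∑ u ∈ U, f u ^ 2

/-- The multiplier bound on free groups of rank at most `D`, for words of length at most `N`. -/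
def MultHyp (V : G → G → E) (D N : ℕ) (B : ℝ) : Prop :=
  ∀ d ≤ D, ∀ (ρ : FreeGroup (Fin d) →* G) (S T : Finset (FreeGroup (Fin d)))
    (c c' : FreeGroup (Fin d) → ℝ),
    (∀ g ∈ S, (FreeGroup.toWord g).length ≤ N) → (∀ g ∈ T, (FreeGroup.toWord g).length ≤ N) →
    ConvBound S c 4 → ConvBound T c' 4 →
    ∑ p ∈ (S ×ˢ T).image (fun z => z.1 * z.2),
        ‖∑ z ∈ (S ×ˢ T).filter (fun z => z.1 * z.2 = p), (c z.1 * c' z.2) • V (ρ z.1) (ρ z.2)‖ ^ 2 ≤
      B ^ 2

/-- The coefficients `q^(-n/2) (s_n - q s_(n-2))`, `q = 2d - 1`. -/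
def wCoef (d n : ℕ) (g : FreeGroup (Fin d)) : ℝ :=
  if (FreeGroup.toWord g).length = n then (Real.sqrt (2 * d - 1) ^ n)⁻¹
  else if (FreeGroup.toWord g).length + 2 = n then -(Real.sqrt (2 * d - 1) ^ (n - 2))⁻¹
  else 0

/-- (K1) these coefficients act with norm at most four. -/
def SpheresOut : Prop :=
  ∀ d n : ℕ, 2 ≤ d → 2 ≤ n → ConvBound (sphere d n ∪ sphere d (n - 2)) (wCoef d n) 4

/-- (K2) the middle vertex of a long random path may be moved by one step. -/
def DifferenceOut : Prop :=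
  ∀ η : ℝ, 0 < η → ∃ n D N : ℕ, 0 < n ∧
    ∀ (G : Type u) [Group G] (E : Type v) [NormedAddCommGroup E] [NormedSpace ℝ E]
      (π : G →* (E ≃ₗᵢ[ℝ] E)) (V : G → G → E) (C B e : ℝ) (ι : Type) [Fintype ι] [Nonempty ι]
      (a : ι → G), IsSymm a → 0 ≤ B → 0 ≤ e → (∀ g h, ‖V g h‖ ≤ C) → IsApproxCocycle π V e →
      MultHyp V D N B →
      avg (fun w : ι × ι × ι =>
        ‖Gam n a π V (a w.1)⁻¹ 1 (a w.2.1 * a w.2.2) -
          Gam n a π V (a w.1)⁻¹ (a w.2.1) (a w.2.1 * a w.2.2)‖) ≤ η * (C + B) + N * e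

/-- (K3) the triangle argument and the cone homotopy. -/
def TriangleOut : Prop :=
  ∀ (G : Type u) [Group G] (E : Type v) [NormedAddCommGroup E] [NormedSpace ℝ E]
    (π : G →* (E ≃ₗᵢ[ℝ] E)) (V : G → G → E) (C e e₁ : ℝ) (ι : Type) [Fintype ι] [Nonempty ι]
    (a : ι → G) (n : ℕ), 0 < n → IsSymm a → 0 ≤ e → (∀ g h, ‖V g h‖ ≤ C) → IsApproxCocycle π V e →
    avg (fun w : ι × ι × ι =>
      ‖Gam n a π V (a w.1)⁻¹ 1 (a w.2.1 * a w.2.2) -
        Gam n a π V (a w.1)⁻¹ (a w.2.1) (a w.2.1 * a w.2.2)‖) ≤ e₁ →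
    ∃ κ : E, ‖κ‖ ≤ C ∧
      avg (fun w : ι × ι => ‖π (a w.1) (gauge n a V (a w.2) + κ) - (gauge n a V (a w.1 * a w.2) + κ)
        + (gauge n a V (a w.1) + κ) - V (a w.1) (a w.2)‖) ≤ 1000 * (e₁ + e)

/-- The key lemma. -/
def KeyOut : Prop :=
  ∀ η : ℝ, 0 < η → ∃ n D N : ℕ, 0 < n ∧
    ∀ (G : Type u) [Group G] (E : Type v) [NormedAddCommGroup E] [NormedSpace ℝ E]
      (π : G →* (E ≃ₗᵢ[ℝ] E)) (V : G → G → E) (C B e : ℝ) (ι : Type) [Fintype ι] [Nonempty ι]
      (a : ι → G), IsSymm a → 0 ≤ B → 0 ≤ e → (∀ g h, ‖V g h‖ ≤ C) → IsApproxCocycle π V e →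
      MultHyp V D N B →
      ∃ κ : E, ‖κ‖ ≤ C ∧
        avg (fun w : ι × ι => ‖π (a w.1) (gauge n a V (a w.2) + κ) - (gauge n a V (a w.1 * a w.2) + κ)
          + (gauge n a V (a w.1) + κ) - V (a w.1) (a w.2)‖) ≤ η * (C + B) + N * e

theorem MultHyp.mono {V : G → G → E} {D N N' : ℕ} {B : ℝ} (h : MultHyp V D N' B) (hN : N ≤ N') :
    MultHyp V D N B :=
  fun d hd ρ S T c c' hS hT => h d hd ρ S T c c' (fun g hg => (hS g hg).trans hN)
    fun g hg => (hT g hg).trans hN

theorem keyOut_of (h2 : DifferenceOut.{u, v}) (h3 : TriangleOut.{u, v}) : KeyOut.{u, v} := by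
  intro η hη
  obtain ⟨n, D, N, hn, h⟩ := h2 (η / 1000) (by positivity)
  refine ⟨n, D, 1000 * (N + 1), hn, fun G _ E _ _ π V C B e ι _ _ a ha hB he hC hV hM => ?_⟩
  obtain ⟨κ, hκ, hb⟩ := h3 G E π V C e _ ι a n hn ha he hC hV (h G E π V C B e ι a ha hB he hC hV (hM.mono (by omega)))
  exact ⟨κ, hκ, hb.trans (le_of_eq (by push_cast; ring))⟩

end Vale.Agent.P096.KK
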