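import Vale.Agent.P086.Defs
import Vale.Agent.P096.KK.Defs

/-!
# P096: finite quotients of free groups, moments of tagged sums and the spectral cut

* `exists_quotient`: a finite group which receives `FreeGroup (Fin d)` without killing a word of
  length between one and `R`.
* `moment_le`: if a unitary representation looks regular at the vector `ζ` on a ball, the moments of
  `∑ c g • π g` there are bounded by the convolution norm of `c`.
* `exists_cut`: a bounded moment makes the part of an operator above a level invisible at `ζ`.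
-/

noncomputable section

namespace Vale.Agent.P096.KK

open scoped InnerProductSpace ComplexOrder
open Finset

universe u

/-! ### Finite quotients -/

lemma finite_ball (d R : ℕ) : {g : FreeGroup (Fin d) | g.toWord.length ≤ R}.Finite := by
  refine ((List.finite_length_le (Fin d × Bool) R).image FreeGroup.mk).subset fun g hg => ?_
  exact ⟨g.toWord, hg, FreeGroup.mk_toWord⟩

/-- A finite group which sees all words of length at most `R`. -/
theorem exists_quotient (d R : ℕ) : ∃ (Q : Type) (_ : Group Q) (_ : Fintype Q)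
    (φ : FreeGroup (Fin d) →* Q), ∀ g, g.toWord.length ≤ R → φ g = 1 → g = 1 := by
  classical
  let B : Type := {g : FreeGroup (Fin d) // g.toWord.length ≤ R}
  have : Finite B := (finite_ball d R).to_subtype
  let e : ∀ x : Fin d, {b : B // (FreeGroup.of x * b.1).toWord.length ≤ R} ≃
      {b : B // ((FreeGroup.of x)⁻¹ * b.1).toWord.length ≤ R} :=
    fun x =>
      { toFun := fun b => ⟨⟨FreeGroup.of x * b.1.1, b.2⟩, by
          simp only [inv_mul_cancel_left]; exact b.1.2⟩
        invFun := fun b => ⟨⟨(FreeGroup.of x)⁻¹ * b.1.1, b.2⟩, by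
          simp only [mul_inv_cancel_left]; exact b.1.2⟩
        left_inv := fun b => by simp
        right_inv := fun b => by simp }
  let φ : FreeGroup (Fin d) →* Equiv.Perm B := FreeGroup.lift fun x => (e x).extendSubtype
  have h1 : (1 : FreeGroup (Fin d)).toWord.length ≤ R := by simp
  have key : ∀ (L : List (Fin d × Bool)) (hL : L.length ≤ R),
      ((φ (FreeGroup.mk L)) ⟨1, h1⟩).1 = FreeGroup.mk L := by
    intro L hL
    induction L with
    | nil => rw [← FreeGroup.one_eq_mk, map_one, Equiv.Perm.one_apply]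
    | cons a L ih =>
      have ih' := ih ((Nat.le_succ _).trans hL)
      have hmem : (FreeGroup.mk (a :: L)).toWord.length ≤ R := (FreeGroup.norm_mk_le).trans hL
      set b := φ (FreeGroup.mk L) ⟨1, h1⟩ with hb
      have hsplit : FreeGroup.mk (a :: L) = FreeGroup.mk [a] * FreeGroup.mk L := by
        rw [FreeGroup.mul_mk, List.singleton_append]
      rw [hsplit, map_mul, Equiv.Perm.mul_apply, ← hb]
      rw [hsplit] at hmem
      obtain ⟨x, s⟩ := a
      cases s
      · have hx : FreeGroup.mk [(x, false)] = (FreeGroup.of x)⁻¹ := by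
          simp [FreeGroup.of, FreeGroup.inv_mk, FreeGroup.invRev]
        rw [hx] at hmem ⊢
        rw [map_inv, FreeGroup.lift_apply_of]
        set c : B := ⟨(FreeGroup.of x)⁻¹ * FreeGroup.mk L, hmem⟩
        have hc : (FreeGroup.of x * c.1).toWord.length ≤ R := by
          simp only [c, mul_inv_cancel_left]
          rw [← ih']
          exact b.2
        have h2 : (e x).extendSubtype c = b := by
          rw [Equiv.extendSubtype_apply_of_mem (e x) c hc]
          ext1
          simp [e, c, ih']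
        rw [Equiv.Perm.inv_eq_iff_eq.2 h2.symm]
      · have hx : FreeGroup.mk [(x, true)] = FreeGroup.of x := rfl
        rw [hx] at hmem ⊢
        rw [FreeGroup.lift_apply_of]
        have hb' : (FreeGroup.of x * b.1).toWord.length ≤ R := by rw [ih']; exact hmem
        rw [Equiv.extendSubtype_apply_of_mem (e x) b hb']
        simp [e, ih']
  refine ⟨Equiv.Perm B, inferInstance, Fintype.ofFinite _, φ, fun g hg h => ?_⟩
  have := key g.toWord hg
  rw [FreeGroup.mk_toWord, h, Equiv.Perm.one_apply] at this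
  exact this.symm

/-! ### The regular representation -/

section Regular

variable {Γ : Type} [Group Γ]

open Vale.Agent.P086 (L2G lam)

lemma lam_apply (g : Γ) (f : L2G Γ) (x : Γ) : lam g f x = f (g⁻¹ * x) := rfl

lemma lam_one : lam (1 : Γ) = 1 := by
  ext1 f; apply lp.ext; funext x; simp [lam_apply]

lemma lam_mul (g h : Γ) : lam (g * h) = lam g * lam h := by
  ext1 f; apply lp.ext; funext x; simp [lam_apply, mul_assoc]

lemma norm_lam (g : Γ) (f : L2G Γ) : ‖lam g f‖ = ‖f‖ := by
  have h : ∀ (g : Γ) (f : L2G Γ), ‖lam g f‖ ≤ ‖f‖ := fun g f =>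
    (P086.norm_lamLin_le g f).trans_eq (one_mul _)
  refine le_antisymm (h g f) ?_
  calc ‖f‖ = ‖lam g⁻¹ (lam g f)‖ := by
        rw [← mul_apply_eq_comp, ← lam_mul, inv_mul_cancel, lam_one, one_apply_eq_self]
    _ ≤ ‖lam g f‖ := h _ _

lemma star_lam (g : Γ) : star (lam g) = lam g⁻¹ := by
  rw [ContinuousLinearMap.star_eq_adjoint]
  refine ((ContinuousLinearMap.eq_adjoint_iff _ _).2 fun x y => ?_).symm
  have h := LinearIsometry.inner_map_map
    (⟨(lam g).toLinearMap, norm_lam g⟩ : L2G Γ →ₗᵢ[ℂ] L2G Γ) (lam g⁻¹ x) y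
  simp only [LinearIsometry.coe_mk, ContinuousLinearMap.coe_coe] at h
  rw [← h, ← mul_apply_eq_comp, ← lam_mul, mul_inv_cancel, lam_one, one_apply_eq_self]

/-- The delta function at one. -/
def delta [DecidableEq Γ] : L2G Γ := lp.single 2 1 (1 : ℂ)

lemma norm_delta [DecidableEq Γ] : ‖(delta : L2G Γ)‖ = 1 := by simp [delta]

lemma inner_delta_lam [DecidableEq Γ] (g : Γ) :
    ⟪(delta : L2G Γ), lam g delta⟫_ℂ = if g = 1 then 1 else 0 := by
  rw [delta, lp.inner_single_left, lam_apply, lp.single_apply, mul_one]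
  by_cases h : g = 1 <;> simp [h]

/-- Left convolution with a bound is bounded on square summable functions. -/
lemma norm_convolution_le [DecidableEq Γ] {S : Finset Γ} {c : Γ → ℝ} {A : ℝ} (hA : 0 ≤ A)
    (h : ConvBound S c A) : ‖∑ g ∈ S, (c g : ℂ) • (lam g : L2G Γ →L[ℂ] L2G Γ)‖ ≤ A := by
  refine ContinuousLinearMap.opNorm_le_bound _ hA fun f => ?_
  refine lp.norm_le_of_forall_sum_le (by norm_num) (mul_nonneg hA (norm_nonneg f)) fun F => ?_
  set U : Finset Γ := (S ×ˢ F).image fun z => z.1⁻¹ * z.2 with hU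
  have hval : ∀ p ∈ F, (∑ g ∈ S, (c g : ℂ) • (lam g : L2G Γ →L[ℂ] L2G Γ)) f p =
      ∑ z ∈ (S ×ˢ U).filter (fun z => z.1 * z.2 = p), (c z.1 : ℂ) * f z.2 := by
    intro p hp
    simp only [_root_.sum_apply, _root_.smul_apply, lp.coeFn_sum, Finset.sum_apply,
      lp.coeFn_smul, Pi.smul_apply, smul_eq_mul, lam_apply]
    refine Finset.sum_bij' (fun g _ => (g, g⁻¹ * p)) (fun z _ => z.1) ?_ ?_ ?_ ?_ ?_
    · intro g hg
      simp only [mem_filter, mem_product, mul_inv_cancel_left, and_true, hU, mem_image]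
      exact ⟨hg, (g, p), ⟨hg, hp⟩, rfl⟩
    · intro z hz
      exact (mem_product.1 (mem_filter.1 hz).1).1
    · intro g _; rfl
    · intro z hz
      obtain ⟨-, rfl⟩ := mem_filter.1 hz
      simp
    · intro g _; rfl
  simp only [ENNReal.toReal_ofNat, Real.rpow_two]
  have hpart : ∀ q : Γ → ℝ, ∑ p ∈ F,
      (∑ z ∈ (S ×ˢ U).filter (fun z => z.1 * z.2 = p), c z.1 * q z.2) ^ 2
        ≤ A ^ 2 * ∑ u ∈ U, q u ^ 2 := by
    intro q
    refine le_trans ?_ (h U q)
    refine (Finset.sum_le_sum_of_subset_of_nonneg Finset.subset_union_left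
      fun _ _ _ => sq_nonneg _).trans_eq
      (Finset.sum_subset Finset.subset_union_right fun p _ hp => ?_).symm
    rw [Finset.filter_eq_empty_iff.2 fun z hz he => hp (mem_image.2 ⟨z, hz, he⟩)]
    simp
  have hsq : ∀ w : ℂ, ‖w‖ ^ 2 = w.re ^ 2 + w.im ^ 2 := fun w => by
    rw [Complex.sq_norm, Complex.normSq_apply]; ring
  have hf := lp.sum_rpow_le_norm_rpow (p := 2) (by norm_num) f U
  simp only [ENNReal.toReal_ofNat, Real.rpow_two, hsq, Finset.sum_add_distrib] at hf
  rw [mul_pow]
  calc _ = ∑ p ∈ F, ((∑ z ∈ (S ×ˢ U).filter (fun z => z.1 * z.2 = p), c z.1 * (f z.2).re) ^ 2 +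
        (∑ z ∈ (S ×ˢ U).filter (fun z => z.1 * z.2 = p), c z.1 * (f z.2).im) ^ 2) :=
        Finset.sum_congr rfl fun p hp => by
          rw [hsq, hval p hp, Complex.re_sum, Complex.im_sum]; simp
    _ ≤ _ := by
      rw [Finset.sum_add_distrib]
      refine (add_le_add (hpart fun u => (f u).re) (hpart fun u => (f u).im)).trans ?_
      rw [← mul_add]
      exact mul_le_mul_of_nonneg_left hf (sq_nonneg A)

end Regular

/-! ### Moments -/

section Moments

variable {Γ : Type} [Group Γ] {K : Type u} [NormedAddCommGroup K] [InnerProductSpace ℂ K]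
  [CompleteSpace K]

/-- A tagged sum. -/
def repSum (π : Γ → K →L[ℂ] K) (S : Finset Γ) (c : Γ → ℝ) : K →L[ℂ] K :=
  ∑ g ∈ S, (c g : ℂ) • π g

lemma star_repSum_mul_apply {π : Γ → K →L[ℂ] K} (hm : ∀ g h, π (g * h) = π g * π h)
    (hs : ∀ g, star (π g) = π g⁻¹) (S : Finset Γ) (c : Γ → ℝ) (h : Γ) (ζ : K) :
    (star (repSum π S c) * repSum π S c) (π h ζ) =
      ∑ a ∈ S, ∑ b ∈ S, ((c a : ℂ) * c b) • π (a⁻¹ * b * h) ζ := by
  simp only [repSum, star_sum, star_smul, hs, RCLike.star_def, Complex.conj_ofReal,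
    Finset.sum_mul_sum, smul_mul_smul_comm, ← hm, _root_.sum_apply, _root_.smul_apply]
  exact Finset.sum_congr rfl fun a _ => Finset.sum_congr rfl fun b _ => by
    rw [hm (a⁻¹ * b) h, mul_apply_eq_comp]

lemma re_inner_pow_le {L : Type*} [NormedAddCommGroup L] [InnerProductSpace ℂ L] [CompleteSpace L]
    (T : L →L[ℂ] L) {A : ℝ} (hT : ‖T‖ ≤ A) (δ : L) (hδ : ‖δ‖ = 1) (p : ℕ) :
    (⟪δ, ((star T * T) ^ p) δ⟫_ℂ).re ≤ A ^ (2 * p) := by
  have hA : 0 ≤ A := (norm_nonneg T).trans hT
  have hq : ‖(star T * T) ^ p‖ ≤ (A ^ 2) ^ p := by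
    rcases p.eq_zero_or_pos with rfl | hp
    · rw [pow_zero, pow_zero, ContinuousLinearMap.one_def]
      exact ContinuousLinearMap.norm_id_le
    · refine (norm_pow_le' _ hp).trans (pow_le_pow_left₀ (norm_nonneg _) ?_ p)
      rw [CStarRing.norm_star_mul_self, ← pow_two]
      exact pow_le_pow_left₀ (norm_nonneg _) hT 2
  refine (Complex.re_le_norm _).trans ((norm_inner_le_norm _ _).trans ?_)
  rw [pow_mul, hδ, one_mul]
  exact ((ContinuousLinearMap.le_opNorm _ _).trans_eq (by rw [hδ, mul_one])).trans hq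

/-- The moments of a tagged sum at a vector where the representation looks regular. -/
theorem moment_le {d : ℕ} {π : FreeGroup (Fin d) → K →L[ℂ] K} (h1 : π 1 = 1)
    (hm : ∀ g h, π (g * h) = π g * π h) (hs : ∀ g, star (π g) = π g⁻¹)
    {S : Finset (FreeGroup (Fin d))} {c : FreeGroup (Fin d) → ℝ} {A : ℝ} (hA : 0 ≤ A)
    (hc : ConvBound S c A) {N p : ℕ} (hS : ∀ g ∈ S, g.toWord.length ≤ N) (ζ : K)
    (hζ : ∀ g, g.toWord.length ≤ 2 * N * p → g ≠ 1 → ⟪ζ, π g ζ⟫_ℂ = 0) :
    (⟪ζ, ((star (repSum π S c) * repSum π S c) ^ p) ζ⟫_ℂ).re ≤ A ^ (2 * p) * ‖ζ‖ ^ 2 := by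
  classical
  set L := repSum (P086.lam (G := FreeGroup (Fin d))) S c with hL
  have key : ∀ j h, h.toWord.length + 2 * N * j ≤ 2 * N * p →
      ⟪ζ, ((star (repSum π S c) * repSum π S c) ^ j) (π h ζ)⟫_ℂ =
        (‖ζ‖ : ℂ) ^ 2 * ⟪delta, ((star L * L) ^ j) (P086.lam h delta)⟫_ℂ := by
    intro j
    induction j with
    | zero =>
      intro h hh
      simp only [pow_zero, one_apply_eq_self, inner_delta_lam]
      by_cases he : h = 1
      · subst he
        simp [h1, inner_self_eq_norm_sq_to_K]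
      · rw [hζ h (by omega) he, if_neg he, mul_zero]
    | succ j ih =>
      intro h hh
      simp only [pow_succ _ j]
      rw [mul_apply_eq_comp ((star (repSum π S c) * repSum π S c) ^ j),
        mul_apply_eq_comp ((star L * L) ^ j), hL,
        star_repSum_mul_apply hm hs, star_repSum_mul_apply lam_mul star_lam, ← hL]
      simp only [map_sum, map_smul, inner_sum, inner_smul_right, Finset.mul_sum]
      refine Finset.sum_congr rfl fun a ha => Finset.sum_congr rfl fun b hb => ?_
      rw [ih _ ?_]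
      · ring
      have e1 := FreeGroup.norm_mul_le (a⁻¹ * b) h
      have e2 := FreeGroup.norm_mul_le a⁻¹ b
      rw [FreeGroup.norm_inv_eq] at e2
      simp only [FreeGroup.norm] at e1 e2
      have := hS a ha
      have := hS b hb
      rw [Nat.mul_succ] at hh
      omega
  have h0 := key p 1 (by simp)
  rw [h1, one_apply_eq_self, lam_one, one_apply_eq_self] at h0
  rw [h0, ← Complex.ofReal_pow, Complex.re_ofReal_mul, mul_comm]
  exact mul_le_mul_of_nonneg_right
    (re_inner_pow_le L (norm_convolution_le hA hc) delta norm_delta p) (sq_nonneg _)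

end Moments

/-! ### The cut -/

section Cut

variable {K : Type u} [NormedAddCommGroup K] [InnerProductSpace ℂ K] [CompleteSpace K]

/-- The cut at the square height `Λ`. -/
theorem exists_cut {M : VonNeumannAlgebra K} {X : K →L[ℂ] K} (hX : X ∈ M) {Λ : ℝ} (hΛ : 0 < Λ)
    (p : ℕ) (ζ : K) :
    ∃ x₀ ∈ M, ‖x₀‖ ≤ Real.sqrt Λ ∧
      Λ ^ p * ‖(X - x₀) ζ‖ ^ 2 ≤ (⟪ζ, ((star X * X) ^ (p + 1)) ζ⟫_ℂ).re := by
  set A := star X * X with hAdef
  have hA0 : 0 ≤ A := star_mul_self_nonneg X
  have hsp : ∀ x ∈ spectrum ℝ A, 0 ≤ x := fun x hx => spectrum_nonneg_of_nonneg hA0 hx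
  have hmax : ∀ x : ℝ, 0 < max x Λ := fun x => hΛ.trans_le (le_max_right _ _)
  set f : ℝ → ℝ := fun x => Λ / max x Λ with hf
  have hfc : Continuous f := continuous_const.div (by fun_prop) fun x => (hmax x).ne'
  have hf0 : ∀ x, 0 ≤ f x := fun x => (div_pos hΛ (hmax x)).le
  have hf1 : ∀ x, f x ≤ 1 := fun x => (div_le_one (hmax x)).2 (le_max_right _ _)
  set g : ℝ → ℝ := fun x => 1 - f x with hg
  have hgc : Continuous g := continuous_const.sub hfc
  have hse : IsSelfAdjoint (cfc f A) := cfc_predicate f A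
  have hsg : IsSelfAdjoint (cfc g A) := cfc_predicate g A
  have hAs : IsSelfAdjoint A := .of_nonneg hA0
  have hAM : A ∈ M := mul_mem (star_mem hX) hX
  have hfM : cfc f A ∈ M := by
    rw [← VonNeumannAlgebra.commutant_commutant M, VonNeumannAlgebra.mem_commutant_iff]
    intro y hy
    exact ((show Commute A y from
      VonNeumannAlgebra.mem_commutant_iff.1 hy A hAM).cfc_real f).eq.symm
  refine ⟨X * cfc f A, mul_mem hX hfM, ?_, ?_⟩
  · rw [Real.le_sqrt (norm_nonneg _) hΛ.le, pow_two, ← CStarRing.norm_star_mul_self, star_mul,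
      hse.star_eq, mul_assoc, ← mul_assoc (star X), ← hAdef]
    conv_lhs => enter [1, 2, 1]; rw [← cfc_id' ℝ A]
    rw [← cfc_mul (fun x => x) f A continuousOn_id hfc.continuousOn,
      ← cfc_mul f (fun x => x * f x) A hfc.continuousOn (continuous_id.mul hfc).continuousOn]
    refine norm_cfc_le hΛ.le fun x hx => ?_
    have hx0 := hsp x hx
    rw [Real.norm_eq_abs, abs_of_nonneg (mul_nonneg (hf0 x) (mul_nonneg hx0 (hf0 x)))]
    refine (mul_le_of_le_one_left (mul_nonneg hx0 (hf0 x)) (hf1 x)).trans ?_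
    rw [hf, ← mul_div_assoc, div_le_iff₀ (hmax x), mul_comm Λ]
    exact mul_le_mul_of_nonneg_right (le_max_left _ _) hΛ.le
  · have hsub : X - X * cfc f A = X * cfc g A := by
      rw [hg, cfc_sub (fun _ => (1 : ℝ)) f A continuousOn_const hfc.continuousOn,
        cfc_const_one ℝ A, mul_sub, mul_one]
    have hnorm : ‖(X * cfc g A) ζ‖ ^ 2 = (⟪ζ, (cfc g A * A * cfc g A) ζ⟫_ℂ).re := by
      have e : cfc g A * A * cfc g A = star (X * cfc g A) * (X * cfc g A) := by
        rw [star_mul, hsg.star_eq, hAdef]; simp only [mul_assoc]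
      rw [e, mul_apply_eq_comp (star _), ContinuousLinearMap.star_eq_adjoint,
        ContinuousLinearMap.adjoint_inner_right, inner_self_eq_norm_sq_to_K]
      simp [← Complex.ofReal_pow]
    have hle : (Λ ^ p : ℝ) • (cfc g A * A * cfc g A) ≤ A ^ (p + 1) := by
      have e : cfc g A * A * cfc g A = cfc (fun x => g x * x * g x) A := by
        conv_lhs => enter [1, 2]; rw [← cfc_id' ℝ A]
        rw [← cfc_mul g (fun x => x) A hgc.continuousOn continuousOn_id,
          ← cfc_mul (fun x => g x * x) g A (hgc.mul continuous_id).continuousOn hgc.continuousOn]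
      rw [e, ← cfc_smul (Λ ^ p) (fun x => g x * x * g x) A
          ((hgc.mul continuous_id).mul hgc).continuousOn, ← cfc_pow_id (R := ℝ) A (p + 1)]
      refine cfc_mono (fun x hx => ?_) (continuous_const.mul ((hgc.mul continuous_id).mul hgc)).continuousOn
        (continuous_pow (p + 1)).continuousOn
      have hx0 := hsp x hx
      rw [smul_eq_mul]
      rcases le_total x Λ with h | h
      · have hg0 : g x = 0 := by simp [hg, hf, max_eq_right h, hΛ.ne']
        rw [hg0]; simp [pow_nonneg hx0]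
      · have hgx : 0 ≤ g x := sub_nonneg.2 (hf1 x)
        have hgx1 : g x ≤ 1 := sub_le_self _ (hf0 x)
        calc Λ ^ p * (g x * x * g x) ≤ x ^ p * (1 * x * 1) :=
              mul_le_mul (pow_le_pow_left₀ hΛ.le h p)
                (mul_le_mul (mul_le_mul_of_nonneg_right hgx1 hx0) hgx1 hgx (by linarith))
                (by positivity) (pow_nonneg hx0 p)
          _ = x ^ (p + 1) := by ring
    have h2 := ((ContinuousLinearMap.le_def _ _).1 hle).re_inner_nonneg_right ζ
    rw [sub_apply, _root_.smul_apply, inner_sub_right, ← Complex.coe_smul, inner_smul_right,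
      map_sub, sub_nonneg] at h2
    simp only [RCLike.re_to_complex, Complex.re_ofReal_mul] at h2
    rw [hsub, hnorm]
    exact h2

/-- The tagged sum, cut to norm five: the loss at `ζ` is as small as wanted, once the representation
looks regular at `ζ` on a large enough ball. -/
theorem exists_tag_cut {η : ℝ} (hη : 0 < η) : ∃ p : ℕ,
    ∀ {K : Type u} [NormedAddCommGroup K] [InnerProductSpace ℂ K] [CompleteSpace K]
      {M : VonNeumannAlgebra K} {d : ℕ} {π : FreeGroup (Fin d) → K →L[ℂ] K},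
      π 1 = 1 → (∀ g h, π (g * h) = π g * π h) → (∀ g, star (π g) = π g⁻¹) → (∀ g, π g ∈ M) →
      ∀ {S : Finset (FreeGroup (Fin d))} {c : FreeGroup (Fin d) → ℝ}, ConvBound S c 4 →
      ∀ {N : ℕ}, (∀ g ∈ S, g.toWord.length ≤ N) → ∀ ζ : K,
      (∀ g, g.toWord.length ≤ 2 * N * (p + 1) → g ≠ 1 → ⟪ζ, π g ζ⟫_ℂ = 0) →
      ∃ x₀ ∈ M, ‖x₀‖ ≤ 5 ∧ ‖(repSum π S c - x₀) ζ‖ ≤ η * ‖ζ‖ := by
  obtain ⟨p, hp⟩ := exists_pow_lt_of_lt_one (show 0 < η ^ 2 / 16 by positivity)
    (show (16 / 25 : ℝ) < 1 by norm_num)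
  refine ⟨p, fun {K} _ _ _ {M} {d} {π} h1 hm hs hM {S} {c} hc {N} hS ζ hζ => ?_⟩
  have hX : repSum π S c ∈ M :=
    sum_mem fun g _ => M.toStarSubalgebra.toSubalgebra.smul_mem (hM g) _
  obtain ⟨x₀, hx₀, hn, hb⟩ := exists_cut hX (show (0 : ℝ) < 25 by norm_num) p ζ
  refine ⟨x₀, hx₀, hn.trans_eq (by rw [show (25 : ℝ) = 5 ^ 2 by norm_num, Real.sqrt_sq]; norm_num),
    (pow_le_pow_iff_left₀ (norm_nonneg _) (by positivity) two_ne_zero).1
      (le_of_mul_le_mul_left ?_ (show (0 : ℝ) < 25 ^ p by positivity))⟩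
  refine hb.trans ((moment_le h1 hm hs (by norm_num) hc hS ζ hζ).trans ?_)
  rw [mul_pow, ← mul_assoc]
  refine mul_le_mul_of_nonneg_right ?_ (sq_nonneg _)
  rw [div_pow, div_lt_iff₀ (by positivity)] at hp
  rw [pow_mul, pow_succ]
  norm_num
  linarith

end Cut

end Vale.Agent.P096.KK
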