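import Vale.Agent.P096.KK.SqBasic
import Vale.Agent.P096.KK.Quotient

/-!
# P096: the multiplier bound for the cocycle of a selection

The elements of a free group are tagged by the regular representation of a finite quotient. The
tagged sums are cut to norm five, with a loss on the trace vector which is as small as wanted; the
loss is paired with bounded vectors only, chosen before the quotient.
-/

noncomputable section

namespace Vale.Agent.P096.KK

open scoped InnerProductSpace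

universe u

namespace Mult

variable {H : Type u} [NormedAddCommGroup H] [InnerProductSpace ℂ H] [CompleteSpace H]

lemma norm_le_one_of_unitary {v : H →L[ℂ] H} (hv : v ∈ unitary (H →L[ℂ] H)) : ‖v‖ ≤ 1 :=
  v.opNorm_le_bound zero_le_one fun ξ => by
    rw [(ContinuousLinearMap.norm_map_iff_adjoint_comp_self v).2 (Unitary.star_mul_self_of_mem hv) ξ,
      one_mul]

/-! ### One algebra -/

section Pairing

variable {M : VonNeumannAlgebra H} {Ω : H} {R : (H →L[ℂ] H) → (H →L[ℂ] H)}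
  {N : Subalgebra ℂ (H →L[ℂ] H)} {P : Set (H →L[ℂ] H)} {d ε : ℝ}

lemma norm_star_piece (hC : Close M Ω R N P d ε) {r z : H →L[ℂ] H} (hr : r ∈ M) (hz : z ∈ P) :
    ‖star r (z Ω)‖ = ‖r (z Ω)‖ := by
  obtain ⟨hzM, hzp, hzc⟩ := hC.pieces.proj z hz
  have e1 : star r (z Ω) = star (r * z) Ω := by
    have : star r * z = star (r * z) := by
      rw [star_mul, hzp.isSelfAdjoint.star_eq, hzc _ (star_mem hr)]
    rw [← this]; rfl
  rw [e1, show r (z Ω) = (r * z) Ω from rfl]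
  have hw : r * z ∈ M := mul_mem hr hzM
  generalize r * z = w at hw
  have h := hC.std.trace w hw (star w) (star_mem hw)
  have e : ∀ T : H →L[ℂ] H, ⟪Ω, star T (T Ω)⟫_ℂ = ⟪T Ω, T Ω⟫_ℂ := fun T => by
    rw [ContinuousLinearMap.star_eq_adjoint, ContinuousLinearMap.adjoint_inner_right]
  rw [e w] at h
  have e' := e (star w)
  rw [star_star] at e'
  rw [e'] at h
  refine (sq_eq_sq₀ (norm_nonneg _) (norm_nonneg _)).1 ?_
  rw [@norm_sq_eq_re_inner ℂ _ _ _ _ (star w Ω), @norm_sq_eq_re_inner ℂ _ _ _ _ (w Ω), h]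

/-- The selections replace `delVec` by the frozen vector. -/
lemma norm_delVec_sub_frozen' (hC : Close M Ω R N P d ε) {n x b y z : H →L[ℂ] H} (hn : n ∈ N)
    (hx : x ∈ M) (hb : b ∈ M) (hy : y ∈ cent N) {α β γ β' : ℝ} (hα : ‖n - x‖ ≤ α)
    (hβ : ‖(n - x) (z Ω)‖ ≤ β) (hγ : ‖y - R b‖ ≤ γ) (hβ' : ‖(y - R b) (z Ω)‖ ≤ β') :
    ‖delVec R Ω z n b - frozen Ω z x y‖ ≤ α * β' + γ * β := by
  have hid : delVec R Ω z n b - frozen Ω z x y =
      -(n - x) ((y - R b) (z Ω)) + (y - R b) ((n - x) (z Ω)) := by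
    simp only [delVec, frozen, sub_apply, map_sub,
      hC.std.comm_right hx hb, apply_comm (mem_cent_iff.1 hy n hn) (z Ω)]
    abel
  rw [hid]
  refine (norm_add_le _ _).trans (add_le_add ?_ ?_)
  · rw [norm_neg]
    exact ((n - x).le_opNorm _).trans
      (mul_le_mul hα hβ' (norm_nonneg _) ((norm_nonneg _).trans hα))
  · exact ((y - R b).le_opNorm _).trans
      (mul_le_mul hγ hβ (norm_nonneg _) ((norm_nonneg _).trans hγ))

/-- Replacing the tagged sums by bounded operators with the same value on the trace vector costs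
nothing against a bounded vector. -/
theorem pair_bound (hC : Close M Ω R N P d ε)
    (hA : ∀ b ∈ M, ‖R b‖ ≤ ‖b‖ ∧ R (star b) = star (R b)) {k : ℝ} (hk : 0 ≤ k) (hkd : k * d ≤ 1)
    (hsel : SelectAt M Ω N P k d ε) {z : H →L[ℂ] H} (hz : z ∈ P) {nS x b x₀ b₀ c : H →L[ℂ] H}
    (hnS : nS ∈ N) (hx : x ∈ M) (hb : b ∈ M) (hx₀ : x₀ ∈ M) (hb₀ : b₀ ∈ M) (hc : c ∈ M)
    {L κ η : ℝ} (hκ : 0 ≤ κ) (hL : 5 ≤ L) (hnx : ‖nS - x‖ ≤ κ * d * L) (hxL : ‖x‖ ≤ L)
    (hbL : ‖b‖ ≤ L) (hx5 : ‖x₀‖ ≤ 5) (hb5 : ‖b₀‖ ≤ 5)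
    (hxη : ‖(x - x₀) (z Ω)‖ ≤ η * ‖z Ω‖) (hbη : ‖(b - b₀) (z Ω)‖ ≤ η * ‖z Ω‖) :
    ‖⟪delVec R Ω z nS b, c (z Ω)⟫_ℂ‖ ≤
      (50 + 20 * (1 + k) ^ 2 * L ^ 2 * (1 + κ) * d) * ε * ‖z Ω‖ * ‖c (z Ω)‖ +
        η * ((4 * L + 20) * ‖c‖ * ‖z Ω‖ ^ 2) := by
  have hd := hC.d_nonneg
  have he := hC.ε_nonneg
  have hw := norm_nonneg (z Ω)
  set w := ‖z Ω‖ with hwdef
  have hL0 : 0 ≤ L := by linarith
  obtain ⟨n', hn', hn'd, hn'v⟩ := hsel.1 x hx
  obtain ⟨n₀, hn₀, hn₀d, hn₀v⟩ := hsel.1 x₀ hx₀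
  obtain ⟨y, hy, hyd, hyv⟩ := hsel.2 (R b) (hC.std.right_mem b hb)
  have hRb : ‖R b‖ ≤ L := (hA b hb).1.trans hbL
  have hn'd' : ‖n' - x‖ ≤ k * d * L := hn'd.trans (by gcongr)
  have hn₀d' : ‖n₀ - x₀‖ ≤ k * d * 5 := hn₀d.trans (by gcongr)
  have hn'v' : ‖(n' - x) (z Ω)‖ ≤ k * ε * L * w := (hn'v z hz).trans (by gcongr)
  have hn₀v' : ‖(n₀ - x₀) (z Ω)‖ ≤ k * ε * 5 * w := (hn₀v z hz).trans (by gcongr)
  have hyd' : ‖y - R b‖ ≤ k * d * L := hyd.trans (by gcongr)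
  have hyv' : ‖(y - R b) (z Ω)‖ ≤ k * ε * L * w := (hyv z hz).trans (by gcongr)
  have hyL : ‖y‖ ≤ 2 * L := by
    have := norm_le_norm_add_norm_sub' y (R b)
    nlinarith
  have hn₀L : ‖n₀‖ ≤ 10 := by
    have := norm_le_norm_add_norm_sub' n₀ x₀
    nlinarith
  have t1 : ‖delVec R Ω z (nS - n') b‖ ≤ ε * ((κ + k) * d * L) * L * w := by
    refine (hC.small _ (sub_mem hnS hn') b hb z hz).trans ?_
    have : ‖nS - n'‖ ≤ (κ + k) * d * L := by
      rw [show nS - n' = (nS - x) - (n' - x) by abel]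
      exact (norm_sub_le _ _).trans ((add_le_add hnx hn'd').trans_eq (by ring))
    gcongr
  have t2 := norm_delVec_sub_frozen' hC hn' hx hb hy hn'd' hn'v' hyd' hyv'
  have t4 := norm_delVec_sub_frozen' hC hn₀ hx₀ hb hy hn₀d' hn₀v' hyd' hyv'
  have t6 : ‖delVec R Ω z n₀ b₀‖ ≤ ε * 10 * 5 * w :=
    (hC.small _ hn₀ b₀ hb₀ z hz).trans (by gcongr)
  have hcw : ‖c (z Ω)‖ ≤ ‖c‖ * w := c.le_opNorm _
  have hη : 0 ≤ η * w := (norm_nonneg _).trans hxη
  have hxr : x - x₀ ∈ M := sub_mem hx hx₀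
  have hbr : b - b₀ ∈ M := sub_mem hb hb₀
  have t3 : ‖⟪frozen Ω z (x - x₀) y, c (z Ω)⟫_ℂ‖ ≤ η * (4 * L * ‖c‖ * w ^ 2) := by
    have h1 : ‖star (x - x₀) (c (z Ω))‖ ≤ ‖c‖ * (η * w) := by
      have hcomm : star (x - x₀) (c (z Ω)) = z (R c (star (x - x₀) Ω)) := by
        rw [hC.comm_piece_left hz hc, hC.comm_piece_left hz (star_mem hxr),
          ← hC.std.right_apply c hc, hC.std.comm_right (star_mem hxr) hc]
      rw [hcomm, ← hC.comm_piece_right hz hc, ← hC.comm_piece_left hz (star_mem hxr)]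
      refine ((R c).le_opNorm _).trans (mul_le_mul (hA c hc).1 ?_ (norm_nonneg _) (norm_nonneg _))
      rw [norm_star_piece hC hxr hz]
      exact hxη
    rw [frozen, inner_sub_left]
    refine (norm_sub_le _ _).trans ?_
    have a1 : ‖⟪y ((x - x₀) (z Ω)), c (z Ω)⟫_ℂ‖ ≤ 2 * L * (η * w) * (‖c‖ * w) :=
      (norm_inner_le_norm _ _).trans (mul_le_mul ((y.le_opNorm _).trans
        (mul_le_mul hyL hxη (norm_nonneg _) (by positivity))) hcw (norm_nonneg _) (by positivity))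
    have a2 : ‖⟪(x - x₀) (y (z Ω)), c (z Ω)⟫_ℂ‖ ≤ 2 * L * w * (‖c‖ * (η * w)) := by
      rw [← ContinuousLinearMap.adjoint_inner_right, ← ContinuousLinearMap.star_eq_adjoint]
      exact (norm_inner_le_norm _ _).trans (mul_le_mul ((y.le_opNorm _).trans
        (mul_le_mul_of_nonneg_right hyL hw)) h1 (norm_nonneg _) (by positivity))
    exact (add_le_add a1 a2).trans (le_of_eq (by ring))
  have t5 : ‖⟪delVec R Ω z n₀ (b - b₀), c (z Ω)⟫_ℂ‖ ≤ η * (20 * ‖c‖ * w ^ 2) := by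
    rw [delVec, inner_sub_left]
    refine (norm_sub_le _ _).trans ?_
    have hR : R (b - b₀) (z Ω) = (b - b₀) (z Ω) := by
      rw [hC.comm_piece_right hz hbr, hC.std.right_apply _ hbr, hC.comm_piece_left hz hbr]
    have a1 : ‖⟪n₀ (R (b - b₀) (z Ω)), c (z Ω)⟫_ℂ‖ ≤ 10 * (η * w) * (‖c‖ * w) := by
      rw [hR]
      exact (norm_inner_le_norm _ _).trans (mul_le_mul ((n₀.le_opNorm _).trans
        (mul_le_mul hn₀L hbη (norm_nonneg _) (by norm_num))) hcw (norm_nonneg _) (by positivity))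
    have h1 : ‖R (star (b - b₀)) (c (z Ω))‖ ≤ ‖c‖ * (η * w) := by
      have hR' : R (star (b - b₀)) (z Ω) = star (b - b₀) (z Ω) := by
        rw [hC.comm_piece_right hz (star_mem hbr), hC.std.right_apply _ (star_mem hbr),
          hC.comm_piece_left hz (star_mem hbr)]
      rw [← hC.std.comm_right hc (star_mem hbr), hR']
      refine (c.le_opNorm _).trans ?_
      rw [norm_star_piece hC hbr hz]
      exact mul_le_mul_of_nonneg_left hbη (norm_nonneg _)
    have a2 : ‖⟪R (b - b₀) (n₀ (z Ω)), c (z Ω)⟫_ℂ‖ ≤ 10 * w * (‖c‖ * (η * w)) := by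
      rw [← ContinuousLinearMap.adjoint_inner_right, ← ContinuousLinearMap.star_eq_adjoint,
        ← (hA _ hbr).2]
      exact (norm_inner_le_norm _ _).trans (mul_le_mul ((n₀.le_opNorm _).trans
        (mul_le_mul_of_nonneg_right hn₀L hw)) h1 (norm_nonneg _) (by positivity))
    exact (add_le_add a1 a2).trans (le_of_eq (by ring))
  have hsplit : delVec R Ω z nS b =
      delVec R Ω z (nS - n') b + (delVec R Ω z n' b - frozen Ω z x y)
        + frozen Ω z (x - x₀) y - (delVec R Ω z n₀ b - frozen Ω z x₀ y)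
        + delVec R Ω z n₀ (b - b₀) + delVec R Ω z n₀ b₀ := by
    simp only [delVec, frozen, hC.std.right_sub hb hb₀, sub_apply, map_sub]
    abel
  rw [hsplit]
  simp only [inner_add_left, inner_sub_left (x := delVec R Ω z (nS - n') b +
    (delVec R Ω z n' b - frozen Ω z x y) + frozen Ω z (x - x₀) y)]
  have ip : ∀ {v : H} {β : ℝ}, ‖v‖ ≤ β → ‖⟪v, c (z Ω)⟫_ℂ‖ ≤ β * ‖c (z Ω)‖ := fun h =>
    (norm_inner_le_norm _ _).trans (mul_le_mul_of_nonneg_right h (norm_nonneg _))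
  refine (norm_add_le _ _).trans ((add_le_add ((norm_add_le _ _).trans (add_le_add
    ((norm_sub_le _ _).trans (add_le_add ((norm_add_le _ _).trans (add_le_add
      ((norm_add_le _ _).trans (add_le_add (ip t1) (ip t2))) t3)) (ip t4))) t5)) (ip t6)).trans ?_)
  have hW : 0 ≤ ε * w * ‖c (z Ω)‖ * d := by positivity
  have hk2 : (κ + k) * L ^ 2 + 2 * k ^ 2 * L ^ 2 + 10 * k ^ 2 * L ≤
      20 * (1 + k) ^ 2 * L ^ 2 * (1 + κ) := by
    have a1 : k ^ 2 * (5 * L) ≤ k ^ 2 * (L * L) :=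
      mul_le_mul_of_nonneg_left (mul_le_mul_of_nonneg_right hL hL0) (sq_nonneg k)
    have a2 : κ + k + 4 * k ^ 2 ≤ 20 * (1 + k) ^ 2 * (1 + κ) := by
      nlinarith only [mul_nonneg hκ hk, mul_nonneg hκ (sq_nonneg k), sq_nonneg k, hκ, hk]
    have a3 := mul_le_mul_of_nonneg_right a2 (sq_nonneg L)
    linarith
  have := mul_le_mul_of_nonneg_left hk2 hW
  linarith

end Pairing

/-! ### Tags -/

section Tags

variable {Q : Type} [Group Q] [DecidableEq Q] {m : ℕ} (e : Fin m ≃ Q)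

/-- The row of the one in a column of the permutation matrix of `q`. -/
def shift (q : Q) : Fin m ≃ Fin m := (e.trans (Equiv.mulLeft q)).trans e.symm

omit [DecidableEq Q] in
lemma shift_apply (q : Q) (k : Fin m) : shift e q k = e.symm (q * e k) := rfl

omit [DecidableEq Q] in
lemma shift_mul (q r : Q) (k : Fin m) : shift e q (shift e r k) = shift e (q * r) k := by
  simp [shift_apply, mul_assoc]

omit [DecidableEq Q] in
lemma shift_symm (q : Q) (i : Fin m) : (shift e q).symm i = shift e q⁻¹ i := by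
  rw [Equiv.symm_apply_eq, shift_mul]
  simp [shift_apply]

/-- `x` tensor the permutation matrix of `q`. -/
def tag (x : H →L[ℂ] H) (q : Q) : Sq H m →L[ℂ] Sq H m :=
  mL fun i j => if shift e q j = i then x else 0

/-- The vector of `a` tensor the permutation matrix of `q`. -/
def tvec (q : Q) (a : H) : Sq H m :=
  ((Real.sqrt m)⁻¹ : ℂ) • ∑ k : Fin m, sinj (shift e q k, k) a

omit [DecidableEq Q] in
lemma tag_apply (x : H →L[ℂ] H) (q : Q) (v : Sq H m) (i k : Fin m) :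
    tag e x q v (i, k) = x (v (shift e q⁻¹ i, k)) := by
  classical
  rw [tag, mL_apply, Finset.sum_eq_single ((shift e q).symm i)]
  · rw [if_pos ((shift e q).apply_symm_apply i), shift_symm]
  · intro j _ hj
    rw [if_neg fun h => hj (by rw [← h, Equiv.symm_apply_apply])]
    simp
  · exact fun h => absurd (Finset.mem_univ _) h

omit [DecidableEq Q] in
lemma tvec_apply (q : Q) (a : H) (i k : Fin m) :
    tvec e q a (i, k) = if shift e q k = i then ((Real.sqrt m)⁻¹ : ℂ) • a else 0 := by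
  classical
  simp [tvec, sq_sum_apply, ite_and]
  rw [Finset.sum_eq_single k (fun j _ hj => by simp [hj]) (fun h => absurd (Finset.mem_univ _) h)]
  simp

omit [DecidableEq Q] in
lemma tag_mul (x y : H →L[ℂ] H) (q r : Q) : tag e x q * tag e y r = tag e (x * y) (q * r) :=
  sq_op_ext fun v i k => by simp [tag_apply, shift_mul, mul_inv_rev]

omit [DecidableEq Q] in
lemma tag_one : tag e (1 : H →L[ℂ] H) 1 = 1 :=
  sq_op_ext fun v i k => by simp [tag_apply, shift_apply]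

omit [DecidableEq Q] in
lemma norm_tag_le (x : H →L[ℂ] H) (q : Q) : ‖tag e x q‖ ≤ ‖x‖ := by
  refine ContinuousLinearMap.opNorm_le_bound _ (norm_nonneg _) fun v => ?_
  refine le_of_pow_le_pow_left₀ two_ne_zero (by positivity) ?_
  rw [mul_pow, PiLp.norm_sq_eq_of_L2, PiLp.norm_sq_eq_of_L2,
    ← Equiv.sum_comp (Equiv.prodCongr (shift e q⁻¹) (Equiv.refl _)) (fun p => ‖v p‖ ^ 2),
    Finset.mul_sum]
  refine Finset.sum_le_sum fun p _ => ?_
  obtain ⟨i, k⟩ := p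
  rw [tag_apply, ← mul_pow]
  exact pow_le_pow_left₀ (norm_nonneg _) (x.le_opNorm _) 2

omit [DecidableEq Q] in
lemma star_tag (x : H →L[ℂ] H) (q : Q) : star (tag e x q) = tag e (star x) q⁻¹ := by
  rw [ContinuousLinearMap.star_eq_adjoint]
  symm
  rw [ContinuousLinearMap.eq_adjoint_iff]
  intro v w
  rw [PiLp.inner_apply, PiLp.inner_apply,
    ← Equiv.sum_comp (Equiv.prodCongr (shift e q) (Equiv.refl _)) (fun p => ⟪v p, (tag e x q w) p⟫_ℂ)]
  refine Finset.sum_congr rfl fun p _ => ?_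
  obtain ⟨i, k⟩ := p
  simp [tag_apply, shift_mul, ContinuousLinearMap.star_eq_adjoint,
    ContinuousLinearMap.adjoint_inner_left]
  simp [shift_apply]

omit [DecidableEq Q] in
lemma tag_mem_sqM {M : VonNeumannAlgebra H} {x : H →L[ℂ] H} (hx : x ∈ M) (q : Q) :
    tag e x q ∈ sqM M m :=
  mL_mem_sqM fun i j => by split_ifs; exacts [hx, zero_mem M]

omit [DecidableEq Q] in
lemma tag_mem_sqN {N : Subalgebra ℂ (H →L[ℂ] H)} {x : H →L[ℂ] H} (hx : x ∈ N) (q : Q) :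
    tag e x q ∈ sqN N m := by
  rw [sqN, Subalgebra.mem_centralizer_iff]
  rintro g (⟨y, hy, rfl⟩ | ⟨⟨a, b⟩, rfl⟩) <;> refine sq_op_ext fun v i k => ?_
  · simp only [mul_apply_eq_comp, sdiag_apply, tag_apply]
    exact (apply_comm (mem_cent_iff.1 hy x hx) _).symm
  · simp [tag_apply, apply_ite x]

omit [DecidableEq Q] in
lemma sdiag_sqVec_eq (z : H →L[ℂ] H) (Ω : H) : sdiag m z (sqVec m Ω) = tvec e 1 (z Ω) :=
  sq_ext fun i k => by
    rw [sdiag_sqVec, tvec_apply]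
    simp [shift_apply, eq_comm]

omit [DecidableEq Q] in
lemma tag_tvec (x : H →L[ℂ] H) (q r : Q) (a : H) :
    tag e x q (tvec e r a) = tvec e (q * r) (x a) :=
  sq_ext fun i k => by
    rw [tag_apply, tvec_apply, tvec_apply]
    have : shift e r k = shift e q⁻¹ i ↔ shift e (q * r) k = i := by
      rw [← shift_mul, ← shift_symm, Equiv.eq_symm_apply]
    simp only [this, apply_ite x, map_smul, map_zero]

omit [DecidableEq Q] in
lemma mR_apply (Y : Fin m → Fin m → H →L[ℂ] H) (v : Sq H m) (i k : Fin m) :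
    mR Y v (i, k) = ∑ j, Y j k (v (i, j)) := by
  classical
  simp only [mR, sum_apply, sq_sum_apply, ContinuousLinearMap.comp_apply, spr_apply, sinj_apply,
    Prod.mk.injEq]
  rw [Finset.sum_eq_single i (fun a _ ha => by simp [ha]) (fun h => absurd (Finset.mem_univ i) h)]
  exact Finset.sum_congr rfl fun j _ => by simp

variable [NeZero m]

omit [DecidableEq Q] in
lemma sqR_tag_tvec {R : (H →L[ℂ] H) → (H →L[ℂ] H)} (hR0 : R 0 = 0) (b : H →L[ℂ] H) (q r : Q)
    (a : H) : sqR R m (tag e b r) (tvec e q a) = tvec e (q * r) (R b a) := by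
  classical
  refine sq_ext fun i k => ?_
  rw [sqR, mR_apply, tvec_apply, tag]
  simp only [lEnt_mL]
  rw [Finset.sum_eq_single (shift e r k)]
  · rw [if_pos rfl, tvec_apply, shift_mul, apply_ite (R b), map_smul, map_zero]
  · intro j _ hj
    rw [if_neg (Ne.symm hj), hR0]
    simp
  · exact fun h => absurd (Finset.mem_univ _) h

omit [DecidableEq Q] in
lemma delVec_tag {R : (H →L[ℂ] H) → (H →L[ℂ] H)} (hR0 : R 0 = 0) (Ω : H) (z n b : H →L[ℂ] H)
    (q r : Q) : delVec (sqR R m) (sqVec m Ω) (sdiag m z) (tag e n q) (tag e b r) =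
      tvec e (q * r) (delVec R Ω z n b) := by
  rw [delVec, sdiag_sqVec_eq e, sqR_tag_tvec e hR0, one_mul, tag_tvec, tag_tvec, mul_one,
    sqR_tag_tvec e hR0]
  refine sq_ext fun i k => ?_
  simp only [PiLp.sub_apply, tvec_apply, delVec]
  split_ifs <;> simp [smul_sub]

lemma inner_tvec (q r : Q) (a b : H) :
    ⟪tvec e q a, tvec e r b⟫_ℂ = if q = r then ⟪a, b⟫_ℂ else 0 := by
  classical
  rw [PiLp.inner_apply, Fintype.sum_prod_type, Finset.sum_comm]
  have h : ∀ k, ∑ i, ⟪tvec e q a (i, k), tvec e r b (i, k)⟫_ℂ =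
      if q = r then (m : ℂ)⁻¹ * ⟪a, b⟫_ℂ else 0 := by
    intro k
    rw [Finset.sum_eq_single (shift e q k) (fun i _ hi => by simp [tvec_apply, Ne.symm hi])
      (fun h => absurd (Finset.mem_univ _) h), tvec_apply, tvec_apply, if_pos rfl]
    have hqr : shift e r k = shift e q k ↔ q = r := by simp [shift_apply, eq_comm]
    simp only [hqr]
    split_ifs
    · rw [inner_smul_left, inner_smul_right, ← mul_assoc]
      simp only [map_inv₀, Complex.conj_ofReal, ← mul_inv, ← Complex.ofReal_mul,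
        Real.mul_self_sqrt (Nat.cast_nonneg m), Complex.ofReal_natCast]
    · simp
  simp only [h, Finset.sum_const, Finset.card_univ, Fintype.card_fin]
  split_ifs
  · rw [nsmul_eq_mul, ← mul_assoc, mul_inv_cancel₀ (Nat.cast_ne_zero.2 (NeZero.ne m)), one_mul]
  · simp

end Tags

/-! ### Counting -/

lemma abs_coeff_le {Γ : Type*} [Group Γ] [DecidableEq Γ] {S : Finset Γ} {c : Γ → ℝ} {A : ℝ}
    (hA : 0 ≤ A) (h : ConvBound S c A) {g : Γ} (hg : g ∈ S) : |c g| ≤ A := by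
  refine abs_le_of_sq_le_sq ?_ hA
  have h1 := h {1} fun _ => 1
  simp only [Finset.sum_singleton, one_pow, mul_one] at h1
  refine le_trans ?_ h1
  refine le_trans (le_of_eq ?_) (Finset.single_le_sum (fun p _ => sq_nonneg _)
    (Finset.mem_image.2 ⟨(g, 1), Finset.mem_product.2 ⟨hg, Finset.mem_singleton_self 1⟩, mul_one g⟩))
  rw [show (S ×ˢ ({1} : Finset Γ)).filter (fun z => z.1 * z.2 = g) = {(g, 1)} by
    ext ⟨a, b⟩
    simp only [Finset.mem_filter, Finset.mem_product, Finset.mem_singleton, Prod.mk.injEq]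
    constructor
    · rintro ⟨⟨-, rfl⟩, h⟩; exact ⟨by simpa using h, rfl⟩
    · rintro ⟨rfl, rfl⟩; exact ⟨⟨hg, rfl⟩, mul_one _⟩, Finset.sum_singleton]

lemma card_le_ball {d D N : ℕ} (hd : d ≤ D) {S : Finset (FreeGroup (Fin d))}
    (hS : ∀ g ∈ S, g.toWord.length ≤ N) : S.card ≤ ∑ n ∈ Finset.range (N + 1), (2 * D) ^ n := by
  refine le_trans (Finset.card_le_card (t := (Finset.range (N + 1)).biUnion (sphere d)) ?_)
    (Finset.card_biUnion_le.trans (Finset.sum_le_sum fun n _ => ?_))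
  · intro g hg
    rw [Finset.mem_biUnion]
    refine ⟨g.toWord.length, Finset.mem_range.2 (Nat.lt_succ_of_le (hS g hg)), ?_⟩
    simp only [sphere, Finset.mem_filter, Finset.mem_image, Finset.mem_univ, true_and, and_true]
    exact ⟨g.toWord.get, by rw [List.ofFn_get, FreeGroup.mk_toWord]⟩
  · refine (Finset.card_filter_le _ _).trans (Finset.card_image_le.trans ?_)
    simp only [Finset.card_univ, Fintype.card_fun, Fintype.card_prod, Fintype.card_fin,
      Fintype.card_bool]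
    rw [mul_comm d 2]
    gcongr

/-- The bound on the sum of the absolute values of the coefficients. -/
def size (D N : ℕ) : ℝ := 5 + 4 * (∑ n ∈ Finset.range (N + 1), (2 * D) ^ n : ℕ)

lemma sum_abs_le {d D N : ℕ} (hd : d ≤ D) {S : Finset (FreeGroup (Fin d))}
    {c : FreeGroup (Fin d) → ℝ} (hS : ∀ g ∈ S, g.toWord.length ≤ N) (hc : ConvBound S c 4) :
    ∑ g ∈ S, |c g| ≤ size D N := by
  refine (Finset.sum_le_card_nsmul _ _ 4 fun g hg => abs_coeff_le (by norm_num) hc hg).trans ?_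
  rw [size, nsmul_eq_mul]
  have : (S.card : ℝ) ≤ (∑ n ∈ Finset.range (N + 1), (2 * D) ^ n : ℕ) :=
    Nat.cast_le.2 (card_le_ball hd hS)
  linarith

/-! ### The bound -/

section Main

variable {M : VonNeumannAlgebra H} {Ω : H} {R : (H →L[ℂ] H) → (H →L[ℂ] H)}

lemma right_sum (hS : Std M Ω R) {ι : Type*} (s : Finset ι) (t : ι → ℂ) {f : ι → H →L[ℂ] H}
    (hf : ∀ i ∈ s, f i ∈ M) : R (∑ i ∈ s, t i • f i) = ∑ i ∈ s, t i • R (f i) := by
  classical
  induction s using Finset.induction with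
  | empty => simpa using hS.right_smul (0 : ℂ) (zero_mem M)
  | insert i s hi ih =>
    have hfs : ∀ j ∈ s, f j ∈ M := fun j hj => hf j (Finset.mem_insert_of_mem hj)
    have hfi := hf i (Finset.mem_insert_self i s)
    rw [Finset.sum_insert hi, Finset.sum_insert hi,
      hS.right_add (M.toStarSubalgebra.toSubalgebra.smul_mem hfi _)
        (sum_mem fun j hj => M.toStarSubalgebra.toSubalgebra.smul_mem (hfs j hj) _),
      hS.right_smul _ hfi, ih hfs]

lemma delVec_sum (hS : Std M Ω R) (z : H →L[ℂ] H) {ι κ : Type*} (s : Finset ι) (t : Finset κ)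
    (α : ι → ℂ) (β : κ → ℂ) (n : ι → H →L[ℂ] H) {b : κ → H →L[ℂ] H} (hb : ∀ j ∈ t, b j ∈ M) :
    delVec R Ω z (∑ i ∈ s, α i • n i) (∑ j ∈ t, β j • b j) =
      ∑ p ∈ s ×ˢ t, (α p.1 * β p.2) • delVec R Ω z (n p.1) (b p.2) := by
  simp only [delVec, right_sum hS t β hb, sum_apply, smul_apply,
    map_sum, map_smul, Finset.smul_sum, smul_smul, smul_sub, Finset.sum_sub_distrib,
    Finset.sum_product]
  congr 1
  rw [Finset.sum_comm]
  exact Finset.sum_congr rfl fun i _ => Finset.sum_congr rfl fun j _ => by rw [mul_comm]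

lemma norm_sum_smul_le {K : Type*} [SeminormedAddCommGroup K] [NormedSpace ℂ K] {ι : Type*}
    (s : Finset ι) (t : ι → ℝ) (f : ι → K) {b L : ℝ} (hb : 0 ≤ b) (hf : ∀ i ∈ s, ‖f i‖ ≤ b)
    (hL : ∑ i ∈ s, |t i| ≤ L) : ‖∑ i ∈ s, (t i : ℂ) • f i‖ ≤ L * b := by
  refine (norm_sum_le_of_le _ fun i hi => ?_).trans
    ((Finset.sum_mul s _ b).symm.le.trans (mul_le_mul_of_nonneg_right hL hb))
  rw [norm_smul, Complex.norm_real, Real.norm_eq_abs]
  exact mul_le_mul_of_nonneg_left (hf i hi) (abs_nonneg _)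

variable {N : Subalgebra ℂ (H →L[ℂ] H)} {P : Set (H →L[ℂ] H)} {d ε : ℝ}

/-- The unweighted fibre sums. -/
def fib (R : (H →L[ℂ] H) → (H →L[ℂ] H)) (Ω : H) (θ : (H →L[ℂ] H) → (H →L[ℂ] H)) (z : H →L[ℂ] H)
    {Γ : Type*} [Group Γ] [DecidableEq Γ] (u : Γ → H →L[ℂ] H) (S T : Finset Γ) (c c' : Γ → ℝ)
    (p : Γ) : H :=
  ∑ x ∈ (S ×ˢ T).filter (fun x => x.1 * x.2 = p),
    ((c x.1 : ℂ) * c' x.2) • delVec R Ω z (θ (u x.1)) (u x.2)

theorem fib_pairing_le (hAmp : AmpOut.{u}) {ks : ℝ} (hks : 0 ≤ ks)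
    (hsel : ∀ (K : Type u) [NormedAddCommGroup K] [InnerProductSpace ℂ K] [CompleteSpace K]
      (M : VonNeumannAlgebra K) (Ω : K) (R : (K →L[ℂ] K) → (K →L[ℂ] K))
      (N : Subalgebra ℂ (K →L[ℂ] K)) (P : Set (K →L[ℂ] K)) (d ε : ℝ),
      Close M Ω R N P d ε → ks * d ≤ 1 → SelectAt M Ω N P ks d ε)
    (hAll : AllSizes M Ω R N P d ε) (hkd : ks * d ≤ 1) {κ : ℝ} (hκ : 0 ≤ κ)
    {θ : (H →L[ℂ] H) → (H →L[ℂ] H)} (hθ : ∀ x ∈ M, θ x ∈ N ∧ ‖θ x - x‖ ≤ κ * d * ‖x‖)
    {z : H →L[ℂ] H} (hz : z ∈ P) {n D N₀ : ℕ} (hn : n ≤ D) {u : FreeGroup (Fin n) → H →L[ℂ] H}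
    (hu1 : u 1 = 1) (hum : ∀ g h, u (g * h) = u g * u h) (hus : ∀ g, star (u g) = u g⁻¹)
    (huM : ∀ g, u g ∈ M) (huU : ∀ g, ‖u g‖ ≤ 1) {S T : Finset (FreeGroup (Fin n))}
    {c c' : FreeGroup (Fin n) → ℝ} (hS : ∀ g ∈ S, g.toWord.length ≤ N₀)
    (hT : ∀ g ∈ T, g.toWord.length ≤ N₀) (hc : ConvBound S c 4) (hc' : ConvBound T c' 4)
    (a : FreeGroup (Fin n) → H →L[ℂ] H) (ha : ∀ p, a p ∈ M) :
    ‖∑ p ∈ (S ×ˢ T).image (fun x => x.1 * x.2),
        ⟪fib R Ω θ z u S T c c' p, a p (z Ω)⟫_ℂ‖ ≤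
      (50 + 20 * (1 + ks) ^ 2 * size D N₀ ^ 2 * (1 + κ) * d) * ε * ‖z Ω‖ *
        Real.sqrt (∑ p ∈ (S ×ˢ T).image (fun x => x.1 * x.2), ‖a p (z Ω)‖ ^ 2) := by
  classical
  set I := (S ×ˢ T).image (fun x => x.1 * x.2) with hI
  set L := size D N₀ with hL
  set A := ∑ p ∈ I, ‖a p‖ with hA'
  have hstd := hAll.1.std
  have hR0 : R 0 = 0 := by simpa using hstd.right_smul (0 : ℂ) (zero_mem M)
  have hd0 := hAll.1.d_nonneg
  have hL5 : 5 ≤ L := by
    rw [hL, size]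
    exact le_add_of_nonneg_right (by positivity)
  refine le_of_forall_pos_le_add fun δ hδ => ?_
  set K := (4 * L + 20) * A * ‖z Ω‖ ^ 2 with hK
  have hK0 : 0 ≤ K := by
    have : 0 ≤ A := Finset.sum_nonneg fun p _ => norm_nonneg _
    have : 0 ≤ 4 * L + 20 := by linarith
    positivity
  have hη : 0 < δ / (K + 1) := by positivity
  obtain ⟨j, hcut⟩ := exists_tag_cut.{u} hη
  obtain ⟨Q, iG, iF, φ, hφ⟩ := exists_quotient n (max (4 * N₀) (2 * N₀ * (j + 1)))
  have hcard : NeZero (Fintype.card Q) := ⟨Fintype.card_ne_zero⟩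
  set m := Fintype.card Q
  set e : Fin m ≃ Q := (Fintype.equivFin Q).symm
  set π : FreeGroup (Fin n) → (Sq H m →L[ℂ] Sq H m) := fun g => tag e (u g) (φ g) with hπ
  have hπ1 : π 1 = 1 := by simp only [hπ, hu1, map_one, tag_one]
  have hπm : ∀ g h, π (g * h) = π g * π h := fun g h => by simp [hπ, tag_mul, hum, map_mul]
  have hπs : ∀ g, star (π g) = π g⁻¹ := fun g => by simp [hπ, star_tag, hus, map_inv]
  have hπM : ∀ g, π g ∈ sqM M m := fun g => tag_mem_sqM e (huM g) _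
  set ζ := sdiag m z (sqVec m Ω) with hζ
  have hζn : ‖ζ‖ = ‖z Ω‖ := norm_sdiag_sqVec z Ω
  have hreg : ∀ g : FreeGroup (Fin n), g.toWord.length ≤ 2 * N₀ * (j + 1) → g ≠ 1 →
      ⟪ζ, π g ζ⟫_ℂ = 0 := by
    intro g hg hg1
    rw [hζ, sdiag_sqVec_eq e, hπ, tag_tvec, inner_tvec, if_neg]
    intro h
    exact hg1 (hφ g (hg.trans (le_max_right _ _)) (by simpa using h.symm))
  obtain ⟨x₀, hx₀, hx5, hxη⟩ := hcut hπ1 hπm hπs hπM hc hS ζ hreg
  obtain ⟨b₀, hb₀, hb5, hbη⟩ := hcut hπ1 hπm hπs hπM hc' hT ζ hreg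
  have hCm := hAll.2 m
  have hsm : ∀ (X : Finset (FreeGroup (Fin n))) (t : FreeGroup (Fin n) → ℝ),
      repSum π X t ∈ sqM M m := fun X t =>
    sum_mem fun g _ => (sqM M m).toStarSubalgebra.toSubalgebra.smul_mem (hπM g) _
  set nS := ∑ g ∈ S, (c g : ℂ) • tag e (θ (u g)) (φ g) with hnS
  set C := ∑ p ∈ I, tag e (a p) (φ p) with hCdef
  have hbnd := pair_bound hCm (fun b hb => ⟨((hAmp (Sq H m) _ _ _ hCm.std).1 b hb b hb).2.2.1,
      ((hAmp (Sq H m) _ _ _ hCm.std).1 b hb b hb).2.2.2⟩) hks hkd (hsel _ _ _ _ _ _ _ _ hCm hkd)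
    (Set.mem_image_of_mem (sdiag m) hz) (nS := nS) (x := repSum π S c) (b := repSum π T c')
    (x₀ := x₀) (b₀ := b₀) (c := C) (L := L) (κ := κ) (η := δ / (K + 1))
    (sum_mem fun g _ => (sqN N m).smul_mem (tag_mem_sqN e (hθ _ (huM g)).1 _) _) (hsm S c)
    (hsm T c') hx₀ hb₀ (sum_mem fun p _ => tag_mem_sqM e (ha p) _) hκ hL5 (by
      have h1 : nS - repSum π S c = ∑ g ∈ S, (c g : ℂ) • (tag e (θ (u g)) (φ g) - π g) := by
        simp only [hnS, repSum, smul_sub, Finset.sum_sub_distrib]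
      rw [h1, mul_comm (κ * d)]
      refine norm_sum_smul_le _ _ _ (by positivity) (fun g _ => ?_) (sum_abs_le hn hS hc)
      have e1 : tag e (θ (u g)) (φ g) - π g = tag e (θ (u g) - u g) (φ g) :=
        sq_op_ext fun v i k => by simp [hπ, tag_apply]
      rw [e1]
      exact (norm_tag_le e _ _).trans ((hθ _ (huM g)).2.trans
        (mul_le_of_le_one_right (by positivity) (huU g))))
    ((norm_sum_smul_le _ _ _ zero_le_one (fun g _ => (norm_tag_le e _ _).trans (huU g))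
      (sum_abs_le hn hS hc)).trans_eq (mul_one L))
    ((norm_sum_smul_le _ _ _ zero_le_one (fun g _ => (norm_tag_le e _ _).trans (huU g))
      (sum_abs_le hn hT hc')).trans_eq (mul_one L)) hx5 hb5 hxη hbη
  rw [← hζ, hζn] at hbnd
  have hCz : C ζ = ∑ p ∈ I, tvec e (φ p) (a p (z Ω)) := by
    simp only [hCdef, hζ, sdiag_sqVec_eq e, sum_apply, tag_tvec, mul_one]
  have hinj : ∀ p ∈ I, ∀ q ∈ I, φ p = φ q → p = q := by
    intro p hp q hq h
    have hlen : ∀ r ∈ I, r.toWord.length ≤ 2 * N₀ := by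
      intro r hr
      obtain ⟨x, hx, rfl⟩ := Finset.mem_image.1 hr
      have h1 := FreeGroup.norm_mul_le x.1 x.2
      have := hS _ (Finset.mem_product.1 hx).1
      have := hT _ (Finset.mem_product.1 hx).2
      simp only [FreeGroup.norm] at h1
      omega
    refine inv_mul_eq_one.1 (hφ (p⁻¹ * q) ?_ (by rw [map_mul, map_inv, h, inv_mul_cancel]))
    have h1 := FreeGroup.norm_mul_le p⁻¹ q
    rw [FreeGroup.norm_inv_eq] at h1
    simp only [FreeGroup.norm] at h1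
    have := hlen p hp
    have := hlen q hq
    have := le_max_left (4 * N₀) (2 * N₀ * (j + 1))
    omega
  have hW : delVec (sqR R m) (sqVec m Ω) (sdiag m z) nS (repSum π T c') =
      ∑ x ∈ S ×ˢ T, ((c x.1 : ℂ) * c' x.2) •
        tvec e (φ (x.1 * x.2)) (delVec R Ω z (θ (u x.1)) (u x.2)) := by
    rw [hnS, repSum, delVec_sum hCm.std _ _ _ _ _ _ fun g _ => hπM g]
    simp only [hπ, delVec_tag e hR0, map_mul]
  have hin : ⟪delVec (sqR R m) (sqVec m Ω) (sdiag m z) nS (repSum π T c'), C ζ⟫_ℂ =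
      ∑ p ∈ I, ⟪fib R Ω θ z u S T c c' p, a p (z Ω)⟫_ℂ := by
    rw [hW, hCz, inner_sum]
    refine Finset.sum_congr rfl fun p hp => ?_
    rw [fib, sum_inner, sum_inner, Finset.sum_filter]
    refine Finset.sum_congr rfl fun x hx => ?_
    rw [inner_smul_left, inner_tvec, inner_smul_left]
    by_cases h : x.1 * x.2 = p
    · rw [if_pos h, if_pos (by rw [h])]
    · rw [if_neg h, if_neg fun h' => h (hinj _ (Finset.mem_image_of_mem _ hx) _ hp h'), mul_zero]
  have hCn : ‖C ζ‖ = Real.sqrt (∑ p ∈ I, ‖a p (z Ω)‖ ^ 2) := by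
    rw [← Real.sqrt_sq (norm_nonneg (C ζ))]
    congr 1
    have h : ⟪C ζ, C ζ⟫_ℂ = ∑ p ∈ I, ⟪a p (z Ω), a p (z Ω)⟫_ℂ := by
      rw [hCz, sum_inner]
      refine Finset.sum_congr rfl fun p hp => ?_
      rw [inner_sum, Finset.sum_eq_single p (fun q hq hqp => by
        rw [inner_tvec, if_neg fun h => hqp (hinj p hp q hq h).symm]) (fun h => absurd hp h),
        inner_tvec, if_pos rfl]
    simp only [inner_self_eq_norm_sq_to_K] at h
    exact_mod_cast h
  have hCA : ‖C‖ ≤ A := norm_sum_le_of_le _ fun p _ => norm_tag_le e _ _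
  rw [hin, hCn] at hbnd
  refine hbnd.trans (add_le_add le_rfl ?_)
  calc δ / (K + 1) * ((4 * L + 20) * ‖C‖ * ‖z Ω‖ ^ 2) ≤ δ / (K + 1) * K := by rw [hK]; gcongr
    _ ≤ δ := by
      rw [div_mul_eq_mul_div, div_le_iff₀ (by positivity)]
      nlinarith

end Main

end Mult

/-- (K4) the multiplier bound for the cocycle of a selection. -/
theorem multOut (hAmp : AmpOut.{u}) (hSel : SelectOut.{u}) : MultOut.{u} := by
  obtain ⟨ks, hks, hsel⟩ := hSel
  refine ⟨50, fun D N₀ => ⟨max ks (20 * (1 + ks) ^ 2 * Mult.size D N₀ ^ 2), ?_⟩⟩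
  intro H _ _ _ M Ω R N P d ε κ θ hAll hκ hkd hθ z hz n hn ρ S T c c' hS hT hc hc'
  classical
  set k := max ks (20 * (1 + ks) ^ 2 * Mult.size D N₀ ^ 2) with hk
  have hd0 := hAll.1.d_nonneg
  have he0 := hAll.1.ε_nonneg
  have hksd : ks * d ≤ 1 := (mul_le_mul_of_nonneg_right (le_max_left _ _) hd0).trans hkd
  set u : FreeGroup (Fin n) → H →L[ℂ] H :=
    fun g => (((ρ g : uGroup M) : unitary (H →L[ℂ] H)) : H →L[ℂ] H) with hu
  have hum : ∀ g h, u (g * h) = u g * u h := fun g h => by simp [hu, map_mul]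
  have huU : ∀ g, ‖u g‖ ≤ 1 := fun g => Mult.norm_le_one_of_unitary (SetLike.coe_mem _)
  have huM : ∀ g, u g ∈ M := fun g => (ρ g).2
  have hus : ∀ g, star (u g) = u g⁻¹ := fun g => by
    simp [hu, map_inv, ← Unitary.star_eq_inv, Unitary.coe_star]
  set I := (S ×ˢ T).image (fun x => x.1 * x.2) with hI
  set w := Mult.fib R Ω θ z u S T c c' with hw
  have hzz : ∀ v : H, z (z v) = z v := fun v =>
    congrArg (fun U : H →L[ℂ] H => U v) (hAll.1.pieces.proj z hz).2.1.isIdempotentElem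
  have hzw : ∀ p, z (w p) = w p := by
    intro p
    simp only [hw, Mult.fib, map_sum, map_smul]
    refine Finset.sum_congr rfl fun x _ => ?_
    rw [hAll.1.delVec_piece hz (hθ _ (huM x.1)).1 (huM x.2), hzz]
  set B := (50 + k * (1 + κ) * d) * ε * ‖z Ω‖ with hB
  have hk0 : 0 ≤ k := hks.le.trans (le_max_left _ _)
  have hB0 : 0 ≤ B := by positivity
  have hpair : ∀ v : FreeGroup (Fin n) → H,
      ‖∑ p ∈ I, ⟪w p, z (v p)⟫_ℂ‖ ≤ B * Real.sqrt (∑ p ∈ I, ‖z (v p)‖ ^ 2) := by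
    intro v
    have hcl : IsClosed {v : FreeGroup (Fin n) → H |
        ‖∑ p ∈ I, ⟪w p, z (v p)⟫_ℂ‖ ≤ B * Real.sqrt (∑ p ∈ I, ‖z (v p)‖ ^ 2)} :=
      isClosed_le (by fun_prop) (by fun_prop)
    refine hcl.closure_subset_iff.2 ?_ ((dense_pi Set.univ fun (_ : FreeGroup (Fin n)) _ => hAll.1.std.cyclic) v)
    intro v' hv'
    choose a ha hav using fun p => hv' p (Set.mem_univ p)
    have e : ∀ p, z (v' p) = a p (z Ω) := fun p => by
      rw [hAll.1.comm_piece_left hz (ha p), ← hav p]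
    simp only [Set.mem_ofPred_eq, e]
    refine (Mult.fib_pairing_le hAmp hks.le (fun K => hsel K) hAll hksd hκ hθ hz hn
      (by simp [hu]) hum hus huM huU hS hT hc hc' a ha).trans ?_
    refine mul_le_mul_of_nonneg_right ?_ (Real.sqrt_nonneg _)
    rw [hB]
    gcongr
    exact le_max_right _ _
  have hww := hpair w
  simp only [hzw, inner_self_eq_norm_sq_to_K] at hww
  have hsum : ∑ p ∈ I, ‖w p‖ ^ 2 ≤ B ^ 2 := by
    set X := ∑ p ∈ I, ‖w p‖ ^ 2 with hX
    have hX0 : 0 ≤ X := Finset.sum_nonneg fun p _ => sq_nonneg _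
    have h : X ≤ B * Real.sqrt X := by
      refine le_trans (le_of_eq ?_) hww
      rw [← Complex.norm_of_nonneg hX0, hX]
      congr 1
      push_cast
      rfl
    nlinarith [Real.sq_sqrt hX0, sq_nonneg (B - Real.sqrt X), Real.sqrt_nonneg X]
  refine le_trans (Finset.sum_le_sum fun p _ => ?_) hsum
  refine pow_le_pow_left₀ (norm_nonneg _) ?_ 2
  have e : ∑ x ∈ (S ×ˢ T).filter (fun x => x.1 * x.2 = p),
      (c x.1 * c' x.2) • cocV (M := M) R Ω θ z (ρ x.1) (ρ x.2) = R (star (u p)) (w p) := by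
    simp only [hw, Mult.fib, map_sum, map_smul]
    refine Finset.sum_congr rfl fun x hx => ?_
    rw [← (Finset.mem_filter.1 hx).2, hum, ← Complex.ofReal_mul, Complex.coe_smul]
    rfl
  rw [e]
  refine ((R _).le_opNorm _).trans (mul_le_of_le_one_left (norm_nonneg _) ?_)
  exact ((hAmp H M Ω R hAll.1.std).1 _ (star_mem (huM p)) _ (star_mem (huM p))).2.2.1.trans
    ((norm_star _).trans_le (huU p))

end Vale.Agent.P096.KK
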