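import Vale.Agent.P096.KK.SelectBasic

/-!
# P096 (S2): good selections exist automatically

An element of `N` near `M` is moved, by the cut, to one whose error is small also on every piece
of the trace vector; a geometric series gives a selection. The commutants follow by a bootstrap.
Also exported: the frozen form of `[n, R b]` and its continuity on bounded sets.
-/

noncomputable section

namespace Vale.Agent.P096.KK.Select

open scoped InnerProductSpace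
open Filter Topology

universe u

variable {H : Type u} [NormedAddCommGroup H] [InnerProductSpace ℂ H] [CompleteSpace H]

variable {M : VonNeumannAlgebra H} {Ω : H} {R : (H →L[ℂ] H) → (H →L[ℂ] H)}
  {N : Subalgebra ℂ (H →L[ℂ] H)} {P : Set (H →L[ℂ] H)} {d ε : ℝ}

lemma pow_half_sum (k : ℕ) : ∑ i ∈ Finset.range k, (1 / 2 : ℝ) ^ i ≤ 2 :=
  sum_geometric_two_le k

/-- Repeated approximation. -/
lemma series_fix {S T : Set (H →L[ℂ] H)} (hS : ∀ x ∈ S, ∀ y ∈ S, x - y ∈ S) (hT0 : (0 : (H →L[ℂ] H)) ∈ T)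
    (hTadd : ∀ x ∈ T, ∀ y ∈ T, x + y ∈ T) (hT : IsClosed T) (Z : Set (H →L[ℂ] H)) (Ω : H) {A B : ℝ}
    (hA : 0 ≤ A) (hB : 0 ≤ B)
    (h : ∀ x ∈ S, ∃ n ∈ T, ∃ x₁ ∈ S, ‖n‖ ≤ 2 * ‖x‖ ∧ ‖x₁ - x‖ ≤ ‖x‖ / 2 ∧
      ‖n - x₁‖ ≤ A * ‖x‖ ∧ ∀ z ∈ Z, ‖(n - x₁) (z Ω)‖ ≤ B * ‖x‖ * ‖z Ω‖) :
    ∀ x ∈ S, ∃ n ∈ T, ‖n - x‖ ≤ 2 * A * ‖x‖ ∧
      ∀ z ∈ Z, ‖(n - x) (z Ω)‖ ≤ 2 * B * ‖x‖ * ‖z Ω‖ := by
  intro x hx
  choose n hn x₁ hx₁ hnn hdd hA' hB' using h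
  let r : ℕ → {r : (H →L[ℂ] H) // r ∈ S} := fun k =>
    Nat.rec ⟨x, hx⟩ (fun _ r => ⟨r.1 - x₁ r.1 r.2, hS _ r.2 _ (hx₁ r.1 r.2)⟩) k
  set s : ℕ → (H →L[ℂ] H) := fun k => ∑ i ∈ Finset.range k, n (r i).1 (r i).2 with hs
  have hr : ∀ k, ‖(r k).1‖ ≤ (1 / 2) ^ k * ‖x‖ := fun k => by
    induction k with
    | zero => simp [r]
    | succ k ih =>
      show ‖(r k).1 - x₁ (r k).1 (r k).2‖ ≤ _
      rw [norm_sub_rev]
      refine (hdd _ (r k).2).trans ?_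
      rw [pow_succ]; linarith
  have hdiff : ∀ k, s k - (x - (r k).1)
      = ∑ i ∈ Finset.range k, (n (r i).1 (r i).2 - x₁ (r i).1 (r i).2) := fun k => by
    induction k with
    | zero => simp [r, hs]
    | succ k ih =>
      rw [Finset.sum_range_succ, ← ih]
      simp only [hs, Finset.sum_range_succ]
      show _ - (x - ((r k).1 - x₁ (r k).1 (r k).2)) = _
      abel
  have hmem : ∀ k, s k ∈ T := fun k => by
    induction k with
    | zero => simpa [hs] using hT0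
    | succ k ih =>
      simp only [hs, Finset.sum_range_succ]
      exact hTadd _ ih _ (hn _ (r k).2)
  have hbnd : ∀ i, ‖n (r i).1 (r i).2‖ ≤ (1 / 2) ^ i * (2 * ‖x‖) := fun i =>
    (hnn _ (r i).2).trans (by linarith [hr i])
  have hsum : Summable fun i => n (r i).1 (r i).2 :=
    Summable.of_norm_bounded (summable_geometric_two.mul_right (2 * ‖x‖)) hbnd
  set L := ∑' i, n (r i).1 (r i).2
  have hL : Tendsto s atTop (𝓝 L) := hsum.hasSum.tendsto_sum_nat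
  have hr0 : Tendsto (fun k => (r k).1) atTop (𝓝 0) := by
    refine squeeze_zero_norm hr ?_
    simpa using (tendsto_pow_atTop_nhds_zero_of_lt_one (r := (1 / 2 : ℝ)) (by norm_num)
      (by norm_num)).mul_const ‖x‖
  have hlim : Tendsto (fun k => s k - (x - (r k).1)) atTop (𝓝 (L - x)) := by
    simpa using hL.sub (hr0.const_sub x)
  refine ⟨L, hT.mem_of_tendsto hL (Eventually.of_forall hmem), ?_, fun z hz => ?_⟩
  · refine le_of_tendsto hlim.norm (Eventually.of_forall fun k => ?_)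
    rw [hdiff]
    calc ‖∑ i ∈ Finset.range k, (n (r i).1 (r i).2 - x₁ (r i).1 (r i).2)‖
        ≤ ∑ i ∈ Finset.range k, (1 / 2 : ℝ) ^ i * (A * ‖x‖) := norm_sum_le_of_le _ fun i _ =>
          (hA' _ (r i).2).trans (by nlinarith [hr i])
      _ ≤ 2 * (A * ‖x‖) := by rw [← Finset.sum_mul]; gcongr; exact pow_half_sum k
      _ = 2 * A * ‖x‖ := by ring
  · have h2 := ((ContinuousLinearMap.apply ℂ H (z Ω)).continuous.tendsto _).comp hlim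
    refine le_of_tendsto h2.norm (Eventually.of_forall fun k => ?_)
    simp only [Function.comp_apply, hdiff, map_sum, ContinuousLinearMap.apply_apply]
    calc ‖∑ i ∈ Finset.range k, (n (r i).1 (r i).2 - x₁ (r i).1 (r i).2) (z Ω)‖
        ≤ ∑ i ∈ Finset.range k, (1 / 2 : ℝ) ^ i * (B * ‖x‖ * ‖z Ω‖) := norm_sum_le_of_le _ fun i _ =>
          (hB' _ (r i).2 z hz).trans (by
            nlinarith [mul_le_mul_of_nonneg_right (hr i) (mul_nonneg hB (norm_nonneg (z Ω)))])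
      _ ≤ 2 * (B * ‖x‖ * ‖z Ω‖) := by rw [← Finset.sum_mul]; gcongr; exact pow_half_sum k
      _ = 2 * B * ‖x‖ * ‖z Ω‖ := by ring

omit [CompleteSpace H] in
lemma mem_cent_iff {y : (H →L[ℂ] H)} : y ∈ cent N ↔ ∀ n ∈ N, n * y = y * n :=
  Subalgebra.mem_centralizer_iff (R := ℂ)

omit [CompleteSpace H] in
lemma cent_comm {n y : (H →L[ℂ] H)} (hn : n ∈ N) (hy : y ∈ cent N) (ξ : H) : n (y ξ) = y (n ξ) :=
  congrArg (fun T : (H →L[ℂ] H) => T ξ) (mem_cent_iff.1 hy n hn)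

lemma isClosed_cent (S : Subalgebra ℂ (H →L[ℂ] H)) : IsClosed (cent S : Set (H →L[ℂ] H)) := by
  show IsClosed (Set.centralizer (S : Set (H →L[ℂ] H)))
  exact Set.isClosed_centralizer _

variable (h : Close M Ω R N P d ε)
include h

lemma isClosed_N : IsClosed (N : Set (H →L[ℂ] H)) := by rw [← h.bicent]; exact isClosed_cent _

lemma piece_comm {z x : (H →L[ℂ] H)} (hz : z ∈ P) (hx : x ∈ M) (ξ : H) : z (x ξ) = x (z ξ) :=
  congrArg (fun T : (H →L[ℂ] H) => T ξ) ((h.pieces.proj z hz).2.2 x hx)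

lemma piece_comm' {z y : (H →L[ℂ] H)} (hz : z ∈ P) (hy : y ∈ M.commutant) (ξ : H) : z (y ξ) = y (z ξ) :=
  comm_apply (h.pieces.proj z hz).1 hy ξ

lemma piece_norm_le_one {z : (H →L[ℂ] H)} (hz : z ∈ P) : ‖z Ω‖ ≤ 1 :=
  h.std.norm_one ▸ norm_proj_le (h.pieces.proj z hz).2.1 Ω

/-- One step of the selection for `M`. -/
lemma step_right (hd : 100 * d ≤ 1) {x : (H →L[ℂ] H)} (hx : x ∈ M) :
    ∃ n ∈ N, ∃ x₁ ∈ M, ‖n‖ ≤ 2 * ‖x‖ ∧ ‖x₁ - x‖ ≤ ‖x‖ / 2 ∧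
      ‖n - x₁‖ ≤ 8 * d * ‖x‖ ∧ ∀ z ∈ P, ‖(n - x₁) (z Ω)‖ ≤ 4 * ε * ‖x‖ * ‖z Ω‖ := by
  have hd0 := h.d_nonneg
  have he0 := h.ε_nonneg
  obtain ⟨n, hn, hnx⟩ := h.near x hx
  obtain ⟨x₀, hx₀, hnx₀⟩ := h.near' n hn
  have hnb : ‖n‖ ≤ 2 * ‖x‖ := by
    have := norm_le_norm_add_norm_sub' n x
    nlinarith [norm_nonneg x]
  obtain ⟨m, hm, hmn, hmv⟩ := cut_right h.std h.pieces.proj ((n - x₀) Ω)
    (a := d * ‖n‖) (e := ε * ‖n‖) (by positivity) (by positivity) fun b hb z hz => by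
    obtain ⟨hzN, hzc, -⟩ := h.pieces.mem z hz
    have hzM := (h.pieces.proj z hz).1
    have hRb := h.std.right_mem b hb
    have hs := h.small n hn b hb z hz
    have e1 : z ((n - x₀) Ω) = (n - x₀) (z Ω) := by
      rw [sub_apply, sub_apply, map_sub, piece_comm h hz hx₀, cent_comm hn hzc]
    have e2 : z (R b ((n - x₀) Ω))
        = (n - x₀) (z (b Ω)) - (n (R b (z Ω)) - R b (n (z Ω))) := by
      rw [piece_comm' h hz hRb, e1, sub_apply, sub_apply,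
        ← R_apply h.std hb hzM, comm_apply hx₀ hRb, map_sub]
      abel
    rw [e2]
    refine (norm_sub_le _ _).trans (add_le_add ?_ (hs.trans_eq (by ring)))
    exact ((n - x₀).le_opNorm _).trans (mul_le_mul_of_nonneg_right hnx₀ (norm_nonneg _))
  have hclose : ‖n - (x₀ + m)‖ ≤ 4 * d * ‖n‖ := by
    rw [← sub_sub]
    refine (norm_sub_le _ _).trans ?_
    linarith
  have h8 : ‖n - (x₀ + m)‖ ≤ 8 * d * ‖x‖ := hclose.trans (by nlinarith)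
  refine ⟨n, hn, x₀ + m, add_mem hx₀ hm, hnb, ?_, h8, fun z hz => ?_⟩
  · have := norm_sub_le_norm_sub_add_norm_sub (x₀ + m) n x
    rw [norm_sub_rev (x₀ + m) n] at this
    nlinarith [norm_nonneg x]
  · obtain ⟨hzN, hzc, -⟩ := h.pieces.mem z hz
    have e : (n - (x₀ + m)) (z Ω) = z ((n - x₀) Ω - m Ω) := by
      rw [sub_apply, add_apply, sub_apply, map_sub, map_sub, piece_comm h hz hx₀,
        piece_comm h hz hm, cent_comm hn hzc]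
      abel
    rw [e]
    refine (hmv z hz).trans ?_
    nlinarith [mul_nonneg (mul_nonneg he0 (norm_nonneg (z Ω))) (sub_nonneg.2 hnb)]

/-- The selection for `M`. -/
theorem select (hd : 100 * d ≤ 1) {x : (H →L[ℂ] H)} (hx : x ∈ M) :
    ∃ n ∈ N, ‖n - x‖ ≤ 16 * d * ‖x‖ ∧
      ∀ z ∈ P, ‖(n - x) (z Ω)‖ ≤ 8 * ε * ‖x‖ * ‖z Ω‖ := by
  obtain ⟨n, hn, h1, h2⟩ := series_fix (S := (M : Set (H →L[ℂ] H))) (T := (N : Set (H →L[ℂ] H)))
    (fun a ha b hb => sub_mem ha hb) (zero_mem N) (fun a ha b hb => add_mem ha hb)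
    (isClosed_N h) P Ω (A := 8 * d) (B := 4 * ε) (by linarith [h.d_nonneg])
    (by linarith [h.ε_nonneg]) (fun x hx => step_right h hd hx) x hx
  exact ⟨n, hn, h1.trans_eq (by ring), fun z hz => (h2 z hz).trans_eq (by ring)⟩

/-- From a bound on the brackets with `cent N`, a good element of the commutant. -/
lemma step_left {E : ℝ} (hE : 0 ≤ E)
    (hb : ∀ x ∈ M, ∀ y' ∈ cent N, ∀ z ∈ P,
      ‖x (y' (z Ω)) - y' (x (z Ω))‖ ≤ E * ‖x‖ * ‖y'‖ * ‖z Ω‖)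
    {y' : (H →L[ℂ] H)} (hy' : y' ∈ cent N) :
    ∃ y₁ ∈ M.commutant, ‖y' - y₁‖ ≤ 4 * d * ‖y'‖ ∧
      ∀ z ∈ P, ‖(y' - y₁) (z Ω)‖ ≤ 2 * E * ‖y'‖ * ‖z Ω‖ := by
  have hd0 := h.d_nonneg
  obtain ⟨y₀, hy₀, hyy⟩ := h.cnear' y' hy'
  have e1 : ∀ z ∈ P, z ((y' - y₀) Ω) = (y' - y₀) (z Ω) := fun z hz => by
    rw [sub_apply, sub_apply, map_sub, piece_comm' h hz hy₀,
      cent_comm (h.pieces.mem z hz).1 hy']
  obtain ⟨m, hm, hmn, hmv⟩ := cut_left h.std h.pieces.proj ((y' - y₀) Ω)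
    (a := d * ‖y'‖) (e := E * ‖y'‖) (by positivity) (by positivity) fun b hbM z hz => by
    have e : b (z ((y' - y₀) Ω))
        = (y' - y₀) (b (z Ω)) + (b (y' (z Ω)) - y' (b (z Ω))) := by
      rw [e1 z hz, sub_apply, sub_apply, map_sub, comm_apply hbM hy₀]
      abel
    rw [e]
    refine (norm_add_le _ _).trans (add_le_add ?_ ((hb b hbM y' hy' z hz).trans_eq (by ring)))
    exact ((y' - y₀).le_opNorm _).trans (mul_le_mul_of_nonneg_right hyy (norm_nonneg _))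
  refine ⟨y₀ + R m, add_mem hy₀ (h.std.right_mem m hm), ?_, fun z hz => ?_⟩
  · rw [← sub_sub]
    refine (norm_sub_le _ _).trans ?_
    linarith [norm_R_le h.std hm]
  · have e : (y' - (y₀ + R m)) (z Ω) = z ((y' - y₀) Ω - m Ω) := by
      rw [map_sub z, e1 z hz, ← R_apply h.std hm (h.pieces.proj z hz).1, sub_apply, add_apply,
        sub_apply]
      abel
    rw [e]
    exact (hmv z hz).trans_eq (by ring)

/-- The bootstrap: brackets with `cent N` are small on the pieces. -/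
theorem bracket (hd : 100 * d ≤ 1) :
    ∀ x ∈ M, ∀ y' ∈ cent N, ∀ z ∈ P,
      ‖x (y' (z Ω)) - y' (x (z Ω))‖ ≤ 136 * ε * ‖x‖ * ‖y'‖ * ‖z Ω‖ := by
  have hd0 := h.d_nonneg
  have he0 := h.ε_nonneg
  have key : ∀ k : ℕ, ∀ x ∈ M, ∀ y' ∈ cent N, ∀ z ∈ P,
      ‖x (y' (z Ω)) - y' (x (z Ω))‖
        ≤ (136 * ε + 2 * (1 / 2) ^ k) * ‖x‖ * ‖y'‖ * ‖z Ω‖ := by
    intro k
    induction k with
    | zero =>
      intro x _ y' _ z _
      refine (norm_sub_le _ _).trans ?_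
      have a1 := (x.le_opNorm (y' (z Ω))).trans
        (mul_le_mul_of_nonneg_left (y'.le_opNorm (z Ω)) (norm_nonneg x))
      have a2 := (y'.le_opNorm (x (z Ω))).trans
        (mul_le_mul_of_nonneg_left (x.le_opNorm (z Ω)) (norm_nonneg y'))
      have : 0 ≤ 136 * ε * ‖x‖ * ‖y'‖ * ‖z Ω‖ := by positivity
      linarith [show (136 * ε + 2 * (1 / 2) ^ 0) * ‖x‖ * ‖y'‖ * ‖z Ω‖
        = 136 * ε * ‖x‖ * ‖y'‖ * ‖z Ω‖ + ‖x‖ * (‖y'‖ * ‖z Ω‖) + ‖y'‖ * (‖x‖ * ‖z Ω‖) by ring]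
    | succ k ih =>
      intro x hx y' hy' z hz
      set E : ℝ := 136 * ε + 2 * (1 / 2) ^ k with hE
      have hE0 : 0 ≤ E := by positivity
      obtain ⟨n, hn, hnd, hnz⟩ := select h hd hx
      obtain ⟨y₁, hy₁, hyd, hyz⟩ := step_left h hE0 ih hy'
      obtain ⟨m, hm, hmn, rfl⟩ := exists_R h.std hy₁
      have hn2 : ‖n‖ ≤ 2 * ‖x‖ := by
        nlinarith [norm_le_norm_add_norm_sub' n x, norm_nonneg x]
      have hm6 : ‖m‖ ≤ 6 * ‖y'‖ := by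
        have := norm_le_norm_add_norm_sub' (R m) y'
        rw [norm_sub_rev] at this
        nlinarith [norm_nonneg y']
      set ζ := z Ω
      have hA := hnz z hz
      have e : x (y' ζ) - y' (x ζ) = y' ((n - x) ζ) - ((n (R m ζ) - R m (n ζ))
          + R m ((n - x) ζ) + (n - x) ((y' - R m) ζ)) := by
        simp only [sub_apply, map_sub, cent_comm hn hy', comm_apply hx hy₁]
        abel
      rw [e]
      refine (norm_sub_le _ _).trans ?_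
      refine (add_le_add le_rfl ((norm_add_le _ _).trans (add_le_add (norm_add_le _ _) le_rfl))).trans ?_
      have t1 : ‖y' ((n - x) ζ)‖ ≤ 8 * ε * ‖x‖ * ‖y'‖ * ‖ζ‖ :=
        (y'.le_opNorm _).trans ((mul_le_mul_of_nonneg_left hA (norm_nonneg _)).trans_eq (by ring))
      have t2 : ‖n (R m ζ) - R m (n ζ)‖ ≤ 12 * ε * ‖x‖ * ‖y'‖ * ‖ζ‖ :=
        calc ‖n (R m ζ) - R m (n ζ)‖ ≤ ε * ‖n‖ * ‖m‖ * ‖ζ‖ := h.small n hn m hm z hz
          _ ≤ ε * (2 * ‖x‖) * (6 * ‖y'‖) * ‖ζ‖ := by gcongr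
          _ = 12 * ε * ‖x‖ * ‖y'‖ * ‖ζ‖ := by ring
      have t3 : ‖R m ((n - x) ζ)‖ ≤ 48 * ε * ‖x‖ * ‖y'‖ * ‖ζ‖ :=
        calc ‖R m ((n - x) ζ)‖ ≤ ‖m‖ * ‖(n - x) ζ‖ := norm_R_apply_le h.std hm _
          _ ≤ (6 * ‖y'‖) * (8 * ε * ‖x‖ * ‖ζ‖) := by gcongr
          _ = 48 * ε * ‖x‖ * ‖y'‖ * ‖ζ‖ := by ring
      have t4 : ‖(n - x) ((y' - R m) ζ)‖ ≤ E / 2 * ‖x‖ * ‖y'‖ * ‖ζ‖ :=
        calc ‖(n - x) ((y' - R m) ζ)‖ ≤ ‖n - x‖ * ‖(y' - R m) ζ‖ := (n - x).le_opNorm _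
          _ ≤ (16 * d * ‖x‖) * (2 * E * ‖y'‖ * ‖ζ‖) := by gcongr; exact hyz z hz
          _ = 32 * d * (E * ‖x‖ * ‖y'‖ * ‖ζ‖) := by ring
          _ ≤ 1 / 2 * (E * ‖x‖ * ‖y'‖ * ‖ζ‖) :=
            mul_le_mul_of_nonneg_right (by linarith) (by positivity)
          _ = E / 2 * ‖x‖ * ‖y'‖ * ‖ζ‖ := by ring
      have e2 : (136 * ε + 2 * (1 / 2) ^ (k + 1)) * ‖x‖ * ‖y'‖ * ‖ζ‖
          = 68 * ε * ‖x‖ * ‖y'‖ * ‖ζ‖ + E / 2 * ‖x‖ * ‖y'‖ * ‖ζ‖ := by rw [hE, pow_succ]; ring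
      linarith
  intro x hx y' hy' z hz
  have hlim : Tendsto (fun k : ℕ => (136 * ε + 2 * (1 / 2 : ℝ) ^ k) * ‖x‖ * ‖y'‖ * ‖z Ω‖) atTop
      (𝓝 (136 * ε * ‖x‖ * ‖y'‖ * ‖z Ω‖)) := by
    simpa using ((((tendsto_pow_atTop_nhds_zero_of_lt_one (r := (1 / 2 : ℝ)) (by norm_num)
      (by norm_num)).const_mul 2).const_add (136 * ε)).mul_const ‖x‖ |>.mul_const ‖y'‖
        |>.mul_const ‖z Ω‖)
  exact ge_of_tendsto hlim (Eventually.of_forall fun k => key k x hx y' hy' z hz)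

/-- The selection for the commutant. -/
theorem select' (hd : 100 * d ≤ 1) {y : (H →L[ℂ] H)} (hy : y ∈ M.commutant) :
    ∃ y' ∈ cent N, ‖y' - y‖ ≤ 16 * d * ‖y‖ ∧
      ∀ z ∈ P, ‖(y' - y) (z Ω)‖ ≤ 1088 * ε * ‖y‖ * ‖z Ω‖ := by
  have hd0 := h.d_nonneg
  have he0 := h.ε_nonneg
  obtain ⟨y', hy', h1, h2⟩ := series_fix (S := (M.commutant : Set (H →L[ℂ] H))) (T := (cent N : Set (H →L[ℂ] H)))
    (fun a ha b hb => sub_mem ha hb) (zero_mem (cent N)) (fun a ha b hb => add_mem ha hb)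
    (isClosed_cent N) P Ω (A := 8 * d) (B := 544 * ε) (by linarith) (by linarith)
    (fun y hy => by
      obtain ⟨y', hy', hyy⟩ := h.cnear y hy
      obtain ⟨y₁, hy₁, hy1, hy2⟩ := step_left h (by positivity) (bracket h hd) hy'
      have hn2 : ‖y'‖ ≤ 2 * ‖y‖ := by
        nlinarith [norm_le_norm_add_norm_sub' y' y, norm_nonneg y]
      have h8 : ‖y' - y₁‖ ≤ 8 * d * ‖y‖ := hy1.trans (by nlinarith)
      refine ⟨y', hy', y₁, hy₁, hn2, ?_, h8, fun z hz => (hy2 z hz).trans ?_⟩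
      · have := norm_sub_le_norm_sub_add_norm_sub y₁ y' y
        rw [norm_sub_rev y₁ y'] at this
        nlinarith [norm_nonneg y]
      · calc 2 * (136 * ε) * ‖y'‖ * ‖z Ω‖ ≤ 2 * (136 * ε) * (2 * ‖y‖) * ‖z Ω‖ := by gcongr
          _ = 544 * ε * ‖y‖ * ‖z Ω‖ := by ring) y hy
  exact ⟨y', hy', h1.trans_eq (by ring), fun z hz => (h2 z hz).trans_eq (by ring)⟩

/-- The selection for right multiplications, with the norm of `b`. -/
theorem selectR (hd : 100 * d ≤ 1) {b : (H →L[ℂ] H)} (hb : b ∈ M) :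
    ∃ y' ∈ cent N, ‖y' - R b‖ ≤ 16 * d * ‖b‖ ∧
      ∀ z ∈ P, ‖(y' - R b) (z Ω)‖ ≤ 1088 * ε * ‖b‖ * ‖z Ω‖ := by
  obtain ⟨y', hy', h1, h2⟩ := select' h hd (h.std.right_mem b hb)
  have hn := norm_R_le h.std hb
  have hd0 := h.d_nonneg
  have he0 := h.ε_nonneg
  exact ⟨y', hy', h1.trans (by gcongr), fun z hz => (h2 z hz).trans (by gcongr)⟩

/-- Two choices of the element of `N` near `x` give almost the same value. -/
theorem delVec_indep {n n' b z : (H →L[ℂ] H)} (hn : n ∈ N) (hn' : n' ∈ N) (hb : b ∈ M) (hz : z ∈ P) :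
    ‖delVec R Ω z n b - delVec R Ω z n' b‖ ≤ ε * ‖n - n'‖ * ‖b‖ * ‖z Ω‖ := by
  have hs := h.small (n - n') (sub_mem hn hn') b hb z hz
  have e : delVec R Ω z n b - delVec R Ω z n' b
      = (n - n') (R b (z Ω)) - R b ((n - n') (z Ω)) := by
    simp only [delVec, sub_apply, map_sub]; abel
  rwa [e]

/-- The frozen form: `[n, R b]` is `-[x, y']` up to `d ε`, for `y'` a good choice near `R b`. -/
theorem delVec_frozen (hd : 100 * d ≤ 1) {x b n y' z : (H →L[ℂ] H)} (hx : x ∈ M) (hb : b ∈ M) (hn : n ∈ N)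
    (hy' : y' ∈ cent N) (hz : z ∈ P) {c : ℝ} (hc : 0 ≤ c) (h1 : ‖n - x‖ ≤ c * d * ‖x‖)
    (h2 : ‖y' - R b‖ ≤ c * d * ‖b‖) (h3 : ‖(y' - R b) (z Ω)‖ ≤ c * ε * ‖b‖ * ‖z Ω‖) :
    ‖delVec R Ω z n b + (x (y' (z Ω)) - y' (x (z Ω)))‖
      ≤ 25 * (1 + c) * d * ε * ‖x‖ * ‖b‖ * ‖z Ω‖ := by
  have hd0 := h.d_nonneg
  have he0 := h.ε_nonneg
  obtain ⟨n', hn', hnd, hnz⟩ := select h hd hx
  have hA := hnz z hz
  have hnn : ‖n - n'‖ ≤ (c + 16) * d * ‖x‖ := by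
    have := norm_sub_le_norm_sub_add_norm_sub n x n'
    rw [norm_sub_rev x n'] at this
    linarith
  set ζ := z Ω
  have e : delVec R Ω z n b + (x (y' ζ) - y' (x ζ))
      = (delVec R Ω z n b - delVec R Ω z n' b)
        - (n' - x) ((y' - R b) ζ) + (y' - R b) ((n' - x) ζ) := by
    simp only [delVec, sub_apply, map_sub, cent_comm hn' hy',
      comm_apply hx (h.std.right_mem b hb)]
    abel
  rw [e]
  refine (norm_add_le _ _).trans ((add_le_add (norm_sub_le _ _) le_rfl).trans ?_)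
  have t1 : ‖delVec R Ω z n b - delVec R Ω z n' b‖ ≤ (c + 16) * (d * ε * ‖x‖ * ‖b‖ * ‖ζ‖) :=
    calc ‖delVec R Ω z n b - delVec R Ω z n' b‖ ≤ ε * ‖n - n'‖ * ‖b‖ * ‖ζ‖ :=
          delVec_indep h hn hn' hb hz
      _ ≤ ε * ((c + 16) * d * ‖x‖) * ‖b‖ * ‖ζ‖ := by gcongr
      _ = (c + 16) * (d * ε * ‖x‖ * ‖b‖ * ‖ζ‖) := by ring
  have t2 : ‖(n' - x) ((y' - R b) ζ)‖ ≤ 16 * c * (d * ε * ‖x‖ * ‖b‖ * ‖ζ‖) :=
    calc ‖(n' - x) ((y' - R b) ζ)‖ ≤ ‖n' - x‖ * ‖(y' - R b) ζ‖ := (n' - x).le_opNorm _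
      _ ≤ (16 * d * ‖x‖) * (c * ε * ‖b‖ * ‖ζ‖) := by gcongr
      _ = 16 * c * (d * ε * ‖x‖ * ‖b‖ * ‖ζ‖) := by ring
  have t3 : ‖(y' - R b) ((n' - x) ζ)‖ ≤ 8 * c * (d * ε * ‖x‖ * ‖b‖ * ‖ζ‖) :=
    calc ‖(y' - R b) ((n' - x) ζ)‖ ≤ ‖y' - R b‖ * ‖(n' - x) ζ‖ := (y' - R b).le_opNorm _
      _ ≤ (c * d * ‖b‖) * (8 * ε * ‖x‖ * ‖ζ‖) := by gcongr
      _ = 8 * c * (d * ε * ‖x‖ * ‖b‖ * ‖ζ‖) := by ring
  nlinarith [show (0 : ℝ) ≤ d * ε * ‖x‖ * ‖b‖ * ‖ζ‖ by positivity]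

/-- For frozen `y'` the form is continuous in `x` on the trace vector, tested on bounded vectors. -/
theorem frozen_continuous {x y' c z : (H →L[ℂ] H)} (hx : x ∈ M) (hc : c ∈ M) (hz : z ∈ P) :
    ‖⟪c Ω, x (y' (z Ω)) - y' (x (z Ω))⟫_ℂ‖ ≤ 2 * ‖c‖ * ‖y'‖ * ‖x Ω‖ := by
  have hz1 := piece_norm_le_one h hz
  have hxz : ‖x (z Ω)‖ ≤ ‖x Ω‖ := by
    rw [← piece_comm h hz hx]; exact norm_proj_le (h.pieces.proj z hz).2.1 _
  have hxc : ‖star x (c Ω)‖ ≤ ‖c‖ * ‖x Ω‖ := by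
    have := norm_mul_apply_le h.std (star_mem hx) hc
    rwa [norm_star_apply h.std hx] at this
  have hcΩ : ‖c Ω‖ ≤ ‖c‖ := (c.le_opNorm Ω).trans_eq (by rw [h.std.norm_one, mul_one])
  have hy1 : ‖y' (z Ω)‖ ≤ ‖y'‖ := (y'.le_opNorm _).trans (mul_le_of_le_one_right (norm_nonneg _) hz1)
  have e1 : ⟪c Ω, x (y' (z Ω))⟫_ℂ = ⟪star x (c Ω), y' (z Ω)⟫_ℂ := by
    rw [ContinuousLinearMap.star_eq_adjoint, ContinuousLinearMap.adjoint_inner_left]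
  rw [inner_sub_right, e1]
  refine (norm_sub_le _ _).trans ?_
  have t1 := (norm_inner_le_norm (𝕜 := ℂ) _ _).trans
    (mul_le_mul hxc hy1 (norm_nonneg (y' (z Ω))) (by positivity))
  have t2 := (norm_inner_le_norm (𝕜 := ℂ) (c Ω) (y' (x (z Ω)))).trans
    (mul_le_mul hcΩ ((y'.le_opNorm _).trans (mul_le_mul_of_nonneg_left hxz (norm_nonneg y')))
      (norm_nonneg _) (norm_nonneg _))
  linarith

/-- `[n, R b]` is continuous in `b` on the trace vector, tested on bounded vectors. -/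
theorem delVec_continuous {n b c z : (H →L[ℂ] H)} (hb : b ∈ M) (hc : c ∈ M) (hz : z ∈ P) :
    ‖⟪c Ω, delVec R Ω z n b⟫_ℂ‖ ≤ 2 * ‖c‖ * ‖n‖ * ‖b Ω‖ := by
  have hzM := (h.pieces.proj z hz).1
  have hzb : ‖R b (z Ω)‖ ≤ ‖b Ω‖ := by
    rw [R_apply h.std hb hzM]; exact norm_proj_le (h.pieces.proj z hz).2.1 _
  have hz1 := piece_norm_le_one h hz
  have hcΩ : ‖c Ω‖ ≤ ‖c‖ := (c.le_opNorm Ω).trans_eq (by rw [h.std.norm_one, mul_one])
  have hn1 : ‖n (z Ω)‖ ≤ ‖n‖ := (n.le_opNorm _).trans (mul_le_of_le_one_right (norm_nonneg _) hz1)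
  have hbc : ‖R (star b) (c Ω)‖ ≤ ‖c‖ * ‖b Ω‖ := by
    rw [R_apply h.std (star_mem hb) hc]
    refine (c.le_opNorm _).trans (le_of_eq ?_)
    rw [norm_star_apply h.std hb]
  have e1 : ⟪c Ω, R b (n (z Ω))⟫_ℂ = ⟪R (star b) (c Ω), n (z Ω)⟫_ℂ := by
    rw [R_star h.std hb, ContinuousLinearMap.star_eq_adjoint,
      ContinuousLinearMap.adjoint_inner_left]
  rw [delVec, inner_sub_right, e1]
  refine (norm_sub_le _ _).trans ?_
  have t1 := (norm_inner_le_norm (𝕜 := ℂ) (c Ω) (n (R b (z Ω)))).trans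
    (mul_le_mul hcΩ ((n.le_opNorm _).trans (mul_le_mul_of_nonneg_left hzb (norm_nonneg n)))
      (norm_nonneg _) (norm_nonneg _))
  have t2 := (norm_inner_le_norm (𝕜 := ℂ) _ _).trans
    (mul_le_mul hbc hn1 (norm_nonneg (n (z Ω))) (by positivity))
  linarith

end Vale.Agent.P096.KK.Select

namespace Vale.Agent.P096.KK

universe u

/-- (S2) good selections exist automatically. -/
theorem selectOut : SelectOut.{u} := by
  refine ⟨2000, by norm_num, fun H _ _ _ M Ω R N P d ε h hd => ?_⟩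
  have hd0 := h.d_nonneg
  have he0 := h.ε_nonneg
  refine ⟨fun x hx => ?_, fun y hy => ?_⟩
  · obtain ⟨n, hn, h1, h2⟩ := Select.select h (by linarith) hx
    refine ⟨n, hn, h1.trans (by gcongr; norm_num), fun z hz => (h2 z hz).trans ?_⟩
    gcongr; norm_num
  · obtain ⟨y', hy', h1, h2⟩ := Select.select' h (by linarith) hy
    refine ⟨y', hy', h1.trans (by gcongr; norm_num), fun z hz => (h2 z hz).trans ?_⟩
    gcongr; norm_num

end Vale.Agent.P096.KK
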