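import Vale.Agent.P096.KK.FreeLetters

/-!
# (K1) convolution by `q^(-n/2) (s_n - q s_(n-2))` has norm at most four

Kesten's bound for the normalised sum of the letters by a Schur test, and the Chebyshev identity
`C² + (4 - X²) S² = 4`.
-/

noncomputable section

namespace Vale.Agent.P096.KK

open Finset MonoidAlgebra
open scoped Polynomial

variable {Γ : Type} [Group Γ]

set_option linter.unusedSectionVars false

/-- The scalar product of finitely supported functions. -/
def sp (x y : MonoidAlgebra ℝ Γ) : ℝ := x.coeff.sum fun g a => a * y.coeff g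

lemma sp_eq_sum {x : MonoidAlgebra ℝ Γ} (y : MonoidAlgebra ℝ Γ) {T : Finset Γ}
    (h : x.coeff.support ⊆ T) : sp x y = ∑ g ∈ T, x.coeff g * y.coeff g :=
  Finsupp.sum_of_support_subset _ h _ (by simp)

lemma sp_nonneg (x : MonoidAlgebra ℝ Γ) : 0 ≤ sp x x :=
  Finset.sum_nonneg fun _ _ => mul_self_nonneg _

lemma sp_comm (x y : MonoidAlgebra ℝ Γ) : sp x y = sp y x := by
  classical
  rw [sp_eq_sum y Finset.subset_union_left, sp_eq_sum x (Finset.subset_union_right (s₁ := x.coeff.support))]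
  exact Finset.sum_congr rfl fun g _ => mul_comm _ _

lemma sp_add_left (x x' y : MonoidAlgebra ℝ Γ) : sp (x + x') y = sp x y + sp x' y := by
  classical
  simp only [sp, MonoidAlgebra.coeff_add]
  exact Finsupp.sum_add_index' (by simp) (fun g a b => add_mul a b _)

lemma sp_smul_left (c : ℝ) (x y : MonoidAlgebra ℝ Γ) : sp (c • x) y = c * sp x y := by
  simp only [sp, MonoidAlgebra.coeff_smul]
  rw [Finsupp.sum_smul_index' (by simp)]
  simp [Finsupp.mul_sum, smul_eq_mul, mul_assoc]

lemma sp_add_right (x y y' : MonoidAlgebra ℝ Γ) : sp x (y + y') = sp x y + sp x y' := by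
  rw [sp_comm, sp_add_left, sp_comm y, sp_comm y']

lemma sp_smul_right (c : ℝ) (x y : MonoidAlgebra ℝ Γ) : sp x (c • y) = c * sp x y := by
  rw [sp_comm, sp_smul_left, sp_comm]

lemma sp_sub_left (x x' y : MonoidAlgebra ℝ Γ) : sp (x - x') y = sp x y - sp x' y := by
  have h := sp_add_left (x - x') x' y
  rw [sub_add_cancel] at h
  linarith

lemma sp_sub_right (x y y' : MonoidAlgebra ℝ Γ) : sp x (y - y') = sp x y - sp x y' := by
  rw [sp_comm, sp_sub_left, sp_comm y, sp_comm y']

lemma sp_sum_left {ι : Type*} (s : Finset ι) (f : ι → MonoidAlgebra ℝ Γ) (y : MonoidAlgebra ℝ Γ) :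
    sp (∑ i ∈ s, f i) y = ∑ i ∈ s, sp (f i) y := by
  classical
  induction s using Finset.induction with
  | empty => simp [sp]
  | insert i s hi ih => rw [Finset.sum_insert hi, Finset.sum_insert hi, sp_add_left, ih]

lemma coeff_translate (g p : Γ) (x : MonoidAlgebra ℝ Γ) :
    (single g (1 : ℝ) * x).coeff p = x.coeff (g⁻¹ * p) := by
  rw [x.coeff_single_mul_eq_mul_coeff (g⁻¹ * p) (fun m _ => (eq_inv_mul_iff_mul_eq).symm), one_mul]

lemma sp_translate (g : Γ) (x y : MonoidAlgebra ℝ Γ) :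
    sp (single g (1 : ℝ) * x) y = sp x (single g⁻¹ (1 : ℝ) * y) := by
  classical
  rw [sp_eq_sum y (T := x.coeff.support.image (g * ·)), sp_eq_sum _ (Finset.Subset.refl _),
    Finset.sum_image fun a _ b _ h => mul_left_cancel h]
  · exact Finset.sum_congr rfl fun u _ => by simp
  · intro p hp
    rw [Finsupp.mem_support_iff, coeff_translate] at hp
    exact Finset.mem_image.2 ⟨g⁻¹ * p, Finsupp.mem_support_iff.2 hp, mul_inv_cancel_left g p⟩

section Functional

variable {A : MonoidAlgebra ℝ Γ} (hA : ∀ x y, sp (A * x) y = sp x (A * y))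
include hA

lemma sp_aeval (p : ℝ[X]) (x y : MonoidAlgebra ℝ Γ) :
    sp (Polynomial.aeval A p * x) y = sp x (Polynomial.aeval A p * y) := by
  induction p using Polynomial.induction_on' generalizing x y with
  | add p q hp hq => rw [map_add, add_mul, add_mul, sp_add_left, sp_add_right, hp, hq]
  | monomial k c =>
    have key : ∀ k : ℕ, ∀ x y, sp (A ^ k * x) y = sp x (A ^ k * y) := by
      intro k
      induction k with
      | zero => intro x y; simp
      | succ k ih =>
        intro x y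
        rw [pow_succ', mul_assoc, hA, ih, ← mul_assoc, ← pow_succ, pow_succ', mul_assoc]
    rw [Polynomial.aeval_monomial, ← Algebra.smul_def, smul_mul_assoc, smul_mul_assoc,
      sp_smul_left, sp_smul_right, key]

lemma sp_chebyshev (hbd : ∀ x, sp (A * x) (A * x) ≤ 4 * sp x x) (n : ℤ) (x : MonoidAlgebra ℝ Γ) :
    sp (Polynomial.aeval A (Polynomial.Chebyshev.C ℝ n) * x)
      (Polynomial.aeval A (Polynomial.Chebyshev.C ℝ n) * x) ≤ 4 * sp x x := by
  set p := Polynomial.Chebyshev.C ℝ n
  set r := Polynomial.Chebyshev.S ℝ (n - 1)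
  have hid : p * p + (4 * (r * r) - Polynomial.X * r * (Polynomial.X * r)) = 4 := by
    have h := Polynomial.Chebyshev.S_sq_add_S_sq ℝ (n - 1)
    rw [sub_add_cancel] at h
    simp only [p, r, Polynomial.Chebyshev.C_eq_S_sub_X_mul_S ℝ n]
    linear_combination (4 : ℝ[X]) * h
  have e : ∀ s : ℝ[X], sp x (Polynomial.aeval A (s * s) * x)
      = sp (Polynomial.aeval A s * x) (Polynomial.aeval A s * x) := fun s => by
    rw [map_mul, mul_assoc, sp_aeval hA s]
  have h4 : ∀ s : ℝ[X], sp x (Polynomial.aeval A (4 * s) * x)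
      = 4 * sp x (Polynomial.aeval A s * x) := fun s => by
    rw [show (4 : ℝ[X]) * s = (4 : ℝ) • s by
      rw [Polynomial.smul_eq_C_mul]; simp [← Polynomial.C_ofNat], map_smul, smul_mul_assoc,
      sp_smul_right]
  have main := congrArg (fun s => sp x (Polynomial.aeval A s * x)) hid
  simp only [map_add, map_sub, add_mul, sub_mul, sp_add_right, sp_sub_right, e, h4] at main
  rw [show (4 : ℝ[X]) = 4 * (1 * 1) by ring, h4, e, map_one, one_mul] at main
  have := hbd (Polynomial.aeval A r * x)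
  rw [map_mul, Polynomial.aeval_X, mul_assoc] at main
  linarith

end Functional

/-- A two term combination. -/
lemma sp_comb_le {u w : MonoidAlgebra ℝ Γ} {c K : ℝ} (hu : sp u u ≤ 4 * K) (hw : sp w w ≤ 4 * K)
    (hc : 0 ≤ c) (hc1 : c ≤ 1) (_hK : 0 ≤ K) : sp (u - c • w) (u - c • w) ≤ 4 ^ 2 * K := by
  have h := sp_nonneg (u + c • w)
  simp only [sp_add_left, sp_add_right, sp_smul_left, sp_smul_right, sp_sub_left, sp_sub_right] at *
  have hc2 : c * (c * sp w w) ≤ 1 * (1 * (4 * K)) :=
    mul_le_mul hc1 (mul_le_mul hc1 hw (sp_nonneg w) zero_le_one) (mul_nonneg hc (sp_nonneg w))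
      zero_le_one
  nlinarith

/-! ## The free group -/

variable {d : ℕ}

/-- `2d - 1`. -/
def qd (d : ℕ) : ℝ := 2 * d - 1

lemma qd_eq (hd : 1 ≤ d) : qd d = ((2 * d - 1 : ℕ) : ℝ) := by
  rw [qd, Nat.cast_sub (by omega)]; simp

lemma one_le_qd (hd : 1 ≤ d) : 1 ≤ qd d := by
  have : (1 : ℝ) ≤ d := by exact_mod_cast hd
  simp only [qd]; linarith

/-- The normalised sum of the letters. -/
def stepOp (d : ℕ) : MonoidAlgebra ℝ (FreeGroup (Fin d)) :=
  (Real.sqrt (qd d))⁻¹ • ∑ l : Fin d × Bool, single (letterElt l) (1 : ℝ)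

lemma sum_flip {M : Type*} [AddCommMonoid M] (f : Fin d × Bool → M) :
    ∑ l, f (flipLetter l) = ∑ l, f l :=
  Equiv.sum_comp (flipLetter_involutive.toPerm flipLetter) f

lemma coeff_stepOp_mul (x : MonoidAlgebra ℝ (FreeGroup (Fin d))) (p : FreeGroup (Fin d)) :
    (stepOp d * x).coeff p
      = (Real.sqrt (qd d))⁻¹ * ∑ l, x.coeff (letterElt l * p) := by
  rw [stepOp, smul_mul_assoc, MonoidAlgebra.coeff_smul, Finsupp.smul_apply, smul_eq_mul,
    Finset.sum_mul, ← sum_flip fun l => x.coeff (letterElt l * p)]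
  simp only [MonoidAlgebra.coeff_sum, Finsupp.finsetSum_apply, coeff_translate, inv_letterElt]

lemma stepOp_symm (x y : MonoidAlgebra ℝ (FreeGroup (Fin d))) :
    sp (stepOp d * x) y = sp x (stepOp d * y) := by
  rw [stepOp, smul_mul_assoc, smul_mul_assoc, sp_smul_left, sp_smul_right, Finset.sum_mul,
    Finset.sum_mul, sp_sum_left, sp_comm x, sp_sum_left]
  congr 1
  rw [← sum_flip fun l => sp (single (letterElt l) 1 * y) x]
  exact Finset.sum_congr rfl fun l _ => by rw [sp_translate, inv_letterElt, sp_comm]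

/-- The Schur weight of the step from `u` by a letter. -/
def wt (d : ℕ) (l : Fin d × Bool) (u : FreeGroup (Fin d)) : ℝ :=
  if (letterElt l * u).toWord.length < u.toWord.length then Real.sqrt (qd d)
  else (Real.sqrt (qd d))⁻¹

lemma wt_pos (hd : 1 ≤ d) (l : Fin d × Bool) (u : FreeGroup (Fin d)) : 0 < wt d l u := by
  have h : 0 < Real.sqrt (qd d) := Real.sqrt_pos.2 (lt_of_lt_of_le one_pos (one_le_qd hd))
  unfold wt
  split_ifs <;> positivity

lemma inv_wt (l : Fin d × Bool) (u : FreeGroup (Fin d)) :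
    (wt d (flipLetter l) (letterElt l * u))⁻¹ = wt d l u := by
  have e : letterElt (flipLetter l) * (letterElt l * u) = u := by
    rw [← inv_letterElt, inv_mul_cancel_left]
  unfold wt
  rw [e]
  rcases length_letterElt_mul l u with ⟨h, -⟩ | ⟨h, -⟩
  · rw [if_neg (by omega), if_pos (by omega), inv_inv]
  · rw [if_pos (by omega), if_neg (by omega)]

lemma sum_wt (hd : 1 ≤ d) (u : FreeGroup (Fin d)) : ∑ l, wt d l u ≤ 2 * Real.sqrt (qd d) := by
  have h1 := one_le_qd hd
  set s := Real.sqrt (qd d) with hs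
  have hs1 : 1 ≤ s := Real.one_le_sqrt.2 h1
  have hsq : s * s = qd d := Real.mul_self_sqrt (by linarith)
  have e : ∀ l, wt d l u = (if u.toWord.head? = some (flipLetter l) then s - s⁻¹ else 0) + s⁻¹ := by
    intro l
    rcases length_letterElt_mul l u with ⟨h, h'⟩ | ⟨h, h'⟩
    · rw [wt, if_pos (by omega), if_pos h', sub_add_cancel]
    · rw [wt, if_neg (by omega), if_neg h', zero_add]
  simp only [e, Finset.sum_add_distrib, ← Finset.sum_filter, Finset.sum_const, card_shortening,
    nsmul_eq_mul, Finset.card_univ, Fintype.card_prod, Fintype.card_fin, Fintype.card_bool]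
  have hcast : ((d * 2 : ℕ) : ℝ) = s * s + 1 := by rw [hsq, qd]; push_cast; ring
  have hss : s⁻¹ * s = 1 := inv_mul_cancel₀ (by linarith)
  rw [hcast]
  have hinv : 0 < s⁻¹ := inv_pos.2 (by linarith)
  have key : (s * s + 1) * s⁻¹ = s + s⁻¹ := by field_simp
  rw [key]
  split_ifs
  · simp only [Nat.cast_zero, zero_mul, zero_add]
    nlinarith
  · simp only [Nat.cast_one, one_mul]
    linarith

/-- Kesten's bound. -/
lemma stepOp_bound (hd : 1 ≤ d) (x : MonoidAlgebra ℝ (FreeGroup (Fin d))) :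
    sp (stepOp d * x) (stepOp d * x) ≤ 4 * sp x x := by
  classical
  set s := Real.sqrt (qd d) with hs
  have h1 := one_le_qd hd
  have hspos : 0 < s := Real.sqrt_pos.2 (by linarith)
  set T := (stepOp d * x).coeff.support
  rw [sp_eq_sum _ (Finset.Subset.refl T)]
  have hcs : ∀ p, (∑ l, x.coeff (letterElt l * p)) ^ 2
      ≤ 2 * s * ∑ l, x.coeff (letterElt l * p) ^ 2 * (wt d l p)⁻¹ := fun p => by
    calc (∑ l, x.coeff (letterElt l * p)) ^ 2
        ≤ (∑ l, wt d l p) * ∑ l, x.coeff (letterElt l * p) ^ 2 * (wt d l p)⁻¹ :=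
          Finset.sum_sq_le_sum_mul_sum_of_sq_le_mul _ (fun l _ => (wt_pos hd l p).le)
            (fun l _ => mul_nonneg (sq_nonneg _) (inv_nonneg.2 (wt_pos hd l p).le))
            fun l _ => by
              have := (wt_pos hd l p).ne'
              field_simp
              exact le_rfl
      _ ≤ _ := mul_le_mul_of_nonneg_right (sum_wt hd p) (Finset.sum_nonneg fun l _ =>
          mul_nonneg (sq_nonneg _) (inv_nonneg.2 (wt_pos hd l p).le))
  have hcol : ∀ l, ∑ p ∈ T, x.coeff (letterElt l * p) ^ 2 * (wt d l p)⁻¹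
      ≤ ∑ u ∈ x.coeff.support, x.coeff u ^ 2 * wt d (flipLetter l) u := fun l => by
    have e : ∀ p, x.coeff (letterElt l * p) ^ 2 * (wt d l p)⁻¹
        = x.coeff (letterElt l * p) ^ 2 * wt d (flipLetter l) (letterElt l * p) := fun p => by
      congr 1
      rw [← inv_wt l p, inv_inv] at *
    simp only [e]
    rw [← Finset.sum_image (f := fun u => x.coeff u ^ 2 * wt d (flipLetter l) u)
      fun a _ b _ h => mul_left_cancel h,
      ← Finset.sum_filter_ne_zero]
    refine Finset.sum_le_sum_of_subset_of_nonneg (fun u hu => ?_) fun u _ _ =>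
      mul_nonneg (sq_nonneg _) (wt_pos hd _ _).le
    refine Finsupp.mem_support_iff.2 fun h0 => ?_
    exact (Finset.mem_filter.1 hu).2 (by simp [h0])
  calc ∑ p ∈ T, (stepOp d * x).coeff p * (stepOp d * x).coeff p
      = (qd d)⁻¹ * ∑ p ∈ T, (∑ l, x.coeff (letterElt l * p)) ^ 2 := by
        rw [Finset.mul_sum]
        refine Finset.sum_congr rfl fun p _ => ?_
        rw [coeff_stepOp_mul, ← hs, ← Real.mul_self_sqrt (show 0 ≤ qd d by linarith), ← hs, mul_inv]
        ring
    _ ≤ (qd d)⁻¹ * ∑ p ∈ T, 2 * s * ∑ l, x.coeff (letterElt l * p) ^ 2 * (wt d l p)⁻¹ :=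
        mul_le_mul_of_nonneg_left (Finset.sum_le_sum fun p _ => hcs p) (inv_nonneg.2 (by linarith))
    _ ≤ (qd d)⁻¹ * (2 * s * ∑ u ∈ x.coeff.support,
          x.coeff u ^ 2 * ∑ l, wt d (flipLetter l) u) := by
        rw [← Finset.mul_sum, Finset.sum_comm]
        rw [show (∑ u ∈ x.coeff.support, x.coeff u ^ 2 * ∑ l, wt d (flipLetter l) u)
            = ∑ l, ∑ u ∈ x.coeff.support, x.coeff u ^ 2 * wt d (flipLetter l) u by
          simp only [Finset.mul_sum]; exact Finset.sum_comm]
        exact mul_le_mul_of_nonneg_left (mul_le_mul_of_nonneg_left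
          (Finset.sum_le_sum fun l _ => hcol l) (by positivity)) (inv_nonneg.2 (by linarith))
    _ ≤ (qd d)⁻¹ * (2 * s * ∑ u ∈ x.coeff.support, x.coeff u ^ 2 * (2 * s)) := by
        refine mul_le_mul_of_nonneg_left (mul_le_mul_of_nonneg_left (Finset.sum_le_sum fun u _ => ?_)
          (by positivity)) (inv_nonneg.2 (by linarith))
        rw [sum_flip fun l => wt d l u]
        exact mul_le_mul_of_nonneg_left (sum_wt hd u) (sq_nonneg _)
    _ = 4 * sp x x := by
        rw [sp_eq_sum _ (Finset.Subset.refl _), ← Finset.sum_mul]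
        simp only [← sq]
        rw [← Real.mul_self_sqrt (show 0 ≤ qd d by linarith), ← hs]
        field_simp
        ring

/-- The normalised sphere. -/
def sphereElt (d n : ℕ) : MonoidAlgebra ℝ (FreeGroup (Fin d)) :=
  (Real.sqrt (qd d) ^ n)⁻¹ • ∑ g ∈ sphere d n, single g (1 : ℝ)

lemma coeff_sphereElt (n : ℕ) (p : FreeGroup (Fin d)) :
    (sphereElt d n).coeff p = if p.toWord.length = n then (Real.sqrt (qd d) ^ n)⁻¹ else 0 := by
  classical
  simp [sphereElt, MonoidAlgebra.coeff_sum, Finsupp.single_apply, mem_sphere]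

lemma sphereElt_zero : sphereElt d 0 = 1 := by
  simp [sphereElt, sphere_zero, MonoidAlgebra.one_def]

lemma coeff_stepOp_sphereElt (n : ℕ) (p : FreeGroup (Fin d)) :
    (stepOp d * sphereElt d n).coeff p = (Real.sqrt (qd d) ^ (n + 1))⁻¹ *
      (((if p.toWord.length = n + 1 then 1 else 0) +
        if p.toWord.length + 1 = n then (if p.toWord.length = 0 then 2 * d else 2 * d - 1)
          else 0 : ℕ) : ℝ) := by
  rw [coeff_stepOp_mul, ← card_neighbours p n]
  simp only [coeff_sphereElt, ← Finset.sum_filter, Finset.sum_const, nsmul_eq_mul, pow_succ,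
    mul_inv]
  ring

lemma stepOp_eq : stepOp d = sphereElt d 1 := by
  have h : stepOp d * sphereElt d 0 = sphereElt d 1 := by
    refine MonoidAlgebra.ext (Finsupp.ext fun p => ?_)
    rw [coeff_stepOp_sphereElt, coeff_sphereElt]
    split_ifs <;> simp_all
  rwa [sphereElt_zero, mul_one] at h

lemma sphereElt_two (hd : 1 ≤ d) :
    stepOp d * sphereElt d 1 = sphereElt d 2 + (1 + (qd d)⁻¹) • 1 := by
  have h1 := one_le_qd hd
  refine MonoidAlgebra.ext (Finsupp.ext fun p => ?_)
  rw [coeff_stepOp_sphereElt, MonoidAlgebra.coeff_add, MonoidAlgebra.coeff_smul, ← sphereElt_zero,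
    Finsupp.add_apply, Finsupp.smul_apply, coeff_sphereElt, coeff_sphereElt, smul_eq_mul,
    pow_zero, inv_one, Real.sq_sqrt (by linarith)]
  by_cases h : p.toWord.length = 0
  · simp only [h, Nat.reduceAdd, OfNat.zero_ne_ofNat, if_false, if_true, zero_add]
    push_cast
    rw [qd] at h1 ⊢
    field_simp
    ring
  · by_cases h2 : p.toWord.length = 2 <;> simp [h, h2]

lemma sphereElt_succ (hd : 1 ≤ d) {n : ℕ} (hn : 1 ≤ n) :
    stepOp d * sphereElt d (n + 1) = sphereElt d (n + 2) + sphereElt d n := by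
  have h1 := one_le_qd hd
  refine MonoidAlgebra.ext (Finsupp.ext fun p => ?_)
  rw [coeff_stepOp_sphereElt, MonoidAlgebra.coeff_add, Finsupp.add_apply, coeff_sphereElt,
    coeff_sphereElt]
  by_cases h : p.toWord.length = n
  · rw [if_neg (by omega), if_pos (by omega), if_neg (by omega), if_neg (by omega), if_pos h,
      Nat.zero_add, ← qd_eq hd, zero_add, show n + 1 + 1 = n + 2 by ring, pow_add,
      Real.sq_sqrt (by linarith)]
    field_simp
  · by_cases h2 : p.toWord.length = n + 2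
    · simp [h2]
    · simp [h, h2]

open Polynomial.Chebyshev in
lemma sphereElt_cheb (hd : 1 ≤ d) : ∀ n : ℕ, sphereElt d (n + 1) =
    Polynomial.aeval (stepOp d) (S ℝ (n + 1)) - (qd d)⁻¹ • Polynomial.aeval (stepOp d) (S ℝ (n - 1))
  | 0 => by simp [← stepOp_eq, S_one, S_neg_one]
  | 1 => by
    have h := sphereElt_two (d := d) hd
    rw [← stepOp_eq] at h
    norm_num [S_two, add_smul] at h ⊢
    rw [pow_two, h]
    abel
  | n + 2 => by
    have h := sphereElt_succ hd (n := n + 1) (by omega)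
    rw [sphereElt_cheb hd (n + 1), sphereElt_cheb hd n] at h
    push_cast at h ⊢
    have e₁ := congrArg (Polynomial.aeval (stepOp d)) (S_add_two ℝ (n + 1 : ℤ))
    have e₂ := congrArg (Polynomial.aeval (stepOp d)) (S_add_two ℝ (n - 1 : ℤ))
    simp only [map_sub, map_mul, Polynomial.aeval_X] at e₁ e₂
    ring_nf at e₁ e₂ h ⊢
    rw [mul_sub, mul_smul_comm] at h
    rw [e₂] at h e₁
    rw [e₁, e₂, smul_sub]
    linear_combination (norm := module) -h

lemma sp_sphere_diff (hd : 1 ≤ d) (n : ℕ) (x : MonoidAlgebra ℝ (FreeGroup (Fin d))) :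
    sp ((sphereElt d (n + 2) - sphereElt d n) * x) ((sphereElt d (n + 2) - sphereElt d n) * x)
      ≤ 4 ^ 2 * sp x x := by
  have h1 := one_le_qd hd
  have hcheb := sp_chebyshev stepOp_symm (stepOp_bound hd)
  have hc0 : (0 : ℝ) ≤ (qd d)⁻¹ := inv_nonneg.2 (by linarith)
  have hc1 : (qd d)⁻¹ ≤ 1 := inv_le_one_of_one_le₀ h1
  have hCS : ∀ k : ℤ, Polynomial.aeval (stepOp d) (Polynomial.Chebyshev.C ℝ k)
      = Polynomial.aeval (stepOp d) (Polynomial.Chebyshev.S ℝ k)
        - Polynomial.aeval (stepOp d) (Polynomial.Chebyshev.S ℝ (k - 2)) := fun k => by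
    rw [← map_sub]
    congr 1
    linear_combination Polynomial.Chebyshev.C_eq_S_sub_X_mul_S ℝ k
      + Polynomial.Chebyshev.S_eq ℝ k
  rcases n with _ | n
  · have : sphereElt d (0 + 2) - sphereElt d 0
        = Polynomial.aeval (stepOp d) (Polynomial.Chebyshev.C ℝ 2) - (qd d)⁻¹ • 1 := by
      rw [sphereElt_cheb hd 1, sphereElt_zero, hCS]
      norm_num [Polynomial.Chebyshev.S_zero]
      abel
    rw [this, sub_mul, smul_mul_assoc, one_mul]
    exact sp_comb_le (hcheb 2 x) (by linarith [sp_nonneg x]) hc0 hc1 (sp_nonneg x)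
  · have : sphereElt d (n + 1 + 2) - sphereElt d (n + 1)
        = Polynomial.aeval (stepOp d) (Polynomial.Chebyshev.C ℝ (n + 3 : ℤ))
          - (qd d)⁻¹ • Polynomial.aeval (stepOp d) (Polynomial.Chebyshev.C ℝ (n + 1 : ℤ)) := by
      rw [sphereElt_cheb hd (n + 2), sphereElt_cheb hd n, hCS, hCS]
      push_cast
      ring_nf
      rw [smul_sub]
      abel
    rw [this, sub_mul, smul_mul_assoc]
    exact sp_comb_le (hcheb _ x) (hcheb _ x) hc0 hc1 (sp_nonneg x)

theorem spheresOut : SpheresOut := by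
  classical
  intro d n hd hn U f
  obtain ⟨m, rfl⟩ : ∃ m, n = m + 2 := ⟨n - 2, by omega⟩
  set S := sphere d (m + 2) ∪ sphere d (m + 2 - 2)
  let chat : MonoidAlgebra ℝ (FreeGroup (Fin d)) := ∑ g ∈ S, single g (wCoef d (m + 2) g)
  let fhat : MonoidAlgebra ℝ (FreeGroup (Fin d)) := ∑ u ∈ U, single u (f u)
  have hc : chat = sphereElt d (m + 2) - sphereElt d m := by
    refine MonoidAlgebra.ext (Finsupp.ext fun p => ?_)
    simp only [chat, MonoidAlgebra.coeff_sum, MonoidAlgebra.coeff_sub, Finsupp.sub_apply,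
      Finsupp.finsetSum_apply, coeff_sphereElt, MonoidAlgebra.coeff_single, Finsupp.single_apply,
      Finset.sum_ite_eq', S, Finset.mem_union, mem_sphere, wCoef, qd, Nat.add_sub_cancel]
    by_cases h : p.toWord.length = m + 2
    · simp [h]
    · by_cases h2 : p.toWord.length = m
      · simp [h2]
      · simp [h, h2]
  have hf : ∀ u, fhat.coeff u = if u ∈ U then f u else 0 := fun u => by
    simp [fhat, MonoidAlgebra.coeff_sum, Finsupp.single_apply]
  have hfit : sp fhat fhat = ∑ u ∈ U, f u ^ 2 := by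
    rw [sp_eq_sum _ (T := U)]
    · exact Finset.sum_congr rfl fun u hu => by rw [hf, if_pos hu, sq]
    · intro u hu
      rw [Finsupp.mem_support_iff, hf] at hu
      exact by_contra fun h => hu (if_neg h)
  have hprod : ∀ p, (chat * fhat).coeff p
      = ∑ z ∈ (S ×ˢ U).filter (fun z => z.1 * z.2 = p), wCoef d (m + 2) z.1 * f z.2 := fun p => by
    have : chat * fhat = ∑ z ∈ S ×ˢ U, single (z.1 * z.2) (wCoef d (m + 2) z.1 * f z.2) := by
      simp only [chat, fhat, Finset.sum_mul_sum, MonoidAlgebra.single_mul_single,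
        Finset.sum_product]
    rw [this, MonoidAlgebra.coeff_sum, Finsupp.finsetSum_apply, Finset.sum_filter]
    simp only [MonoidAlgebra.coeff_single, Finsupp.single_apply]
  have hsupp : (chat * fhat).coeff.support ⊆ (S ×ˢ U).image (fun z => z.1 * z.2) := fun p hp => by
    rw [Finsupp.mem_support_iff, hprod] at hp
    obtain ⟨z, hz, -⟩ := Finset.exists_ne_zero_of_sum_ne_zero hp
    rw [Finset.mem_filter] at hz
    exact Finset.mem_image.2 ⟨z, hz.1, hz.2⟩
  calc _ = sp (chat * fhat) (chat * fhat) := by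
        rw [sp_eq_sum _ hsupp]
        exact Finset.sum_congr rfl fun p _ => by rw [hprod, sq]
    _ ≤ 4 ^ 2 * sp fhat fhat := by rw [hc]; exact sp_sphere_diff (by omega) m fhat
    _ = _ := by rw [hfit]

end Vale.Agent.P096.KK
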