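import Vale.Agent.P096.KK.Step
import Vale.Agent.P096.KK.Amp
import Vale.Agent.P096.KK.Init
import Vale.Agent.P096.KK.Select
import Vale.Agent.P096.KK.Iterate
import Vale.Agent.P096.KK.L2Bound
import Vale.Agent.P096.KK.Flatten
import Vale.Agent.P096.KK.Rotate
import Vale.Agent.P096.KK.Assemble
import Vale.Agent.P096.KK.Represent
import Vale.Agent.P096.KK.ReduceFinite
import Vale.Agent.P096.KK.Gauge
import Vale.Agent.P096.KK.Mult
import Vale.Agent.P096.KK.Difference
import Vale.Agent.P096.KK.Spheres
import Vale.Agent.P096.KK.Triangle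

/-!
# P096: strong Kadison-Kastler for finite algebras, from the gauge
-/

noncomputable section

namespace Vale.Agent.P096.KK

universe u

theorem gaugeProved : GaugeOut.{u} :=
  gaugeOut (keyOut_of (differenceOut spheresOut) triangleOut) (multOut ampOut selectOut) ampOut
    selectOut

theorem finiteStdKK_of_gauge (hG : GaugeOut.{u}) : FiniteStdKK.{u} :=
  finiteStd (iterateOut_of_step (stepOut ampOut selectOut hG l2Out))
    (rotateOut Linear.distance_formula) flattenOut Init.initOut

theorem finiteTraceKKSep_of_gauge (hG : GaugeOut.{u}) : FiniteTraceKKSep.{u} :=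
  representKK (finiteStdKK_of_gauge hG)

/-- Strong stability of finite algebras with no abelian projection on separable spaces. -/
theorem finiteKKSep : ∀ ε : ℝ, 0 < ε → ∃ δ : ℝ, 0 < δ ∧
    ∀ (H : Type u) [NormedAddCommGroup H] [InnerProductSpace ℂ H] [CompleteSpace H]
      [TopologicalSpace.SeparableSpace H] (M N : VonNeumannAlgebra H),
      Reduce.Finite M → P104.Sim.NoAbelian M → kkDist M N < δ →
        ∃ v ∈ unitary (H →L[ℂ] H), ‖v - 1‖ < ε ∧
          (fun x => v * x * star v) '' (M : Set (H →L[ℂ] H)) = (N : Set (H →L[ℂ] H)) := by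
  intro ε hε
  obtain ⟨δ, hδ, h⟩ := finiteTraceKKSep_of_gauge gaugeProved ε hε
  refine ⟨δ, hδ, fun H _ _ _ _ M N hfin hna hd => ?_⟩
  rcases subsingleton_or_nontrivial H with hH | hH
  · refine ⟨1, one_mem _, by simp [hε], ?_⟩
    ext y
    simp only [one_mul, star_one, mul_one, Set.image_id']
    have : y = 0 := Subsingleton.elim _ _
    subst this
    exact ⟨fun _ => zero_mem N, fun _ => zero_mem M⟩
  · obtain ⟨ξ, hξ⟩ := Reduce.exists_trace hfin
    exact h H M N ξ hξ hna hd

end Vale.Agent.P096.KK
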