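import Vale.Agent.P096.KK.Defs

/-!
# P096 (K3): the triangle argument and the cone homotopy

The cocycle identity on four vertices turns the hypothesis into `A(s,t) ≈ π(r⁻¹) A(r,s)` for
`A(s,t) = Gam 1 s st`, so `A` is nearly one nearly invariant vector `κ`.  Three tetrahedra of the
prism over a triangle show that the coboundary of `gauge` is `V` minus `Gam`.
-/

noncomputable section

namespace Vale.Agent.P096.KK.Triangle

open Finset

universe u v

variable {G : Type u} [Group G] {E : Type v} [NormedAddCommGroup E] [NormedSpace ℝ E]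
variable {ι : Type*} [Fintype ι]

/-! ## Averages -/

theorem avg_const [Nonempty ι] (x : E) : avg (fun _ : ι => x) = x := by
  rw [avg, Finset.sum_const, Finset.card_univ, ← Nat.cast_smul_eq_nsmul ℝ, smul_smul,
    inv_mul_cancel₀ (Nat.cast_ne_zero.2 Fintype.card_ne_zero), one_smul]

theorem avg_add (f g : ι → E) : avg (fun i => f i + g i) = avg f + avg g := by
  simp [avg, Finset.sum_add_distrib]

theorem avg_sub (f g : ι → E) : avg (fun i => f i - g i) = avg f - avg g := by
  simp [avg, Finset.sum_sub_distrib, smul_sub]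

theorem avg_mono {f g : ι → ℝ} (h : ∀ i, f i ≤ g i) : avg f ≤ avg g :=
  mul_le_mul_of_nonneg_left (Finset.sum_le_sum fun i _ => h i) (by positivity)

theorem norm_avg_le_avg (f : ι → E) : ‖avg f‖ ≤ avg fun i => ‖f i‖ := by
  rw [avg, avg, smul_eq_mul, norm_smul, norm_inv, Real.norm_natCast]
  exact mul_le_mul_of_nonneg_left (norm_sum_le _ _) (by positivity)

theorem avg_prod {κ : Type*} [Fintype κ] (f : ι × κ → E) :
    avg f = avg fun i => avg fun j => f (i, j) := by
  simp only [avg]
  rw [Fintype.card_prod, Nat.cast_mul, mul_inv, Fintype.sum_prod_type, ← smul_smul,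
    Finset.smul_sum (s := Finset.univ) (r := ((Fintype.card κ : ℝ))⁻¹)]

theorem avg_swap {κ : Type*} [Fintype κ] (f : ι → κ → E) :
    (avg fun i => avg fun j => f i j) = avg fun j => avg fun i => f i j := by
  simp only [avg, ← Finset.smul_sum]
  rw [smul_comm, Finset.sum_comm]

theorem map_avg (L : E ≃ₗᵢ[ℝ] E) (f : ι → E) : L (avg f) = avg fun i => L (f i) := by
  simp [avg, map_smul, map_sum]

variable {n : ℕ} {a : ι → G}

theorem walkAvg_const [Nonempty ι] (hn : 0 < n) (x : E) : walkAvg n a (fun _ => x) = x := by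
  rw [walkAvg]
  simp only [avg_const]
  rw [Finset.sum_const, Nat.card_Ico, show 2 * n - n = n by omega, ← Nat.cast_smul_eq_nsmul ℝ,
    smul_smul, inv_mul_cancel₀ (Nat.cast_ne_zero.2 hn.ne'), one_smul]

theorem walkAvg_add (f g : G → E) :
    walkAvg n a (fun x => f x + g x) = walkAvg n a f + walkAvg n a g := by
  simp [walkAvg, avg_add, Finset.sum_add_distrib]

theorem walkAvg_sub (f g : G → E) :
    walkAvg n a (fun x => f x - g x) = walkAvg n a f - walkAvg n a g := by
  simp [walkAvg, avg_sub, Finset.sum_sub_distrib, smul_sub]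

theorem map_walkAvg (L : E ≃ₗᵢ[ℝ] E) (f : G → E) :
    L (walkAvg n a f) = walkAvg n a fun x => L (f x) := by
  simp [walkAvg, map_smul, map_sum, map_avg]

theorem norm_walkAvg_le [Nonempty ι] (hn : 0 < n) {f : G → E} {C : ℝ} (h : ∀ x, ‖f x‖ ≤ C) :
    ‖walkAvg n a f‖ ≤ C := by
  have h1 : ∀ l, ‖avg fun w : Fin l → ι => f ((List.ofFn fun i => a (w i)).prod)‖ ≤ C := fun l =>
    (norm_avg_le_avg _).trans ((avg_mono fun w => h _).trans (avg_const C).le)
  rw [walkAvg, norm_smul, norm_inv, Real.norm_natCast, inv_mul_le_iff₀ (Nat.cast_pos.2 hn)]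
  refine (norm_sum_le _ _).trans ((Finset.sum_le_card_nsmul _ _ C fun l _ => h1 l).trans ?_)
  rw [Nat.card_Ico, show 2 * n - n = n by omega, nsmul_eq_mul]

/-! ## The cochain -/

variable {π : G →* (E ≃ₗᵢ[ℝ] E)} {V : G → G → E} {C e : ℝ}

theorem pi_mul (g h : G) (v : E) : π (g * h) v = π g (π h v) := by
  rw [map_mul]; rfl

theorem tri_smul (g x y z : G) : π g (tri π V x y z) = tri π V (g * x) (g * y) (g * z) := by
  simp only [tri, ← pi_mul, mul_inv_rev, mul_assoc, inv_mul_cancel_left]

theorem tri_four (hV : IsApproxCocycle π V e) (p q r s : G) :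
    ‖tri π V q r s - tri π V p r s + tri π V p q s - tri π V p q r‖ ≤ e := by
  have h := hV (p⁻¹ * q) (q⁻¹ * r) (r⁻¹ * s)
  have h' : ‖π p (π (p⁻¹ * q) (V (q⁻¹ * r) (r⁻¹ * s)) - V (p⁻¹ * q * (q⁻¹ * r)) (r⁻¹ * s)
      + V (p⁻¹ * q) (q⁻¹ * r * (r⁻¹ * s)) - V (p⁻¹ * q) (q⁻¹ * r))‖ ≤ e := by
    rwa [LinearIsometryEquiv.norm_map]
  simpa only [map_sub, map_add, ← pi_mul, mul_assoc, mul_inv_cancel_left, tri] using h'

theorem Gam_smul (g x y z : G) :
    π g (Gam n a π V x y z) = Gam n a π V (g * x) (g * y) (g * z) := by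
  simp only [Gam, map_walkAvg, tri_smul, mul_assoc]

variable [Nonempty ι]

theorem norm_tri_le (hC : ∀ g h, ‖V g h‖ ≤ C) (x y z : G) : ‖tri π V x y z‖ ≤ C := by
  rw [tri, LinearIsometryEquiv.norm_map]; exact hC _ _

theorem norm_Gam_le (hn : 0 < n) (hC : ∀ g h, ‖V g h‖ ≤ C) (x y z : G) :
    ‖Gam n a π V x y z‖ ≤ C :=
  norm_walkAvg_le hn fun _ => norm_walkAvg_le hn fun _ => norm_walkAvg_le hn fun _ =>
    norm_tri_le hC _ _ _

theorem Gam_four (hn : 0 < n) (hV : IsApproxCocycle π V e) (p q r s : G) :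
    ‖Gam n a π V q r s - Gam n a π V p r s + Gam n a π V p q s - Gam n a π V p q r‖ ≤ e := by
  have key : ‖walkAvg n a fun k₀ => walkAvg n a fun k₁ => walkAvg n a fun k₂ => walkAvg n a fun k₃ =>
      tri π V (q * k₁) (r * k₂) (s * k₃) - tri π V (p * k₀) (r * k₂) (s * k₃)
        + tri π V (p * k₀) (q * k₁) (s * k₃) - tri π V (p * k₀) (q * k₁) (r * k₂)‖ ≤ e :=
    norm_walkAvg_le hn fun _ => norm_walkAvg_le hn fun _ => norm_walkAvg_le hn fun _ =>
      norm_walkAvg_le hn fun _ => tri_four hV _ _ _ _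
  simpa only [walkAvg_sub, walkAvg_add, walkAvg_const hn, Gam] using key

/-- The coboundary of the gauge is `V` minus `Gam`. -/
theorem gauge_homotopy (hn : 0 < n) (hV : IsApproxCocycle π V e) (g h : G) :
    ‖π g (gauge n a V h) - gauge n a V (g * h) + gauge n a V g
      - (V g h - Gam n a π V 1 g (g * h))‖ ≤ 3 * e := by
  let P : G → G → G → G → G → G → E := fun k₀ k₁ k₂ x y z =>
    (tri π V y z (z * k₂) - tri π V y (y * k₁) (z * k₂))
      - (tri π V x z (z * k₂) - tri π V x (x * k₀) (z * k₂))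
      + (tri π V x y (y * k₁) - tri π V x (x * k₀) (y * k₁))
      - (tri π V x y z - tri π V (x * k₀) (y * k₁) (z * k₂))
  have key : ∀ k₀ k₁ k₂ x y z, ‖P k₀ k₁ k₂ x y z‖ ≤ 3 * e := by
    intro k₀ k₁ k₂ x y z
    have e1 := tri_four hV x y z (z * k₂)
    have e2 := tri_four hV x y (y * k₁) (z * k₂)
    have e3 := tri_four hV x (x * k₀) (y * k₁) (z * k₂)
    have e4 : P k₀ k₁ k₂ x y z =
        (tri π V y z (z * k₂) - tri π V x z (z * k₂) + tri π V x y (z * k₂) - tri π V x y z)
        - (tri π V y (y * k₁) (z * k₂) - tri π V x (y * k₁) (z * k₂) + tri π V x y (z * k₂)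
          - tri π V x y (y * k₁))
        + (tri π V (x * k₀) (y * k₁) (z * k₂) - tri π V x (y * k₁) (z * k₂)
          + tri π V x (x * k₀) (z * k₂) - tri π V x (x * k₀) (y * k₁)) := by
      simp only [P]; abel
    rw [e4]
    refine ((norm_add_le _ _).trans (add_le_add ((norm_sub_le _ _).trans (add_le_add e1 e2)) e3)).trans ?_
    linarith
  have hb : ‖walkAvg n a fun k₀ => walkAvg n a fun k₁ => walkAvg n a fun k₂ =>
      P k₀ k₁ k₂ 1 g (g * h)‖ ≤ 3 * e :=
    norm_walkAvg_le hn fun _ => norm_walkAvg_le hn fun _ => norm_walkAvg_le hn fun _ => key _ _ _ _ _ _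
  simp only [P, walkAvg_sub, walkAvg_add, walkAvg_const hn] at hb
  refine le_trans (le_of_eq (congrArg norm ?_)) hb
  simp only [gauge, Gam, map_sub, map_walkAvg, tri, inv_one, one_mul, map_one,
    LinearIsometryEquiv.coe_one, id_eq, mul_assoc, inv_mul_cancel_left, mul_inv_rev]

end Vale.Agent.P096.KK.Triangle

namespace Vale.Agent.P096.KK

universe u v

open Triangle in
/-- (K3) -/
theorem triangleOut : TriangleOut.{u, v} := by
  intro G _ E _ _ π V C e e₁ ι _ _ a n hn _ he hC hV he₁
  let A : ι → ι → E := fun s t => Gam n a π V 1 (a s) (a s * a t)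
  let T : ι → E → E := fun r x => π (a r)⁻¹ x
  let d : ι → ι → ι → ℝ := fun r s t => ‖Gam n a π V (a r)⁻¹ 1 (a s * a t)
    - Gam n a π V (a r)⁻¹ (a s) (a s * a t)‖
  have hd : (avg fun r => avg fun s => avg fun t => d r s t) ≤ e₁ := by
    rw [avg_prod] at he₁
    simpa only [avg_prod (ι := ι) (κ := ι)] using he₁
  have hTn : ∀ r x, ‖T r x‖ = ‖x‖ := fun r x => LinearIsometryEquiv.norm_map _ _
  have hTsub : ∀ r x y, T r (x - y) = T r x - T r y := fun r x y => map_sub _ _ _
  have hA : ∀ r s t, ‖A s t - T r (A r s)‖ ≤ e + d r s t := by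
    intro r s t
    have h4 := Gam_four (π := π) (a := a) hn hV (a r)⁻¹ 1 (a s) (a s * a t)
    have e1 : T r (A r s) = Gam n a π V (a r)⁻¹ 1 (a s) := by
      simp only [T, A, Gam_smul, mul_one, inv_mul_cancel, inv_mul_cancel_left]
    rw [e1]
    refine le_trans (le_of_eq (congrArg norm ?_)) ((norm_sub_le
      (Gam n a π V 1 (a s) (a s * a t) - Gam n a π V (a r)⁻¹ (a s) (a s * a t)
        + Gam n a π V (a r)⁻¹ 1 (a s * a t) - Gam n a π V (a r)⁻¹ 1 (a s))
      (Gam n a π V (a r)⁻¹ 1 (a s * a t) - Gam n a π V (a r)⁻¹ (a s) (a s * a t))).trans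
      (add_le_add h4 le_rfl))
    simp only [A]; abel
  set ε := e + e₁ with hε
  let B : ι → E := fun s => avg fun r => T r (A r s)
  let κ : E := avg fun r => T r (B r)
  have hAB : (avg fun s => avg fun t => ‖A s t - B s‖) ≤ ε := by
    refine (avg_mono fun s => avg_mono fun t => (?_ : ‖A s t - B s‖ ≤ avg fun r => e + d r s t)).trans ?_
    · calc ‖A s t - B s‖ = ‖avg fun r => A s t - T r (A r s)‖ := by rw [avg_sub, avg_const]
        _ ≤ _ := (norm_avg_le_avg _).trans (avg_mono fun r => hA r s t)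
    · simp only [avg_add, avg_const]
      rw [show (avg fun s => avg fun t => avg fun r => d r s t)
          = avg fun r => avg fun s => avg fun t => d r s t from
        (congrArg avg (funext fun s => avg_swap fun t r => d r s t)).trans
          (avg_swap fun s r => avg fun t => d r s t)]
      linarith
  have hBB : (avg fun r => avg fun s => ‖B s - T r (B r)‖) ≤ 3 * ε := by
    have h1 : ∀ r s, ‖B s - T r (B r)‖ ≤
        avg fun t => ‖A s t - B s‖ + (e + d r s t) + ‖A r s - B r‖ := by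
      intro r s
      refine (avg_const (ι := ι) ‖B s - T r (B r)‖).ge.trans (avg_mono fun t => ?_)
      have h2 : ‖T r (A r s) - T r (B r)‖ = ‖A r s - B r‖ := by rw [← hTsub, hTn]
      have := norm_sub_le_norm_sub_add_norm_sub (B s) (A s t) (T r (B r))
      have := norm_sub_le_norm_sub_add_norm_sub (A s t) (T r (A r s)) (T r (B r))
      have := hA r s t
      rw [norm_sub_rev (B s) (A s t)] at *
      linarith
    refine (avg_mono fun r => avg_mono fun s => h1 r s).trans ?_
    simp only [avg_add, avg_const]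
    linarith
  have hBk : (avg fun s => ‖B s - κ‖) ≤ 3 * ε := by
    refine (avg_mono fun s => (?_ : ‖B s - κ‖ ≤ avg fun r => ‖B s - T r (B r)‖)).trans ?_
    · calc ‖B s - κ‖ = ‖avg fun r => B s - T r (B r)‖ := by rw [avg_sub, avg_const]
        _ ≤ _ := norm_avg_le_avg _
    · rw [avg_swap]; exact hBB
  have hinv : (avg fun r => ‖π (a r) κ - κ‖) ≤ 9 * ε := by
    refine (avg_mono fun r => (?_ : ‖π (a r) κ - κ‖ ≤
      avg fun s => ‖B s - κ‖ + ‖B s - T r (B r)‖ + ‖B r - κ‖)).trans ?_
    · refine (avg_const (ι := ι) ‖π (a r) κ - κ‖).ge.trans (avg_mono fun s => ?_)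
      have hk : ‖π (a r) κ - κ‖ = ‖κ - T r κ‖ := by
        have h0 : T r (π (a r) κ) = κ := by
          simp only [T, ← pi_mul, inv_mul_cancel, map_one]; rfl
        rw [← hTn r, hTsub, h0]
      have h2 : ‖T r (B r) - T r κ‖ = ‖B r - κ‖ := by rw [← hTsub, hTn]
      have := norm_sub_le_norm_sub_add_norm_sub κ (B s) (T r κ)
      have := norm_sub_le_norm_sub_add_norm_sub (B s) (T r (B r)) (T r κ)
      rw [norm_sub_rev κ (B s)] at *
      linarith
    · simp only [avg_add, avg_const]
      linarith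
  refine ⟨κ, ?_, ?_⟩
  · refine (norm_avg_le_avg _).trans ((avg_mono fun r => ?_).trans (avg_const C).le)
    rw [hTn]
    refine (norm_avg_le_avg _).trans ((avg_mono fun q => ?_).trans (avg_const C).le)
    rw [hTn]
    exact norm_Gam_le hn hC _ _ _
  · rw [avg_prod]
    refine (avg_mono fun r => avg_mono fun s => (?_ : _ ≤ 3 * e + ‖π (a r) κ - κ‖
      + (‖A r s - B r‖ + ‖B r - κ‖))).trans ?_
    · have h := gauge_homotopy (π := π) (a := a) hn hV (a r) (a s)
      have := norm_sub_le_norm_sub_add_norm_sub (A r s) (B r) κ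
      refine le_trans (le_of_eq (congrArg norm ?_)) ((norm_sub_le
        ((π (a r) (gauge n a V (a s)) - gauge n a V (a r * a s) + gauge n a V (a r)
          - (V (a r) (a s) - Gam n a π V 1 (a r) (a r * a s))) + (π (a r) κ - κ))
        (A r s - κ)).trans (by
          linarith [norm_add_le (π (a r) (gauge n a V (a s)) - gauge n a V (a r * a s)
            + gauge n a V (a r) - (V (a r) (a s) - Gam n a π V 1 (a r) (a r * a s)))
            (π (a r) κ - κ)]))
      simp only [A, map_add]; abel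
    · simp only [avg_add, avg_const]
      have he₁0 : 0 ≤ e₁ :=
        le_trans ((avg_const (ι := ι × ι × ι) (0 : ℝ)).ge.trans (avg_mono fun w => norm_nonneg _)) he₁
      linarith

end Vale.Agent.P096.KK
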