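import Vale.Agent.P096.KK.SqBasic

/-!
# P096: matrices of matrices are matrices, so closeness at every size passes to the matrices
-/

noncomputable section

set_option linter.unusedSectionVars false

namespace Vale.Agent.P096.KK

open scoped InnerProductSpace

universe u

namespace AmpAmp

/-! ### transport along a unitary between two spaces -/

section Transport

variable {K K' : Type u} [NormedAddCommGroup K] [InnerProductSpace ℂ K] [CompleteSpace K]
  [NormedAddCommGroup K'] [InnerProductSpace ℂ K'] [CompleteSpace K'] (U : K ≃ₗᵢ[ℂ] K')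

/-- Conjugation by a unitary between two spaces. -/
def cj (T : K →L[ℂ] K) : K' →L[ℂ] K' :=
  (U.toContinuousLinearEquiv : K →L[ℂ] K') ∘L T ∘L
    (U.symm.toContinuousLinearEquiv : K' →L[ℂ] K)

lemma cj_apply (T : K →L[ℂ] K) (v : K') : cj U T v = U (T (U.symm v)) := rfl

lemma cj_symm_cj (T : K →L[ℂ] K) : cj U.symm (cj U T) = T := by
  ext v; simp [cj_apply]

lemma cj_cj_symm (T : K' →L[ℂ] K') : cj U (cj U.symm T) = T := by
  ext v; simp [cj_apply]

lemma cj_mul (S T : K →L[ℂ] K) : cj U (S * T) = cj U S * cj U T := by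
  ext v; simp [cj_apply, mul_apply_eq_comp]

lemma cj_sub (S T : K →L[ℂ] K) : cj U (S - T) = cj U S - cj U T := by
  ext v; simp [cj_apply]

lemma cj_injective : Function.Injective (cj U) := fun S T h => by
  rw [← cj_symm_cj U S, h, cj_symm_cj]

lemma cj_comm (S T : K →L[ℂ] K) : cj U S * cj U T = cj U T * cj U S ↔ S * T = T * S := by
  rw [← cj_mul, ← cj_mul, (cj_injective U).eq_iff]

lemma norm_cj_le (T : K →L[ℂ] K) : ‖cj U T‖ ≤ ‖T‖ :=
  ContinuousLinearMap.opNorm_le_bound _ (norm_nonneg _) fun v => by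
    rw [cj_apply, LinearIsometryEquiv.norm_map]
    simpa using T.le_opNorm (U.symm v)

lemma norm_cj (T : K →L[ℂ] K) : ‖cj U T‖ = ‖T‖ :=
  le_antisymm (norm_cj_le U T) (by
    conv_lhs => rw [← cj_symm_cj U T]
    exact norm_cj_le U.symm _)

lemma star_cj (T : K →L[ℂ] K) : star (cj U T) = cj U (star T) := by
  rw [ContinuousLinearMap.star_eq_adjoint, ContinuousLinearMap.star_eq_adjoint]
  symm
  rw [ContinuousLinearMap.eq_adjoint_iff]
  intro x y
  calc ⟪cj U (ContinuousLinearMap.adjoint T) x, y⟫_ℂ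
      = ⟪U (ContinuousLinearMap.adjoint T (U.symm x)), U (U.symm y)⟫_ℂ := by simp [cj_apply]
    _ = ⟪ContinuousLinearMap.adjoint T (U.symm x), U.symm y⟫_ℂ := U.inner_map_map _ _
    _ = ⟪U.symm x, T (U.symm y)⟫_ℂ := ContinuousLinearMap.adjoint_inner_left _ _ _
    _ = ⟪U (U.symm x), U (T (U.symm y))⟫_ℂ := (U.inner_map_map _ _).symm
    _ = ⟪x, cj U T y⟫_ℂ := by simp [cj_apply]

lemma mem_cent_cj {N : Subalgebra ℂ (K →L[ℂ] K)} {N' : Subalgebra ℂ (K' →L[ℂ] K')}
    (hN : ∀ T, T ∈ N ↔ cj U T ∈ N') (T : K →L[ℂ] K) : T ∈ cent N ↔ cj U T ∈ cent N' := by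
  rw [mem_cent_iff, mem_cent_iff]
  constructor
  · intro h n hn
    rw [← cj_cj_symm U n, cj_comm]
    exact h _ ((hN _).2 (by rwa [cj_cj_symm]))
  · intro h n hn
    rw [← cj_comm U]
    exact h _ ((hN n).1 hn)

lemma mem_commutant_cj {M : VonNeumannAlgebra K} {M' : VonNeumannAlgebra K'}
    (hM : ∀ T, T ∈ M ↔ cj U T ∈ M') (T : K →L[ℂ] K) :
    T ∈ M.commutant ↔ cj U T ∈ M'.commutant := by
  rw [VonNeumannAlgebra.mem_commutant_iff, VonNeumannAlgebra.mem_commutant_iff]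
  constructor
  · intro h g hg
    rw [← cj_cj_symm U g, cj_comm]
    exact h _ ((hM _).2 (by rwa [cj_cj_symm]))
  · intro h g hg
    rw [← cj_comm U]
    exact h _ ((hM g).1 hg)

/-- Closeness pulled back along a unitary. -/
theorem close_pullback {M : VonNeumannAlgebra K} {Ω : K} {R : (K →L[ℂ] K) → K →L[ℂ] K}
    {N : Subalgebra ℂ (K →L[ℂ] K)} {P : Set (K →L[ℂ] K)} {M' : VonNeumannAlgebra K'} {Ω' : K'}
    {R' : (K' →L[ℂ] K') → K' →L[ℂ] K'} {N' : Subalgebra ℂ (K' →L[ℂ] K')}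
    {P' : Set (K' →L[ℂ] K')} {d ε : ℝ} (h : Close M' Ω' R' N' P' d ε) (hΩ : U Ω = Ω')
    (hM : ∀ T, T ∈ M ↔ cj U T ∈ M') (hN : ∀ T, T ∈ N ↔ cj U T ∈ N')
    (hR : ∀ T, R' (cj U T) = cj U (R T)) (hP : ∀ z, z ∈ P ↔ cj U z ∈ P') :
    Close M Ω R N P d ε := by
  have hC := mem_cent_cj U hN
  have hM' := mem_commutant_cj U hM
  have hΩ' : U.symm Ω' = Ω := by rw [← hΩ, LinearIsometryEquiv.symm_apply_apply]
  have happ : ∀ (T : K →L[ℂ] K) (v : K), cj U T (U v) = U (T v) := fun T v => by simp [cj_apply]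
  refine
    { std := ?_, pieces := ?_, bicent := ?_, d_nonneg := h.d_nonneg, ε_nonneg := h.ε_nonneg,
      near := ?_, near' := ?_, cnear := ?_, cnear' := ?_, small := ?_ }
  · refine
      { norm_one := by rw [← U.norm_map, hΩ]; exact h.std.norm_one
        trace := ?_
        cyclic := ?_
        right_mem := fun b hb => (hM' _).2 (by rw [← hR]; exact h.std.right_mem _ ((hM b).1 hb))
        right_apply := ?_ }
    · intro x hx y hy
      have e := h.std.trace _ ((hM x).1 hx) _ ((hM y).1 hy)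
      rw [← hΩ, happ, happ, happ, happ, LinearIsometryEquiv.inner_map_map,
        LinearIsometryEquiv.inner_map_map] at e
      exact e
    · refine Metric.dense_iff.2 fun v r hr => ?_
      obtain ⟨_, ⟨x, hx, rfl⟩, hd⟩ := h.std.cyclic.exists_dist_lt (U v) hr
      refine ⟨cj U.symm x Ω, ?_, cj U.symm x, (hM _).2 (by rwa [cj_cj_symm]), rfl⟩
      rw [Metric.mem_ball, dist_comm, ← U.dist_map, cj_apply]
      simpa [hΩ] using hd
    · intro b hb
      have e := h.std.right_apply _ ((hM b).1 hb)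
      rw [hR, ← hΩ, happ, happ] at e
      exact U.injective e
  · refine { one := ?_, proj := ?_, mem := ?_ }
    · rw [hP, show cj U (1 : K →L[ℂ] K) = 1 by ext v; simp [cj_apply]]
      exact h.pieces.one
    · intro z hz
      obtain ⟨h1, h2, h3⟩ := h.pieces.proj _ ((hP z).1 hz)
      refine ⟨(hM z).2 h1, ⟨?_, ?_⟩, fun x hx => (cj_comm U z x).1 (h3 _ ((hM x).1 hx))⟩
      · exact cj_injective U (by rw [cj_mul]; exact h2.isIdempotentElem)
      · exact cj_injective U (by rw [← star_cj]; exact h2.isSelfAdjoint.star_eq)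
    · intro z hz
      obtain ⟨h1, h2, h3⟩ := h.pieces.mem _ ((hP z).1 hz)
      exact ⟨(hN z).2 h1, (hC z).2 h2, cj_injective U (by rw [← hR]; exact h3)⟩
  · ext T
    rw [mem_cent_cj U hC T, h.bicent, hN]
  · intro x hx
    obtain ⟨n, hn, hd⟩ := h.near _ ((hM x).1 hx)
    refine ⟨cj U.symm n, (hN _).2 (by rwa [cj_cj_symm]), ?_⟩
    rw [← norm_cj U, cj_sub, cj_cj_symm, ← norm_cj U x]
    exact hd
  · intro n hn
    obtain ⟨x, hx, hd⟩ := h.near' _ ((hN n).1 hn)
    refine ⟨cj U.symm x, (hM _).2 (by rwa [cj_cj_symm]), ?_⟩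
    rw [← norm_cj U, cj_sub, cj_cj_symm, ← norm_cj U n]
    exact hd
  · intro y hy
    obtain ⟨z, hz, hd⟩ := h.cnear _ ((hM' y).1 hy)
    refine ⟨cj U.symm z, (hC _).2 (by rwa [cj_cj_symm]), ?_⟩
    rw [← norm_cj U, cj_sub, cj_cj_symm, ← norm_cj U y]
    exact hd
  · intro y hy
    obtain ⟨x, hx, hd⟩ := h.cnear' _ ((hC y).1 hy)
    refine ⟨cj U.symm x, (hM' _).2 (by rwa [cj_cj_symm]), ?_⟩
    rw [← norm_cj U, cj_sub, cj_cj_symm, ← norm_cj U y]
    exact hd
  · intro n hn b hb z hz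
    have e := h.small _ ((hN n).1 hn) _ ((hM b).1 hb) _ ((hP z).1 hz)
    rw [hR, ← hΩ, happ, happ, happ, happ, happ, norm_cj, norm_cj, ← map_sub,
      LinearIsometryEquiv.norm_map, LinearIsometryEquiv.norm_map] at e
    exact e

end Transport

/-! ### entries -/

section Entries

variable {H : Type u} [NormedAddCommGroup H] [InnerProductSpace ℂ H] [CompleteSpace H] {m : ℕ}

lemma mR_apply (Y : Fin m → Fin m → H →L[ℂ] H) (v : Sq H m) (i k : Fin m) :
    mR Y v (i, k) = ∑ j, Y j k (v (i, j)) := by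
  simp only [mR, sum_apply, sq_sum_apply, ContinuousLinearMap.comp_apply, spr_apply, sinj_apply,
    Prod.mk.injEq]
  rw [Finset.sum_eq_single i (fun a _ ha => by simp [ha]) (fun h => absurd (Finset.mem_univ i) h)]
  exact Finset.sum_congr rfl fun j _ => by simp

variable [NeZero m]

lemma apply_of_comm_rUnit {T : Sq H m →L[ℂ] Sq H m} (hT : ∀ i j, rUnit i j * T = T * rUnit i j)
    (v : Sq H m) (i k : Fin m) : T v (i, k) = ∑ j, lEnt T i j (v (j, k)) := by
  have h2 := congrArg (fun S : Sq H m →L[ℂ] Sq H m => S v (i, 0)) (hT k 0)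
  simp only [mul_apply_eq_comp, rUnit_apply, if_true] at h2
  have h3 : rUnit k 0 v = ∑ j, sinj (j, (0 : Fin m)) (v (j, k)) := sq_ext fun a b => by
    rw [rUnit_apply, sq_sum_apply]
    by_cases hb : 0 = b <;> simp [hb]
  rw [h2, h3, map_sum, sq_sum_apply]
  rfl

lemma comm_lEnt_of_comm_sdiag {T : Sq H m →L[ℂ] Sq H m} {g : H →L[ℂ] H}
    (h : sdiag m g * T = T * sdiag m g) (i j : Fin m) : g * lEnt T i j = lEnt T i j * g := by
  ext ξ
  have h1 : sinj (j, 0) (g ξ) = sdiag m g (sinj (j, (0 : Fin m)) ξ) := sq_ext fun a b => by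
    simp [apply_ite g]
  have h2 := congrArg (fun S : Sq H m →L[ℂ] Sq H m => S (sinj (j, 0) ξ) (i, 0)) h
  simp only [mul_apply_eq_comp, sdiag_apply] at h2
  simp only [mul_apply_eq_comp, lEnt_apply, h1, h2]

lemma comm_sdiag_of_lEnt {T : Sq H m →L[ℂ] Sq H m} (hT : ∀ i j, rUnit i j * T = T * rUnit i j)
    {Y : H →L[ℂ] H} (hY : ∀ i j, Y * lEnt T i j = lEnt T i j * Y) :
    sdiag m Y * T = T * sdiag m Y := by
  refine sq_op_ext fun v i k => ?_
  simp only [mul_apply_eq_comp, sdiag_apply, apply_of_comm_rUnit hT, map_sum]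
  exact Finset.sum_congr rfl fun j _ =>
    congrArg (fun S : H →L[ℂ] H => S (v (j, k))) (hY i j)

end Entries

/-! ### the reindexing -/

section Reindex

variable {H : Type u} [NormedAddCommGroup H] [InnerProductSpace ℂ H] [CompleteSpace H] {l m : ℕ}

/-- The index of a pair. -/
def idx (a : Fin l) (i : Fin m) : Fin (l * m) := finProdFinEquiv (a, i)

lemma idx_inj {a b : Fin l} {i j : Fin m} : idx a i = idx b j ↔ a = b ∧ i = j := by
  simp [idx]

lemma exists_idx (p : Fin (l * m)) : ∃ a i, idx (l := l) (m := m) a i = p :=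
  ⟨(finProdFinEquiv.symm p).1, (finProdFinEquiv.symm p).2, finProdFinEquiv.apply_symm_apply p⟩

lemma symm_idx (a : Fin l) (i : Fin m) :
    finProdFinEquiv.symm (idx a i) = (a, i) := finProdFinEquiv.symm_apply_apply _

lemma idx_symm (p : Fin (l * m)) :
    idx (finProdFinEquiv.symm p).1 (finProdFinEquiv.symm p).2 = p :=
  finProdFinEquiv.apply_symm_apply p

lemma sum_idx {β : Type*} [AddCommMonoid β] (f : Fin (l * m) → β) :
    ∑ p, f p = ∑ a : Fin l, ∑ i : Fin m, f (idx a i) := by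
  rw [← finProdFinEquiv.sum_comp f, Fintype.sum_prod_type]
  rfl

/-- The entries of an entry. -/
def flatLin (H : Type u) [NormedAddCommGroup H] [InnerProductSpace ℂ H] [CompleteSpace H]
    (l m : ℕ) : Sq (Sq H m) l ≃ₗ[ℂ] Sq H (l * m) where
  toFun v := WithLp.toLp 2 fun p =>
    v ((finProdFinEquiv.symm p.1).1, (finProdFinEquiv.symm p.2).1)
      ((finProdFinEquiv.symm p.1).2, (finProdFinEquiv.symm p.2).2)
  map_add' v w := by ext p; simp
  map_smul' c v := by ext p; simp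
  invFun w := WithLp.toLp 2 fun q => WithLp.toLp 2 fun r => w (idx q.1 r.1, idx q.2 r.2)
  left_inv v := by
    refine PiLp.ext fun q => PiLp.ext fun r => ?_
    simp only [symm_idx]
  right_inv w := by
    refine PiLp.ext fun p => ?_
    simp only [idx_symm]

lemma flatLin_apply (v : Sq (Sq H m) l) (a b : Fin l) (i k : Fin m) :
    flatLin H l m v (idx a i, idx b k) = v (a, b) (i, k) := by
  show v ((finProdFinEquiv.symm (idx a i)).1, (finProdFinEquiv.symm (idx b k)).1)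
    ((finProdFinEquiv.symm (idx a i)).2, (finProdFinEquiv.symm (idx b k)).2) = _
  simp only [symm_idx]

/-- The unitary from matrices of matrices to matrices. -/
def flat (H : Type u) [NormedAddCommGroup H] [InnerProductSpace ℂ H] [CompleteSpace H]
    (l m : ℕ) : Sq (Sq H m) l ≃ₗᵢ[ℂ] Sq H (l * m) where
  toLinearEquiv := flatLin H l m
  norm_map' v := by
    refine (sq_eq_sq₀ (norm_nonneg _) (norm_nonneg _)).1 ?_
    rw [PiLp.norm_sq_eq_of_L2, PiLp.norm_sq_eq_of_L2, Fintype.sum_prod_type, Fintype.sum_prod_type]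
    simp only [PiLp.norm_sq_eq_of_L2, Fintype.sum_prod_type, sum_idx, flatLin_apply]
    refine Finset.sum_congr rfl fun a _ => ?_
    rw [Finset.sum_comm]

lemma flat_apply (v : Sq (Sq H m) l) (a b : Fin l) (i k : Fin m) :
    flat H l m v (idx a i, idx b k) = v (a, b) (i, k) := flatLin_apply v a b i k

lemma flat_symm_apply (w : Sq H (l * m)) (a b : Fin l) (i k : Fin m) :
    (flat H l m).symm w (a, b) (i, k) = w (idx a i, idx b k) := by
  conv_rhs => rw [← (flat H l m).apply_symm_apply w]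
  rw [flat_apply]

lemma sq_ext_idx {v w : Sq H (l * m)}
    (h : ∀ (a b : Fin l) (i k : Fin m), v (idx a i, idx b k) = w (idx a i, idx b k)) : v = w := by
  refine sq_ext fun p q => ?_
  obtain ⟨a, i, rfl⟩ := exists_idx (l := l) (m := m) p
  obtain ⟨b, k, rfl⟩ := exists_idx (l := l) (m := m) q
  exact h a b i k

lemma cj_sdiag (y : H →L[ℂ] H) :
    cj (flat H l m) (sdiag l (sdiag m y)) = sdiag (l * m) y := by
  refine ContinuousLinearMap.ext fun w => sq_ext_idx fun a b i k => ?_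
  rw [cj_apply, flat_apply, sdiag_apply, sdiag_apply, flat_symm_apply, sdiag_apply]

lemma cj_rUnit (a b : Fin l) (i j : Fin m) :
    cj (flat H l m) (rUnit a b * sdiag l (rUnit i j)) = rUnit (idx a i) (idx b j) := by
  refine ContinuousLinearMap.ext fun w => sq_ext_idx fun a' b' i' k' => ?_
  rw [cj_apply, flat_apply, mul_apply_eq_comp, rUnit_apply, rUnit_apply]
  simp only [idx_inj]
  by_cases hb : b = b' <;> by_cases hk : j = k' <;> simp [hb, hk, flat_symm_apply]

lemma sum_rUnit_diag : ∑ i : Fin m, rUnit (H := H) i i = 1 := by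
  refine sq_op_ext fun v a b => ?_
  rw [sum_apply, sq_sum_apply]
  simp

/-- Commuting with the generators of the double matrices is commuting with those of the matrices. -/
lemma comm_gen_iff [NeZero l] (S : Set (H →L[ℂ] H))
    (T : Sq (Sq H m) l →L[ℂ] Sq (Sq H m) l) :
    (∀ g ∈ sqGen (l * m) S, g * cj (flat H l m) T = cj (flat H l m) T * g) ↔
      ((∀ a b : Fin l, rUnit a b * T = T * rUnit a b) ∧
        ∀ g ∈ sqGen m S, sdiag l g * T = T * sdiag l g) := by
  constructor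
  · intro h
    have hu : ∀ (a b : Fin l) (i j : Fin m),
        rUnit a b * sdiag l (rUnit (H := H) i j) * T = T * (rUnit a b * sdiag l (rUnit i j)) := by
      intro a b i j
      have e := h _ (Or.inr ⟨(idx a i, idx b j), rfl⟩)
      simp only at e
      rwa [← cj_rUnit, cj_comm] at e
    refine ⟨fun a b => ?_, ?_⟩
    · have e : (rUnit a b : Sq (Sq H m) l →L[ℂ] Sq (Sq H m) l)
          = ∑ i : Fin m, rUnit a b * sdiag l (rUnit i i) := by
        rw [← Finset.mul_sum, ← sdiag_sum, sum_rUnit_diag, sdiag_one, mul_one]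
      rw [e, Finset.sum_mul, Finset.mul_sum]
      exact Finset.sum_congr rfl fun i _ => hu a b i i
    · rintro g (⟨y, hy, rfl⟩ | ⟨⟨i, j⟩, rfl⟩)
      · rw [← cj_comm (flat H l m), cj_sdiag]
        exact h _ (Or.inl ⟨y, hy, rfl⟩)
      · have e : sdiag l (rUnit (H := H) i j)
            = ∑ a : Fin l, rUnit a a * sdiag l (rUnit i j) := by
          rw [← Finset.sum_mul, sum_rUnit_diag, one_mul]
        rw [e, Finset.sum_mul, Finset.mul_sum]
        exact Finset.sum_congr rfl fun a _ => hu a a i j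
  · rintro ⟨h1, h2⟩ g (⟨y, hy, rfl⟩ | ⟨⟨p, q⟩, rfl⟩)
    · rw [← cj_sdiag, cj_comm]
      exact h2 _ (Or.inl ⟨y, hy, rfl⟩)
    · obtain ⟨a, i, rfl⟩ := exists_idx (l := l) (m := m) p
      obtain ⟨b, j, rfl⟩ := exists_idx (l := l) (m := m) q
      simp only
      rw [← cj_rUnit, cj_comm, mul_assoc, h2 _ (Or.inr ⟨(i, j), rfl⟩), ← mul_assoc, h1, mul_assoc]

variable [NeZero l] [NeZero m]

lemma mem_sqM_sqM (M : VonNeumannAlgebra H) (T : Sq (Sq H m) l →L[ℂ] Sq (Sq H m) l) :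
    T ∈ sqM (sqM M m) l ↔ cj (flat H l m) T ∈ sqM M (l * m) := by
  have hbig : cj (flat H l m) T ∈ sqM M (l * m) ↔
      ∀ g ∈ sqGen (l * m) (M.commutant : Set (H →L[ℂ] H)),
        g * cj (flat H l m) T = cj (flat H l m) T * g := by
    rw [mem_sqM_iff]
    exact ⟨fun h g hg => by
        rcases hg with ⟨y, hy, rfl⟩ | ⟨⟨i, j⟩, rfl⟩
        exacts [h.1 y hy, h.2 i j],
      fun h => ⟨fun y hy => h _ (Or.inl ⟨y, hy, rfl⟩), fun i j => h _ (Or.inr ⟨(i, j), rfl⟩)⟩⟩
  rw [hbig, comm_gen_iff, mem_sqM_iff]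
  constructor
  · rintro ⟨h1, h2⟩
    refine ⟨h2, ?_⟩
    rintro g (⟨y, hy, rfl⟩ | ⟨⟨i, j⟩, rfl⟩)
    · exact h1 _ (sdiag_mem_commutant hy)
    · refine h1 _ (VonNeumannAlgebra.mem_commutant_iff.2 fun S hS => ?_)
      exact ((mem_sqM_iff.1 hS).2 i j).symm
  · rintro ⟨h1, h2⟩
    refine ⟨fun Y hY => comm_sdiag_of_lEnt h1 fun a b => ?_, h1⟩
    refine (VonNeumannAlgebra.mem_commutant_iff.1 hY _ (mem_sqM_iff.2 ⟨fun y hy => ?_,
      fun i j => ?_⟩)).symm
    · exact comm_lEnt_of_comm_sdiag (h2 _ (Or.inl ⟨y, hy, rfl⟩)) a b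
    · exact comm_lEnt_of_comm_sdiag (h2 _ (Or.inr ⟨(i, j), rfl⟩)) a b

lemma mem_sqN_sqN (N : Subalgebra ℂ (H →L[ℂ] H)) (T : Sq (Sq H m) l →L[ℂ] Sq (Sq H m) l) :
    T ∈ sqN (sqN N m) l ↔ cj (flat H l m) T ∈ sqN N (l * m) := by
  unfold sqN
  rw [Subalgebra.mem_centralizer_iff, Subalgebra.mem_centralizer_iff, comm_gen_iff]
  constructor
  · intro h
    refine ⟨fun a b => h _ (Or.inr ⟨(a, b), rfl⟩), fun g hg => h _ (Or.inl ⟨g, ?_, rfl⟩)⟩
    exact mem_cent_iff.2 fun n hn => ((Subalgebra.mem_centralizer_iff ℂ).1 hn g hg).symm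
  · rintro ⟨h1, h2⟩ g (⟨Y, hY, rfl⟩ | ⟨⟨a, b⟩, rfl⟩)
    · refine comm_sdiag_of_lEnt h1 fun a b => ((mem_cent_iff.1 hY) _ ?_).symm
      exact (Subalgebra.mem_centralizer_iff ℂ).2 fun g hg => comm_lEnt_of_comm_sdiag (h2 g hg) a b
    · exact h1 a b

lemma idx_zero : idx (0 : Fin l) (0 : Fin m) = 0 := by
  ext; simp [idx]

lemma cj_sqR (R : (H →L[ℂ] H) → H →L[ℂ] H) (T : Sq (Sq H m) l →L[ℂ] Sq (Sq H m) l) :
    sqR R (l * m) (cj (flat H l m) T) = cj (flat H l m) (sqR (sqR R m) l T) := by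
  have hent : ∀ (b c : Fin l) (j k : Fin m),
      lEnt (cj (flat H l m) T) (idx b j) (idx c k) = lEnt (lEnt T b c) j k := by
    intro b c j k
    ext ξ
    have e : (flat H l m).symm (sinj (idx c k, 0) ξ)
        = sinj (c, (0 : Fin l)) (sinj (k, (0 : Fin m)) ξ) := by
      refine sq_ext fun a a' => sq_ext fun i i' => ?_
      rw [flat_symm_apply, ← idx_zero (l := l) (m := m), sinj_apply, sinj_apply]
      by_cases h1 : c = a <;> by_cases h2 : (0 : Fin l) = a' <;> simp [idx_inj, h1, h2]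
    rw [lEnt_apply, cj_apply, e, ← idx_zero (l := l) (m := m), flat_apply]
    rfl
  refine ContinuousLinearMap.ext fun w => sq_ext_idx fun a c i k => ?_
  rw [sqR, mR_apply, cj_apply, flat_apply, sqR, mR_apply, sq_sum_apply, sum_idx]
  refine Finset.sum_congr rfl fun b _ => ?_
  rw [sqR, mR_apply]
  refine Finset.sum_congr rfl fun j _ => ?_
  rw [hent, flat_symm_apply]

lemma flat_sqVec (Ω : H) : flat H l m (sqVec l (sqVec m Ω)) = sqVec (l * m) Ω := by
  refine sq_ext_idx fun a b i k => ?_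
  rw [flat_apply, sqVec_apply, sqVec_apply, Nat.cast_mul, Real.sqrt_mul (Nat.cast_nonneg l),
    Complex.ofReal_mul, mul_inv]
  by_cases h1 : a = b
  · subst h1
    by_cases h2 : i = k <;> simp [idx_inj, h2, sqVec_apply, smul_smul]
  · simp [idx_inj, h1]

end Reindex

end AmpAmp

open AmpAmp in
/-- Closeness at every size passes to the matrices of every size. -/
theorem allSizes_sq {H : Type u} [NormedAddCommGroup H] [InnerProductSpace ℂ H] [CompleteSpace H]
    {M : VonNeumannAlgebra H} {Ω : H} {R : (H →L[ℂ] H) → H →L[ℂ] H}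
    {N : Subalgebra ℂ (H →L[ℂ] H)} {P : Set (H →L[ℂ] H)} {d ε : ℝ}
    (h : AllSizes M Ω R N P d ε) (m : ℕ) [NeZero m] :
    AllSizes (sqM M m) (sqVec m Ω) (sqR R m) (sqN N m) (sdiag m '' P) d ε := by
  refine ⟨h.2 m, fun l _ => ?_⟩
  refine close_pullback (flat H l m) (h.2 (l * m)) (flat_sqVec Ω) (mem_sqM_sqM M) (mem_sqN_sqN N)
    (cj_sqR R) fun z => ⟨?_, ?_⟩
  · rintro ⟨_, ⟨y, hy, rfl⟩, rfl⟩
    exact ⟨y, hy, (cj_sdiag y).symm⟩
  · rintro ⟨y, hy, hz⟩
    refine ⟨_, ⟨y, hy, rfl⟩, cj_injective (flat H l m) ?_⟩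
    rw [cj_sdiag, hz]

end Vale.Agent.P096.KK
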