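import Vale.Agent.P096.KK.Corner
import Vale.Agent.P104.Type.Fam

/-!
# P096: stability passes to countable central sums

The central projections are moved into the near algebra by the group of their signs, stay central
there, and the unitaries of the pieces are added up.
-/

noncomputable section

namespace Vale.Agent.P096.KK

open Vale.Agent.P104.Red (sp IsCentral Fam)
open P132.Homog.TypeIII

universe u

variable {H : Type u} [NormedAddCommGroup H] [InnerProductSpace ℂ H] [CompleteSpace H]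
variable {ι : Type} [DecidableEq ι] {z : ι → (H →L[ℂ] H)}

/-- All bounded operators. -/
def allOps (H : Type u) [NormedAddCommGroup H] [InnerProductSpace ℂ H] [CompleteSpace H] :
    VonNeumannAlgebra H where
  toStarSubalgebra := ⊤
  centralizer_centralizer' := Set.Subset.antisymm (fun _ _ => StarSubalgebra.mem_top)
    fun _ _ _ hc => (hc _ StarSubalgebra.mem_top).symm

lemma mem_allOps (x : H →L[ℂ] H) : x ∈ allOps H := StarSubalgebra.mem_top (R := ℂ) (x := x)

/-- Orthogonal self-adjoint idempotents. -/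
structure OrthProj (z : ι → (H →L[ℂ] H)) : Prop where
  proj : ∀ i, IsStarProjection (z i)
  orth : ∀ i j, i ≠ j → z i * z j = 0

/-- The sign of a finite set of the projections. -/
def signU (z : ι → (H →L[ℂ] H)) (t : Finset ι) : H →L[ℂ] H := 1 - 2 • ∑ i ∈ t, z i

lemma OrthProj.sum_mul_sum (hz : OrthProj z) (a b : Finset ι) :
    (∑ i ∈ a, z i) * (∑ j ∈ b, z j) = ∑ i ∈ a ∩ b, z i := by
  rw [Finset.sum_mul, ← Finset.sum_ite_mem]
  refine Finset.sum_congr rfl fun i _ => ?_
  rw [Finset.mul_sum]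
  by_cases hi : i ∈ b
  · rw [if_pos hi, Finset.sum_eq_single_of_mem i hi fun j _ hj => hz.orth i j hj.symm]
    exact (hz.proj i).isIdempotentElem.eq
  · rw [if_neg hi]
    exact Finset.sum_eq_zero fun j hj => hz.orth i j fun h => hi (h ▸ hj)

lemma OrthProj.signU_mul (hz : OrthProj z) (a b : Finset ι) :
    signU z a * signU z b = signU z ((a \ b) ∪ (b \ a)) := by
  have h1 : (∑ i ∈ (a \ b) ∪ (b \ a), z i) + 2 • ∑ i ∈ a ∩ b, z i
      = (∑ i ∈ a, z i) + ∑ i ∈ b, z i := by
    rw [Finset.sum_union disjoint_sdiff_sdiff, ← Finset.sum_inter_add_sum_sdiff a b z,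
      ← Finset.sum_inter_add_sum_sdiff b a z, Finset.inter_comm b a, two_smul]
    abel
  simp only [signU, sub_mul, mul_sub, one_mul, mul_one, smul_mul_assoc, mul_smul_comm,
    hz.sum_mul_sum]
  rw [eq_sub_of_add_eq h1]
  simp only [smul_sub, smul_add]
  abel

lemma OrthProj.star_signU (hz : OrthProj z) (a : Finset ι) : star (signU z a) = signU z a := by
  simp only [signU, star_sub, star_one, two_smul, star_add, star_sum]
  rw [Finset.sum_congr rfl fun i _ => (hz.proj i).isSelfAdjoint.star_eq]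

lemma OrthProj.signU_unitary (hz : OrthProj z) (a : Finset ι) :
    signU z a ∈ unitary (H →L[ℂ] H) := by
  refine Unitary.mem_iff.2 ⟨?_, ?_⟩ <;> rw [hz.star_signU, hz.signU_mul] <;> simp [signU]

/-- The signs supported in a finite set. -/
def signGroup (hz : OrthProj z) (s : Finset ι) : Subgroup (unitary (H →L[ℂ] H)) where
  carrier := {u | ∃ t ⊆ s, (u : H →L[ℂ] H) = signU z t}
  mul_mem' := by
    rintro x y ⟨a, ha, hx⟩ ⟨b, hb, hy⟩
    exact ⟨_, Finset.union_subset (Finset.sdiff_subset.trans ha) (Finset.sdiff_subset.trans hb),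
      by rw [Submonoid.coe_mul, hx, hy, hz.signU_mul]⟩
  one_mem' := ⟨∅, Finset.empty_subset s, by simp [signU]⟩
  inv_mem' := by
    rintro x ⟨a, ha, hx⟩
    exact ⟨a, ha, by rw [← Unitary.star_eq_inv, Unitary.coe_star, hx, hz.star_signU]⟩

/-- Orthogonal projections of `M` rotate into a close algebra. -/
lemma exists_sign_rotate [Countable ι] (hz : OrthProj z) {M N : VonNeumannAlgebra H}
    (hM : ∀ i, z i ∈ M) {r : ℝ} (h : kkDist M N < r) (hr : r ≤ 1 / 800) :
    ∃ v ∈ unitary (H →L[ℂ] H), ‖v - 1‖ ≤ 210 * r ∧ ∀ i, v * z i * star v ∈ N := by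
  obtain ⟨num, hnum⟩ := Countable.exists_injective_nat ι
  have hfin : ∀ n, {i : ι | num i < n}.Finite := fun n =>
    (Set.finite_Iio n).preimage hnum.injOn
  let s : ℕ → Finset ι := fun n => (hfin n).toFinset
  obtain ⟨v, hv, hv1, hvN, -, -⟩ := exists_rotate h hr (fun n => signGroup hz (s n))
    (fun a b hab u hu => by
      obtain ⟨t, ht, hu⟩ := hu
      exact ⟨t, ht.trans (Set.Finite.toFinset_subset_toFinset.2 fun i hi =>
        lt_of_lt_of_le hi hab), hu⟩)
    (fun n => by
      refine (((s n).powerset.finite_toSet.image (signU z)).preimage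
        Subtype.val_injective.injOn).subset ?_
      rintro u ⟨t, ht, hu⟩
      exact ⟨t, Finset.mem_powerset.2 ht, hu.symm⟩)
    (fun n g hg => by
      obtain ⟨t, -, hg'⟩ := hg
      rw [hg']
      exact sub_mem (one_mem M) (nsmul_mem (sum_mem fun i _ => hM i) 2))
  refine ⟨v, hv, hv1, fun i => ?_⟩
  have hi : i ∈ s (num i + 1) := by simp [s]
  have hS := hvN _ ⟨signU z {i}, hz.signU_unitary _⟩
    ⟨{i}, Finset.singleton_subset_iff.2 hi, rfl⟩
  have key : v * z i * star v = (2⁻¹ : ℂ) • (1 - v * signU z {i} * star v) := by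
    rw [signU, Finset.sum_singleton, mul_sub, mul_one, sub_mul,
      Unitary.mul_star_self_of_mem hv, sub_sub_cancel, mul_smul_comm, smul_mul_assoc, two_nsmul,
      ← two_smul ℂ (v * z i * star v), smul_smul, inv_mul_cancel₀ two_ne_zero, one_smul]
  rw [key]
  exact SMulMemClass.smul_mem (s := N.toStarSubalgebra) _ (sub_mem (one_mem N) hS)

/-- A central projection of `M` lying in a close algebra is central there. -/
lemma central_of_near {M N : VonNeumannAlgebra H} {p : H →L[ℂ] H} (hp : IsCentral M p)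
    (hpN : p ∈ N) {r : ℝ} (h : kkDist M N < r) (hr : r < 1) : IsCentral N p := by
  have hps := hp.proj.2
  have hp1 : ‖p‖ ≤ 1 := ContinuousLinearMap.opNorm_le_bound _ zero_le_one fun v => by
    rw [one_mul]; exact proj_norm_apply_le hps v
  have hq1 : ‖1 - p‖ ≤ 1 := ContinuousLinearMap.opNorm_le_bound _ zero_le_one fun v => by
    rw [one_mul]; exact proj_norm_apply_le hps.one_sub v
  have key : ∀ y ∈ N, (1 - p) * y * p = 0 := by
    intro y hy
    set w := (1 - p) * y * p with hw
    by_contra h0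
    have hw0 : 0 < ‖w‖ := norm_pos_iff.2 h0
    have hwN : w ∈ N := mul_mem (mul_mem (sub_mem (one_mem N) hpN) hy) hpN
    set c : ℂ := ((‖w‖⁻¹ : ℝ) : ℂ) with hc
    have hcw : c • w ∈ N := SMulMemClass.smul_mem (s := N.toStarSubalgebra) _ hwN
    have hn : ‖c • w‖ = 1 := by
      rw [norm_smul, hc, Complex.norm_real, Real.norm_of_nonneg (by positivity),
        inv_mul_cancel₀ hw0.ne']
    obtain ⟨x, hx, -, hd⟩ := kk_exists_near ((kk_comm N M).trans_lt h) hcw hn.le
    have h1 : (1 - p) * x * p = 0 := by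
      rw [mul_assoc, ← hp.comm x hx, ← mul_assoc, sub_mul, one_mul, hps.isIdempotentElem.eq,
        sub_self, zero_mul]
    have h2 : (1 - p) * (c • w) * p = c • w := by
      rw [hw, mul_smul_comm, smul_mul_assoc]
      congr 1
      rw [show (1 - p) * ((1 - p) * y * p) * p = ((1 - p) * (1 - p)) * y * (p * p) by noncomm_ring,
        hps.one_sub.isIdempotentElem.eq, hps.isIdempotentElem.eq]
    have h3 : ‖c • w‖ ≤ ‖c • w - x‖ := by
      have e : c • w = (1 - p) * (c • w - x) * p := by rw [mul_sub, sub_mul, h2, h1, sub_zero]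
      conv_lhs => rw [e]
      exact ((norm_mul_le _ _).trans (mul_le_of_le_one_right (norm_nonneg _) hp1)).trans
        ((norm_mul_le _ _).trans (mul_le_of_le_one_left (norm_nonneg _) hq1))
    linarith
  refine ⟨⟨hpN, hps⟩, fun y hy => ?_⟩
  have h1 := key y hy
  have h2 := congrArg star (key (star y) (star_mem hy))
  rw [star_zero, star_mul, star_mul, star_star, hps.isSelfAdjoint.star_eq, star_sub, star_one,
    hps.isSelfAdjoint.star_eq] at h2
  rw [sub_mul, one_mul, sub_mul, sub_eq_zero] at h1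
  rw [mul_sub, mul_one, mul_sub, ← mul_assoc, sub_eq_zero] at h2
  rw [h2, ← h1]

/-- A unitary respecting a central decomposition which moves the pieces into `N` moves all. -/
lemma image_subset_of_pieces {M N : VonNeumannAlgebra H} (hM : ∀ i, IsCentral M (z i))
    (hN : ∀ i, IsCentral N (z i)) (htot : ∀ v, HasSum (fun i => z i v) v) {U : H →L[ℂ] H}
    (hc : ∀ i, ∀ a ∈ M, z i * U * a * star U ∈ N) :
    ∀ x ∈ M, U * x * star U ∈ N := by
  intro x hx
  refine Vale.Agent.P078.General.mem_vna_of_commute fun c hc' => ?_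
  have hcz : ∀ i, c * z i = z i * c := fun i => (hc' _ (hN i).proj.1).symm
  refine ContinuousLinearMap.ext fun v => ?_
  rw [mul_apply_eq_comp, mul_apply_eq_comp]
  refine ((htot _).mapL c).unique ?_
  refine (htot _).congr_fun fun i => ?_
  have h1 : c * (z i * U * x * star U) = z i * U * x * star U * c := (hc' _ (hc i x hx)).symm
  have h2 := DFunLike.congr_fun h1 v
  simp only [mul_apply_eq_comp] at h2 ⊢
  exact h2

/-- The operator of a corner on the whole space, as a member of a family. -/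
lemma eCor_fam (hz : OrthProj z) {u : ∀ i, sp (z i) →L[ℂ] sp (z i)}
    (hu : ∀ i, u i ∈ unitary (sp (z i) →L[ℂ] sp (z i))) :
    Fam (allOps H) fun i => eCor (hz.proj i) (u i) := by
  have h1 : ∀ i, star (eCor (hz.proj i) (u i)) * eCor (hz.proj i) (u i) = z i := fun i => by
    rw [← eCor_star, ← eCor_mul, Unitary.star_mul_self_of_mem (hu i), eCor_one]
  refine ⟨fun i => ⟨mem_allOps _, (h1 i).symm ▸ hz.proj i, by rw [h1 i, eCor_p]⟩,
    fun i j hij => ?_, fun i j hij => ?_⟩
  · rw [← eCor_star, ← eCor_p (hz.proj i) (star (u i)), ← p_eCor (hz.proj j) (u j), mul_assoc,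
      ← mul_assoc (z i), hz.orth i j hij, zero_mul, mul_zero]
  · rw [← eCor_star, ← eCor_p (hz.proj i) (u i), ← p_eCor (hz.proj j) (star (u j)), mul_assoc,
      ← mul_assoc (z i), hz.orth i j hij, zero_mul, mul_zero]

/-- The sum of unitaries of the pieces. -/
def sumU (hz : OrthProj z) {u : ∀ i, sp (z i) →L[ℂ] sp (z i)}
    (hu : ∀ i, u i ∈ unitary (sp (z i) →L[ℂ] sp (z i))) : H →L[ℂ] H :=
  (eCor_fam hz hu).sum

variable (hz : OrthProj z) {u : ∀ i, sp (z i) →L[ℂ] sp (z i)}
  (hu : ∀ i, u i ∈ unitary (sp (z i) →L[ℂ] sp (z i)))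

lemma proj_sumU (i : ι) : z i * sumU hz hu = eCor (hz.proj i) (u i) := by
  refine ContinuousLinearMap.ext fun v => (((eCor_fam hz hu).hasSum v).mapL (z i)).unique ?_
  have h0 : z i (eCor (hz.proj i) (u i) v) = eCor (hz.proj i) (u i) v :=
    DFunLike.congr_fun (p_eCor (hz.proj i) (u i)) v
  conv => arg 2; rw [← h0]
  refine hasSum_single i fun j hj => ?_
  have := DFunLike.congr_fun (hz.orth i j (Ne.symm hj)) (eCor (hz.proj j) (u j) v)
  rw [mul_apply_eq_comp] at this
  rwa [show z j (eCor (hz.proj j) (u j) v) = eCor (hz.proj j) (u j) v from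
    DFunLike.congr_fun (p_eCor (hz.proj j) (u j)) v] at this

lemma star_sumU : star (sumU hz hu)
    = sumU hz (u := fun i => star (u i)) fun i => Unitary.star_mem (hu i) := by
  rw [sumU, (eCor_fam hz hu).star_sum, sumU]
  congr 1
  funext i
  exact (eCor_star (hz.proj i) (u i)).symm

lemma sumU_proj (i : ι) : sumU hz hu * z i = eCor (hz.proj i) (u i) := by
  have h := congrArg star (proj_sumU hz (u := fun i => star (u i))
    (fun i => Unitary.star_mem (hu i)) i)
  rw [← star_sumU, star_mul, star_star, (hz.proj i).isSelfAdjoint.star_eq, eCor_star,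
    star_star] at h
  exact h

lemma sumU_unitary (htot : ∀ v, HasSum (fun i => z i v) v) :
    sumU hz hu ∈ unitary (H →L[ℂ] H) := by
  have key : ∀ {u : ∀ i, sp (z i) →L[ℂ] sp (z i)}
      (hu : ∀ i, u i ∈ unitary (sp (z i) →L[ℂ] sp (z i))),
      star (sumU hz hu) * sumU hz hu = 1 := fun {u} hu => by
    rw [sumU, (eCor_fam hz hu).star_mul_sum]
    refine ContinuousLinearMap.ext fun v =>
      ((eCor_fam hz hu).initFam.hasSum v).unique ((htot v).congr_fun fun i => ?_)
    refine DFunLike.congr_fun ?_ v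
    rw [← eCor_star, ← eCor_mul, Unitary.star_mul_self_of_mem (hu i), eCor_one]
  refine Unitary.mem_iff.2 ⟨key hu, ?_⟩
  have := key (u := fun i => star (u i)) fun i => Unitary.star_mem (hu i)
  rwa [← star_sumU, star_star] at this

lemma norm_sumU_sub_one_le (htot : ∀ v, HasSum (fun i => z i v) v) {θ : ℝ} (hθ : 0 ≤ θ)
    (h1 : ∀ i, ‖u i - 1‖ ≤ θ) : ‖sumU hz hu - 1‖ ≤ θ := by
  refine ContinuousLinearMap.opNorm_le_bound _ hθ fun v => ?_
  have hs : HasSum (fun i => eCor (hz.proj i) (u i - 1) v) ((sumU hz hu - 1) v) := by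
    rw [sub_apply, one_apply_eq_self]
    refine (((eCor_fam hz hu).hasSum v).sub (htot v)).congr_fun fun i => ?_
    rw [eCor_sub, eCor_one, sub_apply]
  have horth : ∀ i j, i ≠ j →
      inner ℂ (eCor (hz.proj i) (u i - 1) v) (eCor (hz.proj j) (u j - 1) v) = 0 := by
    intro i j hij
    have e1 := DFunLike.congr_fun (p_eCor (hz.proj i) (u i - 1)) v
    have e2 := DFunLike.congr_fun (p_eCor (hz.proj j) (u j - 1)) v
    rw [mul_apply_eq_comp] at e1 e2
    rw [← e1, ← e2, proj_inner (hz.proj i)]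
    have := DFunLike.congr_fun (hz.orth i j hij) (eCor (hz.proj j) (u j - 1) v)
    rw [mul_apply_eq_comp, zero_apply] at this
    rw [this, inner_zero_right]
  have hzf : Fam (allOps H) z := ⟨fun i => PI.of_proj ⟨mem_allOps _, hz.proj i⟩,
    fun i j h => by rw [(hz.proj i).isSelfAdjoint.star_eq]; exact hz.orth i j h,
    fun i j h => by rw [(hz.proj j).isSelfAdjoint.star_eq]; exact hz.orth i j h⟩
  have hg : HasSum (fun i => θ ^ 2 * ‖z i v‖ ^ 2) (θ ^ 2 * ‖v‖ ^ 2) := by
    have h := hzf.norm_sum_apply_sq v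
    rw [(hzf.hasSum v).unique (htot v)] at h
    exact h.mul_left _
  obtain ⟨-, h2⟩ := orth_summable horth (fun i => by
    rw [← mul_pow]
    refine pow_le_pow_left₀ (norm_nonneg _) ?_ 2
    calc ‖eCor (hz.proj i) (u i - 1) v‖ = ‖eCor (hz.proj i) (u i - 1) (z i v)‖ := by
          have := DFunLike.congr_fun (eCor_p (hz.proj i) (u i - 1)) v
          rw [mul_apply_eq_comp] at this
          rw [this]
      _ ≤ θ * ‖z i v‖ := ((eCor (hz.proj i) _).le_opNorm _).trans
          (mul_le_mul_of_nonneg_right ((norm_eCor_le _ _).trans (h1 i)) (norm_nonneg _))) hg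
  rw [hs.tsum_eq, ← mul_pow] at h2
  exact (pow_le_pow_iff_left₀ (norm_nonneg _) (by positivity) two_ne_zero).1 h2

lemma sumU_conj_piece (i : ι) (a : H →L[ℂ] H) (h : z i * a = a * z i) :
    z i * sumU hz hu * a * star (sumU hz hu)
      = eCor (hz.proj i) (u i * cCor (hz.proj i) a * star (u i)) := by
  have e : z i * star (sumU hz hu) = eCor (hz.proj i) (star (u i)) := by
    rw [star_sumU, proj_sumU]
  rw [proj_sumU, eCor_mul, eCor_mul, eCor_cCor, ← e,
    show eCor (hz.proj i) (u i) * (z i * a * z i) * (z i * star (sumU hz hu))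
      = (eCor (hz.proj i) (u i) * z i) * a * (z i * z i * star (sumU hz hu)) by noncomm_ring,
    eCor_p, (hz.proj i).isIdempotentElem.eq, ← mul_assoc (eCor _ _ * a),
    mul_assoc (eCor _ _) a (z i), ← h, ← mul_assoc (eCor _ _), eCor_p]

/-- Stability of all pieces of a central decomposition gives stability of the algebra. -/
theorem centralSumKK [Countable ι] {M N : VonNeumannAlgebra H} (hM : ∀ i, IsCentral M (z i))
    (horth : ∀ i j, i ≠ j → z i * z j = 0) (htot : ∀ v, HasSum (fun i => z i v) v)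
    {θ₁ δ₁ r : ℝ} (hθ : 0 ≤ θ₁)
    (hcor : ∀ i, ∀ N' : VonNeumannAlgebra (sp (z i)),
      kkDist (cornerAlg (hM i).proj.2 M) N' < δ₁ →
      ∃ u ∈ unitary (sp (z i) →L[ℂ] sp (z i)), ‖u - 1‖ ≤ θ₁ ∧
        (fun x => u * x * star u) '' (cornerAlg (hM i).proj.2 M : Set (sp (z i) →L[ℂ] sp (z i)))
          = (N' : Set (sp (z i) →L[ℂ] sp (z i))))
    (h : kkDist M N < r) (hr : r ≤ 1 / 800) (hr' : 500 * r ≤ δ₁) :
    ∃ u ∈ unitary (H →L[ℂ] H), ‖u - 1‖ ≤ θ₁ + 210 * r ∧
      (fun x => u * x * star u) '' (M : Set (H →L[ℂ] H)) = (N : Set (H →L[ℂ] H)) := by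
  have hz : OrthProj z := ⟨fun i => (hM i).proj.2, horth⟩
  have hr0 : 0 < r := Metric.hausdorffDist_nonneg.trans_lt h
  obtain ⟨v, hv, hv1, hvN⟩ := exists_sign_rotate hz (fun i => (hM i).proj.1) h hr
  obtain ⟨N₁, hN₁⟩ : ∃ N₁ : VonNeumannAlgebra H,
      (fun x => star v * x * star (star v)) '' (N : Set (H →L[ℂ] H))
        = (N₁ : Set (H →L[ℂ] H)) :=
    ⟨conjAlg ⟨star v, Unitary.star_mem hv⟩ N,
      (coe_conjAlg ⟨star v, Unitary.star_mem hv⟩ N).symm⟩
  have h1 := kkDist_rotate_le h (Unitary.star_mem hv) hN₁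
  rw [show ‖star v - 1‖ = ‖v - 1‖ by rw [← norm_star, star_sub, star_star, star_one]] at h1
  have hd : kkDist M N₁ < 450 * r := by linarith
  have hN₁z : ∀ i, IsCentral N₁ (z i) := fun i => by
    refine central_of_near (hM i) ((Set.ext_iff.1 hN₁ _).1 ⟨_, hvN i, ?_⟩) hd (by linarith)
    simp only [star_star]
    rw [show star v * (v * z i * star v) * v = (star v * v) * z i * (star v * v) by
      noncomm_ring, Unitary.star_mul_self_of_mem hv, one_mul, mul_one]
  have hex := fun i => hcor i (cornerAlg (hM i).proj.2 N₁) (lt_of_le_of_lt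
    (kkDist_cornerAlg_le (hM i).proj.2 (hM i).proj.1 (hN₁z i).proj.1 hd) (by linarith))
  choose u hu hu1 huN using hex
  refine ⟨v * sumU hz hu, mul_mem hv (sumU_unitary hz hu htot), ?_, image_comp hv
    (sumU_unitary hz hu htot) hN₁ ?_ ?_⟩
  · have h2 : ‖sumU hz hu - 1‖ ≤ θ₁ := norm_sumU_sub_one_le hz hu htot hθ hu1
    have h3 : ‖(v - 1) * sumU hz hu‖ ≤ 210 * r := ((norm_mul_le _ _).trans
      (mul_le_of_le_one_right (norm_nonneg _)
        (norm_unitary_le (sumU_unitary hz hu htot)))).trans hv1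
    have e1 : v * sumU hz hu - 1 = (v - 1) * sumU hz hu + (sumU hz hu - 1) := by noncomm_ring
    rw [e1]
    exact (norm_add_le _ _).trans (by linarith)
  · refine image_subset_of_pieces hM hN₁z htot fun i a ha => ?_
    rw [sumU_conj_piece hz hu i a ((hM i).comm a ha),
      ← mem_cornerAlg _ (hN₁z i).proj.1]
    exact (Set.ext_iff.1 (huN i) _).1 ⟨_, cCor_mem _ (hM i).proj.1 ha, rfl⟩
  · refine image_subset_of_pieces hN₁z hM htot fun i a ha => ?_
    obtain ⟨x, hx, hxa⟩ := (Set.ext_iff.1 (huN i) _).2 (cCor_mem _ (hN₁z i).proj.1 ha)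
    rw [star_sumU, sumU_conj_piece hz _ i a ((hN₁z i).comm a ha), ← hxa]
    beta_reduce
    rw [show star (star (u i)) = u i from star_star (u i), show star (u i) * (u i * x * star (u i)) * u i
      = (star (u i) * u i) * x * (star (u i) * u i) by noncomm_ring,
      Unitary.star_mul_self_of_mem (hu i), one_mul, mul_one]
    exact (mem_cornerAlg _ (hM i).proj.1).1 hx

end Vale.Agent.P096.KK
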