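import Vale.Agent.P096.KK.CornerAlg
import Vale.Agent.P096.KK.Assemble
import Vale.Agent.P096.KK.Rotate

/-!
# P096: stability passes from a corner to the whole algebra (the semifinite step)

The matrix units are moved into the near algebra by monomial unitaries; the corners are then close
and the unitary of the corner is amplified along the diagonal.
-/

noncomputable section

namespace Vale.Agent.P096.KK

open Vale.Agent.P104.Red (sp)

universe u

variable {H : Type u} [NormedAddCommGroup H] [InnerProductSpace ℂ H] [CompleteSpace H]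
variable {p : H →L[ℂ] H} {ι : Type} [DecidableEq ι] {e : ι → ι → (H →L[ℂ] H)} {i₀ : ι}

/-- The sum of the diagonal units of a finite set. -/
def diagSum (e : ι → ι → (H →L[ℂ] H)) (s : Finset ι) : H →L[ℂ] H := ∑ i : s, e i i

/-- The monomial part. -/
def monoPart (e : ι → ι → (H →L[ℂ] H)) (s : Finset ι) (σ : Equiv.Perm s) (ε : s → ℤˣ) : H →L[ℂ] H :=
  ∑ i : s, ((ε i : ℤ) : ℂ) • e (σ i) i

/-- A monomial unitary. -/
def monoW (e : ι → ι → (H →L[ℂ] H)) (s : Finset ι) (σ : Equiv.Perm s) (ε : s → ℤˣ) : H →L[ℂ] H :=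
  1 - diagSum e s + monoPart e s σ ε

lemma Units.coe_mul_eq (he : Units e i₀ p) {s : Finset ι} (i j k l : s) :
    e (i : ι) j * e (k : ι) l = if j = k then e (i : ι) l else 0 := by
  rw [he.mul_eq]
  simp only [Subtype.coe_inj]

lemma monoPart_mul (he : Units e i₀ p) (s : Finset ι) (σ τ : Equiv.Perm s) (ε η : s → ℤˣ) :
    monoPart e s σ ε * monoPart e s τ η = monoPart e s (σ * τ) fun k => ε (τ k) * η k := by
  simp only [monoPart, Finset.sum_mul, Finset.mul_sum, smul_mul_assoc, mul_smul_comm,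
    he.coe_mul_eq, smul_ite, smul_zero]
  refine Finset.sum_congr rfl fun k _ => ?_
  rw [Finset.sum_ite_eq' Finset.univ (τ k), if_pos (Finset.mem_univ _), smul_smul]
  simp [mul_comm]

lemma diagSum_monoPart (he : Units e i₀ p) (s : Finset ι) (σ : Equiv.Perm s) (ε : s → ℤˣ) :
    diagSum e s * monoPart e s σ ε = monoPart e s σ ε ∧
      monoPart e s σ ε * diagSum e s = monoPart e s σ ε := by
  have h : diagSum e s = monoPart e s 1 fun _ => 1 := by simp [diagSum, monoPart]
  rw [h, monoPart_mul he, monoPart_mul he]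
  simp

lemma monoW_mul (he : Units e i₀ p) (s : Finset ι) (σ τ : Equiv.Perm s) (ε η : s → ℤˣ) :
    monoW e s σ ε * monoW e s τ η = monoW e s (σ * τ) fun k => ε (τ k) * η k := by
  have h : diagSum e s = monoPart e s 1 fun _ => 1 := by simp [diagSum, monoPart]
  have hPP : diagSum e s * diagSum e s = diagSum e s := by
    conv_lhs => arg 2; rw [h]
    rw [(diagSum_monoPart he s 1 _).1, ← h]
  simp only [monoW, sub_mul, mul_sub, add_mul, mul_add, one_mul, mul_one, hPP,
    (diagSum_monoPart he s τ η).1, (diagSum_monoPart he s σ ε).2, monoPart_mul he]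
  abel

lemma monoW_one (s : Finset ι) : monoW e s 1 (fun _ => 1) = 1 := by
  simp [monoW, monoPart, diagSum]

lemma star_monoW (he : Units e i₀ p) (s : Finset ι) (σ : Equiv.Perm s) (ε : s → ℤˣ) :
    star (monoW e s σ ε) = monoW e s σ⁻¹ fun k => ε (σ⁻¹ k) := by
  simp only [monoW, star_add, star_sub, star_one, diagSum, monoPart, star_sum, star_smul,
    he.star_eq]
  congr 1
  refine Fintype.sum_equiv σ _ _ fun i => ?_
  simp

lemma monoW_unitary (he : Units e i₀ p) (s : Finset ι) (σ : Equiv.Perm s) (ε : s → ℤˣ) :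
    monoW e s σ ε ∈ unitary (H →L[ℂ] H) := by
  refine Unitary.mem_iff.2 ⟨?_, ?_⟩ <;> rw [star_monoW he, monoW_mul he] <;>
    simp [monoW_one, Int.units_mul_self]

lemma monoW_mem {M : VonNeumannAlgebra H} (hM : ∀ i j, e i j ∈ M) (s : Finset ι)
    (σ : Equiv.Perm s) (ε : s → ℤˣ) : monoW e s σ ε ∈ M :=
  add_mem (sub_mem (one_mem M) (sum_mem fun _ _ => hM _ _))
    (sum_mem fun _ _ => SMulMemClass.smul_mem (s := M.toStarSubalgebra) _ (hM _ _))

/-- The monomial unitaries on a finite set. -/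
def monoGroup (he : Units e i₀ p) (s : Finset ι) : Subgroup (unitary (H →L[ℂ] H)) where
  carrier := {u | ∃ (σ : Equiv.Perm s) (ε : s → ℤˣ), (u : H →L[ℂ] H) = monoW e s σ ε}
  mul_mem' := by
    rintro x y ⟨σ, ε, hx⟩ ⟨τ, η, hy⟩
    exact ⟨_, _, by rw [Submonoid.coe_mul, hx, hy, monoW_mul he]⟩
  one_mem' := ⟨1, fun _ => 1, by rw [monoW_one]; rfl⟩
  inv_mem' := by
    rintro x ⟨σ, ε, hx⟩
    exact ⟨_, _, by rw [← Unitary.star_eq_inv, Unitary.coe_star, hx, star_monoW he]⟩

/-- The sign of one index. -/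
def signGen (e : ι → ι → (H →L[ℂ] H)) (i : ι) : H →L[ℂ] H := 1 - 2 • e i i

/-- The exchange of two indices. -/
def swapGen (e : ι → ι → (H →L[ℂ] H)) (i j : ι) : H →L[ℂ] H :=
  1 - e i i - e j j + e i j + e j i

lemma signGen_mem (he : Units e i₀ p) {s : Finset ι} {i : ι} (hi : i ∈ s) :
    ∃ u ∈ monoGroup he s, (u : H →L[ℂ] H) = signGen e i := by
  let ε : s → ℤˣ := fun k => if k = ⟨i, hi⟩ then -1 else 1
  refine ⟨⟨_, monoW_unitary he s 1 ε⟩, ⟨1, ε, rfl⟩, ?_⟩
  have : monoPart e s 1 ε = diagSum e s - 2 • e i i := by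
    rw [monoPart, diagSum, eq_sub_iff_add_eq]
    have h : (2 • e i i) = ∑ k : s, if k = ⟨i, hi⟩ then 2 • e (k : ι) k else 0 := by
      rw [Finset.sum_ite_eq' Finset.univ, if_pos (Finset.mem_univ _)]
    rw [h, ← Finset.sum_add_distrib]
    refine Finset.sum_congr rfl fun k _ => ?_
    by_cases hk : k = ⟨i, hi⟩
    · simp [ε, hk, two_smul]
    · simp [ε, hk]
  show monoW e s 1 ε = _
  rw [monoW, this, signGen]
  abel

lemma swapGen_mem (he : Units e i₀ p) {s : Finset ι} {i j : ι} (hi : i ∈ s) (hj : j ∈ s)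
    (hij : i ≠ j) : ∃ u ∈ monoGroup he s, (u : H →L[ℂ] H) = swapGen e i j := by
  let σ : Equiv.Perm s := Equiv.swap ⟨i, hi⟩ ⟨j, hj⟩
  refine ⟨⟨_, monoW_unitary he s σ fun _ => 1⟩, ⟨σ, fun _ => 1, rfl⟩, ?_⟩
  show monoW e s σ (fun _ => 1) = _
  have hne : (⟨i, hi⟩ : s) ≠ ⟨j, hj⟩ := fun h => hij (congrArg Subtype.val h)
  have hd : ∀ f : s → H →L[ℂ] H, ∑ k : s, f k = f ⟨i, hi⟩ + f ⟨j, hj⟩
      + ∑ k ∈ Finset.univ.filter (fun k => k ≠ ⟨i, hi⟩ ∧ k ≠ ⟨j, hj⟩), f k := fun f => by
    rw [← Finset.sum_pair hne, ← Finset.sum_union]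
    · refine Finset.sum_congr (Finset.ext fun k => ?_) fun _ _ => rfl
      simp only [Finset.mem_univ, Finset.mem_union, Finset.mem_insert, Finset.mem_singleton,
        Finset.mem_filter, true_and, true_iff]
      tauto
    · rw [Finset.disjoint_left]
      intro k hk hk'
      simp only [Finset.mem_insert, Finset.mem_singleton, Finset.mem_filter] at hk hk'
      tauto
  have hrest : ∀ k ∈ Finset.univ.filter (fun k : s => k ≠ ⟨i, hi⟩ ∧ k ≠ ⟨j, hj⟩),
      (((1 : ℤˣ) : ℤ) : ℂ) • e (σ k) k = e (k : ι) k := fun k hk => by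
    simp only [Finset.mem_filter, Finset.mem_univ, true_and] at hk
    simp [σ, Equiv.swap_apply_of_ne_of_ne hk.1 hk.2]
  rw [monoW, monoPart, diagSum, hd, hd (fun k => (((1 : ℤˣ) : ℤ) : ℂ) • e (σ k) k),
    Finset.sum_congr rfl hrest, swapGen]
  simp [σ]
  abel

/-- The group generated by the signs and exchanges of a finite set. -/
def genGroup (e : ι → ι → (H →L[ℂ] H)) (s : Finset ι) : Subgroup (unitary (H →L[ℂ] H)) :=
  Subgroup.closure {u | (∃ i ∈ s, (u : H →L[ℂ] H) = signGen e i) ∨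
    ∃ i ∈ s, ∃ j ∈ s, i ≠ j ∧ (u : H →L[ℂ] H) = swapGen e i j}

lemma genGroup_mono {s t : Finset ι} (h : s ⊆ t) : genGroup e s ≤ genGroup e t :=
  Subgroup.closure_mono fun u hu => hu.imp (fun ⟨i, hi, hu⟩ => ⟨i, h hi, hu⟩)
    fun ⟨i, hi, j, hj, hu⟩ => ⟨i, h hi, j, h hj, hu⟩

lemma genGroup_le (he : Units e i₀ p) (s : Finset ι) : genGroup e s ≤ monoGroup he s := by
  refine (Subgroup.closure_le _).2 fun u hu => ?_
  rcases hu with ⟨i, hi, hu⟩ | ⟨i, hi, j, hj, hij, hu⟩
  · obtain ⟨v, hv, hv'⟩ := signGen_mem he hi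
    rwa [Subtype.ext (hu.trans hv'.symm)]
  · obtain ⟨v, hv, hv'⟩ := swapGen_mem he hi hj hij
    rwa [Subtype.ext (hu.trans hv'.symm)]

/-- Matrix units rotate into a close algebra. -/
lemma exists_units_rotate [Countable ι] (he : Units e i₀ p) {M N : VonNeumannAlgebra H}
    (hM : ∀ i j, e i j ∈ M) {r : ℝ} (h : kkDist M N < r) (hr : r ≤ 1 / 800) :
    ∃ v ∈ unitary (H →L[ℂ] H), ‖v - 1‖ ≤ 210 * r ∧ ∀ i j, v * e i j * star v ∈ N := by
  obtain ⟨num, hnum⟩ := Countable.exists_injective_nat ι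
  have hfin : ∀ n, {i : ι | num i < n}.Finite := fun n =>
    (Set.finite_Iio n).preimage hnum.injOn
  let s : ℕ → Finset ι := fun n => (hfin n).toFinset
  obtain ⟨v, hv, hv1, hvN, -, -⟩ := exists_rotate h hr (fun n => genGroup e (s n))
    (fun a b hab => genGroup_mono (Set.Finite.toFinset_subset_toFinset.2 fun i hi =>
      lt_of_lt_of_le hi hab))
    (fun n => by
      have hfinG : (monoGroup he (s n) : Set (unitary (H →L[ℂ] H))).Finite := by
        refine ((Set.finite_range fun q : Equiv.Perm (s n) × (s n → ℤˣ) =>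
          monoW e (s n) q.1 q.2).preimage Subtype.val_injective.injOn).subset ?_
        rintro u ⟨σ, ε, hu⟩
        exact ⟨(σ, ε), hu.symm⟩
      exact hfinG.subset (genGroup_le he _))
    (fun n g hg => by
      obtain ⟨σ, ε, hg'⟩ := genGroup_le he _ hg
      rw [hg']
      exact monoW_mem hM _ σ ε)
  refine ⟨v, hv, hv1, ?_⟩
  have h2 : star v * v = 1 := Unitary.star_mul_self_of_mem hv
  have hcj : ∀ a b : H →L[ℂ] H, (v * a * star v) * (v * b * star v) = v * (a * b) * star v :=
    fun a b => by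
    rw [show (v * a * star v) * (v * b * star v) = v * a * (star v * v) * (b * star v) by
      noncomm_ring, h2, mul_one]
    noncomm_ring
  have hone : v * 1 * star v = 1 := by rw [mul_one, Unitary.mul_star_self_of_mem hv]
  have hdiag : ∀ i, v * e i i * star v ∈ N := fun i => by
    have hi : i ∈ s (num i + 1) := by simp [s]
    obtain ⟨u, -, hu'⟩ := signGen_mem he hi
    have hS := hvN _ u (Subgroup.subset_closure (Or.inl ⟨i, hi, hu'⟩))
    have key : v * e i i * star v = (2⁻¹ : ℂ) • (1 - v * (u : H →L[ℂ] H) * star v) := by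
      conv_rhs => rw [← hone]
      rw [hu', signGen, ← sub_mul, ← mul_sub, sub_sub_cancel, two_nsmul, mul_add, add_mul,
        ← two_smul ℂ (v * e i i * star v), smul_smul, inv_mul_cancel₀ two_ne_zero, one_smul]
    rw [key]
    exact SMulMemClass.smul_mem (s := N.toStarSubalgebra) _ (sub_mem (one_mem N) hS)
  intro i j
  by_cases hij : i = j
  · exact hij ▸ hdiag i
  have hi : i ∈ s (max (num i) (num j) + 1) := by simp [s]
  have hj : j ∈ s (max (num i) (num j) + 1) := by simp [s]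
  obtain ⟨u, -, hu'⟩ := swapGen_mem he hi hj hij
  have hT := hvN _ u (Subgroup.subset_closure (Or.inr ⟨i, hi, j, hj, hij, hu'⟩))
  have key : e i j = e i i * swapGen e i j * e j j := by
    simp [swapGen, mul_add, mul_sub, add_mul, sub_mul, mul_assoc, he.mul_eq, hij, Ne.symm hij]
  rw [key, ← hcj, ← hcj, ← hu']
  exact mul_mem (mul_mem (hdiag i) hT) (hdiag j)

/-- A unitary commuting with matrix units which moves the corner into `N` moves all. -/
lemma image_subset_of_corner (he : Units e i₀ p) {M N : VonNeumannAlgebra H}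
    (hM : ∀ i j, e i j ∈ M) (hN : ∀ i j, e i j ∈ N) {U : H →L[ℂ] H}
    (hU : ∀ i j, Commute U (e i j)) (hU' : ∀ i j, Commute (star U) (e i j))
    (hc : ∀ a ∈ M, p * a * p = a → U * a * star U ∈ N) :
    ∀ x ∈ M, U * x * star U ∈ N := by
  intro x hx
  refine Vale.Agent.P078.General.mem_vna_of_commute fun c hc' => ?_
  set y := U * x * star U
  have hce : ∀ i j, c * e i j = e i j * c := fun i j => (hc' _ (hN i j)).symm
  have hblock : ∀ i j, e i i * y * e j j ∈ N := fun i j => by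
    have h1 : e i i * y * e j j
        = e i i₀ * (U * (e i₀ i * x * e j i₀) * star U) * e i₀ j := by
      have e1 : e i i = e i i₀ * e i₀ i := by rw [he.mul_eq, if_pos rfl]
      have e2 : e j j = e j i₀ * e i₀ j := by rw [he.mul_eq, if_pos rfl]
      calc e i i * y * e j j = e i i * (U * x * star U) * e j j := rfl
        _ = e i i₀ * ((e i₀ i * U) * x * (star U * e j i₀)) * e i₀ j := by
            rw [e1, e2]; simp only [mul_assoc]
        _ = _ := by
            rw [← (hU i₀ i).eq, (hU' j i₀).eq]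
            simp only [mul_assoc]
    rw [h1]
    refine mul_mem (mul_mem (hN i i₀) (hc _ (mul_mem (mul_mem (hM i₀ i) hx) (hM j i₀)) ?_)) (hN i₀ j)
    rw [show p * (e i₀ i * x * e j i₀) * p = (p * e i₀ i) * x * (e j i₀ * p) by
      simp only [mul_assoc], ← he.corner, he.mul_eq, if_pos rfl, he.mul_eq, if_pos rfl]
  have hz : ∀ i j, e i i * (c * y - y * c) * e j j = 0 := fun i j => by
    have h2 : c * (e i i * y * e j j) = e i i * y * e j j * c := (hc' _ (hblock i j)).symm
    have h3 : e i i * (c * y) * e j j = c * (e i i * y * e j j) := by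
      rw [← mul_assoc (e i i), ← hce]
      simp only [mul_assoc]
    have h4 : e i i * (y * c) * e j j = e i i * y * e j j * c := by
      simp only [mul_assoc]
      rw [hce j j]
    rw [mul_sub, sub_mul, h3, h4, h2, sub_self]
  refine ContinuousLinearMap.ext fun v => sub_eq_zero.1 ?_
  change (c * y - y * c) v = 0
  set Z := c * y - y * c
  rw [← ((he.total v).mapL Z).tsum_eq]
  refine (tsum_congr fun j => ?_).trans tsum_zero
  rw [← (he.total (Z (e j j v))).tsum_eq]
  refine (tsum_congr fun i => ?_).trans tsum_zero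
  exact DFunLike.congr_fun (hz i j) v

/-- Conjugation of a corner element by an amplification. -/
lemma ampD_conj_corner (hp : IsStarProjection p) (he : Units e i₀ p) (w : sp p →L[ℂ] sp p)
    {a : H →L[ℂ] H} (ha : p * a * p = a) :
    ampD hp he w * a * star (ampD hp he w) = eCor hp (w * cCor hp a * star w) := by
  have hpw : p * ampD hp he (star w) = eCor hp (star w) := by
    rw [← ampD_mul_corner hp he (star w)]
    have h := ampD_comm hp he (star w) i₀ i₀
    rw [he.corner] at h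
    exact h.symm
  rw [eCor_mul, eCor_mul, eCor_cCor, ha, star_ampD]
  conv_lhs => rw [← ha]
  rw [show ampD hp he w * (p * a * p) * ampD hp he (star w)
    = (ampD hp he w * p) * a * (p * ampD hp he (star w)) by simp only [mul_assoc],
    ampD_mul_corner, hpw]

/-- A unitary equivalence of corners amplifies to one of algebras with common matrix units. -/
lemma ampD_image (hp : IsStarProjection p) (he : Units e i₀ p) {M N : VonNeumannAlgebra H}
    (hM : ∀ i j, e i j ∈ M) (hN : ∀ i j, e i j ∈ N) {u₀ : sp p →L[ℂ] sp p}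
    (hu₀ : u₀ ∈ unitary (sp p →L[ℂ] sp p))
    (hu₀N : (fun x => u₀ * x * star u₀) '' (cornerAlg hp M : Set (sp p →L[ℂ] sp p))
      = (cornerAlg hp N : Set (sp p →L[ℂ] sp p))) :
    (∀ x ∈ M, ampD hp he u₀ * x * star (ampD hp he u₀) ∈ N) ∧
      ∀ y ∈ N, star (ampD hp he u₀) * y * star (star (ampD hp he u₀)) ∈ M := by
  have hpM : p ∈ M := he.corner ▸ hM i₀ i₀
  have hpN : p ∈ N := he.corner ▸ hN i₀ i₀
  have hUe : ∀ i j, Commute (ampD hp he u₀) (e i j) := fun i j => ampD_comm hp he u₀ i j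
  have hUe' : ∀ i j, Commute (star (ampD hp he u₀)) (e i j) := fun i j => by
    rw [star_ampD]; exact ampD_comm hp he (star u₀) i j
  constructor
  · refine image_subset_of_corner he hM hN hUe hUe' fun a ha hpa => ?_
    rw [ampD_conj_corner hp he u₀ hpa, ← mem_cornerAlg hp hpN]
    exact (Set.ext_iff.1 hu₀N _).1 ⟨_, cCor_mem hp hpM ha, rfl⟩
  · refine image_subset_of_corner he hN hM hUe' (fun i j => by rw [star_star]; exact hUe i j)
      fun a ha hpa => ?_
    obtain ⟨x, hx, hxa⟩ := (Set.ext_iff.1 hu₀N _).2 (cCor_mem hp hpN ha)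
    have hss : star (star u₀) = u₀ := star_star u₀
    rw [star_ampD, ampD_conj_corner hp he (star u₀) hpa, ← hxa, hss]
    beta_reduce
    rw [show star u₀ * (u₀ * x * star u₀) * u₀ = (star u₀ * u₀) * x * (star u₀ * u₀) by noncomm_ring,
      Unitary.star_mul_self_of_mem hu₀, one_mul, mul_one]
    exact (mem_cornerAlg hp hpM).1 hx

/-- Two conjugations compose. -/
lemma image_comp {M N N₁ : VonNeumannAlgebra H} {v U : H →L[ℂ] H}
    (hv : v ∈ unitary (H →L[ℂ] H)) (hU : U ∈ unitary (H →L[ℂ] H))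
    (hN₁ : (fun x => star v * x * star (star v)) '' (N : Set (H →L[ℂ] H))
      = (N₁ : Set (H →L[ℂ] H)))
    (hsub : ∀ x ∈ M, U * x * star U ∈ N₁) (hsub' : ∀ y ∈ N₁, star U * y * star (star U) ∈ M) :
    (fun x => v * U * x * star (v * U)) '' (M : Set (H →L[ℂ] H)) = (N : Set (H →L[ℂ] H)) := by
  have hforth : ∀ x : H →L[ℂ] H, v * (star v * x * v) * star v = x := fun x => by
    rw [show v * (star v * x * v) * star v = (v * star v) * x * (v * star v) by
      noncomm_ring, Unitary.mul_star_self_of_mem hv, one_mul, mul_one]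
  ext y
  constructor
  · rintro ⟨x, hx, rfl⟩
    obtain ⟨z, hz, hzx⟩ := (Set.ext_iff.1 hN₁ _).2 (hsub x hx)
    show v * U * x * star (v * U) ∈ N
    rw [show v * U * x * star (v * U) = v * (U * x * star U) * star v by
      rw [star_mul]; simp only [mul_assoc], ← hzx]
    simp only [star_star]
    rw [hforth]
    exact hz
  · intro hy
    have hy₁ : star v * y * star (star v) ∈ N₁ := (Set.ext_iff.1 hN₁ _).1 ⟨y, hy, rfl⟩
    refine ⟨_, hsub' _ hy₁, ?_⟩
    simp only [star_mul, star_star]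
    rw [show v * U * (star U * (star v * y * v) * U) * (star U * star v)
      = v * (U * star U) * (star v * y * v) * (U * star U) * star v by noncomm_ring,
      Unitary.mul_star_self_of_mem hU, mul_one, mul_one]
    exact hforth y

/-- Stability of the corner gives stability of the algebra. -/
theorem cornerKK [Countable ι] (he : Units e i₀ p) (hp : IsStarProjection p)
    {M N : VonNeumannAlgebra H} (hM : ∀ i j, e i j ∈ M) {θ₁ δ₁ r : ℝ}
    (hcor : ∀ N' : VonNeumannAlgebra (sp p), kkDist (cornerAlg hp M) N' < δ₁ →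
      ∃ u ∈ unitary (sp p →L[ℂ] sp p), ‖u - 1‖ ≤ θ₁ ∧
        (fun x => u * x * star u) '' (cornerAlg hp M : Set (sp p →L[ℂ] sp p))
          = (N' : Set (sp p →L[ℂ] sp p)))
    (h : kkDist M N < r) (hr : r ≤ 1 / 800) (hr' : 500 * r ≤ δ₁) :
    ∃ u ∈ unitary (H →L[ℂ] H), ‖u - 1‖ ≤ θ₁ + 210 * r ∧
      (fun x => u * x * star u) '' (M : Set (H →L[ℂ] H)) = (N : Set (H →L[ℂ] H)) := by
  have hr0 : 0 < r := Metric.hausdorffDist_nonneg.trans_lt h
  obtain ⟨v, hv, hv1, hvN⟩ := exists_units_rotate he hM h hr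
  obtain ⟨N₁, hN₁⟩ : ∃ N₁ : VonNeumannAlgebra H,
      (fun x => star v * x * star (star v)) '' (N : Set (H →L[ℂ] H))
        = (N₁ : Set (H →L[ℂ] H)) :=
    ⟨conjAlg ⟨star v, Unitary.star_mem hv⟩ N,
      (coe_conjAlg ⟨star v, Unitary.star_mem hv⟩ N).symm⟩
  have hback : ∀ x : H →L[ℂ] H, star v * (v * x * star v) * star (star v) = x := fun x => by
    rw [star_star, show star v * (v * x * star v) * v = (star v * v) * x * (star v * v) by
      noncomm_ring, Unitary.star_mul_self_of_mem hv, one_mul, mul_one]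
  have hN₁e : ∀ i j, e i j ∈ N₁ := fun i j =>
    (Set.ext_iff.1 hN₁ _).1 ⟨_, hvN i j, hback _⟩
  have hpM : p ∈ M := he.corner ▸ hM i₀ i₀
  have hpN : p ∈ N₁ := he.corner ▸ hN₁e i₀ i₀
  have h1 := kkDist_rotate_le h (Unitary.star_mem hv) hN₁
  rw [show ‖star v - 1‖ = ‖v - 1‖ by rw [← norm_star, star_sub, star_star, star_one]] at h1
  obtain ⟨u₀, hu₀, hu₀1, hu₀N⟩ := hcor (cornerAlg hp N₁) (lt_of_le_of_lt
    (kkDist_cornerAlg_le hp hpM hpN (r := 450 * r) (by linarith)) (by linarith))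
  have hU := ampD_unitary hp he u₀ hu₀
  obtain ⟨hsub, hsub'⟩ := ampD_image hp he hM hN₁e hu₀ hu₀N
  refine ⟨v * ampD hp he u₀, mul_mem hv hU, ?_, image_comp hv hU hN₁ hsub hsub'⟩
  have h2 : ‖ampD hp he u₀ - 1‖ ≤ θ₁ := (norm_ampD_sub_one_le hp he u₀).trans hu₀1
  have h3 : ‖(v - 1) * ampD hp he u₀‖ ≤ 210 * r := ((norm_mul_le _ _).trans
    (mul_le_of_le_one_right (norm_nonneg _) (norm_unitary_le hU))).trans hv1
  have e1 : v * ampD hp he u₀ - 1 = (v - 1) * ampD hp he u₀ + (ampD hp he u₀ - 1) := by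
    noncomm_ring
  rw [e1]
  exact (norm_add_le _ _).trans (by linarith)

/-- The quantitative form: a modulus for the corner gives one for the algebra. -/
theorem cornerKK_modulus {θ δ₁ : ℝ} (hθ : 0 < θ) (hδ₁ : 0 < δ₁) :
    ∃ δ : ℝ, 0 < δ ∧ ∀ (H : Type u) [NormedAddCommGroup H] [InnerProductSpace ℂ H] [CompleteSpace H]
      (ι : Type) [DecidableEq ι] [Countable ι] (e : ι → ι → (H →L[ℂ] H)) (i₀ : ι)
      (p : H →L[ℂ] H) (_ : Units e i₀ p) (hp : IsStarProjection p) (M N : VonNeumannAlgebra H),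
      (∀ i j, e i j ∈ M) →
      (∀ N' : VonNeumannAlgebra (sp p), kkDist (cornerAlg hp M) N' < δ₁ →
        ∃ u ∈ unitary (sp p →L[ℂ] sp p), ‖u - 1‖ ≤ θ / 2 ∧
          (fun x => u * x * star u) '' (cornerAlg hp M : Set (sp p →L[ℂ] sp p))
            = (N' : Set (sp p →L[ℂ] sp p))) →
      kkDist M N < δ →
      ∃ u ∈ unitary (H →L[ℂ] H), ‖u - 1‖ < θ ∧
        (fun x => u * x * star u) '' (M : Set (H →L[ℂ] H)) = (N : Set (H →L[ℂ] H)) := by
  refine ⟨min (1 / 800) (min (δ₁ / 500) (θ / 500)), lt_min (by positivity) (lt_min (by positivity)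
    (by positivity)), fun H _ _ _ ι _ _ e i₀ p he hp M N hM hcor hd => ?_⟩
  have h1 := (min_le_right (1 / 800 : ℝ) (min (δ₁ / 500) (θ / 500))).trans (min_le_left _ _)
  have h2 := (min_le_right (1 / 800 : ℝ) (min (δ₁ / 500) (θ / 500))).trans (min_le_right _ _)
  obtain ⟨u, hu, hu1, hI⟩ := cornerKK he hp hM hcor hd (min_le_left _ _) (by linarith)
  exact ⟨u, hu, hu1.trans_lt (by linarith), hI⟩

end Vale.Agent.P096.KK
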