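import Vale.Agent.P096.Defs
import Vale.Agent.P104.Type.Corner

/-!
# P096: the algebra of a corner, and diagonal amplification along matrix units

For a projection `p` of `M` the corner acts on the range of `p`; its commutant is the compressed
commutant. For matrix units with total diagonal and corner `p` an operator on the range of `p`
amplifies to the whole space.
-/

noncomputable section

namespace Vale.Agent.P096.KK

open scoped InnerProductSpace
open Vale.Agent.P104.Red (sp mem_sp sp_apply)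
open Vale.Agent.P078.General (mem_vna_of_commute commute_of_mem_centralizer)

universe u

variable {H : Type u} [NormedAddCommGroup H] [InnerProductSpace ℂ H] [CompleteSpace H]
variable {p : H →L[ℂ] H}

lemma proj_apply_apply (hp : IsStarProjection p) (v : H) : p (p v) = p v :=
  DFunLike.congr_fun hp.isIdempotentElem.eq v

lemma proj_inner (hp : IsStarProjection p) (v w : H) : ⟪p v, w⟫_ℂ = ⟪v, p w⟫_ℂ := by
  rw [← ContinuousLinearMap.adjoint_inner_right, ← ContinuousLinearMap.star_eq_adjoint,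
    hp.isSelfAdjoint.star_eq]

lemma proj_norm_apply_le (hp : IsStarProjection p) (v : H) : ‖p v‖ ≤ ‖v‖ := by
  have h : ‖p v‖ ^ 2 ≤ ‖v‖ * ‖p v‖ := by
    have h1 : ((‖p v‖ ^ 2 : ℝ) : ℂ) = ⟪v, p v⟫_ℂ := by
      have h2 := inner_self_eq_norm_sq_to_K (𝕜 := ℂ) (p v)
      rw [proj_inner hp, proj_apply_apply hp] at h2
      push_cast
      exact h2.symm
    calc ‖p v‖ ^ 2 = ‖((‖p v‖ ^ 2 : ℝ) : ℂ)‖ := by
          rw [Complex.norm_real, Real.norm_of_nonneg (by positivity)]
      _ ≤ _ := by rw [h1]; exact norm_inner_le_norm _ _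
  rcases (norm_nonneg (p v)).eq_or_lt with h0 | h0
  · rw [← h0]; exact norm_nonneg v
  · nlinarith

/-- The projection onto the corner. -/
def toCor (hp : IsStarProjection p) : H →L[ℂ] sp p :=
  p.codRestrict _ fun v => mem_sp.2 (proj_apply_apply hp v)

/-- Compression to the corner. -/
def cCor (hp : IsStarProjection p) (a : (H →L[ℂ] H)) : sp p →L[ℂ] sp p :=
  (toCor hp).comp (a.comp (sp p).subtypeL)

/-- Extension by zero from the corner. -/
def eCor (hp : IsStarProjection p) (w : sp p →L[ℂ] sp p) : (H →L[ℂ] H) :=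
  (sp p).subtypeL.comp (w.comp (toCor hp))

variable (hp : IsStarProjection p)

lemma cCor_coe (a : (H →L[ℂ] H)) (v : sp p) : (cCor hp a v : H) = p (a v) := rfl

lemma eCor_apply (w : sp p →L[ℂ] sp p) (v : H) : eCor hp w v = (w (toCor hp v) : H) := rfl

lemma toCor_coe (v : sp p) : toCor hp (v : H) = v := Subtype.ext (sp_apply v)

lemma toCor_eq {v w : H} (h : p v = p w) : toCor hp v = toCor hp w := Subtype.ext h

lemma cCor_eCor (w : sp p →L[ℂ] sp p) : cCor hp (eCor hp w) = w :=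
  ContinuousLinearMap.ext fun v => Subtype.ext (by
    rw [cCor_coe, eCor_apply, toCor_coe, sp_apply])

lemma eCor_cCor (a : (H →L[ℂ] H)) : eCor hp (cCor hp a) = p * a * p := rfl

lemma p_eCor (w : sp p →L[ℂ] sp p) : p * eCor hp w = eCor hp w :=
  ContinuousLinearMap.ext fun v => sp_apply (w (toCor hp v))

lemma eCor_p (w : sp p →L[ℂ] sp p) : eCor hp w * p = eCor hp w :=
  ContinuousLinearMap.ext fun v => congrArg (fun t => (w t : H))
    (Subtype.ext (proj_apply_apply hp v))

lemma eCor_mul (w w' : sp p →L[ℂ] sp p) : eCor hp (w * w') = eCor hp w * eCor hp w' :=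
  ContinuousLinearMap.ext fun v => by
    show (w (w' (toCor hp v)) : H) = (w (toCor hp (w' (toCor hp v) : H)) : H)
    rw [toCor_coe]

lemma eCor_one : eCor hp 1 = p := rfl

lemma eCor_injective : Function.Injective (eCor hp) := fun a b h => by
  rw [← cCor_eCor hp a, h, cCor_eCor]

lemma inner_toCor (v : H) (w : sp p) : ⟪toCor hp v, w⟫_ℂ = ⟪v, (w : H)⟫_ℂ := by
  change ⟪p v, (w : H)⟫_ℂ = _
  rw [proj_inner hp, sp_apply]

lemma eCor_star (w : sp p →L[ℂ] sp p) : eCor hp (star w) = star (eCor hp w) := by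
  refine ContinuousLinearMap.ext fun v => ext_inner_right ℂ fun u => ?_
  have h1 : ⟪eCor hp (star w) v, u⟫_ℂ = ⟪(star w) (toCor hp v), toCor hp u⟫_ℂ := by
    rw [eCor_apply, ← inner_conj_symm, ← inner_toCor hp u, inner_conj_symm]
  have h2 : ⟪star (eCor hp w) v, u⟫_ℂ = ⟪v, eCor hp w u⟫_ℂ := by
    rw [ContinuousLinearMap.star_eq_adjoint, ContinuousLinearMap.adjoint_inner_left]
  rw [h1, h2, eCor_apply, ← inner_toCor hp, ContinuousLinearMap.star_eq_adjoint,
    ContinuousLinearMap.adjoint_inner_left]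

lemma cCor_star (a : (H →L[ℂ] H)) : cCor hp (star a) = star (cCor hp a) := by
  refine eCor_injective hp ?_
  rw [eCor_star, eCor_cCor, eCor_cCor, star_mul, star_mul, hp.isSelfAdjoint.star_eq, mul_assoc]

lemma eCor_sub (w w' : sp p →L[ℂ] sp p) : eCor hp (w - w') = eCor hp w - eCor hp w' :=
  ContinuousLinearMap.ext fun v => rfl

lemma norm_eCor_le (w : sp p →L[ℂ] sp p) : ‖eCor hp w‖ ≤ ‖w‖ :=
  ContinuousLinearMap.opNorm_le_bound _ (norm_nonneg w) fun v =>
    (w.le_opNorm _).trans (mul_le_mul_of_nonneg_left (proj_norm_apply_le hp v) (norm_nonneg w))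

lemma norm_cCor_le (a : (H →L[ℂ] H)) : ‖cCor hp a‖ ≤ ‖a‖ :=
  ContinuousLinearMap.opNorm_le_bound _ (norm_nonneg a) fun v =>
    (proj_norm_apply_le hp _).trans (a.le_opNorm _)

/-- The corner of `M` as an algebra on the range of the projection. -/
def cornerAlg (M : VonNeumannAlgebra H) : VonNeumannAlgebra (sp p) where
  toStarSubalgebra := StarSubalgebra.centralizer ℂ
    (cCor hp '' Set.centralizer (M : Set (H →L[ℂ] H)))
  centralizer_centralizer' := by
    change Set.centralizer (Set.centralizer (StarSubalgebra.centralizer ℂ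
      (cCor hp '' Set.centralizer (M : Set (H →L[ℂ] H))) : Set (sp p →L[ℂ] sp p))) = _
    rw [StarSubalgebra.coe_centralizer, Set.centralizer_centralizer_centralizer]
    rfl

variable {M N : VonNeumannAlgebra H}

lemma mem_cornerAlg (hpM : p ∈ M) {w : sp p →L[ℂ] sp p} :
    w ∈ cornerAlg hp M ↔ eCor hp w ∈ M := by
  change w ∈ StarSubalgebra.centralizer ℂ _ ↔ _
  rw [StarSubalgebra.mem_centralizer_iff]
  have hc : ∀ y ∈ Set.centralizer (M : Set (H →L[ℂ] H)), ∀ v : H, p (y v) = y (p v) := fun y hy v =>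
    DFunLike.congr_fun (hy p hpM) v
  constructor
  · intro h
    refine mem_vna_of_commute fun y hy => ContinuousLinearMap.ext fun v => ?_
    have h1 : (cCor hp y * w) (toCor hp v) = (w * cCor hp y) (toCor hp v) :=
      DFunLike.congr_fun (h _ ⟨y, hy, rfl⟩).1 _
    have h2 := congrArg Subtype.val h1
    change y (eCor hp w v) = eCor hp w (y v)
    change p (y (w (toCor hp v) : H)) = (w (toCor hp (y (p v))) : H) at h2
    rw [hc y hy, sp_apply, toCor_eq hp (show p (y (p v)) = p (y v) by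
      rw [hc y hy, hc y hy, proj_apply_apply hp])] at h2
    exact h2
  · intro h g hg
    obtain ⟨y, hy, rfl⟩ := hg
    have key : ∀ a ∈ Set.centralizer (M : Set (H →L[ℂ] H)), cCor hp a * w = w * cCor hp a :=
      fun a ha => ContinuousLinearMap.ext fun v => Subtype.ext (by
        change p (a (w v : H)) = (w (toCor hp (a (v : H))) : H)
        have e1 : a (eCor hp w v) = eCor hp w (a v) :=
          DFunLike.congr_fun (commute_of_mem_centralizer h ha) (v : H)
        rw [eCor_apply, toCor_coe, eCor_apply] at e1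
        rw [hc a ha, sp_apply, e1])
    refine ⟨key y hy, ?_⟩
    rw [← cCor_star]
    exact key _ (Set.star_mem_centralizer' (fun _ hz => star_mem hz) hy)

lemma cCor_mem (hpM : p ∈ M) {a : (H →L[ℂ] H)} (ha : a ∈ M) : cCor hp a ∈ cornerAlg hp M := by
  rw [mem_cornerAlg hp hpM, eCor_cCor]
  exact mul_mem (mul_mem hpM ha) hpM

/-- Corners are no farther apart than the algebras. -/
lemma kkDist_cornerAlg_le (hpM : p ∈ M) (hpN : p ∈ N) {r : ℝ} (h : kkDist M N < r) :
    kkDist (cornerAlg hp M) (cornerAlg hp N) ≤ r := by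
  have hr0 : 0 ≤ r := Metric.hausdorffDist_nonneg.trans h.le
  have one : ∀ {M N : VonNeumannAlgebra H}, p ∈ M → p ∈ N → kkDist M N < r →
      ∀ w ∈ cornerAlg hp M, ‖w‖ ≤ 1 → ∃ w' ∈ cornerAlg hp N, ‖w'‖ ≤ 1 ∧ ‖w - w'‖ ≤ r := by
    intro M N hpM hpN h w hw hw1
    obtain ⟨y, hy, hy1, hd⟩ := kk_exists_near h ((mem_cornerAlg hp hpM).1 hw)
      ((norm_eCor_le hp w).trans hw1)
    refine ⟨cCor hp y, cCor_mem hp hpN hy, (norm_cCor_le hp y).trans hy1, ?_⟩
    have e : w - cCor hp y = cCor hp (eCor hp w - y) := by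
      conv_lhs => rw [← cCor_eCor hp w]
      exact ContinuousLinearMap.ext fun v => Subtype.ext (map_sub p _ _).symm
    rw [e]
    exact (norm_cCor_le hp _).trans hd.le
  exact kk_le hr0 (fun w hw hw1 => one hpM hpN h w hw hw1)
    fun w hw hw1 => one hpN hpM ((kk_comm N M).trans_lt h) w hw hw1

/-! ## Amplification -/

/-- Matrix units with corner `p` and total diagonal. -/
structure Units {ι : Type} [DecidableEq ι] (e : ι → ι → (H →L[ℂ] H)) (i₀ : ι) (p : (H →L[ℂ] H)) : Prop where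
  star_eq : ∀ i j, star (e i j) = e j i
  mul_eq : ∀ i j k l, e i j * e k l = if j = k then e i l else 0
  corner : e i₀ i₀ = p
  total : ∀ v, HasSum (fun i => e i i v) v

variable {ι : Type} [DecidableEq ι] {e : ι → ι → (H →L[ℂ] H)} {i₀ : ι}

lemma Units.apply_apply (he : Units e i₀ p) (i j k l : ι) (v : H) :
    e i j (e k l v) = if j = k then e i l v else 0 := by
  have := DFunLike.congr_fun (he.mul_eq i j k l) v
  rw [mul_apply_eq_comp] at this
  rw [this]
  split_ifs <;> rfl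

lemma Units.inner_apply (he : Units e i₀ p) (i j : ι) (v w : H) :
    ⟪e i j v, w⟫_ℂ = ⟪v, e j i w⟫_ℂ := by
  rw [← he.star_eq i j, ContinuousLinearMap.star_eq_adjoint,
    ContinuousLinearMap.adjoint_inner_right]

lemma Units.norm_apply (he : Units e i₀ p) (i j : ι) (v : H) : ‖e i j v‖ = ‖e j j v‖ := by
  have h : ∀ w, ((‖e i j w‖ ^ 2 : ℝ) : ℂ) = ⟪w, e j j w⟫_ℂ := fun w => by
    have h1 := inner_self_eq_norm_sq_to_K (𝕜 := ℂ) (e i j w)
    rw [he.inner_apply, he.apply_apply, if_pos rfl] at h1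
    push_cast
    exact h1.symm
  have h' : ((‖e j j v‖ ^ 2 : ℝ) : ℂ) = ⟪v, e j j v⟫_ℂ := by
    have h1 := inner_self_eq_norm_sq_to_K (𝕜 := ℂ) (e j j v)
    rw [he.inner_apply, he.apply_apply, if_pos rfl] at h1
    push_cast
    exact h1.symm
  have := (h v).trans h'.symm
  exact (sq_eq_sq₀ (norm_nonneg _) (norm_nonneg _)).1 (by exact_mod_cast this)

lemma Units.hasSum_sq (he : Units e i₀ p) (v : H) :
    HasSum (fun i => ‖e i i v‖ ^ 2) (‖v‖ ^ 2) := by
  have h := ((he.total v).mapL (innerSL ℂ v)).mapL Complex.reCLM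
  simp only [Complex.reCLM_apply, innerSL_apply_apply] at h
  have e1 : (fun i => (⟪v, e i i v⟫_ℂ).re) = fun i => ‖e i i v‖ ^ 2 := by
    funext i
    have h1 := inner_self_eq_norm_sq_to_K (𝕜 := ℂ) (e i i v)
    rw [he.inner_apply, he.apply_apply, if_pos rfl] at h1
    rw [h1]
    norm_cast
  have e2 : (⟪v, v⟫_ℂ).re = ‖v‖ ^ 2 := by
    rw [inner_self_eq_norm_sq_to_K]; norm_cast
  rwa [e1, e2] at h

lemma orth_norm_sq {f : ι → H} (horth : ∀ i j, i ≠ j → ⟪f i, f j⟫_ℂ = 0) (s : Finset ι) :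
    ‖∑ i ∈ s, f i‖ ^ 2 = ∑ i ∈ s, ‖f i‖ ^ 2 := by
  induction s using Finset.induction with
  | empty => simp
  | insert a s ha ih =>
    rw [Finset.sum_insert ha, Finset.sum_insert ha, ← ih]
    have h0 : ⟪f a, ∑ i ∈ s, f i⟫_ℂ = 0 := by
      rw [inner_sum]
      exact Finset.sum_eq_zero fun i hi => horth a i (fun h => ha (h ▸ hi))
    have := norm_add_sq_eq_norm_sq_add_norm_sq_of_inner_eq_zero (f a) _ h0
    simpa only [sq] using this

lemma orth_summable {f : ι → H} {g : ι → ℝ} {S : ℝ}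
    (horth : ∀ i j, i ≠ j → ⟪f i, f j⟫_ℂ = 0) (hle : ∀ i, ‖f i‖ ^ 2 ≤ g i) (hg : HasSum g S) :
    Summable f ∧ ‖∑' i, f i‖ ^ 2 ≤ S := by
  have hs : Summable f := by
    refine summable_iff_vanishing_norm.2 fun ε hε => ?_
    obtain ⟨s, hs⟩ := summable_iff_vanishing_norm.1 hg.summable (ε ^ 2) (by positivity)
    refine ⟨s, fun t ht => ?_⟩
    have h1 : ∑ i ∈ t, ‖f i‖ ^ 2 < ε ^ 2 :=
      ((Finset.sum_le_sum fun i _ => hle i).trans (Real.le_norm_self _)).trans_lt (hs t ht)
    rw [← orth_norm_sq horth] at h1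
    exact lt_of_pow_lt_pow_left₀ 2 hε.le h1
  refine ⟨hs, ?_⟩
  have h2 : Filter.Tendsto (fun s : Finset ι => ‖∑ i ∈ s, f i‖ ^ 2) Filter.atTop
      (nhds (‖∑' i, f i‖ ^ 2)) := hs.hasSum.norm.pow 2
  refine le_of_tendsto h2 (Filter.Eventually.of_forall fun s => ?_)
  rw [orth_norm_sq horth]
  exact (Finset.sum_le_sum fun i _ => hle i).trans
    (sum_le_hasSum s (fun i _ => (sq_nonneg _).trans (hle i)) hg)

/-- The terms of the amplification of `w`. -/
def ampTerm (e : ι → ι → (H →L[ℂ] H)) (i₀ : ι) (w : sp p →L[ℂ] sp p) (v : H) (i : ι) : H :=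
  e i i₀ (eCor hp w (e i₀ i v))

lemma ampTerm_spec (he : Units e i₀ p) (w : sp p →L[ℂ] sp p) (v : H) :
    Summable (ampTerm hp e i₀ w v) ∧ ‖∑' i, ampTerm hp e i₀ w v i‖ ≤ ‖w‖ * ‖v‖ := by
  have horth : ∀ i j, i ≠ j → ⟪ampTerm hp e i₀ w v i, ampTerm hp e i₀ w v j⟫_ℂ = 0 := by
    intro i j hij
    rw [ampTerm, ampTerm, he.inner_apply, he.apply_apply, if_neg hij, inner_zero_right]
  have hle : ∀ i, ‖ampTerm hp e i₀ w v i‖ ^ 2 ≤ ‖w‖ ^ 2 * ‖e i i v‖ ^ 2 := fun i => by
    rw [← mul_pow]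
    refine pow_le_pow_left₀ (norm_nonneg _) ?_ 2
    rw [ampTerm, he.norm_apply i i₀, he.corner]
    refine (proj_norm_apply_le hp _).trans (((eCor hp w).le_opNorm _).trans ?_)
    rw [he.norm_apply i₀ i]
    exact mul_le_mul_of_nonneg_right (norm_eCor_le hp w) (norm_nonneg _)
  obtain ⟨h1, h2⟩ := orth_summable horth hle ((he.hasSum_sq v).mul_left _)
  refine ⟨h1, ?_⟩
  rw [← mul_pow] at h2
  exact (pow_le_pow_iff_left₀ (norm_nonneg _) (by positivity) two_ne_zero).1 h2

/-- The diagonal amplification of an operator of the corner. -/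
def ampD (he : Units e i₀ p) (w : sp p →L[ℂ] sp p) : (H →L[ℂ] H) :=
  LinearMap.mkContinuous
    { toFun := fun v => ∑' i, ampTerm hp e i₀ w v i
      map_add' := fun v v' => by
        rw [← Summable.tsum_add (ampTerm_spec hp he w v).1 (ampTerm_spec hp he w v').1]
        exact tsum_congr fun i => by simp [ampTerm, map_add]
      map_smul' := fun c v => by
        rw [RingHom.id_apply, ← Summable.tsum_const_smul c (ampTerm_spec hp he w v).1]
        exact tsum_congr fun i => by simp [ampTerm, map_smul] } ‖w‖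
    fun v => (ampTerm_spec hp he w v).2

variable (he : Units e i₀ p) (w w' : sp p →L[ℂ] sp p)

lemma norm_ampD_le : ‖ampD hp he w‖ ≤ ‖w‖ :=
  LinearMap.mkContinuous_norm_le _ (norm_nonneg w) _

lemma unit_ampD_apply (k l : ι) (v : H) :
    e k l (ampD hp he w v) = e k i₀ (eCor hp w (e i₀ l v)) := by
  change e k l (∑' i, ampTerm hp e i₀ w v i) = _
  rw [(e k l).map_tsum (ampTerm_spec hp he w v).1, tsum_eq_single l]
  · rw [ampTerm, he.apply_apply, if_pos rfl]
  · intro i hi
    rw [ampTerm, he.apply_apply, if_neg (Ne.symm hi)]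

lemma ampD_comm (k l : ι) : ampD hp he w * e k l = e k l * ampD hp he w := by
  refine ContinuousLinearMap.ext fun v => ?_
  rw [mul_apply_eq_comp, mul_apply_eq_comp, unit_ampD_apply]
  change (∑' i, ampTerm hp e i₀ w (e k l v) i) = _
  rw [tsum_eq_single k]
  · rw [ampTerm, he.apply_apply, if_pos rfl]
  · intro i hi
    rw [ampTerm, he.apply_apply, if_neg hi, map_zero, map_zero]

lemma ampD_mul_corner : ampD hp he w * p = eCor hp w := by
  refine ContinuousLinearMap.ext fun v => ?_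
  rw [mul_apply_eq_comp, show p v = e i₀ i₀ v from (DFunLike.congr_fun he.corner v).symm]
  have h := DFunLike.congr_fun (ampD_comm hp he w i₀ i₀) v
  rw [mul_apply_eq_comp, mul_apply_eq_comp] at h
  rw [h, unit_ampD_apply, he.corner]
  have h1 := DFunLike.congr_fun (p_eCor hp w) (p v)
  have h2 := DFunLike.congr_fun (eCor_p hp w) v
  rw [mul_apply_eq_comp] at h1 h2
  rw [h1, h2]

lemma ampD_mul : ampD hp he (w * w') = ampD hp he w * ampD hp he w' := by
  refine ContinuousLinearMap.ext fun v => tsum_congr fun i => ?_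
  rw [ampTerm, ampTerm]
  congr 1
  change eCor hp (w * w') (e i₀ i v) = eCor hp w (e i₀ i (ampD hp he w' v))
  rw [unit_ampD_apply, he.corner, eCor_mul, mul_apply_eq_comp]
  congr 1
  exact (DFunLike.congr_fun (p_eCor hp w') _).symm

lemma ampD_one : ampD hp he 1 = 1 := by
  refine ContinuousLinearMap.ext fun v => ?_
  change (∑' i, ampTerm hp e i₀ 1 v i) = v
  refine Eq.trans (tsum_congr fun i => ?_) (he.total v).tsum_eq
  rw [ampTerm, eCor_one, ← he.corner, he.apply_apply, if_pos rfl, he.apply_apply, if_pos rfl]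

lemma ampD_sub : ampD hp he (w - w') = ampD hp he w - ampD hp he w' := by
  refine ContinuousLinearMap.ext fun v => ?_
  change (∑' i, ampTerm hp e i₀ (w - w') v i)
    = (∑' i, ampTerm hp e i₀ w v i) - ∑' i, ampTerm hp e i₀ w' v i
  rw [← Summable.tsum_sub (ampTerm_spec hp he w v).1 (ampTerm_spec hp he w' v).1]
  exact tsum_congr fun i => by simp only [ampTerm, eCor_sub, sub_apply, map_sub]

lemma star_ampD : star (ampD hp he w) = ampD hp he (star w) := by
  rw [ContinuousLinearMap.star_eq_adjoint]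
  refine ((ContinuousLinearMap.eq_adjoint_iff _ _).2 fun v u => ?_).symm
  change ⟪∑' i, ampTerm hp e i₀ (star w) v i, u⟫_ℂ = ⟪v, ∑' i, ampTerm hp e i₀ w u i⟫_ℂ
  have h2 : ⟪v, ∑' i, ampTerm hp e i₀ w u i⟫_ℂ = ∑' i, ⟪v, ampTerm hp e i₀ w u i⟫_ℂ :=
    (innerSL ℂ v).map_tsum (ampTerm_spec hp he w u).1
  have h1 : ⟪∑' i, ampTerm hp e i₀ (star w) v i, u⟫_ℂ
      = ∑' i, ⟪ampTerm hp e i₀ (star w) v i, u⟫_ℂ := by
    rw [← inner_conj_symm, show ⟪u, ∑' i, ampTerm hp e i₀ (star w) v i⟫_ℂ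
      = ∑' i, ⟪u, ampTerm hp e i₀ (star w) v i⟫_ℂ from
        (innerSL ℂ u).map_tsum (ampTerm_spec hp he (star w) v).1, Complex.conj_tsum]
    exact tsum_congr fun i => inner_conj_symm _ _
  rw [h1, h2]
  refine tsum_congr fun i => ?_
  rw [ampTerm, ampTerm, he.inner_apply, eCor_star, ContinuousLinearMap.star_eq_adjoint,
    ContinuousLinearMap.adjoint_inner_left, he.inner_apply]

lemma ampD_unitary (hw : w ∈ unitary (sp p →L[ℂ] sp p)) : ampD hp he w ∈ unitary (H →L[ℂ] H) :=
  Unitary.mem_iff.2 ⟨by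
    rw [star_ampD, ← ampD_mul, Unitary.star_mul_self_of_mem hw, ampD_one], by
    rw [star_ampD, ← ampD_mul, Unitary.mul_star_self_of_mem hw, ampD_one]⟩

lemma norm_ampD_sub_one_le : ‖ampD hp he w - 1‖ ≤ ‖w - 1‖ := by
  rw [← ampD_one hp he, ← ampD_sub]
  exact norm_ampD_le hp he _

end Vale.Agent.P096.KK
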