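import Mathlib

/-!
# P096: conjugation by exponentials and centralisers
-/

noncomputable section

namespace Vale.Agent.P096.KK

universe u

section Exp

variable {𝔸 : Type u} [NormedRing 𝔸] [NormOneClass 𝔸] [NormedAlgebra ℂ 𝔸] [CompleteSpace 𝔸]

open NormedSpace

/-- The exponential as a unit. -/
def expUnit (A : 𝔸) : 𝔸ˣ :=
  letI := NormedAlgebra.restrictScalars ℚ ℂ 𝔸
  ⟨exp A, exp (-A), by rw [← exp_add_of_commute (Commute.refl A).neg_right, add_neg_cancel, exp_zero],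
    by rw [← exp_add_of_commute (Commute.refl A).neg_left, neg_add_cancel, exp_zero]⟩

@[simp] lemma coe_expUnit (A : 𝔸) : (expUnit A : 𝔸) = exp A := rfl

@[simp] lemma coe_inv_expUnit (A : 𝔸) : ((expUnit A)⁻¹ : 𝔸ˣ) = (exp (-A) : 𝔸) := rfl

lemma norm_exp_sub_two {A : 𝔸} (hA : ‖A‖ ≤ 1 / 2) : ‖exp A - (1 + A)‖ ≤ 2 * ‖A‖ ^ 2 := by
  have hs : HasSum (fun n => ((n.factorial : ℂ))⁻¹ • A ^ n) (exp A) := exp_series_hasSum_exp' A
  have h2 := (hasSum_nat_add_iff' 2).2 hs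
  have hsum : ∑ i ∈ Finset.range 2, ((i.factorial : ℂ))⁻¹ • A ^ i = 1 + A := by
    simp [Finset.sum_range_succ]
  rw [hsum] at h2
  have hg : HasSum (fun n : ℕ => ‖A‖ ^ 2 * (1 / 2) ^ n) (‖A‖ ^ 2 * 2) := by
    refine HasSum.mul_left _ ?_
    have := hasSum_geometric_of_lt_one (r := (1 / 2 : ℝ)) (by norm_num) (by norm_num)
    norm_num at this ⊢
    exact this
  have h := h2.norm_le_of_bounded hg fun n => ?_
  · linarith
  · calc ‖((((n + 2).factorial : ℕ) : ℂ))⁻¹ • A ^ (n + 2)‖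
          ≤ ‖((((n + 2).factorial : ℕ) : ℂ))⁻¹‖ * ‖A ^ (n + 2)‖ := norm_smul_le _ _
        _ ≤ 1 * ‖A ^ (n + 2)‖ := by
            refine mul_le_mul_of_nonneg_right ?_ (norm_nonneg _)
            rw [norm_inv, Complex.norm_natCast]
            exact inv_le_one_of_one_le₀ (by exact_mod_cast (n + 2).factorial_pos)
        _ ≤ 1 * ‖A‖ ^ (n + 2) := by gcongr; exact norm_pow_le _ _
        _ ≤ ‖A‖ ^ 2 * (1 / 2) ^ n := by
            rw [one_mul, pow_add, mul_comm]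
            gcongr

lemma norm_exp_sub_one {A : 𝔸} (hA : ‖A‖ ≤ 1 / 2) : ‖exp A - 1‖ ≤ 2 * ‖A‖ := by
  have h := norm_exp_sub_two hA
  have : exp A - 1 = (exp A - (1 + A)) + A := by abel
  rw [this]
  refine (norm_add_le _ _).trans ?_
  nlinarith [norm_nonneg A]

lemma norm_exp_conj_sub {A : 𝔸} (hA : ‖A‖ ≤ 1 / 2) (x : 𝔸) :
    ‖exp A * x * exp (-A) - x‖ ≤ 6 * ‖A‖ * ‖x‖ := by
  have hA' : ‖-A‖ ≤ 1 / 2 := by rwa [norm_neg]
  have h1 := norm_exp_sub_one hA
  have h2 := norm_exp_sub_one hA'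
  rw [norm_neg] at h2
  set E := exp A - 1 with hE
  set F := exp (-A) - 1 with hF
  have he : exp A * x * exp (-A) - x = E * x + x * F + E * x * F := by
    rw [show exp A = 1 + E by rw [hE]; abel, show exp (-A) = 1 + F by rw [hF]; abel]
    noncomm_ring
  rw [he]
  refine (norm_add₃_le).trans ?_
  have a1 := (norm_mul_le E x).trans (mul_le_mul_of_nonneg_right h1 (norm_nonneg x))
  have a2 := (norm_mul_le x F).trans (mul_le_mul_of_nonneg_left h2 (norm_nonneg x))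
  have a3 := (norm_mul_le (E * x) F).trans (mul_le_mul a1 h2 (norm_nonneg _) (by positivity))
  nlinarith [mul_nonneg (mul_nonneg (norm_nonneg A) (norm_nonneg x)) (sub_nonneg.2 hA), norm_nonneg x,
    norm_nonneg A]

lemma norm_exp_conj_sub_two {A : 𝔸} (hA : ‖A‖ ≤ 1 / 2) (x : 𝔸) :
    ‖exp A * x * exp (-A) - (x + (A * x - x * A))‖ ≤ 9 * ‖A‖ ^ 2 * ‖x‖ := by
  have hA' : ‖-A‖ ≤ 1 / 2 := by rwa [norm_neg]
  have h1 := norm_exp_sub_one hA
  have h2 := norm_exp_sub_one hA'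
  have h3 := norm_exp_sub_two hA
  have h4 := norm_exp_sub_two hA'
  rw [norm_neg] at h2 h4
  set E := exp A - 1 with hE
  set F := exp (-A) - 1 with hF
  have he : exp A * x * exp (-A) - (x + (A * x - x * A)) =
      (exp A - (1 + A)) * x + x * (exp (-A) - (1 + -A)) + E * x * F := by
    rw [hE, hF]; noncomm_ring
  rw [he]
  refine (norm_add₃_le).trans ?_
  have a0 := (norm_mul_le E x).trans (mul_le_mul_of_nonneg_right h1 (norm_nonneg x))
  have a1 := (norm_mul_le (exp A - (1 + A)) x).trans (mul_le_mul_of_nonneg_right h3 (norm_nonneg x))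
  have a2 := (norm_mul_le x (exp (-A) - (1 + -A))).trans (mul_le_mul_of_nonneg_left h4 (norm_nonneg x))
  have a3 := (norm_mul_le (E * x) F).trans (mul_le_mul a0 h2 (norm_nonneg _) (by positivity))
  nlinarith [mul_nonneg (sq_nonneg ‖A‖) (norm_nonneg x)]

end Exp

section Conj

variable {R : Type*} [CommSemiring R] {𝔸 : Type u} [Semiring 𝔸] [Algebra R 𝔸]

/-- Conjugation by a unit as an algebra homomorphism. -/
def conjHom (s : 𝔸ˣ) : 𝔸 →ₐ[R] 𝔸 where
  toFun x := s * x * (↑s⁻¹ : 𝔸)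
  map_one' := by simp
  map_mul' x y := by simp [mul_assoc]
  map_zero' := by simp
  map_add' x y := by simp [mul_add, add_mul]
  commutes' r := by
    rw [← Algebra.commutes r (s : 𝔸), mul_assoc, Units.mul_inv, mul_one]

@[simp] lemma conjHom_apply (s : 𝔸ˣ) (x : 𝔸) :
    conjHom (R := R) s x = s * x * (↑s⁻¹ : 𝔸) := rfl

lemma mem_map_conj (s : 𝔸ˣ) (N : Subalgebra R 𝔸) (y : 𝔸) :
    y ∈ N.map (conjHom s) ↔ (↑s⁻¹ : 𝔸) * y * s ∈ N := by
  rw [Subalgebra.mem_map]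
  constructor
  · rintro ⟨x, hx, rfl⟩
    simpa [mul_assoc] using hx
  · intro h
    exact ⟨_, h, by simp [mul_assoc]⟩

lemma commute_conj (s : 𝔸ˣ) (x y : 𝔸) :
    (↑s⁻¹ : 𝔸) * x * s * y = y * ((↑s⁻¹ : 𝔸) * x * s) ↔
      x * (s * y * (↑s⁻¹ : 𝔸)) = s * y * (↑s⁻¹ : 𝔸) * x := by
  constructor <;> intro h
  · have := congrArg (fun t => (s : 𝔸) * t * (↑s⁻¹ : 𝔸)) h
    simpa [mul_assoc] using this
  · have := congrArg (fun t => (↑s⁻¹ : 𝔸) * t * (s : 𝔸)) h
    simpa [mul_assoc] using this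

lemma centralizer_map_conj (s : 𝔸ˣ) (N : Subalgebra R 𝔸) :
    Subalgebra.centralizer R ((N.map (conjHom s) : Subalgebra R 𝔸) : Set 𝔸) =
      (Subalgebra.centralizer R (N : Set 𝔸)).map (conjHom s) := by
  ext y
  rw [mem_map_conj, Subalgebra.mem_centralizer_iff, Subalgebra.mem_centralizer_iff]
  constructor
  · intro h n hn
    exact ((commute_conj s y n).2 (h _ ⟨n, hn, rfl⟩).symm).symm
  · rintro h z ⟨n, hn, rfl⟩
    exact ((commute_conj s y n).1 (h n hn).symm).symm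

end Conj

end Vale.Agent.P096.KK
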