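import Vale.Agent.P104.Sim.Entry
import Vale.Agent.P085.Toolkit.Spectral
import Vale.Agent.P096.KK.Defs

/-!
# P096, Flatten: averages over monomial groups

For a system of matrix units `e` and a finite central partition `P` the unitaries permuting the
cells `z * e a a` up to signs form a finite group; averaging over it is `unitsAvg e`.
-/

noncomputable section

namespace Vale.Agent.P096.KK.Flatten

open P104.Sim Finset
open scoped InnerProductSpace ComplexOrder

universe u

variable {K : Type u} [NormedAddCommGroup K] [InnerProductSpace ℂ K] [CompleteSpace K]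
variable {N : VonNeumannAlgebra K} {ξ : ℕ → K} {E : (K →L[ℂ] K) → (K →L[ℂ] K)}
variable {n : ℕ} {e : Fin n → Fin n → (K →L[ℂ] K)}

/-! ### Generalities -/

lemma rsmul_memN (c : ℝ) {x : K →L[ℂ] K} (hx : x ∈ N) : c • x ∈ N := by
  rw [← Complex.coe_smul]
  exact smul_memN _ hx

lemma isSelfAdjoint_rsmul (c : ℝ) {x : K →L[ℂ] K} (hx : IsSelfAdjoint x) :
    IsSelfAdjoint (c • x) := by
  rw [← Complex.coe_smul, isSelfAdjoint_iff, star_smul, hx.star_eq, RCLike.star_def,
    Complex.conj_ofReal]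

/-- An element between `-δ` and `δ` has norm at most `δ`. -/
lemma norm_le_of_between {x : K →L[ℂ] K} {δ : ℝ} (hδ : 0 ≤ δ) (h1 : -(δ • (1 : K →L[ℂ] K)) ≤ x)
    (h2 : x ≤ δ • (1 : K →L[ℂ] K)) : ‖x‖ ≤ δ := by
  have hd : IsSelfAdjoint (δ • (1 : K →L[ℂ] K)) := isSelfAdjoint_rsmul δ (.one _)
  have h1' : 0 ≤ δ • (1 : K →L[ℂ] K) + x := by
    have := sub_nonneg.2 h1
    rwa [sub_neg_eq_add, add_comm] at this
  have hx : IsSelfAdjoint x := by
    have := (IsSelfAdjoint.of_nonneg h1').sub hd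
    rwa [add_sub_cancel_left] at this
  refine P085.Toolkit.norm_le_of_form hx hδ fun v => abs_le.2 ⟨?_, ?_⟩
  · have := ((ContinuousLinearMap.nonneg_iff_isPositive _).1 h1').re_inner_nonneg_left v
    rw [add_apply, smul_apply, one_apply_eq_self, inner_add_left, ← Complex.coe_smul,
      inner_smul_left, Complex.conj_ofReal, inner_self_eq_norm_sq_to_K] at this
    simp only [RCLike.re_to_complex, Complex.add_re, Complex.re_ofReal_mul] at this
    norm_cast at this
    rw [show ((RCLike.ofReal (‖v‖ ^ 2) : ℂ)).re = ‖v‖ ^ 2 from RCLike.ofReal_re (K := ℂ) _] at this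
    linarith
  · have := ((ContinuousLinearMap.nonneg_iff_isPositive _).1 (sub_nonneg.2 h2)).re_inner_nonneg_left v
    rw [sub_apply, smul_apply, one_apply_eq_self, inner_sub_left, ← Complex.coe_smul,
      inner_smul_left, Complex.conj_ofReal, inner_self_eq_norm_sq_to_K] at this
    simp only [RCLike.re_to_complex, Complex.sub_re, Complex.re_ofReal_mul] at this
    norm_cast at this
    rw [show ((RCLike.ofReal (‖v‖ ^ 2) : ℂ)).re = ‖v‖ ^ 2 from RCLike.ofReal_re (K := ℂ) _] at this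
    linarith

lemma between_of_norm {x : K →L[ℂ] K} (hx : IsSelfAdjoint x) :
    -(‖x‖ • (1 : K →L[ℂ] K)) ≤ x ∧ x ≤ ‖x‖ • (1 : K →L[ℂ] K) := by
  rw [← Algebra.algebraMap_eq_smul_one]
  exact ⟨hx.neg_algebraMap_norm_le_self, hx.le_algebraMap_norm_self⟩

lemma unitary_one_sub {d : K →L[ℂ] K} (hd : star d = d) (h2 : d * d = d + d) :
    star (1 - d) = 1 - d ∧ (1 - d) * (1 - d) = 1 := by
  refine ⟨by rw [star_sub, star_one, hd], ?_⟩
  simp only [sub_mul, mul_sub, one_mul, mul_one, h2]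
  abel

/-! ### Averaging over units -/

/-- The average of the diagonal entries. -/
def unitsAvg (e : Fin n → Fin n → (K →L[ℂ] K)) (x : K →L[ℂ] K) : K →L[ℂ] K :=
  (n : ℝ)⁻¹ • ∑ a, entry e x a a

lemma avg_add (x y : K →L[ℂ] K) : unitsAvg e (x + y) = unitsAvg e x + unitsAvg e y := by
  simp [unitsAvg, entry_add, sum_add_distrib, smul_add]

lemma avg_sub (x y : K →L[ℂ] K) : unitsAvg e (x - y) = unitsAvg e x - unitsAvg e y := by
  simp [unitsAvg, entry_sub, sum_sub_distrib, smul_sub]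

lemma avg_rsmul (r : ℝ) (x : K →L[ℂ] K) : unitsAvg e (r • x) = r • unitsAvg e x := by
  simp only [unitsAvg, ← Complex.coe_smul, entry_smul, ← smul_sum, smul_smul]
  rw [mul_comm]

lemma avg_sum {ι : Type*} (s : Finset ι) (x : ι → K →L[ℂ] K) :
    unitsAvg e (∑ i ∈ s, x i) = ∑ i ∈ s, unitsAvg e (x i) := by
  simp only [unitsAvg, entry_sum, smul_sum]
  exact Finset.sum_comm

variable (he : IsUnits N e)
include he

lemma avg_mem {x : K →L[ℂ] K} (hx : x ∈ N) : unitsAvg e x ∈ relC N e :=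
  rsmul_memN _ (sum_mem fun a _ => entry_mem he hx a a)

lemma avg_fix (hn : 0 < n) {x : K →L[ℂ] K} (hx : x ∈ relC N e) : unitsAvg e x = x := by
  simp only [unitsAvg, entry_relC he hx, if_true, sum_const, card_univ, Fintype.card_fin]
  rw [← Nat.cast_smul_eq_nsmul ℝ, smul_smul, inv_mul_cancel₀ (by positivity), one_smul]

lemma avg_one (hn : 0 < n) : unitsAvg e (1 : K →L[ℂ] K) = 1 :=
  avg_fix he hn (one_mem _)

lemma avg_central (hn : 0 < n) {z : K →L[ℂ] K} (hz : z ∈ N) (hc : ∀ y ∈ N, z * y = y * z) :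
    unitsAvg e z = z :=
  avg_fix he hn (mem_relC_of_central he hz hc)

lemma avg_central_mul {z : K →L[ℂ] K} (hc : ∀ y ∈ N, z * y = y * z) (x : K →L[ℂ] K) :
    unitsAvg e (z * x) = z * unitsAvg e x := by
  simp only [unitsAvg, entry, mul_smul_comm, mul_sum]
  refine congrArg _ (sum_congr rfl fun a _ => sum_congr rfl fun i _ => ?_)
  rw [← mul_assoc (e i a), ← hc _ (he.mem i a)]
  simp only [mul_assoc]

lemma avg_nonneg {x : K →L[ℂ] K} (hx : 0 ≤ x) : 0 ≤ unitsAvg e x :=
  smul_nonneg (by positivity) (sum_nonneg fun a _ => sum_nonneg fun i _ => by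
    rw [← he.star_eq a i]
    exact star_left_conjugate_nonneg hx _)

lemma avg_mono {x y : K →L[ℂ] K} (hxy : x ≤ y) : unitsAvg e x ≤ unitsAvg e y := by
  have := avg_nonneg he (sub_nonneg.2 hxy)
  rwa [avg_sub, sub_nonneg] at this

lemma avg_norm_le (hn : 0 < n) {x : K →L[ℂ] K} (hx : IsSelfAdjoint x) :
    ‖unitsAvg e x‖ ≤ ‖x‖ := by
  obtain ⟨h1, h2⟩ := between_of_norm hx
  refine norm_le_of_between (norm_nonneg x) ?_ ((avg_mono he h2).trans_eq ?_)
  · refine le_trans (le_of_eq ?_) (avg_mono he h1)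
    rw [← neg_smul, avg_rsmul, avg_one he hn]
  · rw [avg_rsmul, avg_one he hn]

lemma avg_isSelfAdjoint {x : K →L[ℂ] K} (hx : IsSelfAdjoint x) :
    IsSelfAdjoint (unitsAvg e x) := by
  refine isSelfAdjoint_rsmul _ ?_
  rw [isSelfAdjoint_iff, star_sum]
  exact sum_congr rfl fun a _ => by rw [star_entry he, hx.star_eq]

lemma avg_unit_mul (p q : Fin n) (x : K →L[ℂ] K) :
    unitsAvg e (e p q * x) = unitsAvg e (x * e p q) := by
  have h1 : ∀ a i, e i a * (e p q * x) * e a i = if a = p then e i q * x * e p i else 0 := by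
    intro a i
    rw [← mul_assoc (e i a), he.mul]
    split_ifs with h
    · subst h; rfl
    · rw [zero_mul, zero_mul]
  have h2 : ∀ a i, e i a * (x * e p q) * e a i = if a = q then e i q * x * e p i else 0 := by
    intro a i
    rw [mul_assoc, mul_assoc x, he.mul]
    split_ifs with h h' h'
    · subst h; rw [mul_assoc]
    · exact absurd h.symm h'
    · exact absurd h'.symm h
    · rw [mul_zero, mul_zero]
  simp only [unitsAvg, entry, h1, h2]
  congr 1
  rw [sum_comm, sum_comm (f := fun a i => if a = q then e i q * x * e p i else 0)]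
  simp

/-- The average keeps the centre valued trace. -/
lemma E_avg (hE : IsCenterExp N ξ E) (hn : 0 < n) {x : K →L[ℂ] K} (hx : x ∈ N) :
    E (unitsAvg e x) = E x := by
  have h1 : ∀ a, E (entry e x a a) = (n : ℂ) • E (x * e a a) := fun a => by
    rw [entry, hE.map_sum _ _ fun i _ => mul_mem (mul_mem (he.mem _ _) hx) (he.mem _ _)]
    rw [sum_congr rfl fun i _ => show E (e i a * x * e a i) = E (x * e a a) by
      rw [mul_assoc, hE.comm _ (he.mem i a) _ (mul_mem hx (he.mem a i)), mul_assoc, he.mul,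
        if_pos rfl], sum_const, card_univ, Fintype.card_fin, ← Nat.cast_smul_eq_nsmul ℂ]
  rw [unitsAvg, ← Complex.coe_smul, hE.map_smul _ _ (sum_mem fun a _ => relC_le he (entry_mem he hx a a)),
    hE.map_sum _ _ fun a _ => relC_le he (entry_mem he hx a a), sum_congr rfl fun a _ => h1 a,
    ← smul_sum, ← hE.map_sum _ _ fun a _ => mul_mem hx (he.mem a a), ← mul_sum, he.total, mul_one,
    smul_smul]
  push_cast
  rw [inv_mul_cancel₀ (by exact_mod_cast hn.ne'), one_smul]

omit he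

/-! ### Central partitions -/

/-- A finite partition of one by nonzero central projections. -/
structure IsCenPart (N : VonNeumannAlgebra K) (P : Finset (K →L[ℂ] K)) : Prop where
  proj : ∀ z ∈ P, IsCentralProj N z
  ne_zero : ∀ z ∈ P, z ≠ 0
  orth : ∀ z ∈ P, ∀ w ∈ P, z ≠ w → z * w = 0
  total : ∑ z ∈ P, z = 1

/-- Every piece of `P'` lies below a piece of `P`. -/
def Refines (P' P : Finset (K →L[ℂ] K)) : Prop := ∀ z ∈ P', ∃ w ∈ P, z * w = z

lemma Refines.refl {P : Finset (K →L[ℂ] K)} (hP : IsCenPart N P) : Refines P P :=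
  fun z hz => ⟨z, hz, (hP.proj z hz).1.2.isIdempotentElem⟩

omit [CompleteSpace K] in
lemma Refines.trans {P P' P'' : Finset (K →L[ℂ] K)} (h1 : Refines P'' P') (h2 : Refines P' P) :
    Refines P'' P := by
  intro z hz
  obtain ⟨w, hw, hzw⟩ := h1 z hz
  obtain ⟨v, hv, hwv⟩ := h2 w hw
  exact ⟨v, hv, by rw [← hzw, mul_assoc, hwv]⟩

/-- A combination of the pieces of `P` is one of the pieces of a refinement. -/
lemma Refines.exists_coeff {P P' : Finset (K →L[ℂ] K)} (hP : IsCenPart N P) (hP' : IsCenPart N P')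
    (h : Refines P' P) (c : (K →L[ℂ] K) → ℝ) :
    ∃ c' : (K →L[ℂ] K) → ℝ, ∑ z ∈ P, c z • z = ∑ z ∈ P', c' z • z := by
  classical
  refine ⟨fun z => ∑ w ∈ P, if z * w = z then c w else 0, ?_⟩
  calc ∑ w ∈ P, c w • w = ∑ w ∈ P, ∑ z ∈ P', c w • (z * w) :=
        sum_congr rfl fun w _ => by rw [← smul_sum, ← sum_mul, hP'.total, one_mul]
    _ = ∑ w ∈ P, ∑ z ∈ P', (if z * w = z then c w else 0) • z := by
        refine sum_congr rfl fun w hw => sum_congr rfl fun z hz => ?_
        split_ifs with hzw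
        · rw [hzw]
        · obtain ⟨v, hv, hzv⟩ := h z hz
          have hne : v ≠ w := fun e => hzw (e ▸ hzv)
          rw [← hzv, mul_assoc, hP.orth v hv w hw hne, mul_zero, smul_zero, zero_smul]
    _ = _ := by rw [sum_comm]; exact sum_congr rfl fun z _ => (sum_smul ..).symm

/-- A family of orthogonal central projections of sum one gives a partition. -/
lemma exists_cenPart {ι : Type*} [Fintype ι] (q : ι → (K →L[ℂ] K))
    (hq : ∀ i, IsCentralProj N (q i)) (ho : ∀ i j, i ≠ j → q i * q j = 0) (ht : ∑ i, q i = 1) :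
    ∃ P, IsCenPart N P ∧ (∀ z ∈ P, ∃ i, q i = z) ∧
      ∀ c : ι → ℝ, ∃ c' : (K →L[ℂ] K) → ℝ, ∑ i, c i • q i = ∑ z ∈ P, c' z • z := by
  classical
  have hinj : ∀ i j, q i = q j → q i ≠ 0 → i = j := fun i j hij h0 => by
    by_contra hne
    refine h0 ?_
    rw [← (hq i).1.2.isIdempotentElem.eq]
    conv_lhs => arg 2; rw [hij]
    exact ho i j hne
  refine ⟨(univ.filter fun i => q i ≠ 0).image q, ⟨?_, ?_, ?_, ?_⟩, ?_, fun c => ?_⟩
  · intro z hz
    obtain ⟨i, -, rfl⟩ := mem_image.1 hz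
    exact hq i
  · intro z hz
    obtain ⟨i, hi, rfl⟩ := mem_image.1 hz
    exact (mem_filter.1 hi).2
  · intro z hz w hw hne
    obtain ⟨i, -, rfl⟩ := mem_image.1 hz
    obtain ⟨j, -, rfl⟩ := mem_image.1 hw
    exact ho i j fun e => hne (e ▸ rfl)
  · rw [sum_image fun i hi j _ e => hinj i j e (mem_filter.1 hi).2, sum_filter_ne_zero, ht]
  · intro z hz
    obtain ⟨i, -, rfl⟩ := mem_image.1 hz
    exact ⟨i, rfl⟩
  · refine ⟨fun z => ∑ i with q i = z, c i, ?_⟩
    rw [sum_image fun i hi j _ e => hinj i j e (mem_filter.1 hi).2]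
    refine Eq.symm ((sum_congr rfl fun i hi => ?_).trans
      (sum_subset (filter_subset _ univ) fun i _ hi => ?_))
    · congr 1
      dsimp only
      rw [sum_eq_single i]
      · exact fun j hj hne => absurd (hinj i j (mem_filter.1 hj).2.symm (mem_filter.1 hi).2).symm hne
      · exact fun hh => absurd (mem_filter.2 ⟨mem_univ i, rfl⟩ : i ∈ univ.filter fun j => q j = q i) (by simp at hh)
    · rw [not_not.1 fun h0 => hi (mem_filter.2 ⟨mem_univ i, h0⟩), smul_zero]

/-! ### Layers and their groups -/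

/-- Matrix units with a central partition. -/
structure Layer (N : VonNeumannAlgebra K) where
  n : ℕ
  e : Fin n → Fin n → (K →L[ℂ] K)
  P : Finset (K →L[ℂ] K)
  pos : 0 < n
  units : IsUnits N e
  part : IsCenPart N P

namespace Layer

variable (L : Layer N)

/-- The average over the units of a layer. -/
def T (x : K →L[ℂ] K) : K →L[ℂ] K := unitsAvg L.e x

/-- The unitaries permuting the cells up to signs. -/
def Mon (u : K →L[ℂ] K) : Prop :=
  u ∈ N ∧ star u * u = 1 ∧ u * star u = 1 ∧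
    ∀ z ∈ L.P, ∀ a, ∃ b, ∃ s : ℝ, (s = 1 ∨ s = -1) ∧ u * (z * L.e a a) = s • (z * L.e b a)

lemma sum_cells : ∑ z ∈ L.P, ∑ a, z * L.e a a = 1 := by
  simp only [← mul_sum, L.units.total, mul_one, L.part.total]

lemma eq_sum_cells (u : K →L[ℂ] K) : u = ∑ z ∈ L.P, ∑ a, u * (z * L.e a a) := by
  simp only [← mul_sum, L.units.total, mul_one]
  rw [← mul_sum, L.part.total, mul_one]

lemma finite_mon : {u | L.Mon u}.Finite := by
  classical
  refine (Set.finite_range fun F : (↥L.P × Fin L.n) → Fin L.n × Bool =>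
    ∑ x, (if (F x).2 then (1 : ℝ) else -1) • (x.1.1 * L.e (F x).1 x.2)).subset ?_
  rintro u ⟨-, -, -, hu⟩
  choose b s hs hb using hu
  refine ⟨fun x => (b x.1.1 x.1.2 x.2, decide (s x.1.1 x.1.2 x.2 = 1)), ?_⟩
  dsimp only
  rw [L.eq_sum_cells u, ← sum_attach L.P, Fintype.sum_prod_type, univ_eq_attach]
  refine sum_congr rfl fun z _ => sum_congr rfl fun a _ => ?_
  rw [hb z.1 z.2 a]
  rcases hs z.1 z.2 a with h | h <;> norm_num [h]

/-- The group of a layer. -/
def grp : Finset (K →L[ℂ] K) := L.finite_mon.toFinset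

lemma mem_grp {u : K →L[ℂ] K} : u ∈ L.grp ↔ L.Mon u := L.finite_mon.mem_toFinset

lemma one_mem_grp : (1 : K →L[ℂ] K) ∈ L.grp :=
  L.mem_grp.2 ⟨one_mem N, by simp, by simp, fun z _ a => ⟨a, 1, Or.inl rfl, by simp⟩⟩

lemma mon_mul {u v : K →L[ℂ] K} (hu : L.Mon u) (hv : L.Mon v) : L.Mon (u * v) := by
  refine ⟨mul_mem hu.1 hv.1, ?_, ?_, fun z hz a => ?_⟩
  · rw [star_mul, mul_assoc, ← mul_assoc (star u), hu.2.1, one_mul, hv.2.1]
  · rw [star_mul, mul_assoc, ← mul_assoc v, hv.2.2.1, one_mul, hu.2.2.1]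
  · obtain ⟨b, s, hs, hb⟩ := hv.2.2.2 z hz a
    obtain ⟨c, t, ht, hc⟩ := hu.2.2.2 z hz b
    refine ⟨c, s * t, by rcases hs with rfl | rfl <;> rcases ht with rfl | rfl <;> norm_num, ?_⟩
    rw [mul_assoc, hb, mul_smul_comm, show z * L.e b a = z * L.e b b * L.e b a by
      rw [mul_assoc, L.units.mul, if_pos rfl], ← mul_assoc u, hc, smul_mul_assoc, mul_assoc z,
      L.units.mul, if_pos rfl, smul_smul]

lemma mul_mem_grp {u v : K →L[ℂ] K} (hu : u ∈ L.grp) (hv : v ∈ L.grp) : u * v ∈ L.grp :=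
  L.mem_grp.2 (L.mon_mul (L.mem_grp.1 hu) (L.mem_grp.1 hv))

lemma star_mem_grp {u : K →L[ℂ] K} (hu : u ∈ L.grp) : star u ∈ L.grp := by
  have hu' := L.mem_grp.1 hu
  obtain ⟨g, hg, h1⟩ := surj_on_of_inj_on_of_card_le (fun g (_ : g ∈ L.grp) => u * g)
    (fun g hg => L.mul_mem_grp hu hg)
    (fun g g' _ _ h => by
      simpa [← mul_assoc, hu'.2.1] using congrArg (fun x => star u * x) h) le_rfl 1 L.one_mem_grp
  have : star u = g := by
    calc star u = star u * (u * g) := by rw [← h1, mul_one]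
      _ = g := by rw [← mul_assoc, hu'.2.1, one_mul]
  exact this ▸ hg

variable {z : K →L[ℂ] K}

lemma sign_mem_grp (hz : z ∈ L.P) : 1 - (2 : ℝ) • z ∈ L.grp := by
  classical
  have hp := L.part.proj z hz
  rw [two_smul]
  obtain ⟨h1, h2⟩ := unitary_one_sub (d := z + z)
    (by rw [star_add, hp.1.2.isSelfAdjoint.star_eq])
    (by simp only [add_mul, mul_add, hp.1.2.isIdempotentElem.eq])
  refine L.mem_grp.2 ⟨sub_mem (one_mem N) (add_mem hp.1.1 hp.1.1), by rw [h1, h2], by rw [h1, h2],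
    fun w hw a => ⟨a, if w = z then -1 else 1, by split_ifs <;> simp, ?_⟩⟩
  rw [sub_mul, one_mul, add_mul, ← mul_assoc z]
  split_ifs with h
  · rw [h, hp.1.2.isIdempotentElem.eq, neg_one_smul]; abel
  · rw [L.part.orth z hz w hw (Ne.symm h), zero_mul, one_smul]; abel

lemma cell_mul (hz : z ∈ L.P) {w : K →L[ℂ] K} (hw : w ∈ L.P) (a b c d : Fin L.n) [Decidable (z = w)] :
    (z * L.e a b) * (w * L.e c d) = if z = w ∧ b = c then z * L.e a d else 0 := by
  rw [mul_assoc, ← mul_assoc (L.e a b), ← (L.part.proj w hw).2 _ (L.units.mem a b), mul_assoc w,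
    ← mul_assoc, L.units.mul]
  by_cases h : z = w
  · subst h
    rw [(L.part.proj z hz).1.2.isIdempotentElem.eq]
    by_cases h' : b = c <;> simp [h']
  · rw [L.part.orth z hz w hw h, zero_mul, if_neg fun h' => h h'.1]

lemma cell_star (hz : z ∈ L.P) (a b : Fin L.n) : star (z * L.e a b) = z * L.e b a := by
  rw [star_mul, L.units.star_eq, (L.part.proj z hz).1.2.isSelfAdjoint.star_eq,
    (L.part.proj z hz).2 _ (L.units.mem b a)]

lemma flip_mem_grp (hz : z ∈ L.P) (a : Fin L.n) :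
    1 - (z * L.e a a + z * L.e a a) ∈ L.grp := by
  classical
  obtain ⟨h1, h2⟩ := unitary_one_sub (d := z * L.e a a + z * L.e a a)
    (by rw [star_add, L.cell_star hz]) (by simp [add_mul, mul_add, L.cell_mul hz hz])
  have hm : z * L.e a a ∈ N := mul_mem (L.part.proj z hz).1.1 (L.units.mem a a)
  refine L.mem_grp.2 ⟨sub_mem (one_mem N) (add_mem hm hm), by rw [h1, h2], by rw [h1, h2],
    fun w hw c => ⟨c, if z = w ∧ a = c then -1 else 1, by split_ifs <;> simp, ?_⟩⟩
  rw [sub_mul, one_mul, add_mul, L.cell_mul hz hw]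
  split_ifs with h
  · obtain ⟨rfl, rfl⟩ := h
    rw [neg_one_smul]; abel
  · rw [one_smul]; abel

lemma swap_mem_grp (hz : z ∈ L.P) {a b : Fin L.n} (hab : a ≠ b) :
    1 - (z * L.e a a + z * L.e b b - z * L.e a b - z * L.e b a) ∈ L.grp := by
  classical
  have hm : ∀ i j, z * L.e i j ∈ N := fun i j => mul_mem (L.part.proj z hz).1.1 (L.units.mem i j)
  obtain ⟨h1, h2⟩ := unitary_one_sub
    (d := z * L.e a a + z * L.e b b - z * L.e a b - z * L.e b a)
    (by simp only [star_sub, star_add, L.cell_star hz]; abel)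
    (by simp [add_mul, mul_add, sub_mul, mul_sub, L.cell_mul hz hz, hab, hab.symm]; abel)
  refine L.mem_grp.2 ⟨sub_mem (one_mem N) (sub_mem (sub_mem (add_mem (hm _ _) (hm _ _)) (hm _ _))
    (hm _ _)), by rw [h1, h2], by rw [h1, h2],
    fun w hw c => ⟨if z = w then Equiv.swap a b c else c, 1, Or.inl rfl, ?_⟩⟩
  simp only [one_smul, sub_mul, add_mul, one_mul, L.cell_mul hz hw]
  by_cases h : z = w
  · subst h
    by_cases hca : a = c
    · subst hca; simp [hab.symm]
    · by_cases hcb : b = c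
      · subst hcb; simp [hab]
      · simp [hca, hcb, Equiv.swap_apply_of_ne_of_ne (Ne.symm hca) (Ne.symm hcb)]
  · simp [h]

/-- What commutes with the group lies in the relative commutant. -/
lemma mem_relC_of_comm {A : K →L[ℂ] K} (hA : A ∈ N) (hc : ∀ g ∈ L.grp, g * A = A * g) :
    A ∈ relC N L.e := by
  classical
  refine (mem_relC L.units).2 ⟨hA, fun a b => ?_⟩
  have hd : ∀ {d : K →L[ℂ] K}, 1 - d ∈ L.grp → Commute A d := fun {d} h => by
    have := ((Commute.one_right A).sub_right (hc _ h).symm)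
    rwa [sub_sub_cancel] at this
  have hdiag : ∀ z ∈ L.P, ∀ a, Commute A (z * L.e a a) := fun z hz a => by
    have h := (hd (L.flip_mem_grp hz a)).smul_right ((2 : ℝ)⁻¹)
    rwa [← two_smul ℝ, smul_smul, inv_mul_cancel₀ two_ne_zero, one_smul] at h
  have hcell : ∀ z ∈ L.P, Commute A (z * L.e a b) := fun z hz => by
    by_cases hab : a = b
    · subst hab; exact hdiag z hz a
    · have h := ((hdiag z hz a).add_right (hdiag z hz b)).sub_right (hd (L.swap_mem_grp hz hab))
      have h' := (hdiag z hz a).mul_right h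
      rwa [show z * L.e a a * (z * L.e a a + z * L.e b b -
          (z * L.e a a + z * L.e b b - z * L.e a b - z * L.e b a)) = z * L.e a b by
        simp [mul_add, mul_sub, L.cell_mul hz hz, hab]] at h'
  have := Commute.sum_right L.P (fun z => z * L.e a b) A hcell
  rwa [← sum_mul, L.part.total, one_mul] at this

/-- The average is tracial against the group. -/
lemma T_mul_comm {u y : K →L[ℂ] K} (hu : L.Mon u) (hy : y ∈ N) : L.T (u * y) = L.T (y * u) := by
  conv_lhs => rw [L.eq_sum_cells u]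
  conv_rhs => rw [L.eq_sum_cells u]
  simp only [T, sum_mul, mul_sum, avg_sum]
  refine sum_congr rfl fun z hz => sum_congr rfl fun a _ => ?_
  obtain ⟨b, s, -, hb⟩ := hu.2.2.2 z hz a
  have hzc := (L.part.proj z hz).2
  rw [hb, smul_mul_assoc, mul_smul_comm, avg_rsmul, avg_rsmul, mul_assoc,
    avg_central_mul L.units hzc, avg_unit_mul L.units, ← avg_central_mul L.units hzc,
    ← mul_assoc, hzc y hy, mul_assoc]

lemma T_conj {u x : K →L[ℂ] K} (hu : L.Mon u) (hx : x ∈ N) : L.T (u * x * star u) = L.T x := by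
  rw [mul_assoc, L.T_mul_comm hu (mul_mem hx (star_mem hu.1)), mul_assoc, hu.2.1, mul_one]

end Layer

/-- The average of the conjugates of `x`. -/
def conjAvg (G : Finset (K →L[ℂ] K)) (x : K →L[ℂ] K) : K →L[ℂ] K :=
  (G.card : ℝ)⁻¹ • ∑ u ∈ G, u * x * star u

lemma conjAvg_eq_avg (G : Finset (K →L[ℂ] K)) (x : K →L[ℂ] K) :
    conjAvg G x = avg fun u : G => (u : K →L[ℂ] K) * x * star (u : K →L[ℂ] K) := by
  rw [conjAvg, avg, Fintype.card_coe, sum_coe_sort G (fun u => u * x * star u)]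

/-- The average over the group of a layer is the average over its units. -/
theorem Layer.conjAvg_grp (L : Layer N) {x : K →L[ℂ] K} (hx : x ∈ N) :
    conjAvg L.grp x = L.T x := by
  have hN : ∀ u ∈ L.grp, u ∈ N := fun u hu => (L.mem_grp.1 hu).1
  set A := conjAvg L.grp x with hA
  have hAN : A ∈ N := rsmul_memN _ (sum_mem fun u hu =>
    mul_mem (mul_mem (hN u hu) hx) (star_mem (hN u hu)))
  have hinv : ∀ g ∈ L.grp, g * A * star g = A := fun g hg => by
    obtain ⟨-, h1, h2, -⟩ := L.mem_grp.1 hg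
    simp only [hA, conjAvg, mul_smul_comm, smul_mul_assoc, mul_sum, sum_mul]
    refine congrArg _ (sum_nbij' (g * ·) (star g * ·) (fun u hu => L.mul_mem_grp hg hu)
      (fun u hu => L.mul_mem_grp (L.star_mem_grp hg) hu)
      (fun u _ => by simp [← mul_assoc, h1]) (fun u _ => by simp [← mul_assoc, h2])
      (fun u _ => by simp only [star_mul, mul_assoc]))
  have hrel : A ∈ relC N L.e := L.mem_relC_of_comm hAN fun g hg => by
    conv_rhs => rw [← hinv g hg, mul_assoc, (L.mem_grp.1 hg).2.1, mul_one]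
  rw [← avg_fix L.units L.pos hrel, hA, conjAvg, avg_rsmul, avg_sum]
  rw [sum_congr rfl fun u hu => show unitsAvg L.e (u * x * star u) = L.T x from
    L.T_conj (L.mem_grp.1 hu) hx, sum_const, ← Nat.cast_smul_eq_nsmul ℝ, smul_smul,
    inv_mul_cancel₀ (by exact_mod_cast (card_pos.2 ⟨1, L.one_mem_grp⟩).ne'), one_smul]

end Vale.Agent.P096.KK.Flatten
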