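import Vale.Agent.P096.KK.FlattenStep

/-!
# P096, Flatten: refining a layer so as to flatten one more element

In a tracial algebra without abelian projections every layer has a refinement whose average takes a
given self adjoint element close in norm to a combination of the pieces of its partition, and this
persists to all further refinements. Nothing is assumed about separability.
-/

noncomputable section

namespace Vale.Agent.P096.KK.Flatten

open P104.Sim Finset
open scoped InnerProductSpace ComplexOrder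

universe u

variable {K : Type u} [NormedAddCommGroup K] [InnerProductSpace ℂ K] [CompleteSpace K]
variable {N : VonNeumannAlgebra K} {ξ : ℕ → K}
variable {n : ℕ} {e : Fin n → Fin n → (K →L[ℂ] K)}

/-- The relative commutant of units has no abelian projection. -/
lemma noAbelian_relC (he : IsUnits N e) (hn : 0 < n) (hNA : NoAbelian N) :
    NoAbelian (relC N e) := by
  intro p hp hp0
  let a : Fin n := ⟨0, hn⟩
  have hpc : ∀ i j, p * e i j = e i j * p := fun i j => relC_comm he hp.1 i j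
  have hpN : p ∈ N := relC_le he hp.1
  have haa : e a a * e a a = e a a := by rw [he.mul, if_pos rfl]
  set q := e a a * p with hq
  have hqP : P104.Sim.IsProj N q :=
    ⟨mul_mem (he.mem a a) hpN, IsStarProjection.mul ⟨haa, he.star_eq a a⟩ hp.2 (hpc a a).symm⟩
  have hq0 : q ≠ 0 := fun h0 => hp0 (by
    rw [show p = ∑ i, e i i * p by rw [← sum_mul, he.total, one_mul]]
    refine sum_eq_zero fun i _ => ?_
    rw [show e i i = e i a * e a a * e a i by rw [he.mul, if_pos rfl, he.mul, if_pos rfl],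
      mul_assoc, mul_assoc, ← hpc, ← mul_assoc (e a a) p, ← hq, h0, zero_mul, mul_zero])
  obtain ⟨v, hvN, hv0, hqv, hvv, hvo⟩ := hNA q hqP hq0
  have hqq : q * q = q := hqP.2.isIdempotentElem.eq
  have hlv : e a a * v = v := by
    rw [← hqv]; simp only [hq, ← mul_assoc, haa]
  have hqe : q * e a a = q := by rw [hq, mul_assoc, hpc, ← mul_assoc, haa]
  have hrv : v * e a a = v := by rw [← hqv, mul_assoc, hqe]
  have hls : e a a * star v = star v := by
    have := congrArg star hrv
    rwa [star_mul, he.star_eq] at this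
  have hrs : star v * e a a = star v := by
    have := congrArg star hlv
    rwa [star_mul, he.star_eq] at this
  have hφ : ∀ x y : K →L[ℂ] K, x * e a a = x →
      entry e x a a * entry e y a a = entry e (x * y) a a := fun x y hx => by
    rw [entry_mul he, sum_eq_single a]
    · intro i _ hi
      have : entry e x a i = 0 := by
        refine sum_eq_zero fun b _ => ?_
        rw [← hx, ← mul_assoc, mul_assoc (e b a * x), he.mul, if_neg (Ne.symm hi), mul_zero]
      rw [this, zero_mul]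
    · simp
  refine ⟨entry e v a a, entry_mem he hvN a a, fun h0 => hv0 ?_, ?_, ?_, ?_⟩
  · have := e_mul_entry he v a a
    rwa [h0, mul_zero, hlv, hrv, eq_comm] at this
  · have hpvp : p * v * p = v := by
      have hpq : p * q = q := by rw [hq, ← mul_assoc, hpc, mul_assoc, hp.2.isIdempotentElem.eq]
      have hqp : q * p = q := by rw [hq, mul_assoc, hp.2.isIdempotentElem.eq]
      calc p * v * p = p * (q * v * q) * p := by rw [hqv]
        _ = (p * q) * v * (q * p) := by simp only [mul_assoc]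
        _ = v := by rw [hpq, hqp, hqv]
    conv_rhs => rw [← hpvp]
    simp only [entry, mul_sum, sum_mul]
    refine sum_congr rfl fun i _ => ?_
    calc p * (e i a * v * e a i) * p = p * e i a * v * (e a i * p) := by simp only [mul_assoc]
      _ = e i a * p * v * (p * e a i) := by rw [hpc, hpc]
      _ = _ := by simp only [mul_assoc]
  · rw [star_entry he, hφ _ _ hrv, hφ _ _ (by rw [mul_assoc, hrs]), hvv]
  · rw [star_entry he, hφ _ _ hrs, hφ _ _ hrv, hφ _ _ (by rw [mul_assoc, hrv]), hvo]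
    simp [entry]

/-- The trivial layer. -/
def baseLayer (h : P085.IsNormalTrace N ξ) : Layer N where
  n := 1
  e := fun _ _ => 1
  P := {1}
  pos := Nat.one_pos
  units :=
    ⟨fun _ _ => one_mem N, fun _ _ => star_one _, fun _ b c _ => by
      simp [Subsingleton.elim b c], by simp⟩
  part := by
    refine ⟨fun z hz => ?_, fun z hz => ?_, fun z hz w hw hne => ?_, by simp⟩
    · rw [mem_singleton.1 hz]
      exact ⟨⟨one_mem N, .one _⟩, fun y _ => by simp⟩
    · have := trace_nontrivial h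
      rw [mem_singleton.1 hz]
      exact one_ne_zero
    · exact absurd ((mem_singleton.1 hz).trans (mem_singleton.1 hw).symm) hne

/-- A layer is refined by units of its relative commutant and a central partition. -/
lemma exists_refine (L : Layer N) {m : ℕ} (hm : 0 < m) {f : Fin m → Fin m → (K →L[ℂ] K)}
    (hf : IsUnits (relC N L.e) f) {k : ℕ} {q : Fin k → (K →L[ℂ] K)}
    (hq : ∀ j, IsCentralProj N (q j)) (hqo : ∀ i j, i ≠ j → q i * q j = 0)
    (hqt : ∑ j, q j = 1) :
    ∃ L' : Layer N, L.grp ⊆ L'.grp ∧ Refines L'.P L.P ∧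
      (∀ y ∈ relC N L.e, L'.T y = unitsAvg f y) ∧
      ∀ c : Fin k → ℝ, ∃ c' : (K →L[ℂ] K) → ℝ, ∑ j, c j • q j = ∑ z ∈ L'.P, c' z • z := by
  classical
  set σ : Fin (L.n * m) ≃ Fin L.n × Fin m := finProdFinEquiv.symm
  have hc : ∀ s t a b, f s t * L.e a b = L.e a b * f s t := fun s t a b =>
    relC_comm L.units (hf.mem s t) a b
  have hfN : ∀ s t, f s t ∈ N := fun s t => relC_le L.units (hf.mem s t)
  let e' : Fin (L.n * m) → Fin (L.n * m) → (K →L[ℂ] K) := fun x y =>
    L.e (σ x).1 (σ y).1 * f (σ x).2 (σ y).2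
  have he' : IsUnits N e' := by
    refine ⟨fun x y => mul_mem (L.units.mem _ _) (hfN _ _), fun x y => ?_, fun x y x' y' => ?_, ?_⟩
    · simp only [e']
      rw [star_mul, L.units.star_eq, hf.star_eq, hc]
    · simp only [e']
      rw [mul_assoc, ← mul_assoc (f _ _), hc, mul_assoc (L.e _ _) (f _ _), ← mul_assoc, hf.mul,
        L.units.mul]
      by_cases h1 : y = x'
      · subst h1; simp
      · rw [if_neg h1]
        by_cases h2 : (σ y).1 = (σ x').1
        · rw [if_neg (fun h3 => h1 (σ.injective (Prod.ext h2 h3)) : (σ y).2 ≠ (σ x').2), mul_zero]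
        · rw [if_neg h2, zero_mul]
    · simp only [e']
      rw [σ.sum_comp (fun x => L.e x.1 x.1 * f x.2 x.2), Fintype.sum_prod_type]
      simp only [← mul_sum, hf.total, mul_one, L.units.total]
  let w : ↥L.P × Fin k → (K →L[ℂ] K) := fun x => x.1.1 * q x.2
  have hzc : ∀ z ∈ L.P, ∀ y ∈ N, z * y = y * z := fun z hz => (L.part.proj z hz).2
  have hw : ∀ x, IsCentralProj N (w x) := fun x => by
    have hz := L.part.proj _ x.1.2
    refine ⟨⟨mul_mem hz.1.1 (hq _).1.1,
      IsStarProjection.mul hz.1.2 (hq _).1.2 (hz.2 _ (hq _).1.1)⟩, fun y hy => ?_⟩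
    simp only [w]
    rw [mul_assoc, (hq _).2 y hy, ← mul_assoc, hz.2 y hy, mul_assoc]
  have hwo : ∀ x y, x ≠ y → w x * w y = 0 := fun x y hne => by
    simp only [w]
    rw [mul_assoc, ← mul_assoc (q x.2), (hq x.2).2 _ (L.part.proj _ y.1.2).1.1,
      mul_assoc (y.1.1), ← mul_assoc]
    by_cases h1 : x.1 = y.1
    · rw [hqo _ _ fun h2 => hne (Prod.ext h1 h2), mul_zero]
    · rw [L.part.orth _ x.1.2 _ y.1.2 fun h => h1 (Subtype.ext h), zero_mul]
  have hwt : ∑ x, w x = 1 := by
    simp only [w, Fintype.sum_prod_type, ← mul_sum, hqt, mul_one]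
    rw [sum_coe_sort L.P (fun z => z)]
    exact L.part.total
  obtain ⟨P', hP', hmem, hcoef⟩ := exists_cenPart w hw hwo hwt
  have href : Refines P' L.P := fun z hz => by
    obtain ⟨x, rfl⟩ := hmem z hz
    refine ⟨x.1.1, x.1.2, ?_⟩
    simp only [w]
    rw [mul_assoc, (hq _).2 _ (L.part.proj _ x.1.2).1.1, ← mul_assoc,
      (L.part.proj _ x.1.2).1.2.isIdempotentElem.eq]
  refine ⟨⟨L.n * m, e', P', Nat.mul_pos L.pos hm, he', hP'⟩, fun u hu => ?_, href, fun y hy => ?_,
    fun c => ?_⟩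
  · obtain ⟨huN, hu1, hu2, hu3⟩ := L.mem_grp.1 hu
    refine Layer.mem_grp _ |>.2 ⟨huN, hu1, hu2, fun z hz x => ?_⟩
    obtain ⟨z₀, hz₀, hzz⟩ := href z hz
    obtain ⟨b, s, hs, hb⟩ := hu3 z₀ hz₀ (σ x).1
    refine ⟨σ.symm (b, (σ x).2), s, hs, ?_⟩
    have hzN := (hP'.proj z hz)
    simp only [e', Equiv.apply_symm_apply]
    conv_lhs => rw [← hzz]
    calc u * (z * z₀ * (L.e (σ x).1 (σ x).1 * f (σ x).2 (σ x).2))
        = z * (u * (z₀ * L.e (σ x).1 (σ x).1)) * f (σ x).2 (σ x).2 := by
          rw [← mul_assoc z u, hzN.2 u huN]; simp only [mul_assoc]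
      _ = s • (z * z₀ * (L.e b (σ x).1 * f (σ x).2 (σ x).2)) := by
          rw [hb, mul_smul_comm, smul_mul_assoc]; simp only [mul_assoc]
      _ = _ := by rw [hzz]
  · have h1 : ∀ x, entry e' y x x = entry f y (σ x).2 (σ x).2 := fun x => by
      simp only [entry, e']
      rw [σ.sum_comp (fun i => L.e i.1 (σ x).1 * f i.2 (σ x).2 * y *
        (L.e (σ x).1 i.1 * f (σ x).2 i.2)), Fintype.sum_prod_type]
      conv_rhs => rw [← one_mul (∑ _, _), ← L.units.total, sum_mul]
      refine sum_congr rfl fun i _ => ?_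
      rw [mul_sum]
      refine sum_congr rfl fun t _ => ?_
      have h2 : f t (σ x).2 * y * L.e (σ x).1 i = L.e (σ x).1 i * (f t (σ x).2 * y) := by
        rw [mul_assoc, relC_comm L.units hy, ← mul_assoc, hc, mul_assoc]
      calc L.e i (σ x).1 * f t (σ x).2 * y * (L.e (σ x).1 i * f (σ x).2 t)
          = L.e i (σ x).1 * (f t (σ x).2 * y * L.e (σ x).1 i) * f (σ x).2 t := by
            simp only [mul_assoc]
        _ = L.e i (σ x).1 * L.e (σ x).1 i * (f t (σ x).2 * y * f (σ x).2 t) := by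
            rw [h2]; simp only [mul_assoc]
        _ = _ := by rw [L.units.mul, if_pos rfl]
    have h0 : (L.n : ℝ) ≠ 0 := by exact_mod_cast L.pos.ne'
    simp only [Layer.T, unitsAvg]
    rw [sum_congr rfl fun x _ => h1 x, σ.sum_comp (fun x => entry f y x.2 x.2),
      Fintype.sum_prod_type]
    dsimp only
    rw [sum_const, card_univ, Fintype.card_fin, ← Nat.cast_smul_eq_nsmul ℝ,
      smul_smul, Nat.cast_mul, mul_inv, mul_comm (L.n : ℝ)⁻¹, mul_assoc, inv_mul_cancel₀ h0, mul_one]
  · obtain ⟨c', hc'⟩ := hcoef fun x => c x.2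
    refine ⟨c', ?_⟩
    rw [← hc', Fintype.sum_prod_type, Finset.sum_comm]
    refine sum_congr rfl fun j _ => ?_
    simp only [w]
    rw [← smul_sum, ← sum_mul, sum_coe_sort L.P (fun z => z), L.part.total, one_mul]

/-- One refinement flattening one more element. -/
lemma exists_next (h : P085.IsNormalTrace N ξ) (hNA : NoAbelian N) (L : Layer N)
    {k : K →L[ℂ] K} (hk : k ∈ N) (hks : IsSelfAdjoint k) {ε : ℝ} (hε : 0 < ε) :
    ∃ L' : Layer N, L.grp ⊆ L'.grp ∧ Refines L'.P L.P ∧
      ∃ c : (K →L[ℂ] K) → ℝ, ‖L'.T (L.T k) - ∑ z ∈ L'.P, c z • z‖ ≤ ε := by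
  obtain ⟨E, hE⟩ := centerExpOut K N ξ h
  have hEM := isCenterExp_relC L.units hE
  have hy : L.T k ∈ relC N L.e := avg_mem L.units hk
  obtain ⟨m, f, j, q, c, hm, hf, hq, hqo, hqt, hne⟩ :=
    exists_step (isNormalTrace_relC L.units h) hEM (noAbelian_relC L.units L.pos hNA) hy
      (avg_isSelfAdjoint L.units hks) hε
  have hqN : ∀ i, IsCentralProj N (q i) := fun i =>
    ⟨⟨relC_le L.units (hq i).1.1, (hq i).1.2⟩, central_relC L.units hE (hq i).1.1 (hq i).2⟩
  obtain ⟨L', hG, hP, hT, hco⟩ := exists_refine L hm hf hqN hqo hqt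
  obtain ⟨c', hc'⟩ := hco c
  exact ⟨L', hG, hP, c', by rwa [hT _ hy, ← hc']⟩

lemma mono_layers (L : ℕ → Layer N) (hG : ∀ i, (L i).grp ⊆ (L (i + 1)).grp)
    (hP : ∀ i, Refines (L (i + 1)).P (L i).P) {i j : ℕ} (hij : i ≤ j) :
    (L i).grp ⊆ (L j).grp ∧ Refines (L j).P (L i).P := by
  induction j, hij using Nat.le_induction with
  | base => exact ⟨le_rfl, Refines.refl (L i).part⟩
  | succ j _ ih => exact ⟨fun x hx => hG j (ih.1 hx), (hP j).trans ih.2⟩

/-- For `L.grp ⊆ L'.grp` the finer average factors through the coarser one. -/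
lemma T_T (L L' : Layer N) (hG : L.grp ⊆ L'.grp) {x : K →L[ℂ] K} (hx : x ∈ N) :
    L'.T (L.T x) = L'.T x := by
  rw [← L.conjAvg_grp hx, conjAvg]
  simp only [Layer.T]
  rw [avg_rsmul, avg_sum, sum_congr rfl fun u hu => show unitsAvg L'.e (u * x * star u) = L'.T x from
    L'.T_conj (L'.mem_grp.1 (hG hu)) hx, sum_const, ← Nat.cast_smul_eq_nsmul ℝ, smul_smul,
    inv_mul_cancel₀ (by exact_mod_cast (card_pos.2 ⟨1, L.one_mem_grp⟩).ne'), one_smul]
  rfl

/-- Being close to a combination of the pieces persists to finer layers. -/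
lemma close_mono {L L' : Layer N} (hG : L.grp ⊆ L'.grp) (hP : Refines L'.P L.P) {x : K →L[ℂ] K}
    (hx : x ∈ N) (hxs : IsSelfAdjoint x) {c : (K →L[ℂ] K) → ℝ} {ε : ℝ}
    (hc : ‖L.T x - ∑ z ∈ L.P, c z • z‖ ≤ ε) :
    ∃ c' : (K →L[ℂ] K) → ℝ, ‖conjAvg L'.grp x - ∑ z ∈ L'.P, c' z • z‖ ≤ ε := by
  set c₀ := ∑ z ∈ L.P, c z • z with hc₀
  have hc₀N : c₀ ∈ N := sum_mem fun z hz => rsmul_memN _ (L.part.proj z hz).1.1
  have hc₀c : ∀ y ∈ N, c₀ * y = y * c₀ := fun y hy => by
    rw [hc₀, sum_mul, mul_sum]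
    exact sum_congr rfl fun z hz => by
      rw [smul_mul_assoc, (L.part.proj z hz).2 y hy, mul_smul_comm]
  have hc₀s : IsSelfAdjoint c₀ := by
    rw [hc₀, isSelfAdjoint_iff, star_sum]
    exact sum_congr rfl fun z hz =>
      (isSelfAdjoint_rsmul _ (L.part.proj z hz).1.2.isSelfAdjoint).star_eq
  have h1 := avg_norm_le L'.units L'.pos ((avg_isSelfAdjoint L.units hxs).sub hc₀s)
  rw [avg_sub, avg_central L'.units L'.pos hc₀N hc₀c] at h1
  change ‖L'.T (L.T x) - c₀‖ ≤ _ at h1
  rw [T_T L L' hG hx] at h1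
  obtain ⟨c', hc'⟩ := Refines.exists_coeff L.part L'.part hP c
  refine ⟨c', ?_⟩
  rw [L'.conjAvg_grp hx, ← hc']
  exact h1.trans hc

end Vale.Agent.P096.KK.Flatten
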