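import Vale.Agent.P096.KK.FlattenAvg
import Vale.Agent.P104.Sim.Split
import Vale.Agent.P104.Sim.Compare
import Vale.Agent.P085.Toolkit.SpectralApprox

/-!
# P096, Flatten: one step

In an algebra without abelian projections, matrix units can be chosen so that the average over
them of a given self adjoint element is in norm close to a combination of the pieces of a finite
central partition: block the diagonal of the units under the spectral projections of the element,
in proportion to their central traces.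
-/

noncomputable section

namespace Vale.Agent.P096.KK.Flatten

open P104.Sim Finset
open scoped InnerProductSpace ComplexOrder

universe u

variable {K : Type u} [NormedAddCommGroup K] [InnerProductSpace ℂ K] [CompleteSpace K]
variable {N : VonNeumannAlgebra K} {ξ : ℕ → K} {E : (K →L[ℂ] K) → (K →L[ℂ] K)}

lemma isProj_sum {ι : Type*} (s : Finset ι) {p : ι → (K →L[ℂ] K)} (hp : ∀ i, IsProj N (p i))
    (ho : ∀ i j, i ≠ j → p i * p j = 0) : IsProj N (∑ i ∈ s, p i) := by
  refine ⟨sum_mem fun i _ => (hp i).1, ?_, ?_⟩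
  · rw [IsIdempotentElem, sum_mul]
    refine sum_congr rfl fun i hi => ?_
    rw [mul_sum, sum_eq_single i (fun j _ hj => ho i j hj.symm) (fun hn => absurd hi hn),
      (hp i).2.isIdempotentElem.eq]
  · rw [IsSelfAdjoint, star_sum]
    exact sum_congr rfl fun i _ => (hp i).2.isSelfAdjoint.star_eq

lemma mul_of_star_mul_self {v p : K →L[ℂ] K} (hp : IsStarProjection p) (hv : star v * v = p) :
    v * p = v := by
  have hs := hp.isSelfAdjoint.star_eq
  have h : star (v * p - v) * (v * p - v) = 0 := by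
    rw [star_sub, star_mul, hs]
    simp only [sub_mul, mul_sub, mul_assoc]
    simp only [← mul_assoc (star v) v, hv, hp.isIdempotentElem.eq, sub_self]
  exact sub_eq_zero.1 ((CStarRing.star_mul_self_eq_zero_iff _).1 h)

lemma isProj_mul_star {v p : K →L[ℂ] K} (hvN : v ∈ N) (hp : IsStarProjection p)
    (hv : star v * v = p) : IsProj N (v * star v) := by
  refine ⟨mul_mem hvN (star_mem hvN), ?_, IsSelfAdjoint.mul_star_self v⟩
  change v * star v * (v * star v) = v * star v
  rw [← mul_assoc, mul_assoc v (star v) v, hv, mul_of_star_mul_self hp hv]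

/-- The data of a partial isometry from `p` into `q`. -/
lemma exists_into (h : P085.IsNormalTrace N ξ) (hE : IsCenterExp N ξ E) {p q : K →L[ℂ] K}
    (hp : IsProj N p) (hq : IsProj N q) (hle : E p ≤ E q) :
    ∃ v ∈ N, star v * v = p ∧ v * p = v ∧ q * v = v ∧ IsProj N (v * star v) ∧
      q * (v * star v) = v * star v ∧ E (v * star v) = E p := by
  obtain ⟨v, hvN, hv, hqv⟩ := compareOut K N ξ E h hE p q hp hq hle
  have hvp := mul_of_star_mul_self hp.2 hv
  refine ⟨v, hvN, hv, hvp, ?_, isProj_mul_star hvN hp.2 hv, hqv, ?_⟩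
  · have hfix : v * star v * v = v := by rw [mul_assoc, hv, hvp]
    calc q * v = q * (v * star v * v) := by rw [hfix]
      _ = v := by rw [← mul_assoc, hqv, hfix]
  · rw [hE.comm _ hvN _ (star_mem hvN), hv]

/-- Projections with the same central trace are equivalent. -/
lemma exists_equiv (h : P085.IsNormalTrace N ξ) (hE : IsCenterExp N ξ E) {p q : K →L[ℂ] K}
    (hp : IsProj N p) (hq : IsProj N q) (heq : E p = E q) :
    ∃ v ∈ N, star v * v = p ∧ v * star v = q ∧ v * p = v ∧ q * v = v := by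
  obtain ⟨v, hvN, hv, hvp, hqv, hf, hqf, hEf⟩ := exists_into h hE hp hq heq.le
  refine ⟨v, hvN, hv, (sub_eq_zero.1 (h.faithful _ (sub_mem hq.1 hf.1) ?_)).symm, hvp, hqv⟩
  have hfq : v * star v * q = v * star v := by
    have := congrArg star hqf
    rwa [star_mul, hq.2.isSelfAdjoint.star_eq, hf.2.isSelfAdjoint.star_eq] at this
  have hd : star (q - v * star v) * (q - v * star v) = q - v * star v := by
    rw [star_sub, hq.2.isSelfAdjoint.star_eq, hf.2.isSelfAdjoint.star_eq, sub_mul, mul_sub,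
      mul_sub, hqf, hfq, hq.2.isIdempotentElem.eq, hf.2.isIdempotentElem.eq]
    abel
  rw [hd]
  exact IsCenterExp.vecState_eq_zero h hE (sub_mem hq.1 hf.1)
    (by rw [hE.map_sub hq.1 hf.1, hEf, heq, sub_self])

/-- A finite family of central self adjoint elements is nearly constant on a central partition. -/
lemma exists_joint {r : ℕ} (x : Fin r → (K →L[ℂ] K)) (hx : ∀ l, x l ∈ N)
    (hc : ∀ l, ∀ y ∈ N, x l * y = y * x l) (hs : ∀ l, IsSelfAdjoint (x l)) {θ : ℝ} (hθ : 0 < θ) :
    ∃ (k : ℕ) (z : Fin k → (K →L[ℂ] K)) (a : Fin r → Fin k → ℝ),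
      (∀ j, IsCentralProj N (z j)) ∧ (∀ i j, i ≠ j → z i * z j = 0) ∧ ∑ j, z j = 1 ∧
      ∀ l, ‖x l - ∑ j, a l j • z j‖ ≤ θ := by
  induction r with
  | zero =>
    exact ⟨1, fun _ => 1, fun l => l.elim0, fun _ => ⟨⟨one_mem N, .one _⟩, by simp⟩,
      fun i j hij => absurd (Subsingleton.elim i j) hij, by simp, fun l => l.elim0⟩
  | succ r ih =>
    obtain ⟨k, z, a, hz, hzo, hzt, hza⟩ :=
      ih (fun l => x l.succ) (fun l => hx _) (fun l => hc _) (fun l => hs _)
    obtain ⟨m, c, p, hp, -, hcom, hap⟩ := P085.Toolkit.saApprox_strong (M := N) (e := 1)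
      ⟨one_mem N, .one _⟩ (hx 0) (hs 0) (one_mul _) hθ
    have hpc : ∀ i, ∀ y ∈ N, p i * y = y * p i := fun i y hy =>
      (hcom i y (hc 0 y hy) (hc 0 _ (star_mem hy)) (Commute.one_left y)).symm
    set σ : Fin (k * m) ≃ Fin k × Fin m := finProdFinEquiv.symm with hσ
    refine ⟨k * m, fun t => z (σ t).1 * p (σ t).2,
      Fin.cons (fun t => c (σ t).2) fun l t => a l (σ t).1, fun t => ?_, fun t t' ht => ?_, ?_, ?_⟩
    · refine ⟨⟨mul_mem (hz _).1.1 (hp.proj _).1,
        IsStarProjection.mul (hz _).1.2 (hp.proj _).2 ((hz _).2 _ (hp.proj _).1)⟩, fun y hy => ?_⟩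
      rw [mul_assoc, hpc _ y hy, ← mul_assoc, (hz _).2 y hy, mul_assoc]
    · have hne : σ t ≠ σ t' := σ.injective.ne ht
      rw [mul_assoc, ← mul_assoc (p _), ← (hz _).2 _ (hp.proj _).1, mul_assoc (z _), ← mul_assoc]
      by_cases h1 : (σ t).1 = (σ t').1
      · rw [hp.orth _ _ fun h2 => hne (Prod.ext h1 h2), mul_zero]
      · rw [hzo _ _ h1, zero_mul]
    · rw [σ.sum_comp (fun x => z x.1 * p x.2), Fintype.sum_prod_type]
      simp only [← mul_sum, hp.total, mul_one, hzt]
    · refine Fin.cases ?_ fun l => ?_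
      · simp only [Fin.cons_zero]
        rw [σ.sum_comp (fun x => c x.2 • (z x.1 * p x.2)), Fintype.sum_prod_type, Finset.sum_comm]
        simp only [← smul_sum, ← sum_mul, hzt, one_mul]
        simpa only [Complex.coe_smul] using hap
      · simp only [Fin.cons_succ]
        rw [σ.sum_comp (fun x => a l x.1 • (z x.1 * p x.2)), Fintype.sum_prod_type]
        simp only [← smul_sum, ← mul_sum, hp.total, mul_one]
        exact hza l

/-- Labels with prescribed multiplicities. -/
lemma exists_label {r m : ℕ} (j : Fin r → ℕ) (hj : ∑ l, j l ≤ m) :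
    ∃ g : Fin m → Option (Fin r), (∀ l, (univ.filter fun s => g s = some l).card = j l) ∧
      (univ.filter fun s => g s = none).card = m - ∑ l, j l := by
  classical
  let g : Fin m → Option (Fin r) := fun s =>
    if hs : (s : ℕ) < ∑ l, j l then some (finSigmaFinEquiv.symm ⟨s, hs⟩).1 else none
  have hsome : ∀ l, (univ.filter fun s => g s = some l).card = j l := fun l => by
    rw [show (univ.filter fun s => g s = some l) =
      (univ : Finset (Fin (j l))).map
        ⟨fun i => Fin.castLE hj (finSigmaFinEquiv ⟨l, i⟩), fun i i' h => by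
          simpa using finSigmaFinEquiv.injective (Fin.castLE_injective hj h)⟩ by
      ext s
      simp only [mem_filter, mem_univ, true_and, mem_map]
      constructor
      · intro hs
        simp only [g] at hs
        split_ifs at hs with hlt
        have hl := Option.some.inj hs
        generalize hy : finSigmaFinEquiv.symm (⟨s, hlt⟩ : Fin (∑ l, j l)) = y at hl
        obtain ⟨l', i⟩ := y
        obtain rfl : l' = l := hl
        have h' := congrArg finSigmaFinEquiv hy
        rw [Equiv.apply_symm_apply] at h'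
        exact ⟨i, Fin.ext (congrArg Fin.val h').symm⟩
      · rintro ⟨i, rfl⟩
        change g (Fin.castLE hj (finSigmaFinEquiv ⟨l, i⟩)) = some l
        simp only [g]
        rw [dif_pos (show ((Fin.castLE hj (finSigmaFinEquiv (⟨l, i⟩ : Σ l, Fin (j l))) : Fin m) : ℕ)
          < ∑ l, j l from (finSigmaFinEquiv (⟨l, i⟩ : Σ l, Fin (j l))).2)]
        exact congrArg some (congrArg Sigma.fst
          (Equiv.symm_apply_apply finSigmaFinEquiv (⟨l, i⟩ : Σ l, Fin (j l)))), card_map, card_univ,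
      Fintype.card_fin]
  refine ⟨g, hsome, ?_⟩
  have h := card_eq_sum_card_fiberwise (f := g) (s := univ) (t := univ) fun x _ => mem_univ _
  rw [card_univ, Fintype.card_fin, Fintype.sum_option, sum_congr rfl fun l _ => hsome l] at h
  have h' : m = (univ.filter fun s => g s = none).card + ∑ l, j l := h
  omega

/-- Matrix units over a splitting into equal parts. -/
lemma exists_units (h : P085.IsNormalTrace N ξ) (hE : IsCenterExp N ξ E) (hNA : NoAbelian N)
    (L : ℕ) :
    ∃ f : Fin (2 ^ L) → Fin (2 ^ L) → (K →L[ℂ] K), IsUnits N f ∧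
      ∀ s, E (f s s) = ((2 ^ L : ℕ) : ℝ)⁻¹ • (1 : K →L[ℂ] K) := by
  obtain ⟨q, hq, hqo, hqt⟩ := splitOut K N ξ E h hE hNA 1 ⟨one_mem N, .one _⟩ L
  let o : Fin (2 ^ L) := ⟨0, by positivity⟩
  choose v hvN hv hv' hvp hqv using fun s =>
    exists_equiv h hE (hq o).1 (hq s).1 ((hq o).2.trans (hq s).2.symm)
  refine ⟨fun s t => v s * star (v t), ⟨fun s t => mul_mem (hvN s) (star_mem (hvN t)),
    fun s t => by rw [star_mul, star_star], fun a b c d => ?_, ?_⟩, fun s => ?_⟩
  · have hbc : star (v b) * v c = if b = c then q o else 0 := by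
      split_ifs with hb
      · subst hb; exact hv b
      · rw [← hqv b, ← hqv c, star_mul, (hq b).1.2.isSelfAdjoint.star_eq, mul_assoc,
          ← mul_assoc (q b), hqo b c hb, zero_mul, mul_zero]
    rw [mul_assoc, ← mul_assoc (star (v b)), hbc]
    split_ifs
    · rw [← mul_assoc, hvp]
    · rw [zero_mul, mul_zero]
  · simp only [hv', hqt]
  · dsimp only
    rw [hv', (hq s).2, hE.map_one, ← Complex.coe_smul]
    push_cast
    rw [one_div]

lemma mul_nonneg_of_central {z x : K →L[ℂ] K} (hz : IsCentralProj N z) (hx : x ∈ N)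
    (h0 : 0 ≤ x) : 0 ≤ z * x := by
  have := star_left_conjugate_nonneg h0 z
  rwa [hz.1.2.isSelfAdjoint.star_eq, mul_assoc, ← hz.2 x hx, ← mul_assoc,
    hz.1.2.isIdempotentElem.eq] at this

lemma le_of_rsmul_le {z : K →L[ℂ] K} (hz : IsStarProjection z) (hz0 : z ≠ 0) {a b : ℝ}
    (hab : a • z ≤ b • z) : a ≤ b := by
  by_contra hlt
  push Not at hlt
  have h1 : b • z ≤ a • z := smul_le_smul_of_nonneg_right hlt.le hz.nonneg
  have h2 := le_antisymm hab h1
  rw [← sub_eq_zero, ← sub_smul, smul_eq_zero] at h2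
  rcases h2 with h2 | h2
  · linarith
  · exact hz0 h2

/-- Counting from a central trace: block sizes. -/
lemma exists_counts (hE : IsCenterExp N ξ E) {r : ℕ} {p : Fin r → (K →L[ℂ] K)}
    (hp : ∀ l, IsProj N (p l)) (hpt : ∑ l, p l = 1) {z : K →L[ℂ] K} (hz : IsCentralProj N z)
    {θ : ℝ} {a : Fin r → ℝ} (ha : ∀ l, (a l - θ) • z ≤ z * E (p l))
    (ha' : ∀ l, z * E (p l) ≤ (a l + θ) • z) (m : ℕ) :
    ∃ j : Fin r → ℕ, ∑ l, j l ≤ m ∧
      (z ≠ 0 → (m : ℝ) - (∑ l, j l : ℕ) ≤ r * (1 + 2 * θ * m)) ∧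
      ∀ l, ((j l : ℝ) / m) • z ≤ z * E (p l) := by
  rcases eq_or_ne z 0 with rfl | hz0
  · exact ⟨fun _ => 0, by simp, fun h => absurd rfl h, fun l => by simp⟩
  rcases m.eq_zero_or_pos with rfl | hm
  · refine ⟨fun _ => 0, by simp, fun _ => by simp, fun l => ?_⟩
    simpa using mul_nonneg_of_central hz (hE.mem _ (hp l).1) (hE.nonneg _ (hp l).1 (hp l).2.nonneg)
  have hm' : (0 : ℝ) < m := by exact_mod_cast hm
  have hsum : ∑ l, z * E (p l) = z := by
    rw [← mul_sum, ← hE.map_sum _ _ fun l _ => (hp l).1, hpt, hE.map_one, mul_one]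
  have hle : ∀ l, ((⌊(a l - θ) * m⌋₊ : ℕ) / (m : ℝ)) • z ≤ z * E (p l) := fun l => by
    rcases le_total 0 (a l - θ) with h0 | h0
    · refine le_trans (smul_le_smul_of_nonneg_right ?_ hz.1.2.nonneg) (ha l)
      rw [div_le_iff₀ hm']
      exact Nat.floor_le (by positivity)
    · rw [Nat.floor_of_nonpos (mul_nonpos_of_nonpos_of_nonneg h0 hm'.le)]
      simpa using
        mul_nonneg_of_central hz (hE.mem _ (hp l).1) (hE.nonneg _ (hp l).1 (hp l).2.nonneg)
  refine ⟨fun l => ⌊(a l - θ) * m⌋₊, ?_, fun _ => ?_, hle⟩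
  · have h1 := sum_le_sum (s := univ) fun l _ => hle l
    rw [hsum, ← sum_smul] at h1
    have h2 := le_of_rsmul_le hz.1.2 hz0 (h1.trans_eq (one_smul ℝ z).symm)
    rw [← sum_div, div_le_one hm'] at h2
    exact_mod_cast h2
  · have h1 := sum_le_sum (s := univ) fun l _ => ha' l
    rw [hsum, ← sum_smul] at h1
    have h2 := le_of_rsmul_le hz.1.2 hz0 ((one_smul ℝ z).le.trans h1)
    have h3 : ∀ l, (a l + θ) * m ≤ (⌊(a l - θ) * m⌋₊ : ℝ) + (1 + 2 * θ * m) := fun l => by
      nlinarith [Nat.lt_floor_add_one ((a l - θ) * m)]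
    have h4 := sum_le_sum (s := univ) fun l _ => h3 l
    rw [← sum_mul, sum_add_distrib (g := fun _ => 1 + 2 * θ * (m : ℝ)), sum_const, card_univ,
      Fintype.card_fin, nsmul_eq_mul] at h4
    push_cast
    nlinarith [mul_le_mul_of_nonneg_right h2 hm'.le]

/-- A partition is moved by a unitary under another one with larger central traces. -/
lemma exists_unitary (h : P085.IsNormalTrace N ξ) (hE : IsCenterExp N ξ E) {r : ℕ}
    {p : Fin r → (K →L[ℂ] K)} (hp : P085.IsPartition N 1 p)
    {Q : Option (Fin r) → (K →L[ℂ] K)} (hQp : ∀ o, IsProj N (Q o))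
    (hQo : ∀ o o', o ≠ o' → Q o * Q o' = 0) (hQt : ∑ o, Q o = 1)
    (hle : ∀ l, E (Q (some l)) ≤ E (p l)) :
    ∃ U ∈ N, star U * U = 1 ∧ U * star U = 1 ∧
      ∀ l, p l * (U * Q (some l) * star U) = U * Q (some l) * star U := by
  choose v hvN hv hvQ hpv hvp hpvv hEv using fun l =>
    exists_into h hE (hQp (some l)) (hp.proj l) (hle l)
  have hBo : ∀ l l', l ≠ l' → v l * star (v l) * (v l' * star (v l')) = 0 := fun l l' hne => by
    rw [← hpvv l', ← mul_assoc, show v l * star (v l) * p l' = 0 by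
      have := congrArg star (hpvv l)
      rw [star_mul, (hvp l).2.isSelfAdjoint.star_eq, (hp.proj l).2.isSelfAdjoint.star_eq] at this
      rw [← this, mul_assoc, hp.orth l l' hne, mul_zero], zero_mul]
  set R := 1 - ∑ l, v l * star (v l) with hR
  have hRp : IsProj N R :=
    ⟨sub_mem (one_mem N) (isProj_sum _ hvp hBo).1, (isProj_sum _ hvp hBo).2.one_sub⟩
  have hEQn : E (Q none) = E R := by
    have h1 : Q none = 1 - ∑ l, Q (some l) := by
      rw [eq_sub_iff_add_eq, ← hQt, Fintype.sum_option]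
    rw [h1, hR, hE.map_sub (one_mem N) (sum_mem fun l _ => (hQp _).1),
      hE.map_sub (one_mem N) (sum_mem fun l _ => (hvp l).1),
      hE.map_sum _ _ (fun l _ => (hQp _).1), hE.map_sum _ _ (fun l _ => (hvp l).1)]
    simp only [hEv]
  obtain ⟨w, hwN, hw, hw', hwQ, -⟩ := exists_equiv h hE (hQp none) hRp hEQn
  let u : Option (Fin r) → (K →L[ℂ] K) := fun o => o.elim w v
  have hu : ∀ o, u o ∈ N ∧ star (u o) * u o = Q o ∧ u o * Q o = u o := fun o => by
    cases o with
    | none => exact ⟨hwN, hw, hwQ⟩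
    | some l => exact ⟨hvN l, hv l, hvQ l⟩
  set U := ∑ o, u o with hU
  have hUQ : ∀ o, U * Q o = u o := fun o => by
    rw [hU, sum_mul, sum_eq_single o (fun o' _ hne => by
      rw [← (hu o').2.2, mul_assoc, hQo o' o hne, mul_zero]) (fun hn => absurd (mem_univ o) hn),
      (hu o).2.2]
  have h1 : ∀ o, u o * star U = u o * star (u o) := fun o => by
    rw [← hUQ o, star_mul, (hQp o).2.isSelfAdjoint.star_eq, ← mul_assoc _ (Q o) (star U),
      mul_assoc U (Q o) (Q o), (hQp o).2.isIdempotentElem.eq]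
  have hUU : U * star U = 1 := by
    rw [show U * star U = ∑ o, u o * star U by rw [← sum_mul], sum_congr rfl fun o _ => h1 o,
      Fintype.sum_option]
    simp only [u, Option.elim]
    rw [hw', hR]
    abel
  have hUU' : star U * U = 1 := by
    have hRv : ∀ l, R * (v l * star (v l)) = 0 := fun l => by
      rw [hR, sub_mul, one_mul, sum_mul, sum_eq_single l (fun i _ hi => hBo i l hi)
        (fun hn => absurd (mem_univ l) hn), (hvp l).2.isIdempotentElem.eq, sub_self]
    have hvR : ∀ l, v l * star (v l) * R = 0 := fun l => by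
      rw [hR, mul_sub, mul_one, mul_sum, sum_eq_single l (fun i _ hi => hBo l i hi.symm)
        (fun hn => absurd (mem_univ l) hn), (hvp l).2.isIdempotentElem.eq, sub_self]
    have hBu : ∀ o o', o' ≠ o → u o' * star (u o') * (u o * star (u o)) = 0 := fun o o' hne => by
      rcases o with _ | l <;> rcases o' with _ | l' <;> simp only [u, Option.elim]
      · exact absurd rfl hne
      · rw [hw']; exact hvR l'
      · rw [hw']; exact hRv l
      · exact hBo l' l fun e => hne (by rw [e])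
    have hfix : ∀ o, u o * star (u o) * u o = u o := fun o => by
      rw [mul_assoc, (hu o).2.1, (hu o).2.2]
    have hfix' : ∀ o, star (u o) * (u o * star (u o)) = star (u o) := fun o => by
      rw [← mul_assoc, (hu o).2.1, ← (hQp o).2.isSelfAdjoint.star_eq, ← star_mul, (hu o).2.2]
    have h1 : ∀ o, star U * u o = Q o := fun o => by
      rw [hU, star_sum, sum_mul, sum_eq_single o (fun o' _ hne => ?_)
        (fun hn => absurd (mem_univ o) hn), (hu o).2.1]
      rw [← hfix o, ← hfix' o', mul_assoc (star (u o')), ← mul_assoc (u o' * star (u o')),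
        hBu o o' hne, zero_mul, mul_zero]
    rw [show star U * U = ∑ o, star U * u o by rw [← mul_sum], sum_congr rfl fun o _ => h1 o, hQt]
  refine ⟨U, sum_mem fun o _ => (hu o).1, hUU', hUU, fun l => ?_⟩
  rw [hUQ, h1]
  exact hpvv l

/-- The units adapted to prescribed block sizes. -/
lemma exists_blocks (h : P085.IsNormalTrace N ξ) (hE : IsCenterExp N ξ E) (hNA : NoAbelian N)
    (L : ℕ) {r : ℕ} {p : Fin r → (K →L[ℂ] K)} (hp : P085.IsPartition N 1 p) {k : ℕ}
    {z : Fin k → (K →L[ℂ] K)} (hz : ∀ j, IsCentralProj N (z j))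
    (hzo : ∀ i j, i ≠ j → z i * z j = 0) (hzt : ∑ j, z j = 1) {J : Fin k → Fin r → ℕ}
    (hJm : ∀ j, ∑ l, J j l ≤ 2 ^ L)
    (hJle : ∀ j l, ((J j l : ℝ) / (2 ^ L : ℕ)) • z j ≤ z j * E (p l)) :
    ∃ (f : Fin (2 ^ L) → Fin (2 ^ L) → (K →L[ℂ] K)) (B : Fin r → (K →L[ℂ] K)),
      IsUnits N f ∧ (∀ l, 0 ≤ p l - B l) ∧
      (∀ l, unitsAvg f (B l) = ∑ j, ((J j l : ℝ) / (2 ^ L : ℕ)) • z j) ∧
      unitsAvg f (1 - ∑ l, B l) =
        ∑ j, (((2 ^ L : ℕ) - (∑ l, J j l : ℕ) : ℝ) / (2 ^ L : ℕ)) • z j := by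
  classical
  obtain ⟨f, hf, hfE⟩ := exists_units h hE hNA L
  have hmN : 0 < 2 ^ L := by positivity
  revert hmN hJm hJle f
  generalize 2 ^ L = m
  intro hJm hJle f hf hfE hmN
  have hm' : (0 : ℝ) < m := by exact_mod_cast hmN
  choose g hg hgnone using fun j => exists_label (J j) (hJm j)
  have hzz : ∀ i j, z i * z j = if i = j then z i else 0 := fun i j => by
    split_ifs with hij
    · subst hij; exact (hz i).1.2.isIdempotentElem.eq
    · exact hzo i j hij
  let cell : Fin k × Fin m → (K →L[ℂ] K) := fun x => z x.1 * f x.2 x.2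
  have hfp : ∀ s, IsProj N (f s s) := fun s =>
    ⟨hf.mem s s, by rw [IsIdempotentElem, hf.mul, if_pos rfl], hf.star_eq s s⟩
  have hcp : ∀ x, IsProj N (cell x) := fun x =>
    ⟨mul_mem (hz _).1.1 (hf.mem _ _),
      IsStarProjection.mul (hz _).1.2 (hfp _).2 ((hz _).2 _ (hf.mem _ _))⟩
  have hco : ∀ x x', x ≠ x' → cell x * cell x' = 0 := fun x x' hne => by
    simp only [cell]
    rw [mul_assoc, ← mul_assoc (f _ _), ← (hz _).2 _ (hf.mem _ _), mul_assoc (z _), hf.mul,
      ← mul_assoc, hzz]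
    by_cases h1 : x.1 = x'.1
    · rw [if_neg (fun h2 => hne (Prod.ext h1 h2) : x.2 ≠ x'.2), mul_zero]
    · rw [if_neg h1, zero_mul]
  let S : Option (Fin r) → Finset (Fin k × Fin m) := fun o => univ.filter fun x => g x.1 x.2 = o
  let Q : Option (Fin r) → (K →L[ℂ] K) := fun o => ∑ x ∈ S o, cell x
  have hQp : ∀ o, IsProj N (Q o) := fun o => isProj_sum _ hcp hco
  have hQo : ∀ o o', o ≠ o' → Q o * Q o' = 0 := fun o o' hne => by
    simp only [Q, sum_mul, mul_sum]
    refine sum_eq_zero fun x hx => sum_eq_zero fun x' hx' => hco x' x fun e => hne ?_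
    simp only [S, mem_filter] at hx hx'
    simp_all
  have hQt : ∑ o, Q o = 1 := by
    simp only [Q, S]
    rw [sum_fiberwise, Fintype.sum_prod_type]
    simp only [cell, ← mul_sum, hf.total, mul_one, hzt]
  have hsplit : ∀ o (F : Fin k → Fin m → (K →L[ℂ] K)) (B : Fin k → (K →L[ℂ] K)),
      (∀ j s, F j s = B j) → ∑ x ∈ S o, F x.1 x.2 =
        ∑ j, ((univ.filter fun s => g j s = o).card : ℝ) • B j := fun o F B hF => by
    simp only [S]
    rw [sum_filter, Fintype.sum_prod_type]
    refine sum_congr rfl fun j _ => ?_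
    dsimp only
    rw [← sum_filter, sum_congr rfl fun s _ => hF j s, sum_const, Nat.cast_smul_eq_nsmul]
  have hEQ : ∀ o, E (Q o) =
      ∑ j, (((univ.filter fun s => g j s = o).card : ℝ) / m) • z j := fun o => by
    rw [hE.map_sum _ _ fun x _ => (hcp x).1,
      hsplit o (fun j s => E (z j * f s s)) (fun j => (m : ℝ)⁻¹ • z j) fun j s => by
        rw [hE.center_mul _ (hz j).1.1 (hz j).2 _ (hf.mem s s), hfE, mul_smul_comm, mul_one]]
    exact sum_congr rfl fun j _ => by rw [smul_smul, div_eq_mul_inv]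
  have hEQl : ∀ l, E (Q (some l)) ≤ E (p l) := fun l => by
    rw [hEQ]
    simp only [hg]
    refine (sum_le_sum fun j _ => hJle j l).trans_eq ?_
    rw [← sum_mul, hzt, one_mul]
  obtain ⟨U, hUN, hUU', hUU, hpU⟩ := exists_unitary h hE hp hQp hQo hQt hEQl
  let f' : Fin m → Fin m → (K →L[ℂ] K) := fun s t => U * f s t * star U
  have hf' : IsUnits N f' := by
    refine ⟨fun s t => mul_mem (mul_mem hUN (hf.mem s t)) (star_mem hUN),
      fun s t => by simp only [f', star_mul, star_star, hf.star_eq, mul_assoc],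
      fun s t s' t' => ?_, ?_⟩
    · simp only [f']
      rw [show U * f s t * star U * (U * f s' t' * star U) =
        U * (f s t * (star U * U) * f s' t') * star U by simp only [mul_assoc], hUU', mul_one,
        hf.mul]
      split_ifs <;> simp
    · simp only [f', ← sum_mul, ← mul_sum, hf.total, mul_one, hUU]
  -- the averages of the blocks
  have hdiag : ∀ s, unitsAvg f' (f' s s) = (m : ℝ)⁻¹ • (1 : K →L[ℂ] K) := fun s => by
    rw [unitsAvg]
    congr 1
    have h1 : ∀ a, entry f' (f' s s * 1) a a = if a = s ∧ a = s then (1 : K →L[ℂ] K) else 0 :=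
      fun a => entry_unit_mul hf' (one_mem (relC N f')) s s a a
    simp only [mul_one] at h1
    rw [sum_congr rfl fun a _ => h1 a]
    simp
  have hTQ : ∀ o, unitsAvg f' (U * Q o * star U) =
      ∑ j, (((univ.filter fun s => g j s = o).card : ℝ) / m) • z j := fun o => by
    simp only [Q, mul_sum, sum_mul, avg_sum]
    rw [hsplit o (fun j s => unitsAvg f' (U * (z j * f s s) * star U))
      (fun j => (m : ℝ)⁻¹ • z j) fun j s => by
        rw [show U * (z j * f s s) * star U = z j * f' s s by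
          rw [← mul_assoc U, ← (hz j).2 U hUN]; simp only [f', mul_assoc],
          avg_central_mul hf' (hz j).2, hdiag, mul_smul_comm, mul_one]]
    exact sum_congr rfl fun j _ => by rw [smul_smul, div_eq_mul_inv]
  refine ⟨f', fun l => U * Q (some l) * star U, hf', fun l => ?_, fun l => ?_, ?_⟩
  · have hB : IsStarProjection (U * Q (some l) * star U) := by
      refine ⟨?_, ?_⟩
      · rw [IsIdempotentElem, show U * Q (some l) * star U * (U * Q (some l) * star U) =
          U * (Q (some l) * (star U * U) * Q (some l)) * star U by simp only [mul_assoc], hUU',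
          mul_one, (hQp _).2.isIdempotentElem.eq]
      · rw [IsSelfAdjoint, star_mul, star_mul, star_star, (hQp _).2.isSelfAdjoint.star_eq,
          mul_assoc]
    refine (IsStarProjection.sub_of_mul_eq_left hB (hp.proj l).2 ?_).nonneg
    have := congrArg star (hpU l)
    rwa [star_mul, hB.isSelfAdjoint.star_eq, (hp.proj l).2.isSelfAdjoint.star_eq] at this
  · rw [hTQ]
    simp only [hg]
  · have h1 : (1 : K →L[ℂ] K) - ∑ l, U * Q (some l) * star U = U * Q none * star U := by
      rw [sub_eq_iff_eq_add]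
      calc (1 : K →L[ℂ] K) = U * (∑ o, Q o) * star U := by rw [hQt, mul_one, hUU]
        _ = _ := by
          rw [Fintype.sum_option]
          simp only [mul_add, add_mul, mul_sum, sum_mul]
    rw [h1, hTQ]
    refine sum_congr rfl fun j _ => ?_
    rw [hgnone, Nat.cast_sub (hJm j)]

/-- Norm closeness on a central partition gives closeness on each piece. -/
lemma cell_bounds {k : ℕ} {z : Fin k → (K →L[ℂ] K)} (hz : ∀ j, IsCentralProj N (z j))
    (hzo : ∀ i j, i ≠ j → z i * z j = 0) {x : K →L[ℂ] K} (hx : x ∈ N) (hxs : IsSelfAdjoint x)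
    {a : Fin k → ℝ} {θ : ℝ} (hxa : ‖x - ∑ i, a i • z i‖ ≤ θ) (j : Fin k) :
    (a j - θ) • z j ≤ z j * x ∧ z j * x ≤ (a j + θ) • z j := by
  classical
  have hzz : ∀ i j, z i * z j = if i = j then z i else 0 := fun i j => by
    split_ifs with hij
    · subst hij; exact (hz i).1.2.isIdempotentElem.eq
    · exact hzo i j hij
  set d := x - ∑ i, a i • z i with hd
  have hdN : d ∈ N := sub_mem hx (sum_mem fun i _ => rsmul_memN _ (hz i).1.1)
  have hds : IsSelfAdjoint d := hxs.sub (by
    rw [isSelfAdjoint_iff, star_sum]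
    exact sum_congr rfl fun i _ => (isSelfAdjoint_rsmul _ (hz i).1.2.isSelfAdjoint).star_eq)
  obtain ⟨h1, h2⟩ := between_of_norm hds
  have hle : ‖d‖ • (1 : K →L[ℂ] K) ≤ θ • 1 := smul_le_smul_of_nonneg_right hxa zero_le_one
  have h1' := mul_nonneg_of_central (hz j) (add_mem hdN (rsmul_memN θ (one_mem N)))
    (by rw [← sub_neg_eq_add, sub_nonneg]; exact (neg_le_neg hle).trans h1)
  have h2' := mul_nonneg_of_central (hz j) (sub_mem (rsmul_memN θ (one_mem N)) hdN)
    (sub_nonneg.2 (h2.trans hle))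
  have hzd : z j * d = z j * x - a j • z j := by
    rw [hd, mul_sub, mul_sum]
    simp only [mul_smul_comm, hzz, smul_ite, smul_zero, sum_ite_eq, mem_univ, if_true]
  rw [mul_add, hzd, mul_smul_comm, mul_one] at h1'
  rw [mul_sub, hzd, mul_smul_comm, mul_one, sub_nonneg] at h2'
  constructor
  · rw [sub_smul, ← sub_nonneg]
    refine h1'.trans_eq ?_
    abel
  · rw [add_smul, ← sub_nonneg]
    rw [← sub_nonneg] at h2'
    refine h2'.trans_eq ?_
    abel

/-- **One step**: units averaging `y` nearly to a combination of central projections. -/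
theorem exists_step (h : P085.IsNormalTrace N ξ) (hE : IsCenterExp N ξ E) (hNA : NoAbelian N)
    {y : K →L[ℂ] K} (hy : y ∈ N) (hys : IsSelfAdjoint y) {ε : ℝ} (hε : 0 < ε) :
    ∃ (m : ℕ) (f : Fin m → Fin m → (K →L[ℂ] K)) (k : ℕ) (z : Fin k → (K →L[ℂ] K))
      (c : Fin k → ℝ), 0 < m ∧ IsUnits N f ∧ (∀ j, IsCentralProj N (z j)) ∧
      (∀ i j, i ≠ j → z i * z j = 0) ∧ ∑ j, z j = 1 ∧
      ‖unitsAvg f y - ∑ j, c j • z j‖ ≤ ε := by
  obtain ⟨r, c, p, hp, hcy, -, hap⟩ := P085.Toolkit.saApprox_strong (M := N) (e := 1)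
    ⟨one_mem N, .one _⟩ hy hys (one_mul _) (θ := ε / 3) (by positivity)
  set C := ‖y‖ + 1 with hC
  have hC0 : 0 < C := by positivity
  set θ := ε / (6 * C * (r + 1)) with hθ
  have hθ0 : 0 < θ := by positivity
  obtain ⟨L, hL⟩ := pow_unbounded_of_one_lt (3 * C * (r + 1) / ε) (one_lt_two (α := ℝ))
  have hEs : ∀ l, IsSelfAdjoint (E (p l)) := fun l =>
    hE.isSelfAdjoint (hp.proj l).1 (hp.proj l).2.isSelfAdjoint
  obtain ⟨k, z, a, hz, hzo, hzt, hza⟩ := exists_joint (fun l => E (p l))
    (fun l => hE.mem _ (hp.proj l).1) (fun l => hE.central _ (hp.proj l).1) hEs hθ0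
  choose J hJm hJ hJle using fun j => exists_counts hE hp.proj hp.total (hz j)
    (fun l => (cell_bounds hz hzo (hE.mem _ (hp.proj l).1) (hEs l) (hza l) j).1)
    (fun l => (cell_bounds hz hzo (hE.mem _ (hp.proj l).1) (hEs l) (hza l) j).2) (2 ^ L)
  obtain ⟨f', B, hf', hd0, hTp, hTR⟩ := exists_blocks h hE hNA L hp hz hzo hzt hJm hJle
  have hmN : 0 < 2 ^ L := by positivity
  have hLm : 3 * C * (r + 1) ≤ ε * ((2 ^ L : ℕ) : ℝ) := by
    rw [div_lt_iff₀ hε] at hL
    push_cast
    linarith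
  revert f' hTp hTR hJm hJ hmN hLm hJle
  generalize 2 ^ L = m
  intro hJm hJ hJle f' hf' hTp hTR hmN hLm
  have hm' : (0 : ℝ) < m := by exact_mod_cast hmN
  -- the rest is small
  set R := 1 - ∑ l, B l with hR
  have hrest : unitsAvg f' R ≤ (ε / (3 * C) * 2) • (1 : K →L[ℂ] K) := by
    rw [hTR, ← hzt, smul_sum]
    refine sum_le_sum fun j _ => ?_
    rcases eq_or_ne (z j) 0 with h0 | h0
    · simp [h0]
    refine smul_le_smul_of_nonneg_right ?_ (hz j).1.2.nonneg
    rw [div_le_iff₀ hm']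
    refine (hJ j h0).trans ?_
    have e1 : θ * (6 * C * (r + 1)) = ε := by rw [hθ]; field_simp
    rw [div_mul_eq_mul_div, div_mul_eq_mul_div, le_div_iff₀ (by positivity)]
    nlinarith [mul_nonneg (mul_nonneg hθ0.le hm'.le) hC0.le,
      mul_nonneg hC0.le (r.cast_nonneg (α := ℝ))]
  -- conclusion
  set x := ∑ l, c l • (p l - B l) with hx
  have hRd : R = ∑ l, (p l - B l) := by rw [hR, sum_sub_distrib, hp.total]
  have hxb : -(C • R) ≤ x ∧ x ≤ C • R := by
    rw [hRd, hx, smul_sum, ← sum_neg_distrib]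
    have hc : ∀ l, |c l| ≤ C := fun l => (hcy l).trans (by linarith)
    refine ⟨sum_le_sum fun l _ => ?_, sum_le_sum fun l _ =>
      smul_le_smul_of_nonneg_right (le_of_abs_le (hc l)) (hd0 l)⟩
    rw [← neg_smul]
    exact smul_le_smul_of_nonneg_right (neg_le_of_abs_le (hc l)) (hd0 l)
  have hTx : ‖unitsAvg f' x‖ ≤ 2 * ε / 3 := by
    have hb : C • unitsAvg f' R ≤ (2 * ε / 3) • (1 : K →L[ℂ] K) := by
      refine (smul_le_smul_of_nonneg_left hrest hC0.le).trans_eq ?_
      rw [smul_smul]; congr 1; field_simp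
    refine norm_le_of_between (by positivity) ?_ ?_
    · refine (neg_le_neg hb).trans (le_trans (le_of_eq ?_) (avg_mono hf' hxb.1))
      rw [← neg_smul, ← avg_rsmul, neg_smul]
    · refine (avg_mono hf' hxb.2).trans (le_trans (le_of_eq ?_) hb)
      rw [avg_rsmul]
  refine ⟨m, f', k, z, fun j => ∑ l, c l * ((J j l : ℝ) / m), hmN, hf', hz, hzo, hzt, ?_⟩
  set y₀ := ∑ l, c l • p l with hy₀
  have hy₀' : ‖y - y₀‖ ≤ ε / 3 := by simpa only [Complex.coe_smul] using hap
  have hsplit2 : unitsAvg f' y₀ = unitsAvg f' x + ∑ j, (∑ l, c l * ((J j l : ℝ) / m)) • z j := by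
    have e1 : y₀ = x + ∑ l, c l • (B l) := by
      rw [hx, ← sum_add_distrib]; exact sum_congr rfl fun l _ => by rw [smul_sub]; abel
    rw [e1, avg_add]
    congr 1
    simp only [avg_sum, avg_rsmul, hTp, smul_sum, smul_smul, sum_smul]
    exact Finset.sum_comm
  have hs : IsSelfAdjoint (y - y₀) := hys.sub (by
    rw [isSelfAdjoint_iff, hy₀, star_sum]
    exact sum_congr rfl fun l _ => (isSelfAdjoint_rsmul _ (hp.proj l).2.isSelfAdjoint).star_eq)
  calc ‖unitsAvg f' y - ∑ j, (∑ l, c l * ((J j l : ℝ) / m)) • z j‖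
      = ‖unitsAvg f' (y - y₀) + unitsAvg f' x‖ := by rw [avg_sub, hsplit2]; congr 1; abel
    _ ≤ ε / 3 + 2 * ε / 3 := (norm_add_le _ _).trans
        (add_le_add ((avg_norm_le hf' hmN hs).trans hy₀') hTx)
    _ = ε := by ring

end Vale.Agent.P096.KK.Flatten
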