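import Vale.Agent.P096.KK.Defs

/-!
# Spheres and neighbours in the free group
-/

namespace Vale.Agent.P096.KK

open Finset

variable {d : ℕ}

/-- The element of a letter. -/
def letterElt (l : Fin d × Bool) : FreeGroup (Fin d) := FreeGroup.mk [l]

/-- The inverse letter. -/
def flipLetter (l : Fin d × Bool) : Fin d × Bool := (l.1, !l.2)

lemma flipLetter_involutive : Function.Involutive (flipLetter : Fin d × Bool → Fin d × Bool) :=
  fun l => by simp [flipLetter]

lemma inv_letterElt (l : Fin d × Bool) : (letterElt l)⁻¹ = letterElt (flipLetter l) := by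
  simp [letterElt, flipLetter, FreeGroup.inv_mk, FreeGroup.invRev]

lemma toWord_letterElt_mul (l : Fin d × Bool) (u : FreeGroup (Fin d)) :
    (letterElt l * u).toWord =
      if u.toWord.head? = some (flipLetter l) then u.toWord.tail else l :: u.toWord := by
  conv_lhs => rw [← FreeGroup.mk_toWord (x := u)]
  rw [letterElt, FreeGroup.mul_mk, FreeGroup.toWord_mk, List.singleton_append,
    FreeGroup.reduce.cons, FreeGroup.reduce_toWord]
  rcases h : u.toWord with _ | ⟨b, t⟩
  · simp
  · simp only [List.head?_cons, List.tail_cons, Option.some.injEq]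
    rcases b with ⟨i, x⟩
    rcases l with ⟨j, y⟩
    simp only [flipLetter, Prod.mk.injEq]
    by_cases h1 : j = i ∧ y = !x
    · rw [if_pos h1, if_pos ⟨h1.1.symm, by rw [h1.2, Bool.not_not]⟩]
    · rw [if_neg h1, if_neg fun h2 => h1 ⟨h2.1.symm, by rw [h2.2, Bool.not_not]⟩]

lemma length_letterElt_mul (l : Fin d × Bool) (u : FreeGroup (Fin d)) :
    (letterElt l * u).toWord.length + 1 = u.toWord.length ∧
        u.toWord.head? = some (flipLetter l) ∨
      (letterElt l * u).toWord.length = u.toWord.length + 1 ∧
        u.toWord.head? ≠ some (flipLetter l) := by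
  rw [toWord_letterElt_mul]
  split_ifs with h
  · refine .inl ⟨?_, h⟩
    rcases hw : u.toWord with _ | ⟨b, t⟩
    · simp [hw] at h
    · simp
  · exact .inr ⟨by simp, h⟩

/-- The letters which shorten a word: none for the empty word, one otherwise. -/
lemma card_shortening (u : FreeGroup (Fin d)) :
    #{l : Fin d × Bool | u.toWord.head? = some (flipLetter l)}
      = if u.toWord.length = 0 then 0 else 1 := by
  rcases hw : u.toWord with _ | ⟨b, t⟩
  · simp
  · rw [if_neg (by simp)]
    simp only [List.head?_cons, Option.some.injEq]
    refine Finset.card_eq_one.2 ⟨flipLetter b, ?_⟩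
    ext l
    simp only [Finset.mem_filter, Finset.mem_univ, true_and, Finset.mem_singleton]
    exact ⟨fun h => by rw [h, flipLetter_involutive], fun h => by rw [h, flipLetter_involutive]⟩

/-- The number of neighbours of a given length. -/
lemma card_neighbours (u : FreeGroup (Fin d)) (n : ℕ) :
    #{l : Fin d × Bool | (letterElt l * u).toWord.length = n} =
      (if u.toWord.length = n + 1 then 1 else 0) +
        if u.toWord.length + 1 = n then (if u.toWord.length = 0 then 2 * d else 2 * d - 1)
          else 0 := by
  have hs := card_shortening u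
  by_cases h1 : u.toWord.length = n + 1
  · rw [if_pos h1, if_neg (by omega), add_zero]
    refine Eq.trans ?_ (hs.trans (if_neg (by omega)))
    refine congrArg Finset.card (Finset.filter_congr fun l _ => ?_)
    rcases length_letterElt_mul l u with ⟨h, h'⟩ | ⟨h, h'⟩
    · exact ⟨fun _ => h', fun _ => by omega⟩
    · exact ⟨fun _ => absurd ‹_› (by omega), fun e => absurd e h'⟩
  · rw [if_neg h1, zero_add]
    by_cases h2 : u.toWord.length + 1 = n
    · rw [if_pos h2]
      have : ({l : Fin d × Bool | (letterElt l * u).toWord.length = n} : Finset _)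
          = Finset.univ.filter fun l => ¬u.toWord.head? = some (flipLetter l) := by
        refine Finset.filter_congr fun l _ => ?_
        rcases length_letterElt_mul l u with ⟨h, h'⟩ | ⟨h, h'⟩
        · exact ⟨fun e => absurd e (by omega), fun e => absurd h' e⟩
        · exact ⟨fun _ => h', fun _ => by omega⟩
      rw [this]
      have hsplit := Finset.card_filter_add_card_filter_not (s := (Finset.univ : Finset (Fin d × Bool)))
        (fun l => u.toWord.head? = some (flipLetter l))
      rw [hs] at hsplit
      simp only [Finset.card_univ, Fintype.card_prod, Fintype.card_fin, Fintype.card_bool] at hsplit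
      split_ifs with h0 <;> simp only [h0, ↓reduceIte] at hsplit <;> omega
    · rw [if_neg h2]
      refine Finset.card_eq_zero.2 (Finset.filter_eq_empty_iff.2 fun l _ => ?_)
      rcases length_letterElt_mul l u with ⟨h, _⟩ | ⟨h, _⟩ <;> omega

lemma mem_sphere {n : ℕ} {g : FreeGroup (Fin d)} :
    g ∈ sphere d n ↔ g.toWord.length = n := by
  refine ⟨fun h => (Finset.mem_filter.1 h).2, fun h => Finset.mem_filter.2 ⟨?_, h⟩⟩
  subst h
  exact Finset.mem_image.2 ⟨fun i => g.toWord[(i : ℕ)], Finset.mem_univ _, by
    rw [List.ofFn_getElem, FreeGroup.mk_toWord]⟩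

lemma sphere_zero (d : ℕ) : sphere d 0 = {1} := by
  ext g
  rw [mem_sphere, Finset.mem_singleton, List.length_eq_zero_iff, FreeGroup.toWord_eq_nil_iff]

/-- There are `2d (2d-1)^n` words of length `n + 1`. -/
lemma card_sphere_succ (d : ℕ) : ∀ n : ℕ, #(sphere d (n + 1)) = 2 * d * (2 * d - 1) ^ n := by
  have step : ∀ n, #(sphere d (n + 1)) =
      ∑ u ∈ sphere d n, #{l : Fin d × Bool | (letterElt l * u).toWord.length = n + 1} := by
    intro n
    rw [← Finset.card_sigma]
    refine (Finset.card_bij (fun z _ => letterElt z.2 * z.1) ?_ ?_ ?_).symm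
    · intro z hz
      simp only [Finset.mem_sigma, Finset.mem_filter, Finset.mem_univ, true_and] at hz
      exact mem_sphere.2 hz.2
    · intro z hz z' hz' e
      simp only [Finset.mem_sigma, Finset.mem_filter, Finset.mem_univ, true_and, mem_sphere] at hz hz'
      have e' := congrArg FreeGroup.toWord e
      rw [toWord_letterElt_mul, toWord_letterElt_mul] at e'
      rcases length_letterElt_mul z.2 z.1 with ⟨h, h'⟩ | ⟨h, h'⟩
      · omega
      rcases length_letterElt_mul z'.2 z'.1 with ⟨k, k'⟩ | ⟨k, k'⟩
      · omega
      rw [if_neg h', if_neg k', List.cons.injEq] at e'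
      exact Sigma.ext (FreeGroup.toWord_injective e'.2) (heq_of_eq e'.1)
    · intro g hg
      have hg' := mem_sphere.1 hg
      rcases hw : g.toWord with _ | ⟨l, t⟩
      · simp [hw] at hg'
      have hhead : g.toWord.head? = some (flipLetter (flipLetter l)) := by
        rw [flipLetter_involutive, hw]; rfl
      have hu : (letterElt (flipLetter l) * g).toWord = t := by
        rw [toWord_letterElt_mul, if_pos hhead, hw, List.tail_cons]
      have hback : letterElt l * (letterElt (flipLetter l) * g) = g := by
        rw [← inv_letterElt, mul_inv_cancel_left]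
      refine ⟨⟨letterElt (flipLetter l) * g, l⟩, ?_, hback⟩
      simp only [Finset.mem_sigma, Finset.mem_filter, Finset.mem_univ, true_and, mem_sphere, hback,
        hu]
      exact ⟨by simpa [hw] using hg', hg'⟩
  intro n
  induction n with
  | zero => simp [step, sphere_zero, card_neighbours]
  | succ n ih =>
    rw [step, Finset.sum_congr rfl (g := fun _ => 2 * d - 1) fun u hu => ?_, Finset.sum_const, ih,
      smul_eq_mul, pow_succ]
    · ring
    · rw [mem_sphere] at hu
      simp [card_neighbours, hu]

end Vale.Agent.P096.KK
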