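import Vale.Agent.P096.Defs
import Vale.Agent.P104.Sim.Amplify

/-!
# P096: the algebra induced on the range of an isometry, and the infinite amplification
-/

noncomputable section

namespace Vale.Agent.P096.KK.Ind

open ContinuousLinearMap Vale.Agent.P104.Sim.Amplify
open scoped InnerProductSpace

set_option linter.unusedSectionVars false

universe u v

/-- A positive operator has a square root commuting with what commutes with it. -/
theorem exists_root {X : Type u} [NormedAddCommGroup X] [InnerProductSpace ℂ X] [CompleteSpace X]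
    {C D : X →L[ℂ] X} (hC : 0 ≤ C) (hc : Commute C D) :
    ∃ r : X →L[ℂ] X, Commute r D ∧ r * r = C ∧ adjoint r = r := by
  refine ⟨CFC.sqrt C, ?_, CFC.sqrt_mul_sqrt_self C hC, ?_⟩
  · exact hc.cfcₙ_nnreal _
  · rw [← star_eq_adjoint]
    exact (IsSelfAdjoint.of_nonneg (CFC.sqrt_nonneg C)).star_eq

section Induced

variable {K : Type u} [NormedAddCommGroup K] [InnerProductSpace ℂ K] [CompleteSpace K]
variable {L : Type v} [NormedAddCommGroup L] [InnerProductSpace ℂ L] [CompleteSpace L]

/-- The compression by `W`. -/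
def cmp (W : L →L[ℂ] K) (a : K →L[ℂ] K) : L →L[ℂ] L := adjoint W ∘L a ∘L W

@[simp] theorem cmp_apply (W : L →L[ℂ] K) (a : K →L[ℂ] K) (l : L) :
    cmp W a l = adjoint W (a (W l)) := rfl

theorem cmp_star (W : L →L[ℂ] K) (a : K →L[ℂ] K) : cmp W (star a) = star (cmp W a) := by
  simp only [cmp, star_eq_adjoint, adjoint_comp, adjoint_adjoint, ContinuousLinearMap.comp_assoc]

theorem cmp_add (W : L →L[ℂ] K) (a b : K →L[ℂ] K) : cmp W (a + b) = cmp W a + cmp W b := by
  ext l; simp

theorem cmp_sub (W : L →L[ℂ] K) (a b : K →L[ℂ] K) : cmp W (a - b) = cmp W a - cmp W b := by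
  ext l; simp

theorem cmp_smul (W : L →L[ℂ] K) (c : ℂ) (a : K →L[ℂ] K) : cmp W (c • a) = c • cmp W a := by
  ext l; simp

/-- `W` is an isometry whose range is given by an element commuting with `A`, and no nonzero
element of `A` vanishes on the range. -/
structure Good (A : VonNeumannAlgebra K) (W : L →L[ℂ] K) : Prop where
  iso : ∀ l, adjoint W (W l) = l
  range_mem : W ∘L adjoint W ∈ A.commutant
  faithful : ∀ a ∈ A, (∀ l, a (W l) = 0) → a = 0

theorem norm_apply_of_iso {W : L →L[ℂ] K} (h : ∀ l, adjoint W (W l) = l) (l : L) : ‖W l‖ = ‖l‖ := by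
  have h1 : ⟪W l, W l⟫_ℂ = ⟪l, l⟫_ℂ := by rw [← adjoint_inner_right, h]
  rw [inner_self_eq_norm_sq_to_K, inner_self_eq_norm_sq_to_K] at h1
  exact (sq_eq_sq₀ (norm_nonneg _) (norm_nonneg _)).1 (by exact_mod_cast h1)

theorem norm_le_one_of_iso {W : L →L[ℂ] K} (h : ∀ l, adjoint W (W l) = l) : ‖W‖ ≤ 1 :=
  W.opNorm_le_bound zero_le_one fun l => by rw [norm_apply_of_iso h, one_mul]

theorem norm_cmp_le {W : L →L[ℂ] K} (h : ‖W‖ ≤ 1) (a : K →L[ℂ] K) : ‖cmp W a‖ ≤ ‖a‖ := by
  refine ContinuousLinearMap.opNorm_le_bound _ (norm_nonneg a) fun l => ?_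
  calc ‖cmp W a l‖ ≤ ‖adjoint W‖ * (‖a‖ * (‖W‖ * ‖l‖)) :=
        ((adjoint W).le_opNorm _).trans (mul_le_mul_of_nonneg_left
          ((a.le_opNorm _).trans (mul_le_mul_of_nonneg_left (W.le_opNorm l) (norm_nonneg a)))
          (norm_nonneg _))
    _ ≤ 1 * (‖a‖ * (1 * ‖l‖)) := by
        rw [adjoint.norm_map]; gcongr
    _ = ‖a‖ * ‖l‖ := by ring

theorem cmp_dist {W W' : L →L[ℂ] K} (h : ‖W‖ ≤ 1) (h' : ‖W'‖ ≤ 1) (a : K →L[ℂ] K) :
    ‖cmp W' a - cmp W a‖ ≤ 2 * ‖W' - W‖ * ‖a‖ := by
  refine ContinuousLinearMap.opNorm_le_bound _ (by positivity) fun l => ?_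
  have e : (cmp W' a - cmp W a) l = adjoint W' (a ((W' - W) l)) + adjoint (W' - W) (a (W l)) := by
    simp [map_sub]
  rw [e]
  have hb : ∀ (P Q : L →L[ℂ] K), ‖adjoint P (a (Q l))‖ ≤ ‖P‖ * ‖a‖ * (‖Q‖ * ‖l‖) := fun P Q => by
    refine ((adjoint P).le_opNorm _).trans ?_
    rw [adjoint.norm_map, mul_assoc]
    exact mul_le_mul_of_nonneg_left ((a.le_opNorm _).trans
      (mul_le_mul_of_nonneg_left (Q.le_opNorm l) (norm_nonneg a))) (norm_nonneg _)
  refine (norm_add_le _ _).trans ((add_le_add (hb W' (W' - W)) (hb (W' - W) W)).trans ?_)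
  have t1 : ‖W'‖ * ‖a‖ * (‖W' - W‖ * ‖l‖) ≤ 1 * ‖a‖ * (‖W' - W‖ * ‖l‖) := by gcongr
  have t2 : ‖W' - W‖ * ‖a‖ * (‖W‖ * ‖l‖) ≤ ‖W' - W‖ * ‖a‖ * (1 * ‖l‖) := by gcongr
  calc _ ≤ 1 * ‖a‖ * (‖W' - W‖ * ‖l‖) + ‖W' - W‖ * ‖a‖ * (1 * ‖l‖) := add_le_add t1 t2
    _ = _ := by ring

variable {A : VonNeumannAlgebra K} {W : L →L[ℂ] K}

theorem Good.range_apply (h : Good A W) {a : K →L[ℂ] K} (ha : a ∈ A) (k : K) :
    W (adjoint W (a k)) = a (W (adjoint W k)) :=
  (congrArg (fun f : K →L[ℂ] K => f k) (VonNeumannAlgebra.mem_commutant_iff.1 h.range_mem a ha)).symm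

theorem Good.apply_W (h : Good A W) {a : K →L[ℂ] K} (ha : a ∈ A) (l : L) :
    W (cmp W a l) = a (W l) := by
  rw [cmp_apply, h.range_apply ha, h.iso]

theorem Good.cmp_mul (h : Good A W) (a : K →L[ℂ] K) {b : K →L[ℂ] K} (hb : b ∈ A) :
    cmp W (a * b) = cmp W a * cmp W b := by
  ext l
  show adjoint W (a (b (W l))) = adjoint W (a (W (cmp W b l)))
  rw [h.apply_W hb]

theorem Good.cmp_one (h : Good A W) : cmp W (1 : K →L[ℂ] K) = 1 :=
  ContinuousLinearMap.ext h.iso

theorem Good.cmp_injective (h : Good A W) {a b : K →L[ℂ] K} (ha : a ∈ A) (hb : b ∈ A)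
    (he : cmp W a = cmp W b) : a = b := by
  refine sub_eq_zero.1 (h.faithful _ (sub_mem ha hb) fun l => ?_)
  rw [sub_apply, ← h.apply_W ha, ← h.apply_W hb, he, sub_self]

/-- The operators commuting with the compressed commutant. -/
def induced (A : VonNeumannAlgebra K) (W : L →L[ℂ] K) : VonNeumannAlgebra L where
  toStarSubalgebra := StarSubalgebra.centralizer ℂ (cmp W '' (A.commutant : Set (K →L[ℂ] K)))
  centralizer_centralizer' := by simp

theorem mem_induced {T : L →L[ℂ] L} :
    T ∈ induced A W ↔ ∀ s ∈ A.commutant, cmp W s * T = T * cmp W s := by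
  show T ∈ StarSubalgebra.centralizer ℂ _ ↔ _
  rw [StarSubalgebra.mem_centralizer_iff]
  constructor
  · intro h s hs; exact (h _ ⟨s, hs, rfl⟩).1
  · rintro h g ⟨s, hs, rfl⟩
    refine ⟨h s hs, ?_⟩
    rw [← cmp_star]
    exact h _ (star_mem hs)

theorem Good.cmp_mem (h : Good A W) {a : K →L[ℂ] K} (ha : a ∈ A) : cmp W a ∈ induced A W := by
  refine mem_induced.2 fun s hs => ContinuousLinearMap.ext fun l => ?_
  show adjoint W (s (W (cmp W a l))) = adjoint W (a (W (adjoint W (s (W l)))))
  have hc : ∀ k, s (a k) = a (s k) := fun k =>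
    (congrArg (fun f : K →L[ℂ] K => f k) (VonNeumannAlgebra.mem_commutant_iff.1 hs a ha)).symm
  rw [h.apply_W ha, hc, ← h.range_apply ha, h.iso]

/-- The finite families of the commutant move a commuting operator boundedly. -/
theorem sum_bound {T : L →L[ℂ] L} (hT : T ∈ induced A W) {n : ℕ} (s : Fin n → (K →L[ℂ] K))
    (hs : ∀ i, s i ∈ A.commutant) (v : Fin n → L) :
    ‖∑ i, s i (W (T (v i)))‖ ≤ ‖T‖ * ‖∑ i, s i (W (v i))‖ := by
  set S : Amp L n →L[ℂ] K := ∑ i, s i ∘L W ∘L pr i with hS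
  set C : Amp L n →L[ℂ] Amp L n := adjoint S ∘L S with hC
  have hent : ∀ i j, ent C i j = cmp W (star (s i) * s j) := fun i j => by
    refine ext fun l => ext_inner_left ℂ fun l' => ?_
    have hSi : ∀ i l, S (inj i l) = s i (W l) := fun i l => by
      simp only [hS, sum_apply, ContinuousLinearMap.comp_apply, pr_inj]
      rw [Finset.sum_eq_single i]
      · simp
      · intro b _ hb; simp [hb]
      · simp
    calc ⟪l', ent C i j l⟫_ℂ = ⟪l', pr i (C (inj j l))⟫_ℂ := rfl
      _ = ⟪inj i l', C (inj j l)⟫_ℂ := by rw [← adjoint_pr i, adjoint_inner_left]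
      _ = ⟪S (inj i l'), S (inj j l)⟫_ℂ := by
          rw [hC, ContinuousLinearMap.comp_apply, adjoint_inner_right]
      _ = ⟪l', cmp W (star (s i) * s j) l⟫_ℂ := by
          rw [hSi, hSi, cmp_apply, mul_apply_eq_comp, star_eq_adjoint, adjoint_inner_right,
            adjoint_inner_right]
  have hcomm : Commute C (diag n T) := by
    refine ext_ent fun i j => ?_
    rw [ent_diag_mul, ent_mul_diag, hent]
    exact (mem_induced.1 hT) _ (mul_mem (star_mem (hs i)) (hs j))
  have hC0 : (0 : Amp L n →L[ℂ] Amp L n) ≤ C := by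
    rw [nonneg_iff_isPositive, hC]
    exact isPositive_adjoint_comp_self S
  obtain ⟨r, hrD, hrr, hrs⟩ := exists_root hC0 hcomm
  have hn : ∀ u, ‖r u‖ = ‖S u‖ := fun u => by
    have e : ⟪r u, r u⟫_ℂ = ⟪S u, S u⟫_ℂ := by
      rw [← adjoint_inner_right, hrs, ← adjoint_inner_right,
        show r (r u) = C u from congrArg (fun f : Amp L n →L[ℂ] Amp L n => f u) hrr]
      rfl
    rw [inner_self_eq_norm_sq_to_K, inner_self_eq_norm_sq_to_K] at e
    exact (sq_eq_sq₀ (norm_nonneg _) (norm_nonneg _)).1 (by exact_mod_cast e)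
  set w : Amp L n := ∑ i, inj i (v i) with hw
  have hSw : S w = ∑ i, s i (W (v i)) := by
    simp [hS, hw, sum_apply, map_sum, pr_inj, apply_ite, Finset.sum_ite_eq]
  have hSDw : S (diag n T w) = ∑ i, s i (W (T (v i))) := by
    simp [hS, hw, sum_apply, map_sum, diag_inj_apply, pr_inj, apply_ite, Finset.sum_ite_eq]
  calc ‖∑ i, s i (W (T (v i)))‖ = ‖r (diag n T w)‖ := by rw [hn, hSDw]
    _ = ‖diag n T (r w)‖ := by
        rw [show r (diag n T w) = diag n T (r w) from
          congrArg (fun f : Amp L n →L[ℂ] Amp L n => f w) hrD]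
    _ ≤ ‖T‖ * ‖r w‖ := ((diag n T).le_opNorm _).trans
        (mul_le_mul_of_nonneg_right (norm_diag_le T) (norm_nonneg _))
    _ = _ := by rw [hn, hSw]

/-- Every operator of the induced algebra is the compression of an element of `A` of no larger
norm. -/
theorem Good.exists_lift (h : Good A W) {T : L →L[ℂ] L} (hT : T ∈ induced A W) :
    ∃ a ∈ A, cmp W a = T ∧ ‖a‖ ≤ ‖T‖ := by
  classical
  set e := Finsupp.linearCombination ℂ fun p : A.commutant × L => (p.1 : K →L[ℂ] K) (W p.2)
  set f := Finsupp.linearCombination ℂ fun p : A.commutant × L => (p.1 : K →L[ℂ] K) (W (T p.2))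
  have hb : ∀ x, ‖f x‖ ≤ ‖T‖ * ‖e x‖ := fun x => by
    set E := x.support.equivFin
    have hre : ∀ g : A.commutant × L → K, (∑ p ∈ x.support, x p • g p)
        = ∑ i, x (E.symm i) • g (E.symm i) := fun g => by
      rw [← Finset.sum_coe_sort]
      exact (E.symm.sum_comp fun p => x p • g p).symm
    have h1 := sum_bound hT (fun i => ((E.symm i).1.1 : K →L[ℂ] K)) (fun i => (E.symm i).1.1.2)
      (fun i => x (E.symm i) • (E.symm i).1.2)
    simp only [map_smul] at h1
    rw [Finsupp.linearCombination_apply, Finsupp.linearCombination_apply, Finsupp.sum,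
      Finsupp.sum, hre, hre]
    exact h1
  have hd : DenseRange e := by
    set V := (LinearMap.range e).topologicalClosure with hV
    have : CompleteSpace V := Submodule.topologicalClosure.completeSpace _
    have hmaps : ∀ y ∈ A.commutant, ∀ k ∈ V, y k ∈ V := by
      intro y hy
      refine Set.MapsTo.closure (f := y) ?_ y.continuous
      rintro _ ⟨x, rfl⟩
      refine ⟨Finsupp.mapDomain (fun p => ((⟨y * p.1, mul_mem hy p.1.2⟩ : A.commutant), p.2)) x, ?_⟩
      induction x using Finsupp.induction_linear with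
      | zero => simp
      | add a b ha hb => simp only [Finsupp.mapDomain_add, map_add, ha, hb]
      | single p c => simp [e, Finsupp.mapDomain_single]
    have hP : V.starProjection ∈ A := by
      rw [VonNeumannAlgebra.IsStarProjection.mem_iff isStarProjection_starProjection A]
      intro y hy
      rw [Submodule.range_starProjection, Module.End.mem_invtSubmodule]
      exact hmaps y hy
    have h1 := h.faithful (1 - V.starProjection) (sub_mem (one_mem A) hP) fun l => by
      have : W l ∈ V := Submodule.le_topologicalClosure _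
        ⟨Finsupp.single ((⟨1, one_mem _⟩ : A.commutant), l) 1, by simp [e]⟩
      simp [Submodule.starProjection_eq_self_iff.2 this]
    intro k
    show k ∈ closure (Set.range e)
    have h2 : V.starProjection k = k := by rw [← sub_eq_zero.1 h1]; rfl
    have h3 := V.starProjection_apply_mem k
    rw [h2] at h3
    exact h3
  set a := f.extendOfNorm e
  have hae : ∀ x, a (e x) = f x := LinearMap.extendOfNorm_eq hd ⟨_, hb⟩
  have hsingle : ∀ (s : A.commutant) (l : L),
      a ((s : K →L[ℂ] K) (W l)) = (s : K →L[ℂ] K) (W (T l)) := fun s l => by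
    simpa [e, f] using hae (Finsupp.single (s, l) 1)
  refine ⟨a, ?_, ?_, ContinuousLinearMap.opNorm_le_bound _ (norm_nonneg T)
    (LinearMap.norm_extendOfNorm_apply_le hd _ hb)⟩
  · rw [← SetLike.mem_coe, ← A.centralizer_centralizer]
    intro y hy
    have hy' : y ∈ A.commutant := by
      rw [← SetLike.mem_coe, VonNeumannAlgebra.coe_commutant]; exact hy
    refine DFunLike.coe_injective (hd.equalizer (y * a).continuous (a * y).continuous (funext fun x => ?_))
    simp only [Function.comp_apply]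
    induction x using Finsupp.induction_linear with
    | zero => simp
    | add x z hx hz => simp [map_add, hx, hz]
    | single p c =>
      have h1 := hsingle ⟨y * p.1, mul_mem hy' p.1.2⟩ p.2
      simp only [mul_apply_eq_comp] at h1
      simp [e, Finsupp.linearCombination_single, map_smul, hsingle p.1 p.2, h1]
  · refine ext fun l => ?_
    have h1 := hsingle ⟨1, one_mem _⟩ l
    simp only [one_apply_eq_self] at h1
    rw [cmp_apply, h1, h.iso]

theorem Good.norm_cmp (h : Good A W) {a : K →L[ℂ] K} (ha : a ∈ A) : ‖cmp W a‖ = ‖a‖ := by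
  refine le_antisymm (norm_cmp_le (norm_le_one_of_iso h.iso) a) ?_
  obtain ⟨b, hb, hcb, hn⟩ := h.exists_lift (h.cmp_mem ha)
  rwa [h.cmp_injective hb ha hcb] at hn

end Induced

section InfAmp

variable {H : Type u} [NormedAddCommGroup H] [InnerProductSpace ℂ H] [CompleteSpace H]

/-- The sum of countably many copies. -/
abbrev Big (H : Type u) [NormedAddCommGroup H] : Type u := lp (fun _ : ℕ => H) 2

theorem memℓp_comp (a : H →L[ℂ] H) (w : Big H) : Memℓp (fun i => a (w i)) 2 := by
  refine memℓp_gen ?_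
  simp only [ENNReal.toReal_ofNat, Real.rpow_two]
  refine Summable.of_nonneg_of_le (fun i => by positivity) (fun i => ?_)
    (((lp.memℓp w).summable (by norm_num)).mul_left (‖a‖ ^ 2))
  simp only [ENNReal.toReal_ofNat, Real.rpow_two]
  rw [← mul_pow]
  gcongr
  exact a.le_opNorm _

/-- The diagonal operator. -/
def dia (a : H →L[ℂ] H) : Big H →L[ℂ] Big H :=
  LinearMap.mkContinuous
    { toFun := fun w => (⟨fun i => a (w i), memℓp_comp a w⟩ : Big H)
      map_add' := fun v w => lp.ext (funext fun i => map_add a (v i) (w i))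
      map_smul' := fun c w => lp.ext (funext fun i => map_smul a c (w i)) }
    ‖a‖ fun w => by
      refine lp.norm_le_of_forall_sum_le (by norm_num) (by positivity) fun s => ?_
      simp only [ENNReal.toReal_ofNat, Real.rpow_two]
      calc ∑ i ∈ s, ‖a (w i)‖ ^ 2 ≤ ∑ i ∈ s, ‖a‖ ^ 2 * ‖w i‖ ^ 2 :=
            Finset.sum_le_sum fun i _ => by rw [← mul_pow]; gcongr; exact a.le_opNorm _
        _ ≤ ‖a‖ ^ 2 * ‖w‖ ^ 2 := by
            rw [← Finset.mul_sum]
            gcongr
            simpa [Real.rpow_two] using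
              lp.sum_rpow_le_norm_rpow (p := 2) (by norm_num) w s
        _ = _ := by ring

theorem dia_apply (a : H →L[ℂ] H) (w : Big H) (i : ℕ) : dia a w i = a (w i) := rfl

theorem ext_big {X Y : Big H →L[ℂ] Big H} (h : ∀ w i, X w i = Y w i) : X = Y :=
  ext fun w => lp.ext (funext (h w))

/-- The inclusion of a copy. -/
def inB (i : ℕ) : H →L[ℂ] Big H := lp.singleContinuousLinearMap ℂ (fun _ : ℕ => H) 2 i

/-- The projection to a copy. -/
def prB (i : ℕ) : Big H →L[ℂ] H := lp.evalCLM ℂ (fun _ : ℕ => H) (p := 2) i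

theorem inB_apply (i : ℕ) (x : H) (j : ℕ) : inB i x j = if j = i then x else 0 := by
  show (lp.single 2 i x : Big H) j = _
  rcases eq_or_ne j i with rfl | h
  · simp
  · simp [h]

theorem dia_inB (a : H →L[ℂ] H) (i : ℕ) (x : H) : dia a (inB i x) = inB i (a x) :=
  lp.ext (funext fun j => by rw [dia_apply, inB_apply, inB_apply, apply_ite a, map_zero])

theorem norm_dia (a : H →L[ℂ] H) : ‖dia a‖ = ‖a‖ := by
  refine le_antisymm (LinearMap.mkContinuous_norm_le _ (norm_nonneg a) _) ?_
  refine a.opNorm_le_bound (norm_nonneg _) fun x => ?_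
  have h := (dia a).le_opNorm (inB 0 x)
  rw [dia_inB] at h
  simpa [inB, lp.singleContinuousLinearMap_apply, lp.norm_single] using h

theorem dia_mul (a b : H →L[ℂ] H) : dia (a * b) = dia a * dia b := ext_big fun _ _ => rfl

theorem dia_add (a b : H →L[ℂ] H) : dia (a + b) = dia a + dia b := ext_big fun _ _ => rfl

theorem dia_sub (a b : H →L[ℂ] H) : dia (a - b) = dia a - dia b := ext_big fun _ _ => rfl

theorem dia_smul (c : ℂ) (a : H →L[ℂ] H) : dia (c • a) = c • dia a := ext_big fun _ _ => rfl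

theorem dia_one : dia (1 : H →L[ℂ] H) = 1 := ext_big fun _ _ => rfl

theorem dia_star (a : H →L[ℂ] H) : dia (star a) = star (dia a) := by
  refine ext fun w => ext_inner_right ℂ fun v => ?_
  rw [star_eq_adjoint, star_eq_adjoint, adjoint_inner_left, lp.inner_eq_tsum, lp.inner_eq_tsum]
  exact tsum_congr fun i => adjoint_inner_left a (v i) (w i)

/-- The matrix units and the diagonal copies of the commutant. -/
def bigGen (M : VonNeumannAlgebra H) : Set (Big H →L[ℂ] Big H) :=
  dia '' (M.commutant : Set (H →L[ℂ] H)) ∪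
    Set.range fun p : ℕ × ℕ => inB p.1 ∘L prB p.2

/-- The amplified algebra. -/
def bigAlg (M : VonNeumannAlgebra H) : VonNeumannAlgebra (Big H) where
  toStarSubalgebra := StarSubalgebra.centralizer ℂ (bigGen M)
  centralizer_centralizer' := by simp

theorem adjoint_inB (i : ℕ) : adjoint (inB i : H →L[ℂ] Big H) = prB i := by
  refine ext fun w => ext_inner_left ℂ fun x => ?_
  rw [adjoint_inner_right, lp.inner_eq_tsum, tsum_eq_single i fun j hj => by simp [inB_apply, hj]]
  simp [inB_apply, prB]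
  rfl

theorem mem_bigAlg {M : VonNeumannAlgebra H} {X : Big H →L[ℂ] Big H} :
    X ∈ bigAlg M ↔ ∃ a ∈ M, X = dia a := by
  show X ∈ StarSubalgebra.centralizer ℂ _ ↔ _
  rw [StarSubalgebra.mem_centralizer_iff]
  constructor
  · intro h
    have hu : ∀ i j, ∀ w, inB i (prB j (X w)) = X (inB i (prB j w)) := fun i j w =>
      congrArg (fun f : Big H →L[ℂ] Big H => f w) (h _ (Or.inr ⟨(i, j), rfl⟩)).1
    have hX : X = dia (prB 0 ∘L X ∘L inB 0) := ext_big fun w i => by
      have h1 := congrArg (fun u : Big H => u 0) (hu 0 i w)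
      simp only [inB_apply, if_true] at h1
      exact h1
    refine ⟨prB 0 ∘L X ∘L inB 0, ?_, hX⟩
    rw [← SetLike.mem_coe, ← M.centralizer_centralizer]
    intro y hy
    have hy' : y ∈ M.commutant := by
      rw [← SetLike.mem_coe, VonNeumannAlgebra.coe_commutant]; exact hy
    have h1 := (h _ (Or.inl ⟨y, hy', rfl⟩)).1
    rw [hX, ← dia_mul, ← dia_mul] at h1
    refine ext fun x => ?_
    have h2 := congrArg (fun f : Big H →L[ℂ] Big H => f (inB 0 x) 0) h1
    simpa [dia_apply, inB_apply] using h2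
  · rintro ⟨a, ha, rfl⟩ g (⟨y, hy, rfl⟩ | ⟨⟨i, j⟩, rfl⟩)
    · have hc := VonNeumannAlgebra.mem_commutant_iff.1 hy a ha
      have hc' := VonNeumannAlgebra.mem_commutant_iff.1 (star_mem hy) a ha
      exact ⟨by rw [← dia_mul, ← dia_mul, hc], by rw [← dia_star, ← dia_mul, ← dia_mul, hc']⟩
    · have key : ∀ i j, inB i ∘L prB j * dia a = dia a * (inB i ∘L prB j) := fun i j => by
        refine ext fun w => ?_
        show inB i (prB j (dia a w)) = dia a (inB i (prB j w))
        rw [dia_inB]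
        rfl
      refine ⟨key i j, ?_⟩
      rw [star_eq_adjoint, adjoint_comp, adjoint_inB, ← adjoint_inB j, adjoint_adjoint]
      exact key j i

theorem dia_mem {M : VonNeumannAlgebra H} {a : H →L[ℂ] H} (ha : a ∈ M) : dia a ∈ bigAlg M :=
  mem_bigAlg.2 ⟨a, ha, rfl⟩

theorem kkDist_bigAlg_le {M N : VonNeumannAlgebra H} {r : ℝ} (h : kkDist M N < r) :
    kkDist (bigAlg M) (bigAlg N) ≤ r := by
  refine kk_le (Metric.hausdorffDist_nonneg.trans_lt h).le ?_ ?_ <;>
  · intro X hX hX1
    obtain ⟨a, ha, rfl⟩ := mem_bigAlg.1 hX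
    obtain ⟨b, hb, hb1, hab⟩ := kk_exists_near (by first | exact h | rwa [kk_comm]) ha
      (by rwa [← norm_dia a])
    exact ⟨dia b, dia_mem hb, by rwa [norm_dia], by rw [← dia_sub, norm_dia]; exact hab.le⟩

end InfAmp

end Vale.Agent.P096.KK.Ind
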