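import Vale.Agent.P096.KK.Corner
import Vale.Agent.P104.Type.Trace
import Vale.Agent.P104.Sim.Defs

/-!
# P096: pieces of a semifinite algebra

Below every nonzero central projection of a semifinite algebra on a separable space there is a
nonzero central projection carrying matrix units with total diagonal and a tracial corner.
-/

noncomputable section

namespace Vale.Agent.P096.KK

open scoped InnerProductSpace
open Vale.Agent.P104.Red (sp sp_apply IsCentral Fam IsCopy)
open Vale.Agent.P085 (IsProj vecState IsNormalTrace)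
open P132.Homog.TypeIII

universe u

variable {H : Type u} [NormedAddCommGroup H] [InnerProductSpace ℂ H] [CompleteSpace H]
variable {M : VonNeumannAlgebra H} {p : H →L[ℂ] H}

/-- `M` is semifinite: every nonzero central projection dominates a nonzero finite projection. -/
def IsSemifiniteVN (M : VonNeumannAlgebra H) : Prop :=
  ∀ z, IsCentral M z → z ≠ 0 → ∃ f, IsProj M f ∧ f ≠ 0 ∧ z * f = f ∧ Finite' M f

/-- A faithful normal tracial state of the corner at `p`. -/
structure CornerTrace (M : VonNeumannAlgebra H) (p : H →L[ℂ] H) (ξ : ℕ → H) : Prop where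
  fix : ∀ i, p (ξ i) = ξ i
  summable : Summable fun i => ‖ξ i‖ ^ 2
  one : ∑' i, ‖ξ i‖ ^ 2 = 1
  comm : ∀ a ∈ M, ∀ b ∈ M, p * a * p = a → p * b * p = b →
    vecState ξ (a * b) = vecState ξ (b * a)
  faithful : ∀ a ∈ M, p * a * p = a → vecState ξ (star a * a) = 0 → a = 0

lemma eCor_corner (hp : IsStarProjection p) (w : sp p →L[ℂ] sp p) :
    p * eCor hp w * p = eCor hp w := by rw [p_eCor, eCor_p]

lemma vecState_toCor (hp : IsStarProjection p) {ξ : ℕ → H} (h : ∀ i, p (ξ i) = ξ i)
    (A : sp p →L[ℂ] sp p) :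
    vecState (fun i => toCor hp (ξ i)) A = vecState ξ (eCor hp A) := by
  refine tsum_congr fun i => ?_
  change ⟪p (ξ i), (A (toCor hp (ξ i)) : H)⟫_ℂ = _
  rw [h]
  rfl

lemma CornerTrace.normalTrace {ξ : ℕ → H} (hp : IsProj M p) (h : CornerTrace M p ξ) :
    IsNormalTrace (cornerAlg hp.2 M) fun i => toCor hp.2 (ξ i) := by
  have hn : (fun i => ‖toCor hp.2 (ξ i)‖ ^ 2) = fun i => ‖ξ i‖ ^ 2 := funext fun i => by
    change ‖p (ξ i)‖ ^ 2 = _
    rw [h.fix]
  refine ⟨hn ▸ h.summable, hn ▸ h.one, fun a ha b hb => ?_, fun a ha h0 => ?_⟩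
  · simp only [vecState_toCor hp.2 h.fix, eCor_mul]
    exact h.comm _ ((mem_cornerAlg hp.2 hp.1).1 ha) _ ((mem_cornerAlg hp.2 hp.1).1 hb)
      (eCor_corner _ _) (eCor_corner _ _)
  · rw [vecState_toCor hp.2 h.fix, eCor_mul, eCor_star] at h0
    refine eCor_injective hp.2 ?_
    rw [h.faithful _ ((mem_cornerAlg hp.2 hp.1).1 ha) (eCor_corner _ _) h0]
    rfl

/-- A corner trace seen inside a larger corner. -/
lemma CornerTrace.compress {ξ : ℕ → H} {z : H →L[ℂ] H} (hz : IsProj M z) (hzp : z * p * z = p)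
    (h : CornerTrace M p ξ) :
    CornerTrace (cornerAlg hz.2 M) (cCor hz.2 p) fun i => toCor hz.2 (ξ i) := by
  have hzp' : z * p = p := by
    conv_lhs => rw [← hzp]
    rw [← mul_assoc, ← mul_assoc, hz.2.isIdempotentElem.eq, hzp]
  have hzξ : ∀ i, z (ξ i) = ξ i := fun i => by
    conv_lhs => rw [← h.fix i]
    rw [← mul_apply_eq_comp, hzp', h.fix]
  have hn : (fun i => ‖toCor hz.2 (ξ i)‖ ^ 2) = fun i => ‖ξ i‖ ^ 2 := funext fun i => by
    change ‖z (ξ i)‖ ^ 2 = _
    rw [hzξ]
  have hcor : ∀ A, cCor hz.2 p * A * cCor hz.2 p = A →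
      p * eCor hz.2 A * p = eCor hz.2 A := fun A hA => by
    conv_rhs => rw [← hA]
    rw [eCor_mul, eCor_mul, eCor_cCor, hzp]
  refine ⟨fun i => Subtype.ext ?_, hn ▸ h.summable, hn ▸ h.one, fun a ha b hb hpa hpb => ?_,
    fun a ha hpa h0 => ?_⟩
  · change z (p (z (ξ i))) = z (ξ i)
    rw [hzξ, h.fix, hzξ]
  · simp only [vecState_toCor hz.2 hzξ, eCor_mul]
    exact h.comm _ ((mem_cornerAlg hz.2 hz.1).1 ha) _ ((mem_cornerAlg hz.2 hz.1).1 hb)
      (hcor a hpa) (hcor b hpb)
  · rw [vecState_toCor hz.2 hzξ, eCor_mul, eCor_star] at h0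
    refine eCor_injective hz.2 ?_
    rw [h.faithful _ ((mem_cornerAlg hz.2 hz.1).1 ha) (hcor a hpa) h0]
    rfl

/-- A partial isometry carries a corner trace along. -/
lemma CornerTrace.move {ξ : ℕ → H} {r w : H →L[ℂ] H} (hr : IsProj M r) (hw : w ∈ M)
    (hi : star w * w = r) (hwr : w * r = w) (h : CornerTrace M r ξ) :
    CornerTrace M (w * star w) fun i => w (ξ i) := by
  have hn : (fun i => ‖w (ξ i)‖ ^ 2) = fun i => ‖ξ i‖ ^ 2 := funext fun i => by
    have h1 : ⟪w (ξ i), w (ξ i)⟫_ℂ = ⟪ξ i, ξ i⟫_ℂ := by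
      rw [inner_left]
      congr 1
      change (star w * w) (ξ i) = ξ i
      rw [hi, h.fix]
    rw [@norm_sq_eq_re_inner ℂ, @norm_sq_eq_re_inner ℂ, h1]
  have hst : ∀ a, vecState (fun i => w (ξ i)) a = vecState ξ (star w * a * w) := fun a =>
    tsum_congr fun i => by rw [inner_left]; rfl
  have hpp : w * star w * (w * star w) = w * star w := by
    rw [mul_assoc, ← mul_assoc (star w), hi, ← mul_assoc, hwr]
  have hrw : r * star w = star w := by
    have := congrArg star hwr
    rwa [star_mul, isProj_star hr] at this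
  have hap : ∀ a, (w * star w) * a * (w * star w) = a → a * (w * star w) = a := fun a ha => by
    conv_lhs => rw [← ha]
    rw [mul_assoc, hpp, ha]
  have hcor : ∀ a, r * (star w * a * w) * r = star w * a * w := fun a => by
    rw [show r * (star w * a * w) * r = (r * star w) * a * (w * r) by noncomm_ring, hrw, hwr]
  have hprod : ∀ a b, (w * star w) * a * (w * star w) = a →
      star w * (a * b) * w = (star w * a * w) * (star w * b * w) := fun a b ha => by
    conv_lhs => rw [← hap a ha]
    noncomm_ring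
  refine ⟨fun i => ?_, hn ▸ h.summable, hn ▸ h.one, fun a ha b hb hpa hpb => ?_,
    fun a ha hpa h0 => ?_⟩
  · change w ((star w * w) (ξ i)) = w (ξ i)
    rw [hi, h.fix]
  · rw [hst, hst, hprod a b hpa, hprod b a hpb]
    exact h.comm _ (mul_mem (mul_mem (star_mem hw) ha) hw) _ (mul_mem (mul_mem (star_mem hw) hb) hw)
      (hcor a) (hcor b)
  · have hpa' : (w * star w) * star a * (w * star w) = star a := by
      have := congrArg star hpa
      simpa only [star_mul, star_star, mul_assoc] using this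
    rw [hst, hprod _ _ hpa', show star w * star a * w = star (star w * a * w) by
      rw [star_mul, star_mul, star_star, mul_assoc]] at h0
    have h1 := h.faithful _ (mul_mem (mul_mem (star_mem hw) ha) hw) (hcor a) h0
    rw [← hpa, show w * star w * a * (w * star w) = w * (star w * a * w) * star w by noncomm_ring,
      h1, mul_zero, zero_mul]

/-- Cutting a corner trace by a central projection. -/
lemma CornerTrace.cut {ξ : ℕ → H} {r z : H →L[ℂ] H} (hr : IsProj M r) (hz : IsCentral M z)
    (h0 : z * r ≠ 0) (h : CornerTrace M r ξ) : ∃ η, CornerTrace M (z * r) η := by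
  have hzr : IsProj M (z * r) := hz.mul_proj hr
  have hzz : z * z = z := isProj_mul_self hz.proj
  have hzrr : r * (z * r) = z * r := by
    rw [← mul_assoc, ← hz.comm r hr.1, mul_assoc, isProj_mul_self hr]
  have hin : ∀ a ∈ M, z * r * a * (z * r) = a → r * a * r = a ∧ z * a = a ∧ a * z = a :=
    fun a ha e => by
    have hza : z * a = a := by
      conv_lhs => rw [← e]
      rw [show z * (z * r * a * (z * r)) = (z * z) * r * a * (z * r) by noncomm_ring, hzz, e]
    refine ⟨?_, hza, by rw [← hz.comm a ha, hza]⟩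
    conv_lhs => rw [← e]
    rw [show r * (z * r * a * (z * r)) * r = (r * (z * r)) * a * (z * (r * r)) by noncomm_ring,
      hzrr, isProj_mul_self hr, e]
  set S := ∑' i, ‖z (ξ i)‖ ^ 2
  have hs : Summable fun i => ‖z (ξ i)‖ ^ 2 :=
    Summable.of_nonneg_of_le (fun i => sq_nonneg _) (fun i => pow_le_pow_left₀ (norm_nonneg _)
      (proj_norm_apply_le hz.proj.2 _) 2) h.summable
  have hS : 0 < S := by
    refine lt_of_le_of_ne (tsum_nonneg fun i => sq_nonneg _) fun hS => h0 ?_
    refine h.faithful _ hzr.1 ?_ ?_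
    · rw [← mul_assoc, ← hz.comm r hr.1, mul_assoc z r r, isProj_mul_self hr, mul_assoc,
        isProj_mul_self hr]
    · refine (tsum_congr fun i => ?_).trans tsum_zero
      have h2 : HasSum (fun i => ‖z (ξ i)‖ ^ 2) 0 := by
        have h3 := hs.hasSum
        rwa [show ∑' i, ‖z (ξ i)‖ ^ 2 = (0 : ℝ) from hS.symm] at h3
      have h1 : z (ξ i) = 0 := by
        simpa using congrFun ((hasSum_zero_iff_of_nonneg fun i => sq_nonneg ‖z (ξ i)‖).1 h2) i
      rw [mul_apply_eq_comp, mul_apply_eq_comp, h.fix, h1, map_zero, inner_zero_right]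
  set c : ℂ := (((√S)⁻¹ : ℝ) : ℂ) with hc
  have hn : (fun i => ‖c • z (ξ i)‖ ^ 2) = fun i => S⁻¹ * ‖z (ξ i)‖ ^ 2 := funext fun i => by
    rw [norm_smul, mul_pow, hc, Complex.norm_real, Real.norm_of_nonneg (by positivity), inv_pow,
      Real.sq_sqrt hS.le]
  have hst : ∀ a, vecState (fun i => c • z (ξ i)) a = (S⁻¹ : ℝ) * vecState ξ (star z * a * z) := by
    intro a
    rw [vecState, vecState, ← tsum_mul_left]
    refine tsum_congr fun i => ?_
    rw [map_smul, inner_smul_left, inner_smul_right, inner_left, ← mul_assoc]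
    congr 1
    rw [hc, Complex.conj_ofReal, ← Complex.ofReal_mul, ← mul_inv, Real.mul_self_sqrt hS.le]
  refine ⟨fun i => c • z (ξ i), fun i => ?_, hn ▸ hs.mul_left _, hn ▸ ?_,
    fun a ha b hb hpa hpb => ?_, fun a ha hpa h1 => ?_⟩
  · rw [map_smul]
    congr 1
    conv_lhs => rw [← h.fix i, ← mul_apply_eq_comp z r, ← mul_apply_eq_comp, isProj_mul_self hzr]
    rw [mul_apply_eq_comp, h.fix]
  · rw [tsum_mul_left]
    exact inv_mul_cancel₀ hS.ne'
  · obtain ⟨ha1, ha2, ha3⟩ := hin a ha hpa
    obtain ⟨hb1, hb2, hb3⟩ := hin b hb hpb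
    have hab : star z * (a * b) * z = a * b := by
      rw [isProj_star hz.proj, ← mul_assoc, ha2, mul_assoc, hb3]
    have hba : star z * (b * a) * z = b * a := by
      rw [isProj_star hz.proj, ← mul_assoc, hb2, mul_assoc, ha3]
    rw [hst, hst, hab, hba, h.comm a ha b hb ha1 hb1]
  · obtain ⟨ha1, ha2, ha3⟩ := hin a ha hpa
    rw [hst, mul_eq_zero] at h1
    rcases h1 with h1 | h1
    · exact absurd (Complex.ofReal_eq_zero.1 h1) (inv_pos.2 hS).ne'
    refine h.faithful a ha ha1 ?_
    rwa [show star z * (star a * a) * z = star a * a by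
      have := congrArg star ha3
      rw [star_mul] at this
      rw [← mul_assoc, this, mul_assoc, ha3]] at h1

/-- A nonzero finite projection dominates a nonzero projection with a tracial corner. -/
lemma exists_cornerTrace {f : H →L[ℂ] H} (hf : IsProj M f) (hf0 : f ≠ 0) (hfin : Finite' M f) :
    ∃ r ξ, IsProj M r ∧ r ≠ 0 ∧ f * r = r ∧ CornerTrace M r ξ := by
  have hmem : ∀ {w : sp f →L[ℂ] sp f}, w ∈ cornerAlg hf.2 M → eCor hf.2 w ∈ M := fun h =>
    (mem_cornerAlg hf.2 hf.1).1 h
  have hC : IsCentral (cornerAlg hf.2 M) (1 : sp f →L[ℂ] sp f) := IsCentral.one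
  have h10 : (1 : sp f →L[ℂ] sp f) ≠ 0 := fun h => hf0 (by rw [← eCor_one hf.2, h]; rfl)
  have hfinC : Finite' (cornerAlg hf.2 M) (1 : sp f →L[ℂ] sp f) := fun v hv hv1 => by
    have e1 : star (eCor hf.2 v) * eCor hf.2 v = f := by
      rw [← eCor_star, ← eCor_mul, hv1, eCor_one]
    have h := hfin (eCor hf.2 v) ⟨⟨hmem hv.pi.mem, e1.symm ▸ hf.2, by rw [e1, eCor_p]⟩,
      eCor_p _ _, p_eCor _ _⟩ e1
    exact eCor_injective hf.2 (by rw [eCor_one, eCor_mul, eCor_star]; exact h)
  obtain ⟨c, hc, -, hc0, ξ, hcξ, hs, h1, hcomm, hfaith⟩ :=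
    Vale.Agent.P104.Red.exists_trace_piece hC h10 hfinC
  set r := eCor hf.2 c with hr_def
  have hr : IsProj M r := ⟨hmem hc.proj.1,
    show r * r = r by rw [hr_def, ← eCor_mul, isProj_mul_self hc.proj],
    show star r = r by rw [hr_def, ← eCor_star, isProj_star hc.proj]⟩
  have hfix : ∀ i, r (ξ i : H) = (ξ i : H) := fun i => by
    rw [hr_def, eCor_apply, toCor_coe, hcξ]
  have key : ∀ a ∈ M, r * a * r = a → cCor hf.2 a ∈ cornerAlg hf.2 M ∧
      eCor hf.2 (cCor hf.2 a) = a ∧ c * cCor hf.2 a = cCor hf.2 a := fun a ha e => by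
    have e1 : eCor hf.2 (cCor hf.2 a) = a := by
      rw [eCor_cCor]
      conv_rhs => rw [← e]
      conv_lhs => rw [← e]
      rw [show f * (r * a * r) * f = (f * r) * a * (r * f) by noncomm_ring, hr_def, p_eCor, eCor_p]
    refine ⟨cCor_mem hf.2 hf.1 ha, e1, eCor_injective hf.2 ?_⟩
    rw [eCor_mul, e1, ← hr_def]
    conv_lhs => rw [← e, ← mul_assoc, ← mul_assoc, isProj_mul_self hr, e]
  have hst : ∀ A : sp f →L[ℂ] sp f,
      vecState (fun i => (ξ i : H)) (eCor hf.2 A) = vecState ξ A := fun A =>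
    tsum_congr fun i => by rw [eCor_apply, toCor_coe]; rfl
  refine ⟨r, fun i => (ξ i : H), hr, fun h => hc0 (eCor_injective hf.2 (h.trans (by rfl))),
    p_eCor _ _, hfix, hs, h1, fun a ha b hb hra hrb => ?_, fun a ha hra h0 => ?_⟩
  · obtain ⟨hA, eA, -⟩ := key a ha hra
    obtain ⟨hB, eB, -⟩ := key b hb hrb
    rw [← eA, ← eB, ← eCor_mul, ← eCor_mul, hst, hst]
    exact hcomm _ hA _ hB
  · obtain ⟨hA, eA, hcA⟩ := key a ha hra
    rw [← eA, ← eCor_star, ← eCor_mul, hst] at h0
    rw [← eA, hfaith _ hA hcA h0]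
    rfl

/-- Orthogonal copies of a nonzero projection on a separable space are countable. -/
lemma copies_countable [TopologicalSpace.SeparableSpace H] {e r : H →L[ℂ] H}
    {S : Set (H →L[ℂ] H)} (hr0 : r ≠ 0) (hS : ∀ v ∈ S, IsCopy M e r v)
    (hS' : S.Pairwise fun v w => star v * w = 0) : S.Countable := by
  obtain ⟨x, hx⟩ : ∃ x, r x ≠ 0 := by
    by_contra hc
    push Not at hc
    exact hr0 (ContinuousLinearMap.ext hc)
  have hn : ∀ v ∈ S, ∀ y, ‖v y‖ ^ 2 = RCLike.re ⟪y, r y⟫_ℂ := fun v hv y => by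
    rw [@norm_sq_eq_re_inner ℂ, inner_left, ← mul_apply_eq_comp, (hS v hv).init]
  set ρ := ‖r x‖ with hρ
  have hρ0 : 0 < ρ := norm_pos_iff.2 hx
  refine Set.PairwiseDisjoint.countable_of_isOpen (s := fun v => Metric.ball (v (r x)) (ρ / 2))
    ?_ (fun v _ => Metric.isOpen_ball) fun v _ => ⟨v (r x), Metric.mem_ball_self (by positivity)⟩
  intro v hv w hw hne
  refine Metric.ball_disjoint_ball ?_
  rw [dist_eq_norm]
  have h0 : ⟪v (r x), w (r x)⟫_ℂ = 0 := by
    rw [inner_left, ← mul_apply_eq_comp, hS' hv hw hne, zero_apply, inner_zero_right]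
  have h1 : ρ ≤ ‖v (r x) - w (r x)‖ := by
    have hvn : ‖v (r x)‖ = ρ := by
      have e1 : (star v * v) (r x) = r x := by
        rw [← mul_apply_eq_comp, mul_assoc, (hS v hv).right, (hS v hv).init]
      refine (sq_eq_sq₀ (norm_nonneg _) (norm_nonneg _)).1 ?_
      rw [@norm_sq_eq_re_inner ℂ, inner_left, ← mul_apply_eq_comp, e1,
        ← @norm_sq_eq_re_inner ℂ]
    have h2 : ‖v (r x) - w (r x)‖ ^ 2 = ‖v (r x)‖ ^ 2 + ‖w (r x)‖ ^ 2 := by
      rw [@norm_sub_sq ℂ, h0, map_zero]; ring
    refine (sq_le_sq₀ hρ0.le (norm_nonneg _)).1 ?_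
    rw [h2, hvn]
    exact le_add_of_nonneg_right (sq_nonneg _)
  linarith

/-- Matrix units with a tracial corner and total diagonal. -/
def HasPiece (M : VonNeumannAlgebra H) : Prop :=
  ∃ (ι : Type) (_ : DecidableEq ι) (_ : Countable ι) (e : ι → ι → (H →L[ℂ] H)) (i₀ : ι)
    (p : H →L[ℂ] H) (_ : Units e i₀ p) (hp : IsStarProjection p),
    (∀ i j, e i j ∈ M) ∧ ∃ ξ : ℕ → sp p, IsNormalTrace (cornerAlg hp M) ξ

/-- Partial isometries adding up to a central projection give units on its piece. -/
lemma hasPiece_of_isometries {ι : Type} [DecidableEq ι] [Countable ι] (i₀ : ι)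
    {z r : H →L[ℂ] H} (hz : IsCentral M z) (hr : IsProj M r) {ξ : ℕ → H}
    (hξ : CornerTrace M r ξ) {w : ι → (H →L[ℂ] H)} (hw : ∀ i, w i ∈ M)
    (hww : ∀ i j, star (w i) * w j = if i = j then r else 0) (hwr : ∀ i, w i * r = w i)
    (hzw : ∀ i, z * w i = w i) (htot : ∀ v, HasSum (fun i => (w i * star (w i)) v) (z v)) :
    HasPiece (cornerAlg hz.proj.2 M) := by
  have hz2 := hz.proj.2
  have hwz : ∀ i, star (w i) * z = star (w i) := fun i => by
    have := congrArg star (hzw i)
    rwa [star_mul, hz2.isSelfAdjoint.star_eq] at this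
  have he : ∀ i j, eCor hz2 (cCor hz2 (w i * star (w j))) = w i * star (w j) := fun i j => by
    rw [eCor_cCor, ← mul_assoc, hzw, mul_assoc, hwz]
  have hmul : ∀ i j k l, (w i * star (w j)) * (w k * star (w l))
      = if j = k then w i * star (w l) else 0 := fun i j k l => by
    rw [mul_assoc, ← mul_assoc (star (w j)), hww]
    split_ifs with h
    · rw [← mul_assoc, hwr]
    · rw [zero_mul, mul_zero]
  let e : ι → ι → (sp z →L[ℂ] sp z) := fun i j => cCor hz2 (w i * star (w j))
  have hp : IsProj M (w i₀ * star (w i₀)) := ⟨mul_mem (hw _) (star_mem (hw _)),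
    show (w i₀ * star (w i₀)) * (w i₀ * star (w i₀)) = w i₀ * star (w i₀) by rw [hmul, if_pos rfl],
    IsSelfAdjoint.mul_star_self _⟩
  have hp' : IsProj (cornerAlg hz2 M) (e i₀ i₀) := by
    refine ⟨cCor_mem hz2 hz.proj.1 hp.1, ?_, ?_⟩
    · show e i₀ i₀ * e i₀ i₀ = e i₀ i₀
      refine eCor_injective hz2 ?_
      rw [eCor_mul, he, hmul, if_pos rfl]
    · show star (e i₀ i₀) = e i₀ i₀
      refine eCor_injective hz2 ?_
      rw [eCor_star, he, hp.2.isSelfAdjoint.star_eq]
  have hU : Units e i₀ (e i₀ i₀) := by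
    refine ⟨fun i j => eCor_injective hz2 ?_, fun i j k l => eCor_injective hz2 ?_, rfl, fun v => ?_⟩
    · rw [eCor_star, he, he, star_mul, star_star]
    · rw [eCor_mul, he, he, hmul]
      split_ifs with h
      · rw [he]
      · rfl
    · have h := ((htot (v : H)).mapL (toCor hz2))
      rw [show toCor hz2 (z (v : H)) = v by rw [sp_apply, toCor_coe]] at h
      exact h
  exact ⟨ι, inferInstance, inferInstance, e, i₀, e i₀ i₀, hU, hp'.2,
    fun i j => cCor_mem hz2 hz.proj.1 (mul_mem (hw i) (star_mem (hw j))), _,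
    ((hξ.move hr (hw i₀) (by rw [hww, if_pos rfl]) (hwr i₀)).compress hz.proj
      (by rw [← mul_assoc, hzw, mul_assoc, hwz])).normalTrace hp'⟩

/-- Below every nonzero central projection of a semifinite algebra lies a piece. -/
theorem exists_piece [TopologicalSpace.SeparableSpace H] (hM : IsSemifiniteVN M)
    {z₀ : H →L[ℂ] H} (hz₀ : IsCentral M z₀) (h0 : z₀ ≠ 0) :
    ∃ z, ∃ hz : IsCentral M z, z₀ * z = z ∧ z ≠ 0 ∧ HasPiece (cornerAlg hz.proj.2 M) := by
  rcases Vale.Agent.P104.Red.finite_or_halvable hz₀ with hfin | ⟨z, hz, hz0z, hzne, hhalf⟩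
  · obtain ⟨z, hz, hz0z, hzne, ξ, hzξ, hs, h1, hcomm, hfaith⟩ :=
      Vale.Agent.P104.Red.exists_trace_piece hz₀ h0 hfin
    refine ⟨z, hz, hz0z, hzne, hasPiece_of_isometries () hz hz.proj (ξ := ξ)
      ⟨hzξ, hs, h1, fun a ha b hb _ _ => hcomm a ha b hb, fun a ha e h => hfaith a ha ?_ h⟩
      (w := fun _ => z) (fun _ => hz.proj.1) (fun i j => ?_) (fun _ => isProj_mul_self hz.proj)
      (fun _ => isProj_mul_self hz.proj) fun v => ?_⟩
    · conv_lhs => rw [← e]
      rw [← mul_assoc, ← mul_assoc, isProj_mul_self hz.proj, e]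
    · rw [if_pos (Subsingleton.elim i j), isProj_star hz.proj, isProj_mul_self hz.proj]
    · convert hasSum_unique (fun _ : Unit => (z * star z) v) using 1
      rw [isProj_star hz.proj, isProj_mul_self hz.proj]
  obtain ⟨f, hf, hf0, hzf, hffin⟩ := hM z hz hzne
  obtain ⟨r, ξ, hr, hr0, hfr, hξ⟩ := exists_cornerTrace hf hf0 hffin
  have hzr : z * r = r := by rw [← hfr, ← mul_assoc, hzf]
  obtain ⟨W, hW⟩ := Vale.Agent.P104.Red.exists_isometries hz hhalf
  have hcopy : ∀ i, IsCopy M z r (W i * r) := fun i => by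
    obtain ⟨hm, hi, hWz, hzW, -⟩ := hW i
    refine ⟨mul_mem hm hr.1, ?_, by rw [mul_assoc, isProj_mul_self hr], by rw [← mul_assoc, hzW]⟩
    rw [star_mul, mul_assoc, ← mul_assoc (star (W i)), hi, hzr, isProj_star hr, isProj_mul_self hr]
  have hWorth : ∀ i j, i ≠ j → star (W i * r) * (W j * r) = 0 := fun i j h => by
    rw [star_mul, mul_assoc, ← mul_assoc (star (W i)), (hW i).2.2.2.2 j h, zero_mul, mul_zero]
  obtain ⟨S, hsub, hS, hS', hmax⟩ := Vale.Agent.P104.Red.exists_copies (M := M) (e := z) (r := r)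
    (Set.range fun i => W i * r) (by rintro _ ⟨i, rfl⟩; exact hcopy i) (by
      rintro _ ⟨i, rfl⟩ _ ⟨j, rfl⟩ h
      exact hWorth i j fun e => h (by rw [e]))
  have hinf : S.Infinite := Set.Infinite.mono hsub (Set.infinite_range_of_injective fun i j h => by
    by_contra hij
    have h1 := hWorth i j hij
    rw [show W j * r = W i * r from h.symm, (hcopy i).init] at h1
    exact hr0 h1)
  have : Countable S := (copies_countable hr0 hS hS').to_subtype
  have : Infinite S := hinf.to_subtype
  obtain ⟨g⟩ : Nonempty (ℕ ≃ S) := nonempty_equiv_of_countable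
  obtain ⟨z', v, hz', hzz', hzr0, hv, hzv, hrv, hvu, hsum⟩ :=
    Vale.Agent.P104.Red.exists_decomposition hz hr hr0 hzr hS hS' hmax
  obtain ⟨η, hη⟩ := hξ.cut hr hz' hzr0
  set r' := z' * r with hr'_def
  have hr' : IsProj M r' := hz'.mul_proj hr
  let u : ℕ → (H →L[ℂ] H) := fun n => z' * (g n : H →L[ℂ] H)
  have hum : ∀ n, u n ∈ M := fun n => mul_mem hz'.proj.1 (hS _ (g n).2).mem
  have hzc := hz'.comm
  have hzz := isProj_mul_self hz'.proj
  have huu : ∀ i j, star (u i) * u j = if i = j then r' else 0 := fun i j => by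
    have e : star (u i) * u j = z' * (star (g i : H →L[ℂ] H) * g j) := by
      rw [star_mul, isProj_star hz'.proj, mul_assoc, ← mul_assoc z', hzz, ← mul_assoc,
        ← hzc _ (star_mem (hS _ (g i).2).mem), mul_assoc]
    rw [e]
    split_ifs with h
    · rw [h, (hS _ (g j).2).init]
    · rw [hS' (g i).2 (g j).2 fun e => h (g.injective (Subtype.ext e)), mul_zero]
  have hzu : ∀ n, z' * u n = u n := fun n => by
    show z' * (z' * _) = _
    rw [← mul_assoc, hzz]
  have hur : ∀ n, u n * r' = u n := fun n => by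
    show z' * (g n : H →L[ℂ] H) * (z' * r) = z' * g n
    rw [show z' * (g n : H →L[ℂ] H) * (z' * r) = z' * ((g n : H →L[ℂ] H) * z') * r by noncomm_ring,
      ← hzc _ (hS _ (g n).2).mem, ← mul_assoc, hzz, mul_assoc, (hS _ (g n).2).right]
  have hvu' : ∀ n, v * u n = 0 := fun n => by
    show v * (z' * _) = 0
    rw [← mul_assoc, ← hzc v hv.mem, mul_assoc, hvu _ (g n).2, mul_zero]
  set a := v * star v with ha_def
  set b := r' - a with hb_def
  have hr'v : r' * v = v := by rw [hr'_def, mul_assoc, hrv, hzv]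
  have hra : r' * a = a := by rw [ha_def, ← mul_assoc, hr'v]
  have hsa : star a = a := (IsSelfAdjoint.mul_star_self v).star_eq
  have har : a * r' = a := by
    have := congrArg star hra
    rwa [star_mul, hsa, isProj_star hr'] at this
  have haa : a * a = a := by rw [ha_def, ← mul_assoc, hv.eq']
  have hsb : star b = b := by rw [hb_def, star_sub, isProj_star hr', hsa]
  have hrb : r' * b = b := by rw [hb_def, mul_sub, isProj_mul_self hr', hra]
  have hbr : b * r' = b := by rw [hb_def, sub_mul, isProj_mul_self hr', har]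
  have hab : a * b = 0 := by rw [hb_def, mul_sub, har, haa, sub_self]
  have hba : b * a = 0 := by rw [hb_def, sub_mul, hra, haa, sub_self]
  have hbb : b * b = b := by
    conv_lhs => arg 2; rw [hb_def]
    rw [mul_sub, hbr, hba, sub_zero]
  have hvb : star v * b = 0 := by
    have h1 : star v * r' = star v := by
      have := congrArg star hr'v
      rwa [star_mul, isProj_star hr'] at this
    have h2 : star v * a = star v := by
      rw [ha_def, ← mul_assoc]
      exact hv.star_eq
    rw [hb_def, mul_sub, h1, h2, sub_self]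
  let A : ℕ → (H →L[ℂ] H) := fun n => match n with
    | 0 => star v
    | m + 1 => u m * a
  let B : ℕ → (H →L[ℂ] H) := fun n => u n * b
  have hAB : ∀ i j, star (A i) * B j = 0 := by
    rintro (_ | i) j
    · show star (star v) * (u j * b) = 0
      rw [star_star, ← mul_assoc, hvu', zero_mul]
    · show star (u i * a) * (u j * b) = 0
      rw [star_mul, mul_assoc, ← mul_assoc (star (u i)), huu, hsa]
      split_ifs
      · rw [hrb, hab]
      · rw [zero_mul, mul_zero]
  have hBA : ∀ i j, star (B i) * A j = 0 := fun i j => by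
    have := congrArg star (hAB j i)
    rwa [star_mul, star_star, star_zero] at this
  have hBB : ∀ i j, star (B i) * B j = if i = j then b else 0 := fun i j => by
    show star (u i * b) * (u j * b) = _
    rw [star_mul, mul_assoc, ← mul_assoc (star (u i)), huu, hsb]
    split_ifs
    · rw [hrb, hbb]
    · rw [zero_mul, mul_zero]
  have hAA : ∀ i j, star (A i) * A j = if i = j then a else 0 := by
    rintro (_ | i) (_ | j)
    · show star (star v) * star v = _
      rw [star_star, if_pos rfl]
    · show star (star v) * (u j * a) = _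
      rw [star_star, ← mul_assoc, hvu', zero_mul, if_neg (by omega)]
    · show star (u i * a) * star v = _
      rw [← star_mul, ← mul_assoc, hvu', zero_mul, star_zero, if_neg (by omega)]
    · show star (u i * a) * (u j * a) = _
      rw [star_mul, mul_assoc, ← mul_assoc (star (u i)), huu, hsa]
      by_cases h : i = j
      · rw [if_pos h, if_pos (by rw [h]), hra, haa]
      · rw [if_neg h, if_neg (by omega), zero_mul, mul_zero]
  have hAr : ∀ n, A n * r' = A n := by
    rintro (_ | n)
    · show star v * r' = star v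
      have := congrArg star hr'v
      rwa [star_mul, isProj_star hr'] at this
    · show u n * a * r' = u n * a
      rw [mul_assoc, har]
  have hzA : ∀ n, z' * A n = A n := by
    rintro (_ | n)
    · show z' * star v = star v
      have := congrArg star hzv
      rw [star_mul, isProj_star hz'.proj] at this
      rw [hzc _ (star_mem hv.mem), this]
    · show z' * (u n * a) = u n * a
      rw [← mul_assoc, hzu]
  have hABs : ∀ n, A n * star (B n) = 0 := by
    rintro (_ | n)
    · show star v * star (u 0 * b) = 0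
      rw [star_mul, hsb, ← mul_assoc, hvb, zero_mul]
    · show u n * a * star (u (n + 1) * b) = 0
      rw [star_mul, hsb, mul_assoc (u n), ← mul_assoc a, hab, zero_mul, mul_zero]
  have hBAs : ∀ n, B n * star (A n) = 0 := fun n => by
    have := congrArg star (hABs n)
    rwa [star_mul, star_star, star_zero] at this
  refine ⟨z', hz', by rw [← hzz', ← mul_assoc, hz0z],
    fun h => hzr0 (by rw [hr'_def, h, zero_mul]), hasPiece_of_isometries (0 : ℕ) hz' hr' hη
      (w := fun n => A n + B n) (fun n => add_mem ?_ (mul_mem (hum n) (sub_mem hr'.1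
        (mul_mem hv.mem (star_mem hv.mem))))) (fun i j => ?_) (fun n => ?_) (fun n => ?_) ?_⟩
  · rcases n with _ | n
    exacts [star_mem hv.mem, mul_mem (hum n) (mul_mem hv.mem (star_mem hv.mem))]
  · rw [star_add, add_mul, mul_add, mul_add, hAA, hAB, hBA, hBB]
    split_ifs
    · rw [add_zero, zero_add, hb_def, add_sub_cancel]
    · simp
  · rw [add_mul, hAr, show B n * r' = B n by rw [mul_assoc, hbr]]
  · rw [mul_add, hzA, show z' * B n = B n by rw [← mul_assoc, hzu]]
  · intro x
    have hAP : Fam M fun n => u n * a * star (u n * a) := by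
      have hi : ∀ n, star (u n * a) * (u n * a) = a := fun n => by
        have := hAA (n + 1) (n + 1)
        rwa [if_pos rfl] at this
      have hp : ∀ n, IsProj M (u n * a * star (u n * a)) := fun n =>
        ⟨mul_mem (mul_mem (hum n) (mul_mem hv.mem (star_mem hv.mem)))
          (star_mem (mul_mem (hum n) (mul_mem hv.mem (star_mem hv.mem)))),
        show u n * a * star (u n * a) * (u n * a * star (u n * a)) = _ by
          rw [mul_assoc, ← mul_assoc (star (u n * a)), hi, ← mul_assoc, mul_assoc (u n), haa],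
        IsSelfAdjoint.mul_star_self _⟩
      refine ⟨fun n => PI.of_proj (hp n), fun i j h => ?_, fun i j h => ?_⟩
      all_goals
        rw [(IsSelfAdjoint.mul_star_self _).star_eq, mul_assoc, ← mul_assoc (star (u i * a)),
          show star (u i * a) * (u j * a) = 0 by
            have := hAA (i + 1) (j + 1)
            rwa [if_neg (by omega)] at this, zero_mul, mul_zero]
    have hP := hAP.hasSum x
    have hQ : HasSum (fun n => (u n * star (u n)) x)
        ((z' * (Vale.Agent.P104.Red.copies_fam hr hS hS').sum) x) := by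
      have h3 := (((Vale.Agent.P104.Red.copies_fam hr hS hS').hasSum x).mapL z')
      refine (g.hasSum_iff.2 h3).congr_fun fun n => ?_
      show (z' * (g n : H →L[ℂ] H) * star (z' * (g n : H →L[ℂ] H))) x
        = (z' * ((g n : H →L[ℂ] H) * star (g n : H →L[ℂ] H))) x
      rw [star_mul, isProj_star hz'.proj,
        show z' * (g n : H →L[ℂ] H) * (star (g n : H →L[ℂ] H) * z')
          = z' * (((g n : H →L[ℂ] H) * star (g n : H →L[ℂ] H)) * z') by noncomm_ring,
        ← hzc _ (mul_mem (hS _ (g n).2).mem (star_mem (hS _ (g n).2).mem)), ← mul_assoc z', hzz]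
    have hBsum : HasSum (fun n => (B n * star (B n)) x)
        ((z' * (Vale.Agent.P104.Red.copies_fam hr hS hS').sum) x - hAP.sum x) := by
      refine (hQ.sub hP).congr_fun fun n => ?_
      rw [← sub_apply]
      refine DFunLike.congr_fun ?_ x
      show u n * b * star (u n * b) = u n * star (u n) - u n * a * star (u n * a)
      rw [star_mul (u n) b, star_mul (u n) a, hsb, hsa, ← mul_assoc, mul_assoc (u n) b, hbb, ← mul_assoc,
        mul_assoc (u n) a, haa, hb_def, mul_sub, sub_mul, hur]
    have hAsum : HasSum (fun n => (A n * star (A n)) x) ((star v * v) x + hAP.sum x) := by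
      refine (hasSum_nat_add_iff' 1).1 ?_
      simp only [Finset.sum_range_one]
      rw [show (A 0 * star (A 0)) x = (star v * v) x by
        show (star v * star (star v)) x = _
        rw [star_star], add_sub_cancel_left]
      exact hP
    have hz'x : (star v * v) x + (z' * (Vale.Agent.P104.Red.copies_fam hr hS hS').sum) x = z' x := by
      rw [← add_apply, hsum]
    have hfin := hAsum.add hBsum
    rw [add_add_sub_cancel, hz'x] at hfin
    refine hfin.congr_fun fun n => ?_
    rw [star_add, add_mul, mul_add, mul_add, hABs, hBAs, add_zero, zero_add, add_apply]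

end Vale.Agent.P096.KK
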