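import Vale.Agent.P096.KK.ReduceFinite
import Vale.Agent.P096.KK.Represent

/-!
# P096: finite algebras without abelian projection on separable spaces

The hypothesis of a given faithful normal trace is removed: finiteness in the usual sense suffices.
-/

noncomputable section

namespace Vale.Agent.P096.KK.Reduce

universe u

/-- Strong stability of finite algebras without abelian projection on separable spaces. -/
def FiniteKKSep : Prop :=
  ∀ θ : ℝ, 0 < θ → ∃ δ : ℝ, 0 < δ ∧ ∀ (H : Type u) [NormedAddCommGroup H] [InnerProductSpace ℂ H]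
    [CompleteSpace H] [TopologicalSpace.SeparableSpace H] (M N : VonNeumannAlgebra H),
    Finite M → P104.Sim.NoAbelian M → kkDist M N < δ →
    Linear.ConjWithin (Linear.carrierSet M) (Linear.carrierSet N) θ

/-- A trace may be dropped from the hypotheses. -/
theorem finiteKKSep (h : FiniteTraceKKSep.{u}) : FiniteKKSep.{u} := by
  intro θ hθ
  obtain ⟨δ, hδ, hmain⟩ := h θ hθ
  refine ⟨δ, hδ, fun H _ _ _ _ M N hfin hna hd => ?_⟩
  rcases subsingleton_or_nontrivial H with hH | hH
  · refine ⟨1, one_mem _, by simpa using hθ, ?_⟩
    have hsub : ∀ a b : H →L[ℂ] H, a = b := fun a b =>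
      ContinuousLinearMap.ext fun v => Subsingleton.elim _ _
    refine Set.Subset.antisymm ?_ ?_
    · intro y _
      rw [hsub y 0]
      exact zero_mem N
    · intro y _
      exact ⟨0, zero_mem M, hsub _ _⟩
  · obtain ⟨ξ, hξ⟩ := exists_trace hfin
    exact hmain H M N ξ hξ hna hd

end Vale.Agent.P096.KK.Reduce
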