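import Vale.Agent.P096.KK.ReduceInduced
import Vale.Agent.P096.KK.ReduceSep
import Vale.Agent.P096.AT.SepToGen

/-!
# P096: finite algebras without abelian projection on every Hilbert space

A separable subalgebra containing the witnesses restricts on every reducing subspace to a finite
algebra without abelian projection, so the separable theorem gives the general one.
-/

noncomputable section

namespace Vale.Agent.P096.KK.Reduce

set_option linter.unusedSectionVars false

open TopologicalSpace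
open Vale.Agent.P104.Sim (bicomm mem_bicomm apply_mem_bicomm NoAbelian)
open Vale.Agent.P104.Red (sp sp_apply mem_sp)
open Vale.Agent.P078.General (mem_vna_of_commute starProjection_commute)
open AT.SepToGen (cmp cmp_coe restr Cofinal StableSep stable_of_cofinal)

universe u

variable {H : Type u} [NormedAddCommGroup H] [InnerProductSpace ℂ H] [CompleteSpace H]
variable {M : VonNeumannAlgebra H}

/-- The restriction of a separable subalgebra of a finite algebra, with the witnesses. -/
theorem finite_restr (hfin : Finite M) {A : StarSubalgebra ℂ (H →L[ℂ] H)}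
    [IsClosed (A : Set (H →L[ℂ] H))] (hAM : A ≤ M.toStarSubalgebra)
    {q : H →L[ℂ] H} (hq : IsStarProjection q) (hqA : ∀ a ∈ A, q * a = a * q)
    {K : Submodule ℂ H} [CompleteSpace K] (hKq : K = sp q) (hA : ∀ a ∈ A, ∀ v ∈ K, a v ∈ K)
    (hW : ∀ N : ℕ, ∃ n, N < n ∧ ∃ (p : H →L[ℂ] H) (w : Fin n → (H →L[ℂ] H)),
      Equi M p w ∧ p ∈ A ∧ ∀ i, w i ∈ A) :
    Finite (bicomm (restr K A hA)) ∧ NoAbelian (bicomm (restr K A hA)) := by
  subst hKq
  set MA := bicomm (A.subtype) with hMA
  have hMA' : ∀ x ∈ MA, x ∈ M := fun x hx => mem_vna_of_commute fun y hy =>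
    mem_bicomm.1 hx y fun a => hy _ (hAM a.2)
  have hAMA : ∀ a ∈ A, a ∈ MA := fun a ha => apply_mem_bicomm A.subtype ⟨a, ha⟩
  have hqMA : q ∈ Set.centralizer (MA : Set (H →L[ℂ] H)) := fun x hx =>
    (mem_bicomm.1 hx q fun a => (hqA _ a.2).symm).symm
  have hcmp : ∀ a ∈ A, cmp (sp q) a = cCor hq a := fun a ha =>
    ContinuousLinearMap.ext fun v => Subtype.ext (by
      rw [cmp_coe _ (hA a ha), cCor_apply hq hqMA (hAMA a ha)])
  have hle : ∀ w ∈ bicomm (restr (sp q) A hA), w ∈ cornerAlg hq MA := by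
    intro w hw
    change w ∈ StarSubalgebra.centralizer ℂ _
    rw [StarSubalgebra.mem_centralizer_iff]
    rintro g ⟨y, hy, rfl⟩
    have key : ∀ y ∈ Set.centralizer (MA : Set (H →L[ℂ] H)),
        cCor hq y * w = w * cCor hq y := fun y hy => by
      refine mem_bicomm.1 hw _ fun a => ?_
      change cmp (sp q) (a : H →L[ℂ] H) * cCor hq y = cCor hq y * cmp (sp q) (a : H →L[ℂ] H)
      rw [hcmp _ a.2]
      exact (((StarSubalgebra.mem_centralizer_iff ℂ).1
        (show cCor hq (a : H →L[ℂ] H) ∈ StarSubalgebra.centralizer ℂ _ from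
          cCor_mem_induced hq hqMA (hAMA _ a.2))) _ ⟨y, hy, rfl⟩).1.symm
    refine ⟨key y hy, ?_⟩
    rw [← cCor_star]
    exact key _ (Set.star_mem_centralizer' (fun _ hz => star_mem hz) hy)
  have hfinite : Finite (bicomm (restr (sp q) A hA)) :=
    (((hfin.of_le hMA').induced hq hqMA)).of_le hle
  refine ⟨hfinite, noAbelian_of_equi hfinite fun N => ?_⟩
  obtain ⟨n, hn, p, w, hw, hp, hwA⟩ := hW N
  have hmem : ∀ a ∈ A, cCor hq a ∈ bicomm (restr (sp q) A hA) := fun a ha =>
    hcmp a ha ▸ apply_mem_bicomm (restr (sp q) A hA) ⟨a, ha⟩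
  have hw' : Equi MA p w := ⟨⟨hAMA p hp, hw.proj.2⟩, fun i => hAMA _ (hwA i), hw.orth, hw.total⟩
  exact ⟨n, hn, cCor hq p, fun i => cCor hq (w i), hw'.map (cCor hq)
    ⟨hmem p hp, fun i => hmem _ (hwA i)⟩
    (fun _ hx _ hy => cCor_mul hq hqMA hx hy) (fun _ _ => cCor_star hq _)
    (fun _ _ _ _ => cCor_add hq _ _) (cCor_one hq)⟩

/-- The class for which the separable theorem holds. -/
def FinClass (L : Type u) [NormedAddCommGroup L] [InnerProductSpace ℂ L] [CompleteSpace L]
    (A : VonNeumannAlgebra L) : Prop :=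
  Finite A ∧ NoAbelian A

/-- A finite algebra without abelian projection is cofinally of this class. -/
theorem cofinal_finite (hfin : Finite M) (hna : NoAbelian M) : Cofinal FinClass.{u} M := by
  obtain ⟨W, hWc, hWM, hW⟩ := exists_witness hna
  refine fun S => ⟨W, ∅, hWc, Set.countable_empty, hWM, fun A _ K _ _ hA hAM _ hWA _ _ => ?_⟩
  refine finite_restr hfin hAM (q := K.starProjection) isStarProjection_starProjection
    (fun a ha => (starProjection_commute K a (hA a ha) (hA _ (star_mem ha))).symm) ?_ hA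
    fun N => ?_
  · ext v
    rw [mem_sp, Submodule.starProjection_eq_self_iff]
  · obtain ⟨n, hn, p, w, hw, hp, hwW⟩ := hW N
    exact ⟨n, hn, p, w, hw, hWA hp, fun i => hWA (hwW i)⟩

/-- Strong stability of finite algebras without abelian projection, on every Hilbert space. -/
def FiniteKK : Prop :=
  ∀ ε : ℝ, 0 < ε → ∃ δ : ℝ, 0 < δ ∧ ∀ (H : Type u) [NormedAddCommGroup H] [InnerProductSpace ℂ H]
    [CompleteSpace H] (M N : VonNeumannAlgebra H),
    Finite M → NoAbelian M → kkDist M N < δ →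
    ∃ v ∈ unitary (H →L[ℂ] H), ‖v - 1‖ < ε ∧
      (fun x => v * x * star v) '' (M : Set (H →L[ℂ] H)) = (N : Set (H →L[ℂ] H))

/-- From traces on separable spaces to every Hilbert space. -/
theorem finiteKK (h : FiniteTraceKKSep.{u}) : FiniteKK.{u} := by
  have hsep : StableSep FinClass.{u} := fun ε hε => by
    obtain ⟨δ, hδ, hm⟩ := finiteKKSep h ε hε
    exact ⟨δ, hδ, fun L _ _ _ _ A B hA hd => hm L A B hA.1 hA.2 hd⟩
  intro ε hε
  obtain ⟨δ, hδ, hm⟩ := stable_of_cofinal hsep ε hε
  exact ⟨δ, hδ, fun H _ _ _ M N hfin hna hd => hm H M N (cofinal_finite hfin hna) hd⟩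

end Vale.Agent.P096.KK.Reduce
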