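import Vale.Agent.P096.KK.ReduceFinite
import Vale.Agent.P096.KK.CornerAlg
import Vale.Agent.P096.KK.WeakLim
import Vale.Agent.P104.Sim.Kaplansky
import Vale.Agent.P104.Patch.Dixmier

/-!
# P096: the algebra induced on the range of a projection of the commutant

For a projection `q` commuting with `M` the algebra `cornerAlg hq M` consists of the restrictions of
the elements of `M` (Kaplansky density and a weak limit). It is finite if `M` is, and it has no
abelian projection if moreover `M` contains the witnesses of `ReduceFinite`.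
-/

noncomputable section

namespace Vale.Agent.P096.KK.Reduce

set_option linter.unusedSectionVars false

open Filter
open Vale.Agent.P104.Red (sp sp_apply cs cs_isCentral cs_mul_self mul_cs_eq_zero)
open Vale.Agent.P104.Patch (Alg)
open Vale.Agent.P104.Sim (NoAbelian bicomm mem_bicomm kaplansky)
open Vale.Agent.P078.General (mem_vna_of_commute commute_of_mem_centralizer)
open scoped InnerProductSpace

universe u

variable {H : Type u} [NormedAddCommGroup H] [InnerProductSpace ℂ H] [CompleteSpace H]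
variable {M : VonNeumannAlgebra H} {q : H →L[ℂ] H}

variable (hq : IsStarProjection q) (hqM : q ∈ Set.centralizer (M : Set (H →L[ℂ] H)))

include hqM in
lemma comm_q {a : H →L[ℂ] H} (ha : a ∈ M) : q * a = a * q := (hqM a ha).symm

include hqM in
lemma cCor_apply {a : H →L[ℂ] H} (ha : a ∈ M) (v : sp q) : (cCor hq a v : H) = a (v : H) := by
  rw [cCor_coe]
  exact (DFunLike.congr_fun (comm_q hqM ha) (v : H)).trans (congrArg a (sp_apply v))

include hqM in
lemma cCor_mul {a b : H →L[ℂ] H} (ha : a ∈ M) (hb : b ∈ M) :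
    cCor hq (a * b) = cCor hq a * cCor hq b :=
  ContinuousLinearMap.ext fun v => Subtype.ext (by
    change (cCor hq (a * b) v : H) = (cCor hq a (cCor hq b v) : H)
    rw [cCor_apply hq hqM (mul_mem ha hb), cCor_apply hq hqM ha, cCor_apply hq hqM hb]
    rfl)

lemma cCor_add (a b : H →L[ℂ] H) : cCor hq (a + b) = cCor hq a + cCor hq b :=
  ContinuousLinearMap.ext fun v => Subtype.ext (map_add q _ _)

lemma cCor_smul (t : ℂ) (a : H →L[ℂ] H) : cCor hq (t • a) = t • cCor hq a :=
  ContinuousLinearMap.ext fun v => Subtype.ext (map_smul q _ _)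

lemma cCor_one : cCor hq (1 : H →L[ℂ] H) = 1 :=
  ContinuousLinearMap.ext fun v => Subtype.ext (sp_apply v)

lemma cCor_zero : cCor hq (0 : H →L[ℂ] H) = 0 :=
  ContinuousLinearMap.ext fun v => Subtype.ext (map_zero q)

include hqM in
/-- Restrictions of `M` lie in the induced algebra. -/
theorem cCor_mem_induced {a : H →L[ℂ] H} (ha : a ∈ M) : cCor hq a ∈ cornerAlg hq M := by
  change cCor hq a ∈ StarSubalgebra.centralizer ℂ _
  rw [StarSubalgebra.mem_centralizer_iff]
  rintro g ⟨y, hy, rfl⟩
  have key : ∀ y ∈ Set.centralizer (M : Set (H →L[ℂ] H)),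
      cCor hq y * cCor hq a = cCor hq a * cCor hq y := fun y hy =>
    ContinuousLinearMap.ext fun v => Subtype.ext (by
      change (cCor hq y (cCor hq a v) : H) = (cCor hq a (cCor hq y v) : H)
      rw [cCor_coe, cCor_apply hq hqM ha, cCor_apply hq hqM ha, cCor_coe]
      have e1 : y (a (v : H)) = a (y (v : H)) := DFunLike.congr_fun (hy a ha).symm (v : H)
      have e2 : q (a (y (v : H))) = a (q (y (v : H))) :=
        DFunLike.congr_fun (comm_q hqM ha) (y (v : H))
      rw [e1, e2])
  refine ⟨key y hy, ?_⟩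
  rw [← cCor_star]
  exact key _ (Set.star_mem_centralizer' (fun _ hz => star_mem hz) hy)

/-- Restriction as a representation. -/
def indRep : Alg M →⋆ₐ[ℂ] (sp q →L[ℂ] sp q) where
  toFun a := cCor hq (a : H →L[ℂ] H)
  map_one' := cCor_one hq
  map_mul' a b := cCor_mul hq hqM a.2 b.2
  map_zero' := cCor_zero hq
  map_add' a b := cCor_add hq _ _
  commutes' t := by
    rw [Algebra.algebraMap_eq_smul_one, Algebra.algebraMap_eq_smul_one]
    exact (cCor_smul hq t _).trans (congrArg (t • ·) (cCor_one hq))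
  map_star' a := cCor_star hq _

include hqM in
/-- Every element of the induced algebra is a restriction. -/
theorem exists_lift {w : sp q →L[ℂ] sp q} (hw : w ∈ cornerAlg hq M) :
    ∃ x ∈ M, cCor hq x = w := by
  classical
  suffices h1 : ∀ w ∈ cornerAlg hq M, ‖w‖ ≤ 1 → ∃ x ∈ M, cCor hq x = w by
    set c : ℂ := Complex.ofReal (‖w‖ + 1)⁻¹ with hc
    have hc0 : c ≠ 0 := by
      simp only [hc, ne_eq, Complex.ofReal_eq_zero, inv_eq_zero]
      positivity
    obtain ⟨x, hx, hxw⟩ := h1 (c • w) ((cornerAlg hq M).toStarSubalgebra.smul_mem hw c) (by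
      rw [norm_smul, hc, Complex.norm_real, Real.norm_of_nonneg (by positivity), inv_mul_le_one₀
        (by positivity)]
      linarith [norm_nonneg w])
    refine ⟨c⁻¹ • x, M.toStarSubalgebra.smul_mem hx _, ?_⟩
    rw [cCor_smul, hxw, smul_smul, inv_mul_cancel₀ hc0, one_smul]
  intro w hw hw1
  have hwb : w ∈ bicomm (indRep hq hqM) := mem_bicomm.2 fun g hg => by
    have hG : eCor hq g ∈ Set.centralizer (M : Set (H →L[ℂ] H)) := fun a ha => by
      refine ContinuousLinearMap.ext fun v => ?_
      have h1 := congrArg (fun T : sp q →L[ℂ] sp q => (T (toCor hq v) : H)) (hg ⟨a, ha⟩)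
      change (cCor hq a (g (toCor hq v)) : H) = (g (cCor hq a (toCor hq v)) : H) at h1
      rw [cCor_apply hq hqM ha] at h1
      have h2 : cCor hq a (toCor hq v) = toCor hq (a v) := Subtype.ext (by
        rw [cCor_apply hq hqM ha]
        exact (DFunLike.congr_fun (comm_q hqM ha) v).symm)
      rw [h2] at h1
      exact h1
    have h3 := (StarSubalgebra.mem_centralizer_iff ℂ).1
      (show w ∈ StarSubalgebra.centralizer ℂ _ from hw) (cCor hq (eCor hq g)) ⟨_, hG, rfl⟩
    rw [cCor_eCor] at h3
    exact h3.1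
  have happ : ∀ i : Finset (sp q) × ℕ, ∃ a : Alg M, ‖a‖ ≤ 1 ∧
      ∀ v ∈ i.1, ‖indRep hq hqM a v - w v‖ ≤ 1 / (i.2 + 1) := fun i => by
    obtain ⟨a, ha, h⟩ := kaplansky (indRep hq hqM) hwb hw1 (fun v : i.1 => (v : sp q))
      (ε := 1 / (i.2 + 1)) (by positivity)
    exact ⟨a, ha, fun v hv => (h ⟨v, hv⟩).1⟩
  choose a ha1 ha using happ
  set l : Ultrafilter (Finset (sp q) × ℕ) := Ultrafilter.of atTop
  have hal : (l : Filter (Finset (sp q) × ℕ)) ≤ atTop := Ultrafilter.of_le atTop
  have hbd : ∀ i v, ‖(a i : H →L[ℂ] H) v‖ ≤ ‖v‖ := fun i v =>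
    ((a i : H →L[ℂ] H).le_of_opNorm_le (ha1 i) v).trans (by rw [one_mul])
  obtain ⟨x₀, hx₀⟩ := exists_linear_wLim l (fun i => ((a i : H →L[ℂ] H) : H →ₗ[ℂ] H)) ⊤
    fun v _ => ⟨‖v‖, fun i => hbd i v⟩
  have hlim : ∀ v, WLim l (fun i => (a i : H →L[ℂ] H) v) (x₀ v) := fun v =>
    hx₀ v Submodule.mem_top
  set x : H →L[ℂ] H := x₀.mkContinuous 1 fun v => by
    rw [one_mul]; exact (hlim v).norm_le (Eventually.of_forall fun i => hbd i v) with hx
  have hxM : x ∈ M := mem_vna_of_commute fun y hy => ContinuousLinearMap.ext fun v => by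
    refine ((hlim v).map y).unique ?_
    have e : (fun i => y ((a i : H →L[ℂ] H) v)) = fun i => (a i : H →L[ℂ] H) (y v) :=
      funext fun i => DFunLike.congr_fun (commute_of_mem_centralizer (a i).2 hy) v
    rw [e]
    exact hlim (y v)
  refine ⟨x, hxM, ContinuousLinearMap.ext fun v => Subtype.ext ?_⟩
  rw [cCor_apply hq hqM hxM]
  refine (hlim v).unique fun z => ?_
  refine (((innerSL ℂ).flip z).continuous.tendsto _).comp ?_
  rw [tendsto_iff_norm_sub_tendsto_zero]
  refine squeeze_zero' (Eventually.of_forall fun i => norm_nonneg _) (Filter.Eventually.filter_mono hal ?_)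
    ((tendsto_one_div_add_atTop_nhds_zero_nat.comp
      (tendsto_snd.comp (prod_atTop_atTop_eq (α := Finset (sp q)) (β := ℕ)).ge)).mono_left hal)
  refine eventually_atTop.2 ⟨({v}, 0), fun i hi => ?_⟩
  have h1 := ha i v (hi.1 (Finset.mem_singleton_self v))
  change ‖(cCor hq (a i : H →L[ℂ] H) v : H) - (w v : H)‖ ≤ _ at h1
  rw [cCor_apply hq hqM (a i).2] at h1
  exact h1

include hqM in
/-- The induced algebra of a finite algebra is finite. -/
theorem Finite.induced (hfin : Finite M) : Finite (cornerAlg hq M) := by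
  intro v hv hv1
  obtain ⟨x, hx, rfl⟩ := exists_lift hq hqM hv
  set c := cs M.commutant q
  have hqc : q ∈ M.commutant := by
    rw [← SetLike.mem_coe, VonNeumannAlgebra.coe_commutant]; exact hqM
  have hc := cs_isCentral (M := M.commutant) hqc
  have hcM : c ∈ M := mem_vna_of_commute fun y hy => (hc.comm y (by
    rw [← SetLike.mem_coe, VonNeumannAlgebra.coe_commutant]; exact hy)).symm
  have hcz : ∀ a ∈ M, c * a = a * c := fun a ha =>
    ((VonNeumannAlgebra.mem_commutant_iff.1 hc.proj.1) a ha).symm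
  have hker : ∀ a ∈ M, cCor hq a = 0 → a * c = 0 := fun a ha h0 => by
    refine mul_cs_eq_zero fun y hy => ?_
    rw [VonNeumannAlgebra.mem_commutant_iff.1 hy a ha, mul_assoc]
    refine ContinuousLinearMap.ext fun u => ?_
    have := congrArg (fun T : sp q →L[ℂ] sp q => (T (toCor hq u) : H)) h0
    rw [cCor_apply hq hqM ha] at this
    change a (q u) = _ at this
    simp [this]
  have hcc : c * c = c := P132.Homog.TypeIII.isProj_mul_self hc.proj
  have hcs : star c = c := P132.Homog.TypeIII.isProj_star hc.proj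
  have hsx := star_mem hx
  have e1 : cCor hq (star x * x - 1) = 0 := by
    have : cCor hq (star x * x) = cCor hq (1 : H →L[ℂ] H) := by
      rw [cCor_mul hq hqM hsx hx, cCor_star, hv1, cCor_one]
    rw [sub_eq_add_neg, ← neg_one_smul ℂ (1 : H →L[ℂ] H), cCor_add, cCor_smul, this,
      ← sub_eq_zero.2 (rfl : cCor hq (1 : H →L[ℂ] H) = cCor hq 1)]
    module
  have e2 := hker _ (sub_mem (mul_mem hsx hx) (one_mem M)) e1
  rw [sub_mul, one_mul, sub_eq_zero] at e2
  have hd : c * (1 - c) = 0 := by rw [mul_sub, mul_one, hcc, sub_self]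
  have hd' : (1 - c) * c = 0 := by rw [sub_mul, one_mul, hcc, sub_self]
  have hdd : (1 - c) * (1 - c) = 1 - c := by
    rw [sub_mul, one_mul, hd, sub_zero]
  have hds : star (1 - c) = 1 - c := by rw [star_sub, star_one, hcs]
  have hsum : c + (1 - c) = (1 : H →L[ℂ] H) := add_sub_cancel c 1
  obtain ⟨d, hde, hdM⟩ : ∃ d, d = 1 - c ∧ d ∈ M := ⟨_, rfl, sub_mem (one_mem M) hcM⟩
  rw [← hde] at hd hd' hdd hds hsum
  have hu := hfin (x * c + d) (add_mem (mul_mem hx hcM) hdM) (by
    rw [star_add, hds, star_mul, hcs, add_mul, mul_add, mul_add, hdd]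
    have a1 : c * star x * (x * c) = c := by
      rw [mul_assoc, ← mul_assoc (star x), e2, hcc]
    have a2 : c * star x * d = 0 := by rw [hcz _ hsx, mul_assoc, hd, mul_zero]
    have a3 : d * (x * c) = 0 := by rw [← hcz x hx, ← mul_assoc, hd', zero_mul]
    rw [a1, a2, a3, add_zero, zero_add, hsum])
  rw [star_add, hds, star_mul, hcs, add_mul, mul_add, mul_add, hdd] at hu
  have b1 : x * c * (c * star x) = x * star x * c := by
    rw [mul_assoc, ← mul_assoc c, hcc, hcz _ hsx, mul_assoc]
  have b2 : x * c * d = 0 := by rw [mul_assoc, hd, mul_zero]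
  have b3 : d * (c * star x) = 0 := by rw [← mul_assoc, hd', zero_mul]
  rw [b1, b2, b3, add_zero, zero_add, ← hsum] at hu
  have e3 : x * star x * c = c := add_right_cancel hu
  have hcq : c * q = q := cs_mul_self q
  rw [← cCor_star, ← cCor_mul hq hqM hx hsx]
  refine ContinuousLinearMap.ext fun u => Subtype.ext ?_
  rw [cCor_apply hq hqM (mul_mem hx hsx)]
  have e4 : c (u : H) = u := by
    have := DFunLike.congr_fun hcq (u : H)
    change c (q u) = q u at this
    rwa [sp_apply] at this
  calc (x * star x) (u : H) = (x * star x * c) (u : H) := by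
        rw [mul_apply_eq_comp (x * star x) c, e4]
    _ = ((1 : sp q →L[ℂ] sp q) u : H) := by rw [e3, e4]; rfl

include hqM in
/-- With the witnesses the induced algebra has no abelian projection. -/
theorem noAbelian_induced (hfin : Finite M)
    (h : ∀ N : ℕ, ∃ n, N < n ∧ ∃ (p : H →L[ℂ] H) (w : Fin n → (H →L[ℂ] H)), Equi M p w) :
    NoAbelian (cornerAlg hq M) := by
  refine noAbelian_of_equi (hfin.induced hq hqM) fun N => ?_
  obtain ⟨n, hn, p, w, hw⟩ := h N
  exact ⟨n, hn, cCor hq p, fun i => cCor hq (w i), hw.map (cCor hq)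
    ⟨cCor_mem_induced hq hqM hw.proj.1, fun i => cCor_mem_induced hq hqM (hw.mem i)⟩
    (fun _ hx _ hy => cCor_mul hq hqM hx hy) (fun _ _ => cCor_star hq _)
    (fun _ _ _ _ => cCor_add hq _ _) (cCor_one hq)⟩

end Vale.Agent.P096.KK.Reduce
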