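import Vale.Agent.P096.KK.Setting

/-!
# P096: cutting a vector at a bounded operator

`M` has a trace vector `Ω`. A vector whose translates by `M` are small up to an error is, up to
that error and on every central piece at once, `m Ω` for a small `m` in `M`.
-/

noncomputable section

namespace Vale.Agent.P096.KK.Select

open scoped InnerProductSpace
open Filter Topology

universe u

variable {H : Type u} [NormedAddCommGroup H] [InnerProductSpace ℂ H] [CompleteSpace H]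

variable {M : VonNeumannAlgebra H} {Ω : H} {R : (H →L[ℂ] H) → (H →L[ℂ] H)}

omit [CompleteSpace H] in
lemma eq_of_eqOn_dense {s : Set H} (hs : Dense s) {S T : (H →L[ℂ] H)} (h : ∀ ξ ∈ s, S ξ = T ξ) : S = T :=
  ContinuousLinearMap.ext fun ξ =>
    congrFun (Continuous.ext_on hs S.continuous T.continuous h) ξ

lemma comm_apply {x y : (H →L[ℂ] H)} (hx : x ∈ M) (hy : y ∈ M.commutant) (ξ : H) :
    x (y ξ) = y (x ξ) :=
  congrArg (fun T : (H →L[ℂ] H) => T ξ) (VonNeumannAlgebra.mem_commutant_iff.1 hy x hx)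

lemma mem_of_commutes {x : (H →L[ℂ] H)} (h : ∀ y ∈ M.commutant, y * x = x * y) : x ∈ M := by
  rw [← VonNeumannAlgebra.commutant_commutant M, VonNeumannAlgebra.mem_commutant_iff]
  exact h

lemma R_apply (hS : Std M Ω R) {b x : (H →L[ℂ] H)} (hb : b ∈ M) (hx : x ∈ M) : R b (x Ω) = x (b Ω) := by
  rw [← comm_apply hx (hS.right_mem b hb), hS.right_apply b hb]

lemma comm_eq (hS : Std M Ω R) {y y' : (H →L[ℂ] H)} (hy : y ∈ M.commutant) (hy' : y' ∈ M.commutant)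
    (h : y Ω = y' Ω) : y = y' := by
  refine eq_of_eqOn_dense hS.cyclic ?_
  rintro _ ⟨x, hx, rfl⟩
  simp only
  rw [← comm_apply hx hy, ← comm_apply hx hy', h]

lemma R_one (hS : Std M Ω R) : R 1 = 1 :=
  comm_eq hS (hS.right_mem 1 (one_mem M)) (one_mem M.commutant) (hS.right_apply 1 (one_mem M))

lemma norm_star_apply (hS : Std M Ω R) {x : (H →L[ℂ] H)} (hx : x ∈ M) : ‖star x Ω‖ = ‖x Ω‖ := by
  have h : ∀ y : (H →L[ℂ] H), (‖y Ω‖ ^ 2 : ℝ) = RCLike.re ⟪Ω, star y (y Ω)⟫_ℂ := fun y => by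
    rw [ContinuousLinearMap.star_eq_adjoint, ContinuousLinearMap.adjoint_inner_right]
    exact norm_sq_eq_re_inner (𝕜 := ℂ) _
  have h1 := h (star x)
  rw [star_star, hS.trace x hx (star x) (star_mem hx), ← h x] at h1
  exact (pow_left_inj₀ (norm_nonneg _) (norm_nonneg _) two_ne_zero).1 h1

lemma norm_mul_apply_le (hS : Std M Ω R) {x b : (H →L[ℂ] H)} (hx : x ∈ M) (hb : b ∈ M) :
    ‖x (b Ω)‖ ≤ ‖b‖ * ‖x Ω‖ := by
  have h : ‖(x * b) Ω‖ = ‖star b (star x Ω)‖ := by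
    rw [← norm_star_apply hS (mul_mem hx hb), star_mul]; rfl
  calc ‖x (b Ω)‖ = ‖star b (star x Ω)‖ := h
    _ ≤ ‖star b‖ * ‖star x Ω‖ := (star b).le_opNorm _
    _ = ‖b‖ * ‖x Ω‖ := by rw [norm_star, norm_star_apply hS hx]

lemma norm_R_apply_le (hS : Std M Ω R) {b : (H →L[ℂ] H)} (hb : b ∈ M) (ξ : H) :
    ‖R b ξ‖ ≤ ‖b‖ * ‖ξ‖ := by
  have hsub : (fun x : (H →L[ℂ] H) => x Ω) '' (M : Set (H →L[ℂ] H)) ⊆ {η | ‖R b η‖ ≤ ‖b‖ * ‖η‖} := by
    rintro _ ⟨x, hx, rfl⟩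
    simp only [Set.mem_ofPred_eq, R_apply hS hb hx]
    exact norm_mul_apply_le hS hx hb
  exact closure_minimal hsub (isClosed_le (by fun_prop) (by fun_prop)) (hS.cyclic ξ)

lemma norm_R_le (hS : Std M Ω R) {b : (H →L[ℂ] H)} (hb : b ∈ M) : ‖R b‖ ≤ ‖b‖ :=
  ContinuousLinearMap.opNorm_le_bound _ (norm_nonneg _) (norm_R_apply_le hS hb)

lemma R_star (hS : Std M Ω R) {b : (H →L[ℂ] H)} (hb : b ∈ M) : R (star b) = star (R b) := by
  refine comm_eq hS (hS.right_mem _ (star_mem hb)) (star_mem (hS.right_mem b hb)) ?_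
  rw [hS.right_apply _ (star_mem hb)]
  refine ext_inner_left ℂ fun ξ => ?_
  refine congrFun (Continuous.ext_on hS.cyclic
    (f := fun η => ⟪η, star b Ω⟫_ℂ) (g := fun η => ⟪η, star (R b) Ω⟫_ℂ)
    (by fun_prop) (by fun_prop) ?_) ξ
  rintro _ ⟨x, hx, rfl⟩
  simp only
  rw [ContinuousLinearMap.star_eq_adjoint, ContinuousLinearMap.star_eq_adjoint,
    ContinuousLinearMap.adjoint_inner_right, ContinuousLinearMap.adjoint_inner_right,
    R_apply hS hb hx]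
  rw [← inner_conj_symm (b (x Ω)) Ω, ← inner_conj_symm (x (b Ω)) Ω, hS.trace b hb x hx]

section Central

variable {z : H →L[ℂ] H}

lemma proj_mem_commutant (hz : z ∈ M ∧ IsStarProjection z ∧ ∀ x ∈ M, z * x = x * z) :
    z ∈ M.commutant :=
  VonNeumannAlgebra.mem_commutant_iff.2 fun g hg => (hz.2.2 g hg).symm

lemma norm_proj_sq {z : (H →L[ℂ] H)} (hz : IsStarProjection z) (ξ : H) :
    ‖ξ‖ ^ 2 = ‖z ξ‖ ^ 2 + ‖ξ - z ξ‖ ^ 2 := by
  have h0 : RCLike.re ⟪z ξ, ξ - z ξ⟫_ℂ = 0 := by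
    have e : ⟪z ξ, ξ - z ξ⟫_ℂ = ⟪ξ, z (ξ - z ξ)⟫_ℂ := by
      have hzs : ContinuousLinearMap.adjoint z = z := hz.isSelfAdjoint.star_eq
      rw [← ContinuousLinearMap.adjoint_inner_left, hzs]
    have h2 : z (z ξ) = z ξ := congrArg (fun T : (H →L[ℂ] H) => T ξ) hz.isIdempotentElem.eq
    rw [e, map_sub, h2, sub_self, inner_zero_right, map_zero]
  have := norm_add_sq (𝕜 := ℂ) (z ξ) (ξ - z ξ)
  rw [add_sub_cancel, h0] at this
  linarith

lemma norm_proj_le {z : (H →L[ℂ] H)} (hz : IsStarProjection z) (ξ : H) : ‖z ξ‖ ≤ ‖ξ‖ := by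
  have := norm_proj_sq hz ξ
  exact (pow_le_pow_iff_left₀ (norm_nonneg _) (norm_nonneg _) two_ne_zero).1
    (by nlinarith [sq_nonneg ‖ξ - z ξ‖])

end Central

/-- The vectors `m Ω` with `‖m‖ ≤ r` form a closed set. -/
lemma isClosed_ball (hS : Std M Ω R) (r : ℝ) :
    IsClosed {ζ : H | ∃ m ∈ M, ‖m‖ ≤ r ∧ m Ω = ζ} := by
  refine IsSeqClosed.isClosed fun u ζ hu hζ => ?_
  choose m hm hmr hmu using hu
  have hC : ∀ ξ, CauchySeq fun k => m k ξ := fun ξ => by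
    rw [Metric.cauchySeq_iff]
    intro e he
    have hr : 0 ≤ r := (norm_nonneg _).trans (hmr 0)
    obtain ⟨_, hd, b, hb, rfl⟩ := Metric.dense_iff.1 hS.cyclic ξ (e / (3 * (r + 1))) (by positivity)
    have hd' : ‖ξ - b Ω‖ < e / (3 * (r + 1)) := by rwa [← dist_eq_norm, dist_comm]
    have hk : ∀ k, m k (b Ω) = R b (u k) := fun k => by rw [← hmu k, R_apply hS hb (hm k)]
    have hc : CauchySeq fun k => R b (u k) := (((R b).continuous.tendsto ζ).comp hζ).cauchySeq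
    obtain ⟨N, hN⟩ := Metric.cauchySeq_iff.1 hc (e / 3) (by positivity)
    refine ⟨N, fun i hi j hj => ?_⟩
    have h3 : r * ‖ξ - b Ω‖ ≤ e / 3 := by
      calc r * ‖ξ - b Ω‖ ≤ (r + 1) * (e / (3 * (r + 1))) :=
            mul_le_mul (by linarith) hd'.le (norm_nonneg _) (by linarith)
        _ = e / 3 := by field_simp
    have h4 : ∀ k, ‖m k (ξ - b Ω)‖ ≤ e / 3 := fun k =>
      ((m k).le_opNorm _).trans ((mul_le_mul_of_nonneg_right (hmr k) (norm_nonneg _)).trans h3)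
    have h5 : ‖R b (u i) - R b (u j)‖ < e / 3 := by simpa [dist_eq_norm] using hN i hi j hj
    have h6 : m i ξ - m j ξ = m i (ξ - b Ω) + (R b (u i) - R b (u j)) - m j (ξ - b Ω) := by
      rw [← hk, ← hk, map_sub, map_sub]; abel
    rw [dist_eq_norm, h6]
    calc _ ≤ ‖m i (ξ - b Ω)‖ + ‖R b (u i) - R b (u j)‖ + ‖m j (ξ - b Ω)‖ :=
          (norm_sub_le _ _).trans (by gcongr; exact norm_add_le _ _)
      _ < e := by linarith [h4 i, h4 j]
  choose L hL using fun ξ => cauchySeq_tendsto_of_complete (hC ξ)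
  set T : (H →L[ℂ] H) := continuousLinearMapOfTendsto m (tendsto_pi_nhds.2 hL) with hT
  have hT' : ∀ ξ, Tendsto (fun k => m k ξ) atTop (𝓝 (T ξ)) := hL
  refine ⟨T, mem_of_commutes fun y hy => ?_, ?_, ?_⟩
  · refine ContinuousLinearMap.ext fun ξ => tendsto_nhds_unique
      ((y.continuous.tendsto _).comp (hT' ξ)) ?_
    simpa [Function.comp_def, comm_apply (hm _) hy] using hT' (y ξ)
  · refine ContinuousLinearMap.opNorm_le_bound _ ((norm_nonneg _).trans (hmr 0)) fun ξ => ?_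
    exact le_of_tendsto (hT' ξ).norm (Filter.Eventually.of_forall fun k =>
      ((m k).le_opNorm ξ).trans (mul_le_mul_of_nonneg_right (hmr k) (norm_nonneg _)))
  · exact tendsto_nhds_unique (hT' Ω) (by simpa [hmu] using hζ)

/-- One element serves all central pieces. -/
lemma exists_best (hS : Std M Ω R) {P : Set (H →L[ℂ] H)}
    (hP : ∀ z ∈ P, z ∈ M ∧ IsStarProjection z ∧ ∀ x ∈ M, z * x = x * z)
    (v : H) {r : ℝ} (hr : 0 ≤ r) (f : (H →L[ℂ] H) → ℝ)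
    (h : ∀ τ : ℝ, 0 < τ → ∃ m ∈ M, ‖m‖ ≤ r ∧ ∀ z ∈ P, ‖z (v - m Ω)‖ ≤ f z + τ) :
    ∃ m ∈ M, ‖m‖ ≤ r ∧ ∀ z ∈ P, ‖z (v - m Ω)‖ ≤ f z := by
  let : InnerProductSpace ℝ H := InnerProductSpace.rclikeToReal ℂ H
  let K : Set H := {ζ : H | ∃ m ∈ M, ‖m‖ ≤ r ∧ m Ω = ζ}
  have hne : K.Nonempty := ⟨0, 0, zero_mem M, by simpa using hr, rfl⟩
  have hconv : Convex ℝ K := by
    rintro _ ⟨m₁, h₁, n₁, rfl⟩ _ ⟨m₂, h₂, n₂, rfl⟩ s t hs ht hst
    refine ⟨(s : ℂ) • m₁ + (t : ℂ) • m₂, add_mem (M.toStarSubalgebra.smul_mem h₁ _)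
      (M.toStarSubalgebra.smul_mem h₂ _), ?_, ?_⟩
    · calc ‖(s : ℂ) • m₁ + (t : ℂ) • m₂‖ ≤ s * ‖m₁‖ + t * ‖m₂‖ := by
            refine (norm_add_le _ _).trans (le_of_eq ?_)
            rw [norm_smul, norm_smul]; simp [abs_of_nonneg hs, abs_of_nonneg ht]
        _ ≤ s * r + t * r := add_le_add (mul_le_mul_of_nonneg_left n₁ hs)
            (mul_le_mul_of_nonneg_left n₂ ht)
        _ = r := by rw [← add_mul, hst, one_mul]
    · rw [RCLike.real_smul_eq_coe_smul (K := ℂ), RCLike.real_smul_eq_coe_smul (K := ℂ)]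
      rfl
  obtain ⟨_, ⟨m, hm, hmr, rfl⟩, hmin⟩ :=
    exists_norm_eq_iInf_of_complete_convex hne (isClosed_ball hS r).isComplete hconv v
  refine ⟨m, hm, hmr, fun z hz => le_of_forall_pos_le_add fun τ hτ => ?_⟩
  obtain ⟨m', hm', hm'r, hb⟩ := h τ hτ
  refine le_trans ?_ (hb z hz)
  obtain ⟨hzM, hzp, hzc⟩ := hP z hz
  have hcm : ∀ {x : (H →L[ℂ] H)}, x ∈ M → ∀ ξ, z (x ξ) = x (z ξ) := fun hx ξ =>
    congrArg (fun T : (H →L[ℂ] H) => T ξ) (hzc _ hx)
  set m'' : (H →L[ℂ] H) := z * m' + (1 - z) * m with hm''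
  have e'' : ∀ ξ, m'' ξ = z (m' ξ) + (m ξ - z (m ξ)) := fun ξ => rfl
  have h2 : z * z = z := hzp.isIdempotentElem.eq
  have hzz : ∀ ξ, z (z ξ) = z ξ := fun ξ => congrArg (fun T : (H →L[ℂ] H) => T ξ) h2
  have hnorm : ‖m''‖ ≤ r := by
    refine ContinuousLinearMap.opNorm_le_bound _ hr fun ξ => ?_
    have a1 : z (m'' ξ) = m' (z ξ) := by
      rw [e'', map_add, map_sub, hzz, hzz, sub_self, add_zero, hcm hm']
    have a2 : m'' ξ - z (m'' ξ) = m (ξ - z ξ) := by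
      rw [e'', map_add, map_sub, hzz, hzz, sub_self, add_zero, add_sub_cancel_left, map_sub,
        hcm hm]
    have a3 := norm_proj_sq hzp (m'' ξ)
    rw [a2, a1] at a3
    have a4 : ‖m' (z ξ)‖ ≤ r * ‖z ξ‖ :=
      (m'.le_opNorm _).trans (mul_le_mul_of_nonneg_right hm'r (norm_nonneg _))
    have a5 : ‖m (ξ - z ξ)‖ ≤ r * ‖ξ - z ξ‖ :=
      (m.le_opNorm _).trans (mul_le_mul_of_nonneg_right hmr (norm_nonneg _))
    have a6 := norm_proj_sq hzp ξ
    refine (pow_le_pow_iff_left₀ (norm_nonneg _) (by positivity) two_ne_zero).1 ?_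
    rw [mul_pow, a6, a3]
    nlinarith [pow_le_pow_left₀ (norm_nonneg _) a4 2, pow_le_pow_left₀ (norm_nonneg _) a5 2]
  have hmem : m'' Ω ∈ K := ⟨m'', add_mem (mul_mem hzM hm')
    (mul_mem (sub_mem (one_mem M) hzM) hm), hnorm, rfl⟩
  have hle : ‖v - m Ω‖ ≤ ‖v - m'' Ω‖ := by
    rw [hmin]; exact ciInf_le ⟨0, Set.forall_mem_range.2 fun w : K => norm_nonneg _⟩ ⟨_, hmem⟩
  have b1 : z (v - m'' Ω) = z (v - m' Ω) := by
    simp only [e'', map_sub, map_add, hzz, sub_self, add_zero]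
  have b2 : v - m'' Ω - z (v - m'' Ω) = v - m Ω - z (v - m Ω) := by
    simp only [e'', map_sub, map_add, hzz, sub_self, add_zero]
    abel
  have c1 := norm_proj_sq hzp (v - m'' Ω)
  rw [b2, b1] at c1
  have c2 := norm_proj_sq hzp (v - m Ω)
  have c3 := pow_le_pow_left₀ (norm_nonneg _) hle 2
  exact (pow_le_pow_iff_left₀ (norm_nonneg _) (norm_nonneg _) two_ne_zero).1 (by linarith)

/-- The cut function at height `2 a`. -/
def cutFun (a t : ℝ) : ℝ := max 0 (min 1 ((t - 4 * a ^ 2) / (4 * a ^ 2)))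

lemma continuous_cutFun (a : ℝ) : Continuous (cutFun a) := by unfold cutFun; fun_prop

lemma cutFun_mem (a t : ℝ) : 0 ≤ cutFun a t ∧ cutFun a t ≤ 1 :=
  ⟨le_max_left _ _, max_le zero_le_one (min_le_left _ _)⟩

lemma cutFun_low {a t : ℝ} (h0 : 0 ≤ t) :
    0 ≤ (1 - cutFun a t) * t * (1 - cutFun a t) ∧
      (1 - cutFun a t) * t * (1 - cutFun a t) ≤ (if a = 0 then t else (3 * a) ^ 2) := by
  obtain ⟨f0, f1⟩ := cutFun_mem a t
  have g1 := sub_nonneg.2 f1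
  refine ⟨by positivity, ?_⟩
  have h1 : (1 - cutFun a t) * t * (1 - cutFun a t) ≤ t := by
    calc (1 - cutFun a t) * t * (1 - cutFun a t) ≤ 1 * t * 1 := by gcongr <;> linarith
      _ = t := by ring
  split_ifs with ha
  · exact h1
  rcases le_or_gt t (8 * a ^ 2) with h2 | h2
  · nlinarith
  · have hc : 0 < 4 * a ^ 2 := by positivity
    have : cutFun a t = 1 := by
      have : 1 ≤ (t - 4 * a ^ 2) / (4 * a ^ 2) := by rw [le_div_iff₀ hc]; linarith
      rw [cutFun, min_eq_left this, max_eq_right zero_le_one]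
    rw [this]; simp only [sub_self, mul_zero]; positivity

lemma cutFun_high (a t : ℝ) : 0 ≤ cutFun a t * (t - 4 * a ^ 2) * cutFun a t := by
  obtain ⟨f0, f1⟩ := cutFun_mem a t
  rcases le_or_gt t (4 * a ^ 2) with h2 | h2
  · have : cutFun a t = 0 := by
      have : (t - 4 * a ^ 2) / (4 * a ^ 2) ≤ 0 :=
        div_nonpos_of_nonpos_of_nonneg (by linarith) (by positivity)
      rw [cutFun, max_eq_left (min_le_iff.2 (Or.inr this))]
    simp [this]
  · have := sub_nonneg.2 h2.le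
    positivity

section CStar

variable {A : Type*} [CStarAlgebra A] [PartialOrder A] [StarOrderedRing A]

omit [PartialOrder A] [StarOrderedRing A] in
lemma cfc_cut_low (w : A) (f : ℝ → ℝ) (hf : Continuous f) :
    star (w * (1 - cfc f (star w * w))) * (w * (1 - cfc f (star w * w)))
      = cfc (fun t => (1 - f t) * t * (1 - f t)) (star w * w) := by
  have hsa : IsSelfAdjoint (star w * w) := IsSelfAdjoint.star_mul_self w
  have h1 : Continuous fun t => 1 - f t := continuous_const.sub hf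
  have e : 1 - cfc f (star w * w) = cfc (fun t => 1 - f t) (star w * w) := by
    rw [cfc_sub (fun _ => (1 : ℝ)) f (star w * w) continuousOn_const hf.continuousOn,
      cfc_const_one ℝ (star w * w)]
  rw [e, star_mul, (cfc_predicate (fun t => 1 - f t) (star w * w)).star_eq,
    cfc_mul (fun t => (1 - f t) * t) (fun t => 1 - f t) (star w * w)
      (h1.mul continuous_id).continuousOn h1.continuousOn,
    cfc_mul (fun t => 1 - f t) (fun t => t) (star w * w) h1.continuousOn continuousOn_id,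
    cfc_id' ℝ (star w * w)]
  simp only [mul_assoc]

lemma cfc_cut_high (h : A) (hsa : IsSelfAdjoint h) (f : ℝ → ℝ) (hf : Continuous f) (c : ℝ)
    (hpos : ∀ t, 0 ≤ f t * (t - c) * f t) :
    0 ≤ cfc f h * (h - algebraMap ℝ A c) * cfc f h := by
  have h1 : Continuous fun t => t - c := continuous_id.sub continuous_const
  have e : cfc f h * (h - algebraMap ℝ A c) * cfc f h = cfc (fun t => f t * (t - c) * f t) h := by
    rw [cfc_mul (fun t => f t * (t - c)) f h (hf.mul h1).continuousOn hf.continuousOn,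
      cfc_mul f (fun t => t - c) h hf.continuousOn h1.continuousOn,
      cfc_sub (fun t => t) (fun _ => c) h continuousOn_id continuousOn_const, cfc_id' ℝ h,
      cfc_const c h]
  rw [e]
  exact cfc_nonneg fun t _ => hpos t

end CStar

/-- The cut of `w` at height `a`. -/
lemma exists_cut {w : (H →L[ℂ] H)} (hw : w ∈ M) {a : ℝ} (ha : 0 < a) :
    ∃ b ∈ M, ‖b‖ ≤ 1 ∧ star b = b ∧ ‖w * (1 - b)‖ ≤ 3 * a ∧
      ∀ ξ : H, 2 * a * ‖b ξ‖ ≤ ‖w (b ξ)‖ := by
  set b : (H →L[ℂ] H) := cfc (cutFun a) (star w * w) with hb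
  have hbs : IsSelfAdjoint b := cfc_predicate _ _
  have hbM : b ∈ M := mem_of_commutes fun y hy =>
    ((show Commute (star w * w) y from
      VonNeumannAlgebra.mem_commutant_iff.1 hy _ (mul_mem (star_mem hw) hw)).cfc_real _).symm
  refine ⟨b, hbM, ?_, hbs.star_eq, ?_, fun ξ => ?_⟩
  · exact norm_cfc_le zero_le_one fun t _ => by
      rw [Real.norm_eq_abs, abs_of_nonneg (cutFun_mem a t).1]; exact (cutFun_mem a t).2
  · have h9 : ‖star (w * (1 - b)) * (w * (1 - b))‖ ≤ (3 * a) ^ 2 := by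
      rw [hb, cfc_cut_low w _ (continuous_cutFun a)]
      refine norm_cfc_le (by positivity) fun t ht => ?_
      have h0 := cutFun_low (a := a) (spectrum_star_mul_self_nonneg (b := w) t ht)
      rw [Real.norm_eq_abs, abs_of_nonneg h0.1]
      simpa [ha.ne'] using h0.2
    rw [CStarRing.norm_star_mul_self] at h9
    exact (pow_le_pow_iff_left₀ (norm_nonneg _) (by positivity) two_ne_zero).1
      (by rw [sq]; exact h9)
  · have hpos := cfc_cut_high (star w * w) (IsSelfAdjoint.star_mul_self w) _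
      (continuous_cutFun a) (4 * a ^ 2) (cutFun_high a)
    rw [← hb] at hpos
    have hq := (ContinuousLinearMap.nonneg_iff_isPositive _).1 hpos |>.re_inner_nonneg_right ξ
    have hbs' : ContinuousLinearMap.adjoint b = b := hbs.star_eq
    have e2 : ⟪ξ, (b * (star w * w - algebraMap ℝ (H →L[ℂ] H) (4 * a ^ 2)) * b) ξ⟫_ℂ
        = ⟪w (b ξ), w (b ξ)⟫_ℂ - ((4 * a ^ 2 : ℝ) : ℂ) * ⟪b ξ, b ξ⟫_ℂ := by
      show ⟪ξ, b ((star w) (w (b ξ)) - (4 * a ^ 2) • b ξ)⟫_ℂ = _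
      rw [← ContinuousLinearMap.adjoint_inner_left, hbs', inner_sub_right,
        RCLike.real_smul_eq_coe_smul (K := ℂ), inner_smul_right,
        ContinuousLinearMap.star_eq_adjoint, ContinuousLinearMap.adjoint_inner_right]
      rfl
    rw [e2, inner_self_eq_norm_sq_to_K, inner_self_eq_norm_sq_to_K, map_sub,
      RCLike.re_to_complex, RCLike.re_to_complex] at hq
    simp [← Complex.ofReal_pow] at hq
    refine (pow_le_pow_iff_left₀ (by positivity) (norm_nonneg _) two_ne_zero).1 ?_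
    linarith [mul_pow (2 * a) ‖b ξ‖ 2, mul_pow (2 : ℝ) a 2]

/-- A vector with small right translates. -/
lemma cut_right (hS : Std M Ω R) {P : Set (H →L[ℂ] H)}
    (hP : ∀ z ∈ P, z ∈ M ∧ IsStarProjection z ∧ ∀ x ∈ M, z * x = x * z)
    (v : H) {a e : ℝ} (ha : 0 ≤ a) (he : 0 ≤ e)
    (h : ∀ b ∈ M, ∀ z ∈ P, ‖z (R b v)‖ ≤ a * ‖z (b Ω)‖ + e * ‖b‖ * ‖z Ω‖) :
    ∃ m ∈ M, ‖m‖ ≤ 3 * a ∧ ∀ z ∈ P, ‖z (v - m Ω)‖ ≤ 2 * e * ‖z Ω‖ := by
  rcases ha.eq_or_lt with rfl | ha0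
  · refine ⟨0, zero_mem M, by simp, fun z hz => ?_⟩
    have := h 1 (one_mem M) z hz
    rw [R_one hS] at this
    simp at this ⊢
    refine this.trans ?_
    gcongr ?_ * _
    nlinarith [show ‖(1 : (H →L[ℂ] H))‖ ≤ 1 from ContinuousLinearMap.norm_id_le, norm_nonneg (1 : (H →L[ℂ] H))]
  refine exists_best hS hP v (by linarith) _ fun τ hτ => ?_
  obtain ⟨_, hd, w, hw, rfl⟩ := Metric.dense_iff.1 hS.cyclic v (τ / 3) (by linarith)
  have hd' : ‖v - w Ω‖ ≤ τ / 3 := by rw [← dist_eq_norm, dist_comm]; exact (Metric.mem_ball.1 hd).le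
  obtain ⟨b, hb, hb1, -, hwb, hlow⟩ := exists_cut hw ha0
  refine ⟨w * (1 - b), mul_mem hw (sub_mem (one_mem M) hb), hwb, fun z hz => ?_⟩
  obtain ⟨hzM, hzp, hzc⟩ := hP z hz
  have hcm : ∀ {x : (H →L[ℂ] H)}, x ∈ M → ∀ ξ, z (x ξ) = x (z ξ) := fun hx ξ =>
    congrArg (fun T : (H →L[ℂ] H) => T ξ) (hzc _ hx)
  have h1 : ‖z (w (b Ω))‖ ≤ ‖z (R b v)‖ + τ / 3 := by
    have e : z (w (b Ω)) = z (R b v) - z (R b (v - w Ω)) := by
      rw [← map_sub, ← map_sub (R b), sub_sub_cancel, R_apply hS hb hw]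
    rw [e]
    refine (norm_sub_le _ _).trans (add_le_add_right ?_ _)
    refine (norm_proj_le hzp _).trans ((norm_R_apply_le hS hb _).trans ?_)
    calc ‖b‖ * ‖v - w Ω‖ ≤ 1 * ‖v - w Ω‖ := by gcongr
      _ ≤ τ / 3 := by linarith
  have h2 : 2 * a * ‖z (b Ω)‖ ≤ ‖z (w (b Ω))‖ := by
    rw [hcm hb, hcm hw, hcm hb]
    exact hlow (z Ω)
  have h3 := h b hb z hz
  have h4 : e * ‖b‖ * ‖z Ω‖ ≤ e * ‖z Ω‖ := by
    gcongr; exact mul_le_of_le_one_right he hb1
  have e5 : v - (w * (1 - b)) Ω = (v - w Ω) + w (b Ω) := by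
    simp [mul_apply_eq_comp]; abel
  rw [e5, map_add]
  refine (norm_add_le _ _).trans ?_
  have := (norm_proj_le hzp (v - w Ω)).trans hd'
  linarith

/-- A vector with small left translates. -/
lemma cut_left (hS : Std M Ω R) {P : Set (H →L[ℂ] H)}
    (hP : ∀ z ∈ P, z ∈ M ∧ IsStarProjection z ∧ ∀ x ∈ M, z * x = x * z)
    (v : H) {a e : ℝ} (ha : 0 ≤ a) (he : 0 ≤ e)
    (h : ∀ b ∈ M, ∀ z ∈ P, ‖b (z v)‖ ≤ a * ‖b (z Ω)‖ + e * ‖b‖ * ‖z Ω‖) :
    ∃ m ∈ M, ‖m‖ ≤ 3 * a ∧ ∀ z ∈ P, ‖z (v - m Ω)‖ ≤ 2 * e * ‖z Ω‖ := by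
  rcases ha.eq_or_lt with rfl | ha0
  · refine ⟨0, zero_mem M, by simp, fun z hz => ?_⟩
    have := h 1 (one_mem M) z hz
    simp at this ⊢
    refine this.trans ?_
    gcongr ?_ * _
    nlinarith [show ‖(1 : (H →L[ℂ] H))‖ ≤ 1 from ContinuousLinearMap.norm_id_le, norm_nonneg (1 : (H →L[ℂ] H))]
  refine exists_best hS hP v (by linarith) _ fun τ hτ => ?_
  obtain ⟨_, hd, w, hw, rfl⟩ := Metric.dense_iff.1 hS.cyclic v (τ / 3) (by linarith)
  have hd' : ‖v - w Ω‖ ≤ τ / 3 := by rw [← dist_eq_norm, dist_comm]; exact (Metric.mem_ball.1 hd).le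
  obtain ⟨b, hb, hb1, hbs, hwb, hlow⟩ := exists_cut (star_mem hw) ha0
  refine ⟨(1 - b) * w, mul_mem (sub_mem (one_mem M) hb) hw, ?_, fun z hz => ?_⟩
  · rw [← norm_star, star_mul, star_sub, star_one, hbs]; exact hwb
  obtain ⟨hzM, hzp, hzc⟩ := hP z hz
  have hcm : ∀ {x : (H →L[ℂ] H)}, x ∈ M → ∀ ξ, z (x ξ) = x (z ξ) := fun hx ξ =>
    congrArg (fun T : (H →L[ℂ] H) => T ξ) (hzc _ hx)
  have h1 : ‖b (z (w Ω))‖ ≤ ‖b (z v)‖ + τ / 3 := by
    have e : b (z (w Ω)) = b (z v) - b (z (v - w Ω)) := by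
      rw [← map_sub, ← map_sub z, sub_sub_cancel]
    rw [e]
    refine (norm_sub_le _ _).trans (add_le_add_right ?_ _)
    calc ‖b (z (v - w Ω))‖ ≤ ‖b‖ * ‖z (v - w Ω)‖ := b.le_opNorm _
      _ ≤ 1 * (τ / 3) := mul_le_mul hb1 ((norm_proj_le hzp _).trans hd') (norm_nonneg _) zero_le_one
      _ = τ / 3 := one_mul _
  have h2 : 2 * a * ‖b (z Ω)‖ ≤ ‖b (z (w Ω))‖ := by
    have e : ‖b (z (w Ω))‖ = ‖star w (b (z Ω))‖ := by
      have := norm_star_apply hS (mul_mem (mul_mem hb hzM) hw)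
      rw [star_mul, star_mul, hbs, hzp.isSelfAdjoint.star_eq] at this
      show ‖(b * z * w) Ω‖ = _
      rw [← this]
      show ‖star w (z (b Ω))‖ = _
      rw [hcm hb]
    rw [e]; exact hlow (z Ω)
  have h3 := h b hb z hz
  have h4 : e * ‖b‖ * ‖z Ω‖ ≤ e * ‖z Ω‖ := by
    gcongr; exact mul_le_of_le_one_right he hb1
  have e5 : v - ((1 - b) * w) Ω = (v - w Ω) + b (w Ω) := by
    simp [mul_apply_eq_comp]; abel
  rw [e5, map_add, hcm hb]
  refine (norm_add_le _ _).trans ?_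
  have := (norm_proj_le hzp (v - w Ω)).trans hd'
  linarith

/-- Every element of the commutant is a right multiplication. -/
lemma exists_R (hS : Std M Ω R) {y : (H →L[ℂ] H)} (hy : y ∈ M.commutant) :
    ∃ m ∈ M, ‖m‖ ≤ 3 * ‖y‖ ∧ R m = y := by
  have hP : ∀ z ∈ ({1} : Set (H →L[ℂ] H)), z ∈ M ∧ IsStarProjection z ∧ ∀ x ∈ M, z * x = x * z := by
    rintro z rfl
    exact ⟨one_mem M, IsStarProjection.one _, fun x _ => by simp⟩
  obtain ⟨m, hm, hmn, hmv⟩ := cut_left hS hP (y Ω) (norm_nonneg y) le_rfl fun b hb z hz => by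
    obtain rfl := Set.mem_singleton_iff.1 hz
    simp only [one_apply_eq_self, zero_mul, add_zero]
    rw [comm_apply hb hy]
    exact y.le_opNorm _
  refine ⟨m, hm, hmn, comm_eq hS (hS.right_mem m hm) hy ?_⟩
  rw [hS.right_apply m hm]
  have := hmv 1 rfl
  simp at this
  exact (sub_eq_zero.1 this).symm

end Vale.Agent.P096.KK.Select
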