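import Vale.Agent.P096.KK.CentralSum
import Vale.Agent.P096.KK.Pieces
import Vale.Agent.P096.KK.Represent

/-!
# P096: from finite traces to semifinite algebras on separable spaces

A semifinite algebra without type I part is a countable central sum of pieces with matrix units and
tracial corner. Stability passes from the corner to the piece and from the pieces to the sum.
-/

noncomputable section

namespace Vale.Agent.P096.KK

open Vale.Agent.P104.Red (sp IsCentral Fam)
open Vale.Agent.P085 (IsProj IsNormalTrace)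
open P132.Homog.TypeIII

universe u

variable {H : Type u} [NormedAddCommGroup H] [InnerProductSpace ℂ H] [CompleteSpace H]
variable {M : VonNeumannAlgebra H}

/-- A corner of an algebra without type I part has none. -/
lemma noAbelian_cornerAlg {p : H →L[ℂ] H} (hp : IsStarProjection p) (hpM : p ∈ M)
    (hM : P104.Sim.NoAbelian M) : P104.Sim.NoAbelian (cornerAlg hp M) := by
  intro q hq hq0
  have hQ : P104.Sim.IsProj M (eCor hp q) := ⟨(mem_cornerAlg hp hpM).1 hq.1,
    show eCor hp q * eCor hp q = eCor hp q by rw [← eCor_mul, hq.2.isIdempotentElem.eq],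
    show star (eCor hp q) = eCor hp q by rw [← eCor_star, hq.2.isSelfAdjoint.star_eq]⟩
  obtain ⟨v, hv, hv0, h1, h2, h3⟩ := hM _ hQ fun h0 => hq0 (eCor_injective hp (h0.trans (by rfl)))
  have hve : eCor hp (cCor hp v) = v := by
    rw [eCor_cCor]
    conv_rhs => rw [← h1]
    conv_lhs => rw [← h1]
    rw [show p * (eCor hp q * v * eCor hp q) * p = (p * eCor hp q) * v * (eCor hp q * p) by
      noncomm_ring, p_eCor, eCor_p]
  refine ⟨cCor hp v, cCor_mem hp hpM hv, fun h0 => hv0 (by rw [← hve, h0]; rfl), ?_, ?_, ?_⟩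
  all_goals refine eCor_injective hp ?_
  · simp only [eCor_mul, hve, h1]
  · simp only [eCor_mul, eCor_star, hve, h2]
  · simp only [eCor_mul, eCor_star, hve, h3]
    rfl

/-- A countable central decomposition into pieces. -/
lemma exists_piece_decomposition [TopologicalSpace.SeparableSpace H] (hM : IsSemifiniteVN M) :
    ∃ (ι : Type) (_ : DecidableEq ι) (_ : Countable ι) (z : ι → (H →L[ℂ] H))
      (hz : ∀ i, IsCentral M (z i)), (∀ i j, i ≠ j → z i * z j = 0) ∧
      (∀ v, HasSum (fun i => z i v) v) ∧ ∀ i, HasPiece (cornerAlg (hz i).proj.2 M) := by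
  classical
  obtain ⟨S, hf, hS, hmax⟩ := Vale.Agent.P104.Red.exists_maximal_fam (M := M)
    (fun z => z ≠ 0 ∧ ∃ hz : IsCentral M z, HasPiece (cornerAlg hz.proj.2 M))
    (fun z hz => PI.of_proj hz.2.1.proj)
  have hc : ∀ v : S, IsCentral M (v : H →L[ℂ] H) := fun v => (hS v v.2).2.1
  have hcS : S.Countable := by
    have hp : ∀ v ∈ S, ∃ x : H, v x = x ∧ ‖x‖ = 1 := fun v hv => by
      obtain ⟨hv0, hz, -⟩ := hS v hv
      obtain ⟨y, hy⟩ : ∃ y, v y ≠ 0 := by
        by_contra hn
        push Not at hn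
        exact hv0 (ContinuousLinearMap.ext hn)
      refine ⟨(‖v y‖⁻¹ : ℂ) • v y, ?_, ?_⟩
      · rw [map_smul, proj_apply_apply hz.proj.2]
      · rw [norm_smul, norm_inv, Complex.norm_real, norm_norm,
          inv_mul_cancel₀ (norm_ne_zero_iff.2 hy)]
    choose! x hx hx1 using hp
    refine Set.PairwiseDisjoint.countable_of_isOpen (s := fun v => Metric.ball (x v) (1 / 2))
      ?_ (fun v _ => Metric.isOpen_ball) fun v _ => ⟨x v, Metric.mem_ball_self (by norm_num)⟩
    intro v hv w hw hne
    refine Metric.ball_disjoint_ball ?_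
    rw [dist_eq_norm]
    have h0 : inner ℂ (x v) (x w) = 0 := by
      rw [← hx v hv, proj_inner (hS v hv).2.1.proj.2, ← hx w hw, ← mul_apply_eq_comp]
      have := hf.star_mul ⟨v, hv⟩ ⟨w, hw⟩ fun e => hne (congrArg Subtype.val e)
      simp only [isProj_star (hS v hv).2.1.proj] at this
      rw [this, zero_apply, inner_zero_right]
    have h2 : ‖x v - x w‖ ^ 2 = 2 := by
      rw [@norm_sub_sq ℂ, h0, map_zero, hx1 v hv, hx1 w hw]; norm_num
    nlinarith [norm_nonneg (x v - x w)]
  have : Countable S := hcS.to_subtype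
  have hQ : IsCentral M hf.sum := by
    have hs : ∀ v : S, star (v : H →L[ℂ] H) = v := fun v => isProj_star (hc v).proj
    have hsum : star hf.sum = hf.sum := by
      rw [hf.star_sum]
      congr 1
      funext v
      exact hs v
    refine ⟨⟨hf.sum_mem, ?_, hsum⟩, fun y hy => ContinuousLinearMap.ext fun x => ?_⟩
    · show hf.sum * hf.sum = hf.sum
      refine hf.mul_sum_self fun v => ?_
      have := congrArg star (hf.ext v).1
      rw [hs, isProj_mul_self (hc v).proj] at this
      rwa [star_mul, hs, hsum, ← hf.sum_mul_self (a := 1) fun _ => mul_one _, mul_one,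
        (hc v).comm _ hf.sum_mem] at this
    · rw [mul_apply_eq_comp, mul_apply_eq_comp]
      exact (hf.hasSum (y x)).unique (((hf.hasSum x).mapL y).congr_fun fun v =>
        DFunLike.congr_fun ((hc v).comm y hy) x)
  have h1 : hf.sum = 1 := by
    by_contra hne
    obtain ⟨w, hw, hrw, hw0, hP⟩ := exists_piece hM (IsCentral.sub IsCentral.one hQ (one_mul _))
      (sub_ne_zero.2 (Ne.symm hne))
    refine hw0 (hmax w ⟨hw0, hw, hP⟩ fun v hv => ?_)
    have hv' := hc ⟨v, hv⟩
    have e1 : v * hf.sum = v := by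
      have := (hf.ext ⟨v, hv⟩).1
      simp only [isProj_star hv'.proj, isProj_mul_self hv'.proj] at this
      rw [hv'.comm _ hf.sum_mem, this]
    have e2 : v * w = 0 := by
      rw [← hrw, ← mul_assoc, mul_sub, mul_one, e1, sub_self, zero_mul]
    rw [isProj_star hv'.proj, isProj_star hw.proj]
    exact ⟨e2, e2⟩
  obtain ⟨num, hnum⟩ := Countable.exists_injective_nat S
  let T : Set ℕ := Set.range num
  let eT : T ≃ S := (Equiv.ofInjective num hnum).symm
  refine ⟨T, inferInstance, inferInstance, fun i => (eT i : H →L[ℂ] H), fun i => hc _,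
    fun i j h => ?_, fun v => ?_, fun i => ?_⟩
  · have := hf.star_mul (eT i) (eT j) fun e => h (eT.injective e)
    rwa [isProj_star (hc _).proj] at this
  · have h := hf.hasSum v
    rw [h1, one_apply_eq_self] at h
    exact eT.hasSum_iff.2 h
  · exact (hS _ (eT i).2).2.2

/-- Stability for semifinite algebras without type I part on separable spaces. -/
def SemifiniteKKSep : Prop :=
  ∀ θ : ℝ, 0 < θ → ∃ δ : ℝ, 0 < δ ∧ ∀ (H : Type u) [NormedAddCommGroup H] [InnerProductSpace ℂ H]
    [CompleteSpace H] [TopologicalSpace.SeparableSpace H] (M N : VonNeumannAlgebra H),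
    IsSemifiniteVN M → P104.Sim.NoAbelian M → kkDist M N < δ →
    Linear.ConjWithin (Linear.carrierSet M) (Linear.carrierSet N) θ

/-- Finite traces give semifinite algebras. -/
theorem semifiniteKKSep (hF : FiniteTraceKKSep.{u}) : SemifiniteKKSep.{u} := by
  intro θ hθ
  obtain ⟨δ₁, hδ₁, h₁⟩ := hF (θ / 2 / 2) (by positivity)
  obtain ⟨δ₂, hδ₂, h₂⟩ := cornerKK_modulus.{u} (θ := θ / 2) (by positivity) hδ₁
  refine ⟨min (1 / 800) (min (δ₂ / 500) (θ / 500)), lt_min (by positivity) (lt_min (by positivity)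
    (by positivity)), fun H _ _ _ _ M N hM hna hd => ?_⟩
  have hr1 := (min_le_right (1 / 800 : ℝ) (min (δ₂ / 500) (θ / 500))).trans (min_le_left _ _)
  have hr2 := (min_le_right (1 / 800 : ℝ) (min (δ₂ / 500) (θ / 500))).trans (min_le_right _ _)
  obtain ⟨ι, _, _, z, hz, horth, htot, hpiece⟩ := exists_piece_decomposition hM
  have sepSub : ∀ {K : Type u} [NormedAddCommGroup K] [InnerProductSpace ℂ K] [CompleteSpace K]
      [TopologicalSpace.SeparableSpace K] (q : K →L[ℂ] K),
      TopologicalSpace.SeparableSpace (sp q) := fun {K} _ _ _ _ q => by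
    have : SecondCountableTopology K := UniformSpace.secondCountable_of_separable _
    infer_instance
  have hstab : ∀ i, ∀ N' : VonNeumannAlgebra (sp (z i)),
      kkDist (cornerAlg (hz i).proj.2 M) N' < δ₂ →
      ∃ w ∈ unitary (sp (z i) →L[ℂ] sp (z i)), ‖w - 1‖ ≤ θ / 2 ∧
        (fun x => w * x * star w) '' (cornerAlg (hz i).proj.2 M : Set (sp (z i) →L[ℂ] sp (z i)))
          = (N' : Set (sp (z i) →L[ℂ] sp (z i))) := by
    intro i N' hN'
    obtain ⟨κ, _, _, e, i₀, p, he, hp, hmem, ξ, hξ⟩ := hpiece i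
    have := sepSub (z i)
    have := sepSub p
    have hcor : ∀ N'' : VonNeumannAlgebra (sp p),
        kkDist (cornerAlg hp (cornerAlg (hz i).proj.2 M)) N'' < δ₁ →
        ∃ x ∈ unitary (sp p →L[ℂ] sp p), ‖x - 1‖ ≤ θ / 2 / 2 ∧
          (fun y => x * y * star x) '' (cornerAlg hp (cornerAlg (hz i).proj.2 M) : Set (sp p →L[ℂ] sp p))
            = (N'' : Set (sp p →L[ℂ] sp p)) := by
      intro N'' hN''
      obtain ⟨x, hx, hx1, hxI⟩ := h₁ (sp p) (cornerAlg hp (cornerAlg (hz i).proj.2 M)) N'' ξ hξ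
        (noAbelian_cornerAlg hp (he.corner ▸ hmem i₀ i₀)
          (noAbelian_cornerAlg (hz i).proj.2 (hz i).proj.1 hna)) hN''
      exact ⟨x, hx, hx1.le, hxI⟩
    obtain ⟨w, hw, hw1, hwI⟩ := h₂ (sp (z i)) κ e i₀ p he hp (cornerAlg (hz i).proj.2 M) N' hmem
      hcor hN'
    exact ⟨w, hw, hw1.le, hwI⟩
  obtain ⟨u, hu, hu1, hI⟩ := centralSumKK (θ₁ := θ / 2) hz horth htot (by positivity)
    hstab hd (min_le_left _ _) (by linarith)
  exact ⟨u, hu, hu1.trans_lt (by linarith), hI⟩

end Vale.Agent.P096.KK
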