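import Vale.Agent.P096.KK.StepAux

/-!
# P096: elementary facts on the matrices over an algebra, as acting on entries
-/

noncomputable section

namespace Vale.Agent.P096.KK

open scoped InnerProductSpace

universe u

variable {H : Type u} [NormedAddCommGroup H] [InnerProductSpace ℂ H] [CompleteSpace H] {m : ℕ}

@[simp] lemma spr_apply (p : Fin m × Fin m) (v : Sq H m) : spr p v = v p := rfl

@[simp] lemma sinj_apply (p q : Fin m × Fin m) (ξ : H) :
    sinj p ξ q = if p = q then ξ else 0 := by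
  classical
  have h : sinj p ξ = (WithLp.toLp 2 (Pi.single p ξ) : Sq H m) := by
    refine ext_inner_right ℂ fun v => ?_
    rw [sinj, ContinuousLinearMap.adjoint_inner_left, spr_apply, PiLp.inner_apply,
      Finset.sum_eq_single p (fun b _ hb => by simp [hb]) (fun h => absurd (Finset.mem_univ p) h)]
    simp
  rw [h]
  by_cases hpq : p = q
  · subst hpq; simp
  · simp [hpq, Ne.symm hpq]

omit [CompleteSpace H] in
lemma sq_sum_apply {ι : Type*} (s : Finset ι) (f : ι → Sq H m) (p : Fin m × Fin m) :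
    (∑ i ∈ s, f i) p = ∑ i ∈ s, f i p :=
  map_sum (spr p) f s

@[simp] lemma sdiag_apply (T : H →L[ℂ] H) (v : Sq H m) (p : Fin m × Fin m) :
    sdiag m T v p = T (v p) := by
  simp [sdiag, sum_apply, sq_sum_apply]

@[simp] lemma rUnit_apply (i j : Fin m) (v : Sq H m) (a b : Fin m) :
    rUnit i j v (a, b) = if j = b then v (a, i) else 0 := by
  simp [rUnit, sum_apply, sq_sum_apply, ite_and]

@[simp] lemma mL_apply (X : Fin m → Fin m → H →L[ℂ] H) (v : Sq H m) (i k : Fin m) :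
    mL X v (i, k) = ∑ j, X i j (v (j, k)) := by
  simp only [mL, sum_apply, sq_sum_apply, ContinuousLinearMap.comp_apply, spr_apply, sinj_apply,
    Prod.mk.injEq]
  rw [Finset.sum_eq_single i (fun a _ ha => by simp [ha]) (fun h => absurd (Finset.mem_univ i) h)]
  exact Finset.sum_congr rfl fun j _ => by simp

lemma sqVec_apply (m : ℕ) (Ω : H) (i k : Fin m) :
    sqVec m Ω (i, k) = if i = k then ((Real.sqrt m)⁻¹ : ℂ) • Ω else 0 := by
  simp [sqVec, sq_sum_apply, ite_and, smul_ite]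

lemma sq_ext {v w : Sq H m} (h : ∀ i k, v (i, k) = w (i, k)) : v = w :=
  PiLp.ext fun p => h p.1 p.2

lemma sq_op_ext {S T : Sq H m →L[ℂ] Sq H m} (h : ∀ v i k, S v (i, k) = T v (i, k)) : S = T :=
  ContinuousLinearMap.ext fun v => sq_ext (h v)

variable (H m) in
/-- `sdiag` as an algebra homomorphism. -/
def sdiagHom : (H →L[ℂ] H) →ₐ[ℂ] (Sq H m →L[ℂ] Sq H m) where
  toFun := sdiag m
  map_one' := sq_op_ext fun v i k => by simp
  map_mul' S T := sq_op_ext fun v i k => by simp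
  map_zero' := sq_op_ext fun v i k => by simp
  map_add' S T := sq_op_ext fun v i k => by simp
  commutes' r := sq_op_ext fun v i k => by simp [Algebra.algebraMap_eq_smul_one]

@[simp] lemma sdiagHom_apply (T : H →L[ℂ] H) : sdiagHom H m T = sdiag m T := rfl

lemma sdiag_one : sdiag m (1 : H →L[ℂ] H) = 1 := map_one (sdiagHom H m)

lemma sdiag_mul (S T : H →L[ℂ] H) : sdiag m (S * T) = sdiag m S * sdiag m T :=
  map_mul (sdiagHom H m) S T

lemma sdiag_smul (c : ℂ) (T : H →L[ℂ] H) : sdiag m (c • T) = c • sdiag m T :=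
  map_smul (sdiagHom H m) c T

lemma sdiag_sum {ι : Type*} (s : Finset ι) (f : ι → H →L[ℂ] H) :
    sdiag m (∑ i ∈ s, f i) = ∑ i ∈ s, sdiag m (f i) :=
  map_sum (sdiagHom H m) f s

lemma star_sdiag (T : H →L[ℂ] H) : star (sdiag m T) = sdiag m (star T) := by
  rw [ContinuousLinearMap.star_eq_adjoint]
  symm
  rw [ContinuousLinearMap.eq_adjoint_iff]
  intro v w
  simp [PiLp.inner_apply, ContinuousLinearMap.star_eq_adjoint,
    ContinuousLinearMap.adjoint_inner_left]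

lemma norm_sdiag_le (T : H →L[ℂ] H) : ‖sdiag m T‖ ≤ ‖T‖ := by
  refine ContinuousLinearMap.opNorm_le_bound _ (norm_nonneg _) fun v => ?_
  refine le_of_pow_le_pow_left₀ two_ne_zero (by positivity) ?_
  rw [mul_pow, PiLp.norm_sq_eq_of_L2, PiLp.norm_sq_eq_of_L2, Finset.mul_sum]
  exact Finset.sum_le_sum fun p _ => by
    rw [sdiag_apply, ← mul_pow]
    exact pow_le_pow_left₀ (norm_nonneg _) (T.le_opNorm _) 2

lemma continuous_sdiag : Continuous (sdiagHom H m) :=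
  AddMonoidHomClass.continuous_of_bound (sdiagHom H m) 1 fun T => by
    simpa using norm_sdiag_le (m := m) T

lemma sdiag_exp (A : H →L[ℂ] H) :
    sdiag m (NormedSpace.exp A) = NormedSpace.exp (sdiag m A) := by
  letI := NormedAlgebra.restrictScalars ℚ ℂ (H →L[ℂ] H)
  letI := NormedAlgebra.restrictScalars ℚ ℂ (Sq H m →L[ℂ] Sq H m)
  exact NormedSpace.map_exp (sdiagHom H m).toRingHom continuous_sdiag A

lemma star_rUnit (i j : Fin m) :
    star (rUnit i j : Sq H m →L[ℂ] Sq H m) = rUnit j i := by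
  simp [rUnit, ContinuousLinearMap.star_eq_adjoint, map_sum,
    ContinuousLinearMap.adjoint_comp, sinj]

lemma sdiag_comm_rUnit (T : H →L[ℂ] H) (i j : Fin m) :
    (sdiag m T : Sq H m →L[ℂ] Sq H m) * rUnit i j = rUnit i j * sdiag m T :=
  sq_op_ext fun v a b => by simp [apply_ite T]

variable {M : VonNeumannAlgebra H}

lemma star_sqGen {g : Sq H m →L[ℂ] Sq H m} (hg : g ∈ sqGen m (M.commutant : Set (H →L[ℂ] H))) :
    star g ∈ sqGen m (M.commutant : Set (H →L[ℂ] H)) := by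
  rcases hg with ⟨y, hy, rfl⟩ | ⟨⟨i, j⟩, rfl⟩
  · exact Or.inl ⟨star y, star_mem hy, (star_sdiag y).symm⟩
  · exact Or.inr ⟨(j, i), (star_rUnit i j).symm⟩

lemma mem_sqM_iff {T : Sq H m →L[ℂ] Sq H m} :
    T ∈ sqM M m ↔ (∀ y ∈ M.commutant, sdiag m y * T = T * sdiag m y) ∧
      ∀ i j : Fin m, rUnit i j * T = T * rUnit i j := by
  show T ∈ StarSubalgebra.centralizer ℂ _ ↔ _
  rw [StarSubalgebra.mem_centralizer_iff]
  constructor
  · exact fun h => ⟨fun y hy => (h _ (Or.inl ⟨y, hy, rfl⟩)).1,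
      fun i j => (h _ (Or.inr ⟨(i, j), rfl⟩)).1⟩
  · rintro ⟨h1, h2⟩ g hg
    have key : ∀ g ∈ sqGen m (M.commutant : Set (H →L[ℂ] H)), g * T = T * g := by
      rintro g (⟨y, hy, rfl⟩ | ⟨⟨i, j⟩, rfl⟩)
      exacts [h1 y hy, h2 i j]
    exact ⟨key g hg, key _ (star_sqGen hg)⟩

lemma sdiag_mem_sqM {x : H →L[ℂ] H} (hx : x ∈ M) : sdiag m x ∈ sqM M m :=
  mem_sqM_iff.2 ⟨fun y hy => by
      rw [← sdiag_mul, ← sdiag_mul, (VonNeumannAlgebra.mem_commutant_iff.1 hy x hx)],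
    fun i j => (sdiag_comm_rUnit x i j).symm⟩

lemma sdiag_mem_commutant {y : H →L[ℂ] H} (hy : y ∈ M.commutant) :
    sdiag m y ∈ (sqM M m).commutant :=
  VonNeumannAlgebra.mem_commutant_iff.2 fun T hT => ((mem_sqM_iff.1 hT).1 y hy).symm

lemma sdiag_mem_sqN {N : Subalgebra ℂ (H →L[ℂ] H)} {n : H →L[ℂ] H} (hn : n ∈ N) :
    sdiag m n ∈ sqN N m := by
  rw [sqN, Subalgebra.mem_centralizer_iff]
  rintro g (⟨y, hy, rfl⟩ | ⟨⟨i, j⟩, rfl⟩)
  · rw [← sdiag_mul, ← sdiag_mul, mem_cent_iff.1 hy n hn]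
  · exact (sdiag_comm_rUnit n i j).symm

lemma mL_mem_sqM {X : Fin m → Fin m → H →L[ℂ] H} (hX : ∀ i j, X i j ∈ M) : mL X ∈ sqM M m := by
  refine mem_sqM_iff.2 ⟨fun y hy => sq_op_ext fun v i k => ?_, fun a b => sq_op_ext fun v i k => ?_⟩
  · simp only [mul_apply_eq_comp, sdiag_apply, mL_apply, map_sum]
    exact Finset.sum_congr rfl fun j _ =>
      (apply_comm (VonNeumannAlgebra.mem_commutant_iff.1 hy _ (hX i j)) _).symm
  · by_cases h : b = k <;> simp [h]

/-- The matrix product. -/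
def mMul (X Y : Fin m → Fin m → H →L[ℂ] H) : Fin m → Fin m → H →L[ℂ] H :=
  fun i k => ∑ j, X i j * Y j k

lemma mL_mul (X Y : Fin m → Fin m → H →L[ℂ] H) : mL X * mL Y = mL (mMul X Y) :=
  sq_op_ext fun v i k => by
    simp [mMul, sum_apply, map_sum]
    rw [Finset.sum_comm]

lemma mL_sqVec (X : Fin m → Fin m → H →L[ℂ] H) (Ω : H) (i k : Fin m) :
    mL X (sqVec m Ω) (i, k) = ((Real.sqrt m)⁻¹ : ℂ) • X i k Ω := by
  simp [sqVec_apply, apply_ite (X i _)]

lemma sdiag_sqVec (T : H →L[ℂ] H) (Ω : H) (i k : Fin m) :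
    sdiag m T (sqVec m Ω) (i, k) = if i = k then ((Real.sqrt m)⁻¹ : ℂ) • T Ω else 0 := by
  simp [sqVec_apply, apply_ite T]

lemma norm_sdiag_sqVec [NeZero m] (T : H →L[ℂ] H) (Ω : H) :
    ‖sdiag m T (sqVec m Ω)‖ = ‖T Ω‖ := by
  refine (sq_eq_sq₀ (norm_nonneg _) (norm_nonneg _)).1 ?_
  rw [PiLp.norm_sq_eq_of_L2, Fintype.sum_prod_type]
  have h : ∀ i k : Fin m, ‖sdiag m T (sqVec m Ω) (i, k)‖ ^ 2 =
      if i = k then (m : ℝ)⁻¹ * ‖T Ω‖ ^ 2 else 0 := by
    intro i k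
    rw [sdiag_sqVec]
    split_ifs
    · rw [norm_smul, mul_pow, norm_inv, Complex.norm_real, Real.norm_of_nonneg (Real.sqrt_nonneg _),
        inv_pow, Real.sq_sqrt (Nat.cast_nonneg m)]
    · simp
  simp only [h, Finset.sum_ite_eq, Finset.mem_univ, if_true, Finset.sum_const, Finset.card_univ,
    Fintype.card_fin, nsmul_eq_mul]
  rw [← mul_assoc, mul_inv_cancel₀ (Nat.cast_ne_zero.2 (NeZero.ne m)), one_mul]

section Entries

variable [NeZero m]

lemma lEnt_apply (T : Sq H m →L[ℂ] Sq H m) (i j : Fin m) (ξ : H) :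
    lEnt T i j ξ = T (sinj (j, 0) ξ) (i, 0) := rfl

lemma lEnt_mL (X : Fin m → Fin m → H →L[ℂ] H) (i j : Fin m) : lEnt (mL X) i j = X i j := by
  ext ξ
  simp [lEnt_apply, apply_ite (X i _)]

lemma lEnt_mem {T : Sq H m →L[ℂ] Sq H m} (hT : T ∈ sqM M m) (i j : Fin m) : lEnt T i j ∈ M := by
  rw [← VonNeumannAlgebra.commutant_commutant M, VonNeumannAlgebra.mem_commutant_iff]
  intro y hy
  ext ξ
  have h1 : sinj (j, 0) (y ξ) = sdiag m y (sinj (j, (0 : Fin m)) ξ) := sq_ext fun a b => by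
    simp [apply_ite y]
  simp only [mul_apply_eq_comp, lEnt_apply, h1]
  rw [← apply_comm ((mem_sqM_iff.1 hT).1 y hy), sdiag_apply]

end Entries

end Vale.Agent.P096.KK
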