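import Vale.Agent.P096.KK.Setting
import Vale.Agent.P096.KK.Induced

/-!
# P096: the standard form inside the countable multiple of a representation

For a trace given by a square summable family `ξ`, the closure of the `M`-orbit of `ξ` in the
countable multiple carries `M` in standard form.
-/

noncomputable section

namespace Vale.Agent.P096.KK.Ind

open ContinuousLinearMap Vale.Agent.P085
open scoped InnerProductSpace

universe u

variable {H : Type u} [NormedAddCommGroup H] [InnerProductSpace ℂ H] [CompleteSpace H]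
variable {M : VonNeumannAlgebra H} {ξ : ℕ → H} (h : IsNormalTrace M ξ)

/-- The elements of `M` as a module. -/
abbrev Mod (M : VonNeumannAlgebra H) : Type u := ↥M.toStarSubalgebra

/-- The orbit map. -/
def orbitMap : Mod M →ₗ[ℂ] Big H where
  toFun a := emb h.summable (a : H →L[ℂ] H)
  map_add' a b := map_add (emb h.summable) (a : H →L[ℂ] H) b
  map_smul' c a := map_smul (emb h.summable) c (a : H →L[ℂ] H)

/-- The closure of the orbit. -/
def orbit : Submodule ℂ (Big H) := (LinearMap.range (orbitMap h)).topologicalClosure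

instance : CompleteSpace (orbit h) := Submodule.topologicalClosure.completeSpace _

/-- The orbit map into the closure of the orbit. -/
def toOrbit : Mod M →ₗ[ℂ] orbit h :=
  (orbitMap h).codRestrict _ fun a => Submodule.le_topologicalClosure _ ⟨a, rfl⟩

theorem coe_toOrbit (a : Mod M) : (toOrbit h a : Big H) = emb h.summable (a : H →L[ℂ] H) := rfl

/-- The trace vector. -/
def orbVec : orbit h := toOrbit h ⟨1, one_mem M⟩

theorem dense_toOrbit : DenseRange (toOrbit h) := by
  intro w
  rw [closure_subtype, ← Set.range_comp]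
  exact w.2

/-- The inclusion. -/
def incl : orbit h →L[ℂ] Big H := (orbit h).subtypeL

theorem incl_adjoint (w : orbit h) : adjoint (incl h) (incl h w) = w := by
  refine ext_inner_left ℂ fun v => ?_
  rw [adjoint_inner_right]
  rfl

theorem incl_range : incl h ∘L adjoint (incl h) = (orbit h).starProjection := by
  refine ext fun k => ?_
  refine (Submodule.eq_starProjection_of_mem_of_inner_eq_zero (adjoint (incl h) k).2 fun w hw => ?_).symm
  have := adjoint_inner_left (incl h) ⟨w, hw⟩ k
  rw [Submodule.coe_inner] at this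
  show ⟪k - (adjoint (incl h) k : Big H), w⟫_ℂ = 0
  rw [inner_sub_left, this]
  exact sub_self _

theorem dia_emb (a x : H →L[ℂ] H) : dia a (emb h.summable x) = emb h.summable (a * x) :=
  lp.ext (funext fun _ => rfl)

theorem orbit_invariant {a : H →L[ℂ] H} (ha : a ∈ M) {w : Big H} (hw : w ∈ orbit h) :
    dia a w ∈ orbit h := by
  refine Set.MapsTo.closure (f := dia a) ?_ (dia a).continuous hw
  rintro _ ⟨x, rfl⟩
  exact ⟨⟨a * (x : H →L[ℂ] H), mul_mem ha x.2⟩, (dia_emb h a x).symm⟩

theorem good_incl : Good (bigAlg M) (incl h) where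
  iso := incl_adjoint h
  range_mem := by
    rw [incl_range, VonNeumannAlgebra.IsStarProjection.mem_iff isStarProjection_starProjection]
    intro y hy
    rw [VonNeumannAlgebra.commutant_commutant] at hy
    obtain ⟨a, ha, rfl⟩ := mem_bigAlg.1 hy
    rw [Submodule.range_starProjection, Module.End.mem_invtSubmodule]
    exact fun w hw => orbit_invariant h ha hw
  faithful := by
    intro X hX h0
    obtain ⟨a, ha, rfl⟩ := mem_bigAlg.1 hX
    have h1 := h0 (orbVec h)
    rw [show incl h (orbVec h) = emb h.summable (1 : H →L[ℂ] H) from rfl, dia_emb h, mul_one] at h1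
    rw [h.faithful a ha (by rw [← inner_emb h.summable, h1, inner_zero_left])]
    exact ext_big fun _ _ => rfl

/-- `M` on the closure of its orbit. -/
def orbAlg : VonNeumannAlgebra (orbit h) := induced (bigAlg M) (incl h)

/-- The action on the orbit. -/
def act (a : H →L[ℂ] H) : orbit h →L[ℂ] orbit h := cmp (incl h) (dia a)

theorem act_mem {a : H →L[ℂ] H} (ha : a ∈ M) : act h a ∈ orbAlg h := (good_incl h).cmp_mem (dia_mem ha)

theorem act_toOrbit {a : H →L[ℂ] H} (ha : a ∈ M) (x : Mod M) :
    act h a (toOrbit h x) = toOrbit h ⟨a * (x : H →L[ℂ] H), mul_mem ha x.2⟩ := by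
  apply Subtype.ext
  have := (good_incl h).apply_W (dia_mem ha) (toOrbit h x)
  exact this.trans (dia_emb h a x)

theorem act_orbVec {a : H →L[ℂ] H} (ha : a ∈ M) : act h a (orbVec h) = toOrbit h ⟨a, ha⟩ := by
  rw [orbVec, act_toOrbit h ha]
  simp

theorem mem_orbAlg {T : orbit h →L[ℂ] orbit h} :
    T ∈ orbAlg h ↔ ∃ a ∈ M, act h a = T ∧ ‖a‖ = ‖T‖ := by
  constructor
  · intro hT
    obtain ⟨X, hX, hXT, -⟩ := (good_incl h).exists_lift hT
    obtain ⟨a, ha, rfl⟩ := mem_bigAlg.1 hX
    exact ⟨a, ha, hXT, by rw [← hXT, (good_incl h).norm_cmp hX, norm_dia]⟩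
  · rintro ⟨a, ha, rfl, -⟩
    exact act_mem h ha

theorem act_mul (a : H →L[ℂ] H) {b : H →L[ℂ] H} (hb : b ∈ M) : act h (a * b) = act h a * act h b := by
  rw [act, dia_mul, (good_incl h).cmp_mul _ (dia_mem hb)]; rfl

theorem act_star (a : H →L[ℂ] H) : act h (star a) = star (act h a) := by
  rw [act, dia_star, cmp_star]; rfl

theorem act_injective {a b : H →L[ℂ] H} (ha : a ∈ M) (hb : b ∈ M) (e : act h a = act h b) :
    a = b := by
  have h1 := (good_incl h).cmp_injective (dia_mem ha) (dia_mem hb) e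
  have h2 := norm_dia (a - b)
  rw [dia_sub, h1, sub_self, norm_zero] at h2
  exact sub_eq_zero.1 (norm_eq_zero.1 h2.symm)

include h in
theorem n2_mul_right_le {x b : H →L[ℂ] H} (hx : x ∈ M) (hb : b ∈ M) :
    n2 ξ (x * b) ≤ ‖b‖ * n2 ξ x := by
  have hstar : ∀ a ∈ M, n2 ξ (star a) = n2 ξ a := fun a ha => by
    have h1 := h.comm (star a) (star_mem ha) a ha
    rw [vecState_star_mul_self h.summable] at h1
    have h2 := vecState_star_mul_self h.summable (star a)
    rw [star_star, ← h1] at h2
    exact ((sq_eq_sq₀ (n2_nonneg _) (n2_nonneg _)).1 (by exact_mod_cast h2.symm))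
  rw [← hstar _ (mul_mem hx hb), star_mul, ← hstar _ hx, ← norm_star b]
  exact n2_mul_le h.summable _ _

theorem exists_right {T : orbit h →L[ℂ] orbit h} (hT : T ∈ orbAlg h) :
    ∃ S ∈ (orbAlg h).commutant, S (orbVec h) = T (orbVec h) := by
  obtain ⟨b, hb, rfl, -⟩ := (mem_orbAlg h).1 hT
  let f : Mod M →ₗ[ℂ] orbit h :=
    (toOrbit h) ∘ₗ (LinearMap.mulRight ℂ (⟨b, hb⟩ : Mod M))
  have hf : ∀ x, ‖f x‖ ≤ ‖b‖ * ‖toOrbit h x‖ := fun x => by
    show ‖emb h.summable ((x : H →L[ℂ] H) * b)‖ ≤ ‖b‖ * ‖emb h.summable (x : H →L[ℂ] H)‖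
    rw [norm_emb, norm_emb]
    exact n2_mul_right_le h x.2 hb
  set S := f.extendOfNorm (toOrbit h)
  have hS : ∀ x, S (toOrbit h x) = toOrbit h (x * ⟨b, hb⟩) :=
    LinearMap.extendOfNorm_eq (dense_toOrbit h) ⟨_, hf⟩
  refine ⟨S, VonNeumannAlgebra.mem_commutant_iff.2 fun X hX => ?_, ?_⟩
  · obtain ⟨a, ha, rfl, -⟩ := (mem_orbAlg h).1 hX
    refine DFunLike.coe_injective ((dense_toOrbit h).equalizer (act h a * S).continuous
      (S * act h a).continuous (funext fun x => ?_))
    simp only [Function.comp_apply, mul_apply_eq_comp, hS, act_toOrbit h ha]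
    exact congrArg (toOrbit h) (Subtype.ext (mul_assoc a (x : H →L[ℂ] H) b).symm)
  · rw [act_orbVec h hb, orbVec, hS]
    exact congrArg (toOrbit h) (Subtype.ext (one_mul b))

open Classical in
/-- Right multiplication. -/
def rightMul (T : orbit h →L[ℂ] orbit h) : orbit h →L[ℂ] orbit h :=
  if hT : T ∈ orbAlg h then Classical.choose (exists_right h hT) else 0

theorem std : Std (orbAlg h) (orbVec h) (rightMul h) where
  norm_one := by
    show ‖emb h.summable (1 : H →L[ℂ] H)‖ = 1
    rw [norm_emb]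
    simp [n2, h.one]
  trace := by
    intro X hX Y hY
    obtain ⟨a, ha, rfl, -⟩ := (mem_orbAlg h).1 hX
    obtain ⟨b, hb, rfl, -⟩ := (mem_orbAlg h).1 hY
    rw [act_orbVec h hb, act_toOrbit h ha, act_orbVec h ha, act_toOrbit h hb,
      Submodule.coe_inner, Submodule.coe_inner, coe_toOrbit, coe_toOrbit,
      show ((orbVec h : orbit h) : Big H) = emb h.summable (1 : H →L[ℂ] H) from rfl,
      inner_emb, inner_emb, star_one, one_mul, one_mul]
    exact h.comm a ha b hb
  cyclic := by
    refine (dense_toOrbit h).mono ?_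
    rintro _ ⟨x, rfl⟩
    exact ⟨act h (x : H →L[ℂ] H), act_mem h x.2, act_orbVec h x.2⟩
  right_mem := by
    intro T hT
    rw [rightMul, dif_pos hT]
    exact (Classical.choose_spec (exists_right h hT)).1
  right_apply := by
    intro T hT
    rw [rightMul, dif_pos hT]
    exact (Classical.choose_spec (exists_right h hT)).2

theorem noAbelian (hM : P104.Sim.NoAbelian M) : P104.Sim.NoAbelian (orbAlg h) := by
  intro P hP hP0
  obtain ⟨p, hp, rfl, -⟩ := (mem_orbAlg h).1 hP.1
  have hp2 : IsStarProjection p := by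
    refine ⟨act_injective h (mul_mem hp hp) hp ?_, act_injective h (star_mem hp) hp ?_⟩
    · rw [act_mul h _ hp]; exact hP.2.isIdempotentElem.eq
    · rw [act_star]; exact hP.2.isSelfAdjoint.star_eq
  have hp0 : p ≠ 0 := fun e => hP0 (by rw [e]; exact ext fun v => by simp [act, dia_apply, show dia (0 : H →L[ℂ] H) = 0 from ext_big fun _ _ => rfl])
  obtain ⟨v, hv, hv0, h1, h2, h3⟩ := hM p ⟨hp, hp2⟩ hp0
  have hz : act h (0 : H →L[ℂ] H) = 0 :=
    ext fun w => by simp [act, show dia (0 : H →L[ℂ] H) = 0 from ext_big fun _ _ => rfl]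
  refine ⟨act h v, act_mem h hv, fun e => hv0 (act_injective h hv (zero_mem M) (e.trans hz.symm)), ?_, ?_, ?_⟩
  · rw [← act_mul h _ hv, ← act_mul h _ hp, h1]
  · rw [← act_star, ← act_mul h _ (star_mem hv), ← act_mul h _ hv, h2]
  · rw [← act_star, ← act_mul h _ hv, ← act_mul h _ (star_mem hv),
      ← act_mul h _ (mul_mem hv (star_mem hv)), h3, hz]

end Vale.Agent.P096.KK.Ind
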