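import Vale.Agent.P096.KK.SqBasic
import Vale.Agent.P096.KK.WeakLim

/-!
# P096: one step of the iteration (section 4 of `KK_PROOF.md`)

The gauges of all levels of the tower have a weak limit; little Grothendieck makes it an operator
`A`; conjugation by the exponential of `A` makes the commutator norm small at every matrix size.
-/

noncomputable section

namespace Vale.Agent.P096.KK

open scoped InnerProductSpace Topology
open Filter

universe u

variable {H : Type u} [NormedAddCommGroup H] [InnerProductSpace ℂ H] [CompleteSpace H]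
  {M : VonNeumannAlgebra H} {Ω : H} {R : (H →L[ℂ] H) → (H →L[ℂ] H)}
  {N : Subalgebra ℂ (H →L[ℂ] H)}

lemma Std.nontrivial (hS : Std M Ω R) : Nontrivial H :=
  ⟨Ω, 0, fun h => by simpa [h] using hS.norm_one⟩

/-- The coboundary of a gauge on the matrices. -/
def gRes {m : ℕ} [NeZero m] (R : (H →L[ℂ] H) → (H →L[ℂ] H)) (a : (H →L[ℂ] H) →ₗ[ℂ] H)
    (x b : Sq H m →L[ℂ] Sq H m) : Sq H m :=
  x (sqGauge a b) - sqGauge a (x * b) + sqR R m b (sqGauge a x)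

/-- The bound on a gauge, at all matrix sizes. -/
def GaugeBound (M : VonNeumannAlgebra H) (Ω : H) (R : (H →L[ℂ] H) → (H →L[ℂ] H))
    (N : Subalgebra ℂ (H →L[ℂ] H)) (Z : Finset (H →L[ℂ] H)) (a : (H →L[ℂ] H) →ₗ[ℂ] H)
    (η k d ε : ℝ) : Prop :=
  ∀ (m : ℕ) [NeZero m], ∀ z ∈ Z, ∀ x ∈ sqM M m, ∀ b ∈ sqM M m, ∀ n ∈ sqN N m, ∀ c : ℝ,
    ‖n - x‖ ≤ c * d → ‖x‖ ≤ 1 → ‖b‖ ≤ 1 →
    ‖delVec (sqR R m) (sqVec m Ω) (sdiag m z) n b - sdiag m z (gRes R a x b)‖ ≤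
      (η + k * (1 + |c|) * d) * ε * ‖z Ω‖

/-- The gauges of all levels have a limit which is good for all levels. -/
lemma exists_gauge_lim (hgauge : GaugeOut.{u}) {η : ℝ} (hη : 0 < η) :
    ∃ k : ℝ, 0 < k ∧ ∀ (H : Type u) [NormedAddCommGroup H] [InnerProductSpace ℂ H]
      [CompleteSpace H] (M : VonNeumannAlgebra H) (Ω : H) (R : (H →L[ℂ] H) → (H →L[ℂ] H))
      (N : Subalgebra ℂ (H →L[ℂ] H)) (G Z : ℕ → Finset (H →L[ℂ] H)) (d ε : ℝ),
      Tower M G Z → InN R N G → AllSizes M Ω R N (towerPieces Z) d ε → k * d ≤ 1 →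
      ∃ a : (H →L[ℂ] H) →ₗ[ℂ] H, a 1 = 0 ∧
        (∀ j, ∀ g ∈ G j, ∀ x ∈ M, a (g * x) = g (a x) ∧ a (x * g) = R g (a x)) ∧
        (∀ j, ∀ z ∈ Z j, ∀ x ∈ M, ‖z (a x)‖ ≤ k * ε * ‖x‖ * ‖z Ω‖) ∧
        ∀ j, GaugeBound M Ω R N (Z j) a η k d ε := by
  classical
  obtain ⟨k, hk, h⟩ := hgauge η hη
  refine ⟨k, hk, fun H _ _ _ M Ω R N G Z d ε hT hN hA hkd => ?_⟩
  choose aj h1 h2 h3 h4 using h H M Ω R N G Z d ε hT hN hA hkd
  have hε := hA.1.ε_nonneg
  have hd := hA.1.d_nonneg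
  have hproj : ∀ j, ∀ z ∈ Z j, IsStarProjection z := fun j z hz => (hT.proj j z hz).2.1
  have hb : ∀ i j, i ≤ j → ∀ z ∈ Z i, ∀ x ∈ M, ‖z (aj j x)‖ ≤ k * ε * ‖x‖ * ‖z Ω‖ := by
    intro i j hij z hz x hx
    obtain ⟨s, hs, hsum⟩ := hT.exists_split hij hz
    have := norm_sum_proj_le s (p := fun w => w) (q := fun w => w) (v := aj j x) (w := Ω)
      (β := k * ε * ‖x‖) (fun w hw => hproj j w (hs hw)) (fun w hw => hproj j w (hs hw))
      (fun a ha b hb => hT.orth j a (hs ha) b (hs hb)) (fun a ha b hb => hT.orth j a (hs ha) b (hs hb))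
      (by positivity) fun w hw => h3 j w (hs hw) x hx
    simpa [hsum] using this
  let l : Ultrafilter ℕ := Ultrafilter.of atTop
  have hle : ∀ i : ℕ, ∀ᶠ j in (l : Filter ℕ), i ≤ j := fun i =>
    (eventually_ge_atTop i).filter_mono (Ultrafilter.of_le _)
  obtain ⟨a, ha⟩ := exists_linear_wLim l aj M.toStarSubalgebra.toSubalgebra.toSubmodule fun x hx =>
    ⟨k * ε * ‖x‖, fun j => by
      simpa [hA.1.std.norm_one] using hb 0 j (Nat.zero_le j) 1 ((hT.zero 1).2 rfl) x hx⟩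
  have ha' : ∀ x ∈ M, WLim l (fun j => aj j x) (a x) := fun x hx => ha x hx
  refine ⟨a, ?_, ?_, ?_, ?_⟩
  · exact (ha' 1 (one_mem M)).unique (by simpa [h1] using WLim.const (l := l) (0 : H))
  · intro i g hg x hx
    have hgM := (hT.isometry i g hg).1
    exact ⟨(ha' _ (mul_mem hgM hx)).unique (((ha' x hx).map g).congr
        ((hle i).mono fun j hj => ((h2 j g (hT.mono_le hj hg) x hx).1).symm)),
      (ha' _ (mul_mem hx hgM)).unique (((ha' x hx).map (R g)).congr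
        ((hle i).mono fun j hj => ((h2 j g (hT.mono_le hj hg) x hx).2).symm))⟩
  · intro i z hz x hx
    exact ((ha' x hx).map z).norm_le ((hle i).mono fun j hj => hb i j hj z hz x hx)
  · intro i m _ z hz x hx b hb' n hn c hnc hx1 hb1
    have hC := hA.2 m
    have hlim : ∀ T ∈ sqM M m, WLim l (fun j => sqGauge (aj j) T) (sqGauge a T) := fun T hT' =>
      (WLim.sum _ fun p _ => (ha' _ (lEnt_mem hT' p.1 p.2)).map (sinj p)).smul _
    set F := delVec (sqR R m) (sqVec m Ω) (sdiag m z) n b with hF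
    have hres : WLim l (fun j => F - sdiag m z (gRes R (aj j) x b))
        (F - sdiag m z (gRes R a x b)) :=
      (WLim.const F).sub (((((hlim b hb').map x).sub (hlim (x * b) (mul_mem hx hb'))).add
        ((hlim x hx).map (sqR R m b))).map (sdiag m z))
    refine hres.norm_le ((hle i).mono fun j hj => ?_)
    obtain ⟨s, hs, hsum⟩ := hT.exists_split hj hz
    have hmem : ∀ w : H →L[ℂ] H, ∀ i, w ∈ Z i → sdiag m w ∈ sdiag m '' towerPieces Z :=
      fun w i hw => ⟨w, ⟨i, hw⟩, rfl⟩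
    have hpiece : ∀ w : H →L[ℂ] H, ∀ i, w ∈ Z i →
        delVec (sqR R m) (sqVec m Ω) (sdiag m w) n b - sdiag m w (gRes R (aj j) x b) =
          sdiag m w (delVec (sqR R m) (sqVec m Ω) 1 n b - gRes R (aj j) x b) := fun w i hw => by
      rw [map_sub, hC.delVec_piece (hmem w i hw) hn hb']
    have hsum' : ∑ w ∈ s, sdiag m w = sdiag m z := by rw [← sdiag_sum, hsum]
    have := norm_sum_proj_le s (p := fun w => sdiag m w) (q := fun w => w)
      (v := delVec (sqR R m) (sqVec m Ω) 1 n b - gRes R (aj j) x b) (w := Ω)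
      (β := (η + k * (1 + |c|) * d) * ε)
      (fun w hw => (hC.pieces.proj _ (hmem w j (hs hw))).2.1) (fun w hw => hproj j w (hs hw))
      (fun p hp q hq hpq => by
        show sdiag m p * sdiag m q = 0
        rw [← sdiag_mul, hT.orth j p (hs hp) q (hs hq) hpq]
        exact map_zero (sdiagHom H m))
      (fun p hp q hq => hT.orth j p (hs hp) q (hs hq)) (by positivity)
      fun w hw => by
        rw [← hpiece w j (hs hw)]
        exact h4 j m w (hs hw) x hx b hb' n hn c hnc hx1 hb1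
    rw [hsum', hsum] at this
    rw [hF, hpiece z i hz]
    exact this

/-- A bound on a dense set of approximants extends to all elements. -/
lemma Close.res_dense {P : Set (H →L[ℂ] H)} {d ε : ℝ} (hC : Close M Ω R N P d ε)
    (hR : ∀ b ∈ M, ‖R b‖ ≤ ‖b‖) {k β : ℝ} (hk : 0 ≤ k) (hsel : SelectAt M Ω N P k d ε)
    {A : H →L[ℂ] H} {S : Set (H →L[ℂ] H)} (hSM : S ⊆ M)
    (hdense : ∀ T ∈ M, ∀ e : ℝ, 0 < e → ∃ X ∈ S, ‖X‖ ≤ 2 * ‖T‖ + e ∧ ‖X Ω - T Ω‖ ≤ e)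
    (hres : ∀ n ∈ N, ∀ x ∈ S, ∀ b ∈ S, ∀ z ∈ P, ‖n - x‖ ≤ 3 * k * d → ‖x‖ ≤ 3 → ‖b‖ ≤ 3 →
      ‖delVec R Ω z n b - z (opGauge R Ω A x b)‖ ≤ β * ‖z Ω‖) :
    ∀ n ∈ N, ∀ x ∈ M, ∀ b ∈ M, ∀ z ∈ P, ‖n - x‖ ≤ d → ‖x‖ ≤ 1 → ‖b‖ ≤ 1 →
      ‖delVec R Ω z n b - z (opGauge R Ω A x b)‖ ≤
        (β + ((3 * (3 * k) + 9 * k + 18 * k ^ 2) + (3 * 1 + 9 * k + 18 * k ^ 2)) * d * ε) * ‖z Ω‖ := by
  have happrox : ∀ T ∈ M, ‖T‖ ≤ 1 → ∃ X : ℕ → H →L[ℂ] H, (∀ l, X l ∈ S) ∧ (∀ l, ‖X l‖ ≤ 3) ∧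
      Tendsto (fun l => X l Ω) atTop (𝓝 (T Ω)) := by
    intro T hT hT1
    choose X hXS hXn hXd using fun l : ℕ => hdense T hT (1 / ((l : ℝ) + 1)) (by positivity)
    refine ⟨X, hXS, fun l => (hXn l).trans ?_, ?_⟩
    · have : 1 / ((l : ℝ) + 1) ≤ 1 := by
        rw [div_le_one (by positivity)]
        linarith [Nat.cast_nonneg (α := ℝ) l]
      linarith
    · rw [tendsto_iff_norm_sub_tendsto_zero]
      exact squeeze_zero (fun _ => norm_nonneg _) hXd tendsto_one_div_add_atTop_nhds_zero_nat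
  have stage : ∀ n ∈ N, ∀ x ∈ M, ∀ b ∈ S, ∀ z ∈ P, ‖n - x‖ ≤ d → ‖x‖ ≤ 1 → ‖b‖ ≤ 3 →
      ‖delVec R Ω z n b - z (opGauge R Ω A x b)‖ ≤
        (β + ((3 * (3 * k) + 9 * k + 18 * k ^ 2) + (3 * 1 + 9 * k + 18 * k ^ 2)) * d * ε) * ‖z Ω‖ := by
    intro n hn x hx b hbS z hz hnx hx1 hb3
    have hb := hSM hbS
    have hd := hC.d_nonneg
    have hε := hC.ε_nonneg
    obtain ⟨y, hy, hyn, hyv⟩ := hsel.2 (R b) (hC.std.right_mem b hb)
    have hRb : ‖R b‖ ≤ 3 := (hR b hb).trans hb3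
    have hyn' : ‖y - R b‖ ≤ k * d * 3 := hyn.trans (by gcongr)
    have hyv' : ∀ z ∈ P, ‖(y - R b) (z Ω)‖ ≤ k * ε * 3 * ‖z Ω‖ := fun z hz =>
      (hyv z hz).trans (by gcongr)
    obtain ⟨X, hXS, hX3, hXt⟩ := happrox x hx hx1
    have hsot := hC.std.tendsto_left (fun l => hSM (hXS l)) hx hX3 hXt
    let g : (H →L[ℂ] H) → H := fun x' => frozen Ω z x' y - z (opGauge R Ω A x' b)
    have hg : Tendsto (fun l => g (X l)) atTop (𝓝 (g x)) := by
      refine Tendsto.sub (Tendsto.sub ((y.continuous.tendsto _).comp (hsot _)) (hsot _)) ?_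
      exact (z.continuous.tendsto _).comp (((hsot _).sub ((A.continuous.tendsto _).comp (hsot _))).add
        (((R b).continuous.tendsto _).comp ((A.continuous.tendsto _).comp (hsot Ω))))
    have hgl : ∀ l, ‖g (X l)‖ ≤ (β + (3 * (3 * k) + 9 * k + 18 * k ^ 2) * d * ε) * ‖z Ω‖ := by
      intro l
      obtain ⟨nl, hnl, hnld, -⟩ := hsel.1 (X l) (hSM (hXS l))
      have hnl3 : ‖nl - X l‖ ≤ 3 * k * d :=
        hnld.trans (le_of_le_of_eq (mul_le_mul_of_nonneg_left (hX3 l) (by positivity)) (by ring))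
      have e1 := hres nl hnl (X l) (hXS l) b hbS z hz hnl3 (hX3 l) hb3
      have e2 := hC.norm_delVec_sub_frozen hk hsel hnl (hSM (hXS l)) hb hy hyn' hyv' hb3 (hX3 l)
        (c := 3 * k) hnl3 hz
      have : g (X l) = (delVec R Ω z nl b - z (opGauge R Ω A (X l) b)) -
          (delVec R Ω z nl b - frozen Ω z (X l) y) := by simp only [g]; abel
      rw [this]
      refine (norm_sub_le _ _).trans ?_
      linarith
    have hgx := le_of_tendsto hg.norm (Eventually.of_forall hgl)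
    have e3 := hC.norm_delVec_sub_frozen hk hsel hn hx hb hy hyn' hyv' hb3 (hx1.trans (by norm_num))
      (c := 1) (by rwa [one_mul]) hz
    have : delVec R Ω z n b - z (opGauge R Ω A x b) =
        (delVec R Ω z n b - frozen Ω z x y) + g x := by simp only [g]; abel
    rw [this]
    refine (norm_add_le _ _).trans ?_
    linarith
  intro n hn x hx b hb z hz hnx hx1 hb1
  obtain ⟨X, hXS, hX3, hXt⟩ := happrox b hb hb1
  have hsot := hC.std.tendsto_right hR (fun l => hSM (hXS l)) hb hX3 hXt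
  suffices h : Tendsto (fun l => delVec R Ω z n (X l) - z (opGauge R Ω A x (X l))) atTop
      (𝓝 (delVec R Ω z n b - z (opGauge R Ω A x b))) from
    le_of_tendsto h.norm
      (Eventually.of_forall fun l => stage n hn x hx (X l) (hXS l) z hz hnx hx1 (hX3 l))
  refine Tendsto.sub (Tendsto.sub ((n.continuous.tendsto _).comp (hsot _)) (hsot _)) ?_
  exact (z.continuous.tendsto _).comp ((((x.continuous.tendsto _).comp
    ((A.continuous.tendsto _).comp hXt)).sub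
      ((A.continuous.tendsto _).comp ((x.continuous.tendsto _).comp hXt))).add (hsot _))

lemma centralizer_image_conj {𝕜 𝔸 : Type*} [CommSemiring 𝕜] [Semiring 𝔸] [Algebra 𝕜 𝔸] (s : 𝔸ˣ)
    (S : Set 𝔸) :
    Subalgebra.centralizer 𝕜 (conjHom (R := 𝕜) s '' S) =
      (Subalgebra.centralizer 𝕜 S).map (conjHom (R := 𝕜) s) := by
  ext y
  rw [mem_map_conj, Subalgebra.mem_centralizer_iff, Subalgebra.mem_centralizer_iff]
  constructor
  · intro h n hn
    exact ((commute_conj s y n).2 (h _ ⟨n, hn, rfl⟩).symm).symm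
  · rintro h z ⟨n, hn, rfl⟩
    exact ((commute_conj s y n).1 (h n hn).symm).symm

/-- The matrices over a conjugate are the conjugate of the matrices. -/
lemma sqN_map_conj [Nontrivial H] {m : ℕ} [Nontrivial (Sq H m)] (A : H →L[ℂ] H)
    (N : Subalgebra ℂ (H →L[ℂ] H)) :
    sqN (N.map (conjHom (R := ℂ) (expUnit A))) m =
      (sqN N m).map (conjHom (R := ℂ) (expUnit (sdiag m A))) := by
  have hcent : cent (N.map (conjHom (R := ℂ) (expUnit A))) =
      (cent N).map (conjHom (R := ℂ) (expUnit A)) := centralizer_map_conj _ _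
  have hd : ∀ y, sdiag m (conjHom (R := ℂ) (expUnit A) y) =
      conjHom (R := ℂ) (expUnit (sdiag m A)) (sdiag m y) := fun y => by
    show sdiag m (NormedSpace.exp A * y * NormedSpace.exp (-A)) =
      NormedSpace.exp (sdiag m A) * sdiag m y * NormedSpace.exp (-sdiag m A)
    rw [sdiag_mul, sdiag_mul, sdiag_exp, sdiag_exp]
    simp [show sdiag m (-A) = -sdiag m A from map_neg (sdiagHom H m) A]
  have hu : ∀ i j : Fin m, conjHom (R := ℂ) (expUnit (sdiag m A))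
      (rUnit i j : Sq H m →L[ℂ] Sq H m) = rUnit i j := fun i j => by
    have hc : Commute (NormedSpace.exp (sdiag m A)) (rUnit i j : Sq H m →L[ℂ] Sq H m) :=
      Commute.exp_left (sdiag_comm_rUnit A i j)
    rw [conjHom_apply, coe_expUnit, hc.eq, ← coe_expUnit, mul_assoc, Units.mul_inv, mul_one]
  rw [sqN, sqN, ← centralizer_image_conj, hcent, sqGen, sqGen, Set.image_union, Subalgebra.coe_map,
    Set.image_image, Set.image_image, ← Set.range_comp]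
  simp only [hd, Function.comp_def, hu]

variable {G Z : ℕ → Finset (H →L[ℂ] H)}

lemma DenseAlg.zero_mem {D : Set (H →L[ℂ] H)} (hT : Tower M G Z) (hD : DenseAlg M Ω G D) :
    (0 : H →L[ℂ] H) ∈ D := by
  have h1 := hD.group_mem 0 1 (hT.one_mem 0)
  have h := hD.add_mem 1 h1 _ (hD.smul_I_mem _ (hD.smul_I_mem 1 h1))
  simpa [smul_smul] using h

lemma comm_piece_of_sign (hT : Tower M G Z) {A : H →L[ℂ] H}
    (hA : ∀ j, ∀ g ∈ G j, A * g = g * A) : ∀ z ∈ towerPieces Z, A * z = z * A := by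
  rintro z ⟨j, hz⟩
  have h := hA j _ (hT.sign j z hz)
  rw [mul_sub, sub_mul, mul_one, one_mul, mul_smul_comm, smul_mul_assoc] at h
  have h2 : (2 : ℂ) • (A * z) = (2 : ℂ) • (z * A) := by
    rw [two_smul, two_smul, ← two_nsmul, ← two_nsmul]
    exact sub_left_injective h
  exact smul_right_injective (H →L[ℂ] H) (two_ne_zero : (2 : ℂ) ≠ 0) h2

/-- Scaling of the residual. -/
lemma res_smul (hS : Std M Ω R) {b : H →L[ℂ] H} (hb : b ∈ M) (A n x z : H →L[ℂ] H) (s : ℂ) :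
    delVec R Ω z (s • n) (s • b) - z (opGauge R Ω A (s • x) (s • b)) =
      (s * s) • (delVec R Ω z n b - z (opGauge R Ω A x b)) := by
  simp only [delVec, opGauge, hS.right_smul s hb, smul_apply, map_smul, map_sub, map_add, smul_smul,
    smul_sub, smul_add]

lemma sqGauge_eq {m : ℕ} [NeZero m] {a : (H →L[ℂ] H) →ₗ[ℂ] H} {A : H →L[ℂ] H}
    (X : Fin m → Fin m → H →L[ℂ] H) (hX : ∀ i j, A (X i j Ω) = a (X i j)) :
    sdiag m A (mL X (sqVec m Ω)) = sqGauge a (mL X) :=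
  sq_ext fun i k => by
    rw [sdiag_apply, mL_sqVec]
    simp [sqGauge, sq_sum_apply, lEnt_mL, hX]

/-- The matrices with entries in `D`. -/
def matSet (m : ℕ) (D : Set (H →L[ℂ] H)) : Set (Sq H m →L[ℂ] Sq H m) :=
  {T | ∃ X : Fin m → Fin m → H →L[ℂ] H, (∀ i j, X i j ∈ D) ∧ T = mL X}

/-- An operator which agrees with the gauge on `D` inherits its bound on matrices over `D`. -/
lemma res_on_matSet {m : ℕ} [NeZero m] {D : Set (H →L[ℂ] H)} {a : (H →L[ℂ] H) →ₗ[ℂ] H}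
    {A : H →L[ℂ] H} {η kg ks d ε : ℝ} (hks : 0 ≤ ks) (hS : Std (sqM M m) (sqVec m Ω) (sqR R m))
    (hD : DenseAlg M Ω G D) (hAD : ∀ x ∈ D, A (x Ω) = a x)
    (hares : ∀ i, GaugeBound M Ω R N (Z i) a η kg d ε) :
    ∀ n ∈ sqN N m, ∀ x ∈ matSet m D, ∀ b ∈ matSet m D, ∀ z ∈ sdiag m '' towerPieces Z,
      ‖n - x‖ ≤ 3 * ks * d → ‖x‖ ≤ 3 → ‖b‖ ≤ 3 →
      ‖delVec (sqR R m) (sqVec m Ω) z n b - z (opGauge (sqR R m) (sqVec m Ω) (sdiag m A) x b)‖ ≤
        9 * (η + kg * (1 + ks) * d) * ε * ‖z (sqVec m Ω)‖ := by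
  rintro n hn x ⟨X, hX, rfl⟩ b ⟨Y, hY, rfl⟩ _ ⟨z, ⟨i, hz⟩, rfl⟩ hnx hx3 hb3
  rw [norm_sdiag_sqVec]
  set s : ℂ := (3 : ℂ)⁻¹ with hs
  have hsn : ‖s‖ = 1 / 3 := by simp [hs]
  have hsm : ∀ W : Fin m → Fin m → H →L[ℂ] H, s • mL W = mL (fun i j => s • W i j) := fun W =>
    sq_op_ext fun v i k => by simp [Finset.smul_sum]
  have hgX : ∀ W : Fin m → Fin m → H →L[ℂ] H, (∀ i j, W i j ∈ D) →
      sdiag m A ((s • mL W) (sqVec m Ω)) = sqGauge a (s • mL W) := fun W hW => by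
    rw [hsm]
    exact sqGauge_eq _ fun i j => by simp [hAD _ (hW i j)]
  have hgXY : sdiag m A ((s • mL X) ((s • mL Y) (sqVec m Ω))) =
      sqGauge a ((s • mL X) * (s • mL Y)) := by
    show sdiag m A (((s • mL X) * (s • mL Y)) (sqVec m Ω)) = _
    rw [hsm, hsm, mL_mul]
    refine sqGauge_eq _ fun i k => ?_
    have h : ∀ j, A ((X i j * Y j k) Ω) = a (X i j * Y j k) := fun j =>
      hAD _ (hD.mul_mem _ (hX i j) _ (hY j k))
    simp only [mMul, smul_mul_smul_comm, sum_apply, smul_apply, map_sum, map_smul, h]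
  have hop : opGauge (sqR R m) (sqVec m Ω) (sdiag m A) (s • mL X) (s • mL Y) =
      gRes R a (s • mL X) (s • mL Y) := by
    rw [opGauge, gRes, hgX X hX, hgX Y hY, hgXY]
  have hXm : mL X ∈ sqM M m := mL_mem_sqM fun i j => hD.sub (hX i j)
  have hYm : mL Y ∈ sqM M m := mL_mem_sqM fun i j => hD.sub (hY i j)
  have hscale : ∀ T : Sq H m →L[ℂ] Sq H m, ∀ C : ℝ, ‖T‖ ≤ 3 * C → ‖s • T‖ ≤ C := fun T C hT => by
    rw [norm_smul, hsn]; linarith
  have h1 : ‖s • n - s • mL X‖ ≤ ks * d := by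
    simpa only [smul_sub] using hscale (n - mL X) (ks * d) (by linarith)
  have h := hares i m z hz (s • mL X) ((sqM M m).toStarSubalgebra.toSubalgebra.smul_mem hXm s)
    (s • mL Y) ((sqM M m).toStarSubalgebra.toSubalgebra.smul_mem hYm s)
    (s • n) ((sqN N m).smul_mem hn s) ks h1 (hscale _ 1 (by linarith)) (hscale _ 1 (by linarith))
  rw [← hop, abs_of_nonneg hks, res_smul hS hYm, norm_smul, norm_mul, hsn] at h
  linarith

/-- Conjugation gives closeness for the worse `d` once the smallness is known. -/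
lemma Close.conj {P : Set (H →L[ℂ] H)} {d ε d₁ ε₁ α : ℝ} [Nontrivial H] (hC : Close M Ω R N P d ε)
    {A : H →L[ℂ] H} (hA : ‖A‖ ≤ α) (hα : α ≤ 1 / 12) (hd : d ≤ 1)
    (hAP : ∀ z ∈ P, A * z = z * A) (hd₁ : d + 12 * α ≤ d₁) (hε₁ : 0 ≤ ε₁)
    (hs : ∀ n ∈ N.map (conjHom (R := ℂ) (expUnit A)), ∀ b ∈ M, ∀ z ∈ P,
      ‖n (R b (z Ω)) - R b (n (z Ω))‖ ≤ ε₁ * ‖n‖ * ‖b‖ * ‖z Ω‖) :
    Close M Ω R (N.map (conjHom (R := ℂ) (expUnit A))) P d₁ ε₁ := by
  obtain ⟨hP, hbi, n1, n2, n3, n4⟩ := hC.conj_near hA hα hd hAP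
  have hd₁0 : 0 ≤ d₁ := by linarith [hC.d_nonneg, (norm_nonneg A).trans hA]
  refine ⟨hC.std, hP, hbi, hd₁0, hε₁, fun x hx => ?_, fun n hn => ?_, fun y hy => ?_,
    fun y hy => ?_, hs⟩
  · obtain ⟨n, h1, h2⟩ := n1 x hx
    exact ⟨n, h1, h2.trans (by gcongr)⟩
  · obtain ⟨x, h1, h2⟩ := n2 n hn
    exact ⟨x, h1, h2.trans (by gcongr)⟩
  · obtain ⟨n, h1, h2⟩ := n3 y hy
    exact ⟨n, h1, h2.trans (by gcongr)⟩
  · obtain ⟨x, h1, h2⟩ := n4 y hy
    exact ⟨x, h1, h2.trans (by gcongr)⟩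

/-- The smallness at size one gives the smallness. -/
lemma small_of_one {P : Set (H →L[ℂ] H)} {ε : ℝ} (hε : 0 ≤ ε) (hS : Std M Ω R)
    (hS1 : Std (sqM M 1) (sqVec 1 Ω) (sqR R 1))
    (h : ∀ n ∈ sqN N 1, ∀ b ∈ sqM M 1, ∀ z ∈ sdiag 1 '' P,
      ‖n (sqR R 1 b (z (sqVec 1 Ω))) - sqR R 1 b (n (z (sqVec 1 Ω)))‖ ≤
        ε * ‖n‖ * ‖b‖ * ‖z (sqVec 1 Ω)‖) :
    ∀ n ∈ N, ∀ b ∈ M, ∀ z ∈ P,
      ‖n (R b (z Ω)) - R b (n (z Ω))‖ ≤ ε * ‖n‖ * ‖b‖ * ‖z Ω‖ := by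
  intro n hn b hb z hz
  have hsR : sqR R 1 (sdiag 1 b) = sdiag 1 (R b) :=
    (hS1.right_unique (sdiag_mem_commutant (hS.right_mem b hb)) (sdiag_mem_sqM hb)
      (sq_ext fun i k => by rw [sdiag_sqVec, sdiag_sqVec, hS.right_apply b hb])).symm
  have h1 := h (sdiag 1 n) (sdiag_mem_sqN hn) (sdiag 1 b) (sdiag_mem_sqM hb) (sdiag 1 z) ⟨z, hz, rfl⟩
  have e : sdiag 1 n (sdiag 1 (R b) (sdiag 1 z (sqVec 1 Ω))) -
      sdiag 1 (R b) (sdiag 1 n (sdiag 1 z (sqVec 1 Ω))) =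
      sdiag 1 (n * R b * z - R b * n * z) (sqVec 1 Ω) := by
    show _ = sdiagHom H 1 (n * R b * z - R b * n * z) (sqVec 1 Ω)
    simp only [map_sub, map_mul, sdiagHom_apply, sub_apply, mul_apply_eq_comp]
  rw [hsR, e, norm_sdiag_sqVec, norm_sdiag_sqVec] at h1
  refine le_trans (le_of_eq ?_) (h1.trans ?_)
  · simp
  · gcongr <;> exact norm_sdiag_le _

theorem stepOut (hamp : AmpOut.{u}) (hsel : SelectOut.{u}) (hgauge : GaugeOut.{u})
    (hl2 : L2Out.{u}) : StepOut.{u} := by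
  intro η hη
  obtain ⟨k₀, hl2⟩ := hl2
  obtain ⟨ks, hks, hsel⟩ := hsel
  obtain ⟨kg, hkg, hlim⟩ := exists_gauge_lim hgauge (η := η / 18) (by positivity)
  set κ : ℝ := |k₀| * kg + 1 with hκdef
  have hκ : 0 < κ := by positivity
  set K₁ : ℝ := (3 * (3 * ks) + 9 * ks + 18 * ks ^ 2) + (3 * 1 + 9 * ks + 18 * ks ^ 2) with hK₁
  set k : ℝ := 2 * (9 * (kg * (1 + ks)) + K₁ + 36 * κ ^ 2 + 4 * κ) + 24 * κ + 3 + kg + ks with hk
  have hK₁0 : 0 ≤ K₁ := by positivity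
  refine ⟨k, by positivity, ?_⟩
  intro H _ _ _ M Ω R N G Z D d ε hT hN hD hF hA hεd hkd
  have hd := hA.1.d_nonneg
  have hε := hA.1.ε_nonneg
  have h24 : 24 * κ + 3 + kg + ks ≤ k := by
    have : 0 ≤ 2 * (9 * (kg * (1 + ks)) + K₁ + 36 * κ ^ 2 + 4 * κ) := by positivity
    linarith
  have hkd' : (24 * κ + 3 + kg + ks) * d ≤ 1 := (mul_le_mul_of_nonneg_right h24 hd).trans hkd
  have hd3 : d ≤ 1 / 3 := by nlinarith
  have hkgd : kg * d ≤ 1 := by nlinarith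
  have hksd : ks * d ≤ 1 := by nlinarith
  have hα : κ * ε ≤ 1 / 12 := by nlinarith
  obtain ⟨a, ha1, habim, habd, hares⟩ := hlim H M Ω R N G Z d ε hT hN hA hkgd
  obtain ⟨A, hAn, hAG, hAΩ, hAD⟩ := hl2 H M Ω R G Z D a (kg * ε) hA.1.std hT hD hF (by positivity)
    ha1 habim habd
  have hAα : ‖A‖ ≤ κ * ε := hAn.trans (by
    rw [hκdef]
    nlinarith [le_abs_self k₀, mul_nonneg hkg.le hε])
  have : Nontrivial H := hA.1.std.nontrivial
  have hAP := comm_piece_of_sign hT fun j g hg => (hAG j g hg).1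
  have hd₁ : d + 12 * (κ * ε) ≤ d + k * ε := by nlinarith
  have hε₁ : 0 ≤ (η + k * d) * ε := by positivity
  have hbnd : 2 * ((9 * (η / 18 + kg * (1 + ks) * d) * ε + K₁ * d * ε) + 18 * (κ * ε) ^ 2 +
      4 * (κ * ε) * d) ≤ (η + k * d) * ε := by
    have : (κ * ε) ^ 2 ≤ κ ^ 2 * (2 * d) * ε := by
      rw [mul_pow, pow_two ε, ← mul_assoc]
      gcongr
    have h2 : 0 ≤ (24 * κ + 3 + kg + ks) * (d * ε) := by positivity
    rw [hk]
    linarith
  have sizes : ∀ (m : ℕ) [NeZero m], Close (sqM M m) (sqVec m Ω) (sqR R m)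
      (sqN (N.map (conjHom (R := ℂ) (expUnit A))) m) (sdiag m '' towerPieces Z)
      (d + k * ε) ((η + k * d) * ε) := by
    intro m _
    have hC := hA.2 m
    have : Nontrivial (Sq H m) := hC.std.nontrivial
    have hR : ∀ b ∈ sqM M m, ‖sqR R m b‖ ≤ ‖b‖ := fun b hb =>
      ((hamp (Sq H m) (sqM M m) (sqVec m Ω) (sqR R m) hC.std).1 b hb b hb).2.2.1
    have hS : SelectAt (sqM M m) (sqVec m Ω) (sqN N m) (sdiag m '' towerPieces Z) ks d ε :=
      hsel (Sq H m) (sqM M m) (sqVec m Ω) (sqR R m) (sqN N m) _ d ε hC hksd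
    have hAm : ‖sdiag m A‖ ≤ κ * ε := (norm_sdiag_le A).trans hAα
    have hAPm : ∀ z ∈ sdiag m '' towerPieces Z, sdiag m A * z = z * sdiag m A := by
      rintro _ ⟨z, hz, rfl⟩
      rw [← sdiag_mul, ← sdiag_mul, hAP z hz]
    have hAΩm : sdiag m A (sqVec m Ω) = 0 := sq_ext fun i k => by
      rw [sdiag_sqVec]; simp [hAΩ]
    have hSM : matSet m D ⊆ (sqM M m : Set (Sq H m →L[ℂ] Sq H m)) := by
      rintro T ⟨X, hX, rfl⟩
      exact mL_mem_sqM fun i j => hD.sub (hX i j)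
    have hrd := hC.res_dense hR hks.le hS hSM (fun T hT' e he => by
      obtain ⟨X, h1, h2, h3⟩ := hD.dense m T hT' e he
      exact ⟨mL X, ⟨X, h1, rfl⟩, h2, h3⟩) (res_on_matSet hks.le hC.std hD hAD hares)
    rw [← hK₁] at hrd
    rw [sqN_map_conj]
    refine hC.conj hAm hα (hd3.trans (by norm_num)) hAPm hd₁ hε₁ fun n hn b hb z hz => ?_
    exact (hC.conj_small hR hAm hα hd3 hAΩm hAPm hrd n hn b hb z hz).trans (by gcongr)
  refine ⟨A, N.map (conjHom (R := ℂ) (expUnit A)), ?_, rfl, ?_, ⟨?_, sizes⟩⟩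
  · exact hAα.trans (mul_le_mul_of_nonneg_right (by linarith) hε)
  · intro j g hg
    have hfix : ∀ y : H →L[ℂ] H, A * y = y * A →
        (↑(expUnit A)⁻¹ : H →L[ℂ] H) * y * expUnit A = y := fun y hy => by
      rw [mul_assoc, coe_expUnit, ← (Commute.exp_left hy : Commute (NormedSpace.exp A) y).eq,
        ← mul_assoc, ← coe_expUnit, Units.inv_mul, one_mul]
    refine ⟨?_, ?_⟩
    · rw [mem_map_conj, hfix g (hAG j g hg).1]; exact (hN j g hg).1
    · rw [cent, centralizer_map_conj, mem_map_conj, hfix _ (hAG j g hg).2]; exact (hN j g hg).2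
  · refine hA.1.conj hAα hα (hd3.trans (by norm_num)) hAP hd₁ hε₁ ?_
    exact small_of_one hε₁ hA.1.std (hA.2 1).std (sizes 1).small

end Vale.Agent.P096.KK
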