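import Vale.Agent.P096.KK.Setting
import Vale.Agent.P096.KK.ExpConj

/-!
# P096: lemmas for one step of the iteration that do not see the matrix size
-/

noncomputable section

namespace Vale.Agent.P096.KK

open scoped InnerProductSpace Topology
open Filter

universe u

variable {H : Type u} [NormedAddCommGroup H] [InnerProductSpace ℂ H] [CompleteSpace H]

variable {M : VonNeumannAlgebra H} {Ω : H} {R : (H →L[ℂ] H) → (H →L[ℂ] H)}
  {N : Subalgebra ℂ (H →L[ℂ] H)} {P : Set (H →L[ℂ] H)} {d ε : ℝ}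

lemma mem_cent_iff {y : (H →L[ℂ] H)} : y ∈ cent N ↔ ∀ n ∈ N, n * y = y * n :=
  Subalgebra.mem_centralizer_iff ℂ

lemma apply_comm {K : Type u} [NormedAddCommGroup K] [InnerProductSpace ℂ K]
    {S T : K →L[ℂ] K} (h : S * T = T * S) (v : K) : S (T v) = T (S v) :=
  congrArg (fun U : K →L[ℂ] K => U v) h

namespace Std

variable (hS : Std M Ω R)
include hS

lemma comm_right {x b : (H →L[ℂ] H)} (hx : x ∈ M) (hb : b ∈ M) (v : H) : x (R b v) = R b (x v) :=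
  apply_comm (VonNeumannAlgebra.mem_commutant_iff.1 (hS.right_mem b hb) x hx) v

lemma right_unique {y b : (H →L[ℂ] H)} (hy : y ∈ M.commutant) (hb : b ∈ M) (h : y Ω = b Ω) : y = R b := by
  have heq : Set.EqOn (y : H → H) (R b) ((fun x : (H →L[ℂ] H) => x Ω) '' (M : Set (H →L[ℂ] H))) := by
    rintro _ ⟨x, hx, rfl⟩
    show y (x Ω) = R b (x Ω)
    rw [← hS.comm_right hx hb, hS.right_apply b hb, ← h,
      apply_comm (VonNeumannAlgebra.mem_commutant_iff.1 hy x hx) Ω]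
  exact DFunLike.coe_injective (Continuous.ext_on hS.cyclic y.continuous (R b).continuous heq)

lemma right_add {a b : (H →L[ℂ] H)} (ha : a ∈ M) (hb : b ∈ M) : R (a + b) = R a + R b :=
  (hS.right_unique (add_mem (hS.right_mem a ha) (hS.right_mem b hb)) (add_mem ha hb)
    (by simp [hS.right_apply a ha, hS.right_apply b hb])).symm

lemma right_sub {a b : (H →L[ℂ] H)} (ha : a ∈ M) (hb : b ∈ M) : R (a - b) = R a - R b :=
  (hS.right_unique (sub_mem (hS.right_mem a ha) (hS.right_mem b hb)) (sub_mem ha hb)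
    (by simp [hS.right_apply a ha, hS.right_apply b hb])).symm

lemma right_smul (t : ℂ) {b : (H →L[ℂ] H)} (hb : b ∈ M) : R (t • b) = t • R b :=
  (hS.right_unique (M.commutant.toStarSubalgebra.toSubalgebra.smul_mem (hS.right_mem b hb) t) (M.toStarSubalgebra.toSubalgebra.smul_mem hb t)
    (by simp [hS.right_apply b hb])).symm

lemma right_one : R 1 = 1 :=
  (hS.right_unique (one_mem _) (one_mem M) rfl).symm

lemma right_vec {x b : (H →L[ℂ] H)} (hx : x ∈ M) (hb : b ∈ M) : R b (x Ω) = x (b Ω) := by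
  rw [← hS.comm_right hx hb, hS.right_apply b hb]

end Std

lemma tendsto_of_dense {K : Type u} [NormedAddCommGroup K] [InnerProductSpace ℂ K] {S : Set K}
    (hd : Dense S) {T : ℕ → (K →L[ℂ] K)} {T₀ : K →L[ℂ] K} {C : ℝ} (hC : ∀ i, ‖T i‖ ≤ C)
    (h : ∀ v ∈ S, Tendsto (fun i => T i v) atTop (𝓝 (T₀ v))) (v : K) :
    Tendsto (fun i => T i v) atTop (𝓝 (T₀ v)) := by
  rw [Metric.tendsto_atTop]
  intro e he
  have hpos : 0 < |C| + ‖T₀‖ + 1 := by positivity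
  obtain ⟨w, hw, hvw⟩ := Metric.mem_closure_iff.1 (hd v) (e / (2 * (|C| + ‖T₀‖ + 1))) (by positivity)
  obtain ⟨n, hn⟩ := Metric.tendsto_atTop.1 (h w hw) (e / 2) (by positivity)
  refine ⟨n, fun i hi => ?_⟩
  have h1 := hn i hi
  rw [dist_eq_norm] at h1 hvw ⊢
  have h2 : ‖(T i - T₀) (v - w)‖ ≤ (|C| + ‖T₀‖) * ‖v - w‖ :=
    ((T i - T₀).le_opNorm _).trans (mul_le_mul_of_nonneg_right
      ((norm_sub_le _ _).trans (add_le_add_left ((hC i).trans (le_abs_self C)) _)) (norm_nonneg _))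
  have h3 : (|C| + ‖T₀‖ + 1) * ‖v - w‖ < e / 2 := by
    rw [lt_div_iff₀ (by positivity)] at hvw
    linarith
  calc ‖T i v - T₀ v‖ = ‖(T i - T₀) (v - w) + (T i w - T₀ w)‖ := by
        congr 1
        simp only [sub_apply, map_sub]
        abel
    _ ≤ _ + _ := norm_add_le _ _
    _ < e := by linarith [norm_nonneg (v - w)]

/-- Bounded convergence on the trace vector is strong convergence. -/
lemma Std.tendsto_left (hS : Std M Ω R) {x : ℕ → (H →L[ℂ] H)} {x₀ : (H →L[ℂ] H)} {C : ℝ} (hx : ∀ i, x i ∈ M)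
    (hx₀ : x₀ ∈ M) (hC : ∀ i, ‖x i‖ ≤ C) (h : Tendsto (fun i => x i Ω) atTop (𝓝 (x₀ Ω))) (v : H) :
    Tendsto (fun i => x i v) atTop (𝓝 (x₀ v)) := by
  refine tendsto_of_dense hS.cyclic hC ?_ v
  rintro _ ⟨y, hy, rfl⟩
  show Tendsto (fun i => x i (y Ω)) atTop (𝓝 (x₀ (y Ω)))
  rw [← hS.right_apply y hy, hS.comm_right hx₀ hy]
  simp only [hS.comm_right (hx _) hy]
  exact ((R y).continuous.tendsto _).comp h

/-- The same for right multiplications. -/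
lemma Std.tendsto_right (hS : Std M Ω R) (hR : ∀ b ∈ M, ‖R b‖ ≤ ‖b‖) {b : ℕ → (H →L[ℂ] H)} {b₀ : (H →L[ℂ] H)} {C : ℝ}
    (hb : ∀ i, b i ∈ M) (hb₀ : b₀ ∈ M) (hC : ∀ i, ‖b i‖ ≤ C)
    (h : Tendsto (fun i => b i Ω) atTop (𝓝 (b₀ Ω))) (v : H) :
    Tendsto (fun i => R (b i) v) atTop (𝓝 (R b₀ v)) := by
  refine tendsto_of_dense hS.cyclic (fun i => (hR _ (hb i)).trans (hC i)) ?_ v
  rintro _ ⟨y, hy, rfl⟩
  show Tendsto (fun i => R (b i) (y Ω)) atTop (𝓝 (R b₀ (y Ω)))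
  rw [hS.right_vec hy hb₀]
  simp only [hS.right_vec hy (hb _)]
  exact (y.continuous.tendsto _).comp h

/-- Orthogonal sums. -/
lemma norm_sum_proj_le {ι : Type*} {K : Type u} [NormedAddCommGroup K] [InnerProductSpace ℂ K]
    [CompleteSpace K] (s : Finset ι) {p : ι → K →L[ℂ] K} {q : ι → (H →L[ℂ] H)} {v : K} {w : H} {β : ℝ}
    (hp : ∀ i ∈ s, IsStarProjection (p i)) (hq : ∀ i ∈ s, IsStarProjection (q i))
    (hpo : ∀ i ∈ s, ∀ j ∈ s, i ≠ j → p i * p j = 0) (hqo : ∀ i ∈ s, ∀ j ∈ s, i ≠ j → q i * q j = 0)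
    (hβ : 0 ≤ β) (h : ∀ i ∈ s, ‖p i v‖ ≤ β * ‖q i w‖) :
    ‖(∑ i ∈ s, p i) v‖ ≤ β * ‖(∑ i ∈ s, q i) w‖ := by
  classical
  have key : ∀ {L : Type u} [NormedAddCommGroup L] [InnerProductSpace ℂ L] [CompleteSpace L]
      (t : ι → L →L[ℂ] L) (a : L), (∀ i ∈ s, IsStarProjection (t i)) →
      (∀ i ∈ s, ∀ j ∈ s, i ≠ j → t i * t j = 0) →
      ‖(∑ i ∈ s, t i) a‖ ^ 2 = ∑ i ∈ s, ‖t i a‖ ^ 2 := by
    intro L _ _ _ t a ht hto
    have h1 : ∀ i ∈ s, ∀ j ∈ s, ⟪t i a, t j a⟫_ℂ = if i = j then ⟪t i a, t i a⟫_ℂ else 0 := by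
      intro i hi j hj
      by_cases hij : i = j
      · rw [if_pos hij, hij]
      · have e : star (t i) = t i := (ht i hi).isSelfAdjoint
        rw [if_neg hij, ← ContinuousLinearMap.adjoint_inner_right, ← ContinuousLinearMap.star_eq_adjoint,
          e, show t i (t j a) = (t i * t j) a from rfl, hto i hi j hj hij]
        simp
    have h2 : ⟪(∑ i ∈ s, t i) a, (∑ i ∈ s, t i) a⟫_ℂ = ∑ i ∈ s, ⟪t i a, t i a⟫_ℂ := by
      simp only [sum_apply, sum_inner, inner_sum]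
      exact Finset.sum_congr rfl fun i hi => by
        rw [Finset.sum_eq_single i (fun j hj hji => by rw [h1 j hj i hi, if_neg hji])
          fun h => absurd hi h]
    simp only [inner_self_eq_norm_sq_to_K] at h2
    exact_mod_cast h2
  have h3 : ‖(∑ i ∈ s, p i) v‖ ^ 2 ≤ (β * ‖(∑ i ∈ s, q i) w‖) ^ 2 := by
    rw [mul_pow, key p v hp hpo, key q w hq hqo, Finset.mul_sum]
    exact Finset.sum_le_sum fun i hi => by
      rw [← mul_pow]
      exact pow_le_pow_left₀ (norm_nonneg _) (h i hi) 2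
  exact le_of_pow_le_pow_left₀ two_ne_zero (by positivity) h3

section TowerLemmas

variable {G Z : ℕ → Finset (H →L[ℂ] H)}

lemma Tower.mono_le (hT : Tower M G Z) {i j : ℕ} (h : i ≤ j) {g : (H →L[ℂ] H)} (hg : g ∈ G i) : g ∈ G j := by
  induction j, h using Nat.le_induction with
  | base => exact hg
  | succ j _ ih => exact hT.mono j g ih

lemma Tower.refine_le (hT : Tower M G Z) {i j : ℕ} (h : i ≤ j) {z : (H →L[ℂ] H)} (hz : z ∈ Z i) :
    ∀ w ∈ Z j, z * w = w ∨ z * w = 0 := by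
  induction j, h using Nat.le_induction with
  | base =>
    intro w hw
    by_cases hzw : z = w
    · subst hzw
      exact Or.inl (hT.proj i z hz).2.1.isIdempotentElem
    · exact Or.inr (hT.orth i z hz w hw hzw)
  | succ j hij ih =>
    intro w hw
    have hsum : ∑ w' ∈ Z j, w' * w = w := by rw [← Finset.sum_mul, hT.total j, one_mul]
    obtain ⟨w', hw', hne⟩ := Finset.exists_ne_zero_of_sum_ne_zero
      (by rw [hsum]; exact (hT.proj (j + 1) w hw).1)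
    have hww : w' * w = w := (hT.refine' j w' hw' w hw).resolve_right hne
    rcases ih w' hw' with h1 | h1
    · exact Or.inl (by rw [← hww, ← mul_assoc, h1])
    · exact Or.inr (by rw [← hww, ← mul_assoc, h1, zero_mul])

lemma Tower.exists_split (hT : Tower M G Z) {i j : ℕ} (h : i ≤ j) {z : (H →L[ℂ] H)} (hz : z ∈ Z i) :
    ∃ s ⊆ Z j, ∑ w ∈ s, w = z := by
  classical
  refine ⟨(Z j).filter fun w => z * w = w, Finset.filter_subset _ _, ?_⟩
  rw [Finset.sum_filter]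
  calc ∑ w ∈ Z j, (if z * w = w then w else 0) = ∑ w ∈ Z j, z * w :=
        Finset.sum_congr rfl fun w hw => by
          split_ifs with hc
          · exact hc.symm
          · exact ((hT.refine_le h hz w hw).resolve_left hc).symm
    _ = z := by rw [← Finset.mul_sum, hT.total j, mul_one]

end TowerLemmas

namespace Close

variable (hC : Close M Ω R N P d ε)
include hC

lemma comm_piece_mem {z n : (H →L[ℂ] H)} (hz : z ∈ P) (hn : n ∈ N) (v : H) : n (z v) = z (n v) :=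
  apply_comm (mem_cent_iff.1 (hC.pieces.mem z hz).2.1 n hn) v

lemma comm_piece_left {z x : (H →L[ℂ] H)} (hz : z ∈ P) (hx : x ∈ M) (v : H) : x (z v) = z (x v) :=
  (apply_comm ((hC.pieces.proj z hz).2.2 x hx) v).symm

lemma comm_piece_right {z b : (H →L[ℂ] H)} (hz : z ∈ P) (hb : b ∈ M) (v : H) : R b (z v) = z (R b v) :=
  (hC.std.comm_right (hC.pieces.proj z hz).1 hb v).symm

lemma delVec_piece {z n b : (H →L[ℂ] H)} (hz : z ∈ P) (hn : n ∈ N) (hb : b ∈ M) :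
    delVec R Ω z n b = z (delVec R Ω 1 n b) := by
  simp only [delVec, one_apply_eq_self, map_sub, hC.comm_piece_right hz hb,
    hC.comm_piece_mem hz hn]

end Close

/-- The vector which replaces `delVec` once the right multiplication is frozen. -/
def frozen (Ω : H) (z x y : (H →L[ℂ] H)) : H := y (x (z Ω)) - x (y (z Ω))

/-- The two selections. -/
def SelectAt (M : VonNeumannAlgebra H) (Ω : H) (N : Subalgebra ℂ (H →L[ℂ] H)) (P : Set (H →L[ℂ] H)) (k d ε : ℝ) :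
    Prop :=
  (∀ x ∈ M, ∃ n ∈ N, ‖n - x‖ ≤ k * d * ‖x‖ ∧
    ∀ z ∈ P, ‖(n - x) (z Ω)‖ ≤ k * ε * ‖x‖ * ‖z Ω‖) ∧
  (∀ y ∈ M.commutant, ∃ y' ∈ cent N, ‖y' - y‖ ≤ k * d * ‖y‖ ∧
    ∀ z ∈ P, ‖(y' - y) (z Ω)‖ ≤ k * ε * ‖y‖ * ‖z Ω‖)

lemma Close.norm_delVec_sub_frozen (hC : Close M Ω R N P d ε) {k c : ℝ} (hk : 0 ≤ k)
    (hsel : SelectAt M Ω N P k d ε) {n x b y : (H →L[ℂ] H)} (hn : n ∈ N) (hx : x ∈ M) (hb : b ∈ M)
    (hy : y ∈ cent N) (hyb : ‖y - R b‖ ≤ k * d * 3)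
    (hyv : ∀ z ∈ P, ‖(y - R b) (z Ω)‖ ≤ k * ε * 3 * ‖z Ω‖) (hb3 : ‖b‖ ≤ 3) (hx3 : ‖x‖ ≤ 3)
    (hnx : ‖n - x‖ ≤ c * d) {z : (H →L[ℂ] H)} (hz : z ∈ P) :
    ‖delVec R Ω z n b - frozen Ω z x y‖ ≤ (3 * c + 9 * k + 18 * k ^ 2) * d * ε * ‖z Ω‖ := by
  obtain ⟨n₀, hn₀, hd₀, hv₀⟩ := hsel.1 x hx
  have hd := hC.d_nonneg
  have he := hC.ε_nonneg
  have hd₀' : ‖n₀ - x‖ ≤ k * d * 3 :=
    hd₀.trans (mul_le_mul_of_nonneg_left hx3 (by positivity))
  have hv₀' : ‖(n₀ - x) (z Ω)‖ ≤ k * ε * 3 * ‖z Ω‖ := (hv₀ z hz).trans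
    (mul_le_mul_of_nonneg_right (mul_le_mul_of_nonneg_left hx3 (by positivity)) (norm_nonneg _))
  have hdiff : ‖n - n₀‖ ≤ c * d + k * d * 3 := by
    rw [show n - n₀ = (n - x) - (n₀ - x) by abel]
    exact (norm_sub_le _ _).trans (add_le_add hnx hd₀')
  have hs : ‖delVec R Ω z (n - n₀) b‖ ≤ ε * (c * d + k * d * 3) * 3 * ‖z Ω‖ := by
    refine (hC.small _ (sub_mem hn hn₀) b hb z hz).trans ?_
    refine mul_le_mul_of_nonneg_right ?_ (norm_nonneg _)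
    exact mul_le_mul (mul_le_mul_of_nonneg_left hdiff he) hb3 (norm_nonneg _)
      (mul_nonneg he ((norm_nonneg _).trans hdiff))
  have hid : delVec R Ω z n b - frozen Ω z x y = delVec R Ω z (n - n₀) b -
      (n₀ - x) ((y - R b) (z Ω)) + (y - R b) ((n₀ - x) (z Ω)) := by
    simp only [delVec, frozen, sub_apply, map_sub,
      hC.std.comm_right hx hb, apply_comm (mem_cent_iff.1 hy n₀ hn₀) (z Ω)]
    abel
  rw [hid]
  have t1 : ‖(n₀ - x) ((y - R b) (z Ω))‖ ≤ (k * d * 3) * (k * ε * 3 * ‖z Ω‖) :=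
    ((n₀ - x).le_opNorm _).trans (mul_le_mul hd₀' (hyv z hz) (norm_nonneg _) (by positivity))
  have t2 : ‖(y - R b) ((n₀ - x) (z Ω))‖ ≤ (k * d * 3) * (k * ε * 3 * ‖z Ω‖) :=
    ((y - R b).le_opNorm _).trans (mul_le_mul hyb hv₀' (norm_nonneg _) (by positivity))
  refine (norm_add_le _ _).trans ((add_le_add (norm_sub_le _ _) le_rfl).trans ?_)
  nlinarith [hs, t1, t2]

/-- Conjugation keeps the pieces, the double centraliser and the nearness. -/
lemma Close.conj_near [Nontrivial H] (hC : Close M Ω R N P d ε) {A : (H →L[ℂ] H)} {α : ℝ} (hA : ‖A‖ ≤ α)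
    (hα : α ≤ 1 / 12) (hd : d ≤ 1) (hAP : ∀ z ∈ P, A * z = z * A) :
    let N₁ := N.map (conjHom (R := ℂ) (expUnit A))
    Pieces M R N₁ P ∧ cent (cent N₁) = N₁ ∧
      (∀ x ∈ M, ∃ n ∈ N₁, ‖n - x‖ ≤ (d + 12 * α) * ‖x‖) ∧
      (∀ n ∈ N₁, ∃ x ∈ M, ‖n - x‖ ≤ (d + 12 * α) * ‖n‖) ∧
      (∀ y ∈ M.commutant, ∃ y' ∈ cent N₁, ‖y' - y‖ ≤ (d + 12 * α) * ‖y‖) ∧
      (∀ y' ∈ cent N₁, ∃ y ∈ M.commutant, ‖y' - y‖ ≤ (d + 12 * α) * ‖y'‖) := by
  intro N₁
  have hα0 : 0 ≤ α := (norm_nonneg A).trans hA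
  have hd0 := hC.d_nonneg
  have hcent : cent N₁ = (cent N).map (conjHom (R := ℂ) (expUnit A)) := centralizer_map_conj _ _
  have hfix : ∀ z ∈ P, (↑(expUnit A)⁻¹ : (H →L[ℂ] H)) * z * expUnit A = z := by
    intro z hz
    have : Commute (NormedSpace.exp A) z := Commute.exp_left (hAP z hz)
    rw [mul_assoc, coe_expUnit, ← this.eq, ← mul_assoc, ← coe_expUnit, Units.inv_mul, one_mul]
  have fwd : ∀ (S : Subalgebra ℂ (H →L[ℂ] H)) (x n : (H →L[ℂ] H)), n ∈ S → ‖n - x‖ ≤ d * ‖x‖ →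
      ∃ n₁ ∈ S.map (conjHom (R := ℂ) (expUnit A)), ‖n₁ - x‖ ≤ (d + 12 * α) * ‖x‖ := by
    intro S x n hn hnx
    refine ⟨_, ⟨n, hn, rfl⟩, ?_⟩
    show ‖NormedSpace.exp A * n * NormedSpace.exp (-A) - x‖ ≤ _
    have h1 := norm_exp_conj_sub (A := A) (by linarith) n
    have h2 : ‖n‖ ≤ 2 * ‖x‖ := by
      have := norm_le_norm_add_norm_sub' n x
      nlinarith [norm_nonneg x]
    have h3 : ‖A‖ * ‖n‖ ≤ α * (2 * ‖x‖) := mul_le_mul hA h2 (norm_nonneg _) hα0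
    refine (norm_sub_le_norm_sub_add_norm_sub _ n _).trans ?_
    nlinarith
  have bwd : ∀ (S : Subalgebra ℂ (H →L[ℂ] H)) (V : Set (H →L[ℂ] H)), (∀ n ∈ S, ∃ x ∈ V, ‖n - x‖ ≤ d * ‖n‖) →
      ∀ n₁ ∈ S.map (conjHom (R := ℂ) (expUnit A)), ∃ x ∈ V, ‖n₁ - x‖ ≤ (d + 12 * α) * ‖n₁‖ := by
    intro S V hV n₁ hn₁
    obtain ⟨x, hx, hnx⟩ := hV _ ((mem_map_conj _ _ _).1 hn₁)
    refine ⟨x, hx, ?_⟩
    set n := (↑(expUnit A)⁻¹ : (H →L[ℂ] H)) * n₁ * expUnit A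
    have h1 : ‖n - n₁‖ ≤ 6 * α * ‖n₁‖ := by
      have := norm_exp_conj_sub (A := -A) (by rw [norm_neg]; linarith) n₁
      rw [neg_neg, norm_neg] at this
      exact this.trans (by gcongr)
    have h2 : ‖n‖ ≤ (1 + 6 * α) * ‖n₁‖ := by
      have := norm_le_norm_add_norm_sub' n n₁
      linarith
    have h3 : d * ‖n‖ ≤ d * ((1 + 6 * α) * ‖n₁‖) := mul_le_mul_of_nonneg_left h2 hd0
    refine (norm_sub_le_norm_sub_add_norm_sub _ n _).trans ?_
    rw [norm_sub_rev n₁ n]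
    nlinarith [mul_le_mul_of_nonneg_right hd (mul_nonneg hα0 (norm_nonneg n₁))]
  refine ⟨⟨hC.pieces.one, hC.pieces.proj, fun z hz => ⟨?_, ?_, (hC.pieces.mem z hz).2.2⟩⟩,
    ?_, ?_, ?_, ?_, ?_⟩
  · rw [mem_map_conj, hfix z hz]; exact (hC.pieces.mem z hz).1
  · rw [hcent, mem_map_conj, hfix z hz]; exact (hC.pieces.mem z hz).2.1
  · rw [hcent]
    exact (centralizer_map_conj _ _).trans (congrArg _ hC.bicent)
  · intro x hx
    obtain ⟨n, hn, hnx⟩ := hC.near x hx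
    exact fwd N x n hn hnx
  · exact bwd N (M : Set (H →L[ℂ] H)) hC.near'
  · intro y hy
    obtain ⟨y', hy', hyy⟩ := hC.cnear y hy
    rw [hcent]
    exact fwd (cent N) y y' hy' hyy
  · rw [hcent]
    exact bwd (cent N) (M.commutant : Set (H →L[ℂ] H)) hC.cnear'

/-- The residual of an operator as a gauge. -/
def opGauge (R : (H →L[ℂ] H) → (H →L[ℂ] H)) (Ω : H) (A x b : (H →L[ℂ] H)) : H :=
  x (A (b Ω)) - A (x (b Ω)) + R b (A (x Ω))

/-- Conjugation by a gauge makes `ε` small. -/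
lemma Close.conj_small [Nontrivial H] (hC : Close M Ω R N P d ε) (hR : ∀ b ∈ M, ‖R b‖ ≤ ‖b‖)
    {A : (H →L[ℂ] H)} {α β : ℝ} (hA : ‖A‖ ≤ α) (hα : α ≤ 1 / 12) (hd : d ≤ 1 / 3) (hAΩ : A Ω = 0)
    (hAP : ∀ z ∈ P, A * z = z * A)
    (hres : ∀ n ∈ N, ∀ x ∈ M, ∀ b ∈ M, ∀ z ∈ P, ‖n - x‖ ≤ d → ‖x‖ ≤ 1 → ‖b‖ ≤ 1 →
      ‖delVec R Ω z n b - z (opGauge R Ω A x b)‖ ≤ β * ‖z Ω‖) :
    ∀ n ∈ N.map (conjHom (R := ℂ) (expUnit A)), ∀ b ∈ M, ∀ z ∈ P,
      ‖n (R b (z Ω)) - R b (n (z Ω))‖ ≤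
        2 * (β + 18 * α ^ 2 + 4 * α * d) * ‖n‖ * ‖b‖ * ‖z Ω‖ := by
  have hα0 : 0 ≤ α := (norm_nonneg A).trans hA
  have hd0 := hC.d_nonneg
  have unit : ∀ n₁ ∈ N.map (conjHom (R := ℂ) (expUnit A)), ∀ b ∈ M, ∀ z ∈ P, ‖n₁‖ ≤ 1 / 2 →
      ‖b‖ ≤ 1 → ‖delVec R Ω z n₁ b‖ ≤ (β + 18 * α ^ 2 + 4 * α * d) * ‖z Ω‖ := by
    intro n₁ hn₁ b hb z hz h1 hb1
    set n := (↑(expUnit A)⁻¹ : (H →L[ℂ] H)) * n₁ * expUnit A with hndef
    have hn : n ∈ N := (mem_map_conj _ _ _).1 hn₁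
    have hback : NormedSpace.exp A * n * NormedSpace.exp (-A) = n₁ := by
      rw [← coe_expUnit, ← coe_inv_expUnit, hndef]
      simp only [mul_assoc, Units.mul_inv, Units.mul_inv_cancel_left, mul_one]
    have hn2 : ‖n‖ ≤ 3 / 4 := by
      have := norm_exp_conj_sub (A := -A) (by rw [norm_neg]; linarith) n₁
      rw [neg_neg, norm_neg] at this
      have h2 : ‖n - n₁‖ ≤ 6 * α * ‖n₁‖ := this.trans (by gcongr)
      have h3 := norm_le_norm_add_norm_sub' n n₁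
      nlinarith [mul_le_mul hα h1 (norm_nonneg _) (by norm_num)]
    obtain ⟨x, hx, hnx⟩ := hC.near' n hn
    have hnx' : ‖n - x‖ ≤ d := hnx.trans (by nlinarith)
    have hx1 : ‖x‖ ≤ 1 := by
      have := norm_le_norm_add_norm_sub' x n
      rw [norm_sub_rev] at this
      nlinarith
    have hres' := hres n hn x hx b hb z hz hnx' hx1 hb1
    set E := n₁ - (n + (A * n - n * A)) with hE
    have hEn : ‖E‖ ≤ 9 * α ^ 2 := by
      rw [hE, ← hback]
      refine (norm_exp_conj_sub_two (by linarith) n).trans ?_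
      nlinarith [pow_le_pow_left₀ (norm_nonneg A) hA 2, norm_nonneg n, sq_nonneg ‖A‖]
    set F := A * (n - x) - (n - x) * A with hF
    have hFn : ‖F‖ ≤ 2 * (α * d) := by
      refine (norm_sub_le _ _).trans ?_
      have a1 := (norm_mul_le A (n - x)).trans (mul_le_mul hA hnx' (norm_nonneg _) hα0)
      have a2 := (norm_mul_le (n - x) A).trans (mul_le_mul hnx' hA (norm_nonneg _) hd0)
      linarith [mul_comm α d]
    have hgauge : (A * x - x * A) (R b (z Ω)) - R b ((A * x - x * A) (z Ω)) =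
        -z (opGauge R Ω A x b) := by
      have hAz : ∀ v, A (z v) = z (A v) := fun v => apply_comm (hAP z hz) v
      simp only [sub_apply, mul_apply_eq_comp, map_sub, opGauge,
        map_add, hC.comm_piece_right hz hb, hC.comm_piece_left hz hx, hAz, hC.std.right_apply b hb,
        hAΩ, map_zero]
      abel
    have hsplit : n₁ = n + (A * x - x * A) + (E + F) := by
      rw [hE, hF]; noncomm_ring
    have hid : delVec R Ω z n₁ b = (delVec R Ω z n b - z (opGauge R Ω A x b)) +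
        ((E + F) (R b (z Ω)) - R b ((E + F) (z Ω))) := by
      rw [sub_eq_add_neg (delVec R Ω z n b), ← hgauge, hsplit]
      simp only [delVec, add_apply, map_add]
      abel
    rw [hid]
    have hEF : ‖(E + F) (R b (z Ω)) - R b ((E + F) (z Ω))‖ ≤
        2 * (9 * α ^ 2 + 2 * (α * d)) * ‖z Ω‖ := by
      have hef : ‖E + F‖ ≤ 9 * α ^ 2 + 2 * (α * d) := (norm_add_le _ _).trans (add_le_add hEn hFn)
      have hRb : ‖R b‖ ≤ 1 := (hR b hb).trans hb1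
      have p1 : ‖(E + F) (R b (z Ω))‖ ≤ (9 * α ^ 2 + 2 * (α * d)) * ‖z Ω‖ :=
        ((E + F).le_opNorm _).trans (mul_le_mul hef (((R b).le_opNorm _).trans
          (mul_le_of_le_one_left (norm_nonneg _) hRb)) (norm_nonneg _) (by positivity))
      have p2 : ‖R b ((E + F) (z Ω))‖ ≤ (9 * α ^ 2 + 2 * (α * d)) * ‖z Ω‖ :=
        (((R b).le_opNorm _).trans (mul_le_of_le_one_left (norm_nonneg _) hRb)).trans
          (((E + F).le_opNorm _).trans (mul_le_mul_of_nonneg_right hef (norm_nonneg _)))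
      refine (norm_sub_le _ _).trans ?_
      linarith
    refine (norm_add_le _ _).trans ?_
    linarith
  intro n hn b hb z hz
  rcases eq_or_ne n 0 with rfl | hn0
  · simp
  rcases eq_or_ne b 0 with rfl | hb0
  · have hR0 : R 0 = 0 := by simpa using hC.std.right_smul (0 : ℂ) (zero_mem M)
    simp [hR0]
  have hnp : 0 < ‖n‖ := norm_pos_iff.2 hn0
  have hbp : 0 < ‖b‖ := norm_pos_iff.2 hb0
  set s : ℝ := 1 / (2 * ‖n‖) with hs
  set t : ℝ := 1 / ‖b‖ with ht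
  have hs0 : 0 < s := by positivity
  have ht0 : 0 < t := by positivity
  have hns : ‖(s : ℂ) • n‖ ≤ 1 / 2 := by
    rw [norm_smul, Complex.norm_real, Real.norm_of_nonneg hs0.le, hs]
    apply le_of_eq
    field_simp
  have hbt : ‖(t : ℂ) • b‖ ≤ 1 := by
    rw [norm_smul, Complex.norm_real, Real.norm_of_nonneg ht0.le, ht]
    apply le_of_eq
    field_simp
  have h := unit _ (Subalgebra.smul_mem _ hn (s : ℂ)) _ (M.toStarSubalgebra.toSubalgebra.smul_mem hb (t : ℂ)) z hz hns hbt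
  rw [delVec, hC.std.right_smul (t : ℂ) hb] at h
  simp only [smul_apply, map_smul] at h
  rw [smul_comm (t : ℂ) (s : ℂ), ← smul_sub, ← smul_sub, norm_smul, norm_smul, Complex.norm_real,
    Complex.norm_real, Real.norm_of_nonneg hs0.le, Real.norm_of_nonneg ht0.le] at h
  have hst : 2 * ‖n‖ * ‖b‖ * (s * t) = 1 := by
    rw [hs, ht]; field_simp
  have h' := mul_le_mul_of_nonneg_left h (by positivity : 0 ≤ 2 * ‖n‖ * ‖b‖)
  calc ‖n (R b (z Ω)) - R b (n (z Ω))‖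
      = 2 * ‖n‖ * ‖b‖ * (s * (t * ‖n (R b (z Ω)) - R b (n (z Ω))‖)) := by
        rw [← mul_assoc s, ← mul_assoc, hst, one_mul]
    _ ≤ 2 * ‖n‖ * ‖b‖ * ((β + 18 * α ^ 2 + 4 * α * d) * ‖z Ω‖) := h'
    _ = _ := by ring

end Vale.Agent.P096.KK
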